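import Vale.Agent.P319B.Struct

/-! Minkowski inequality and the passage between the sums Tsq and Tth in mean square. -/

namespace Vale.Agent.P319B

open Complex NumberField
open scoped Classical ComplexConjugate
open Vale.Agent.P026 (w kk fk)

noncomputable section

variable {F : Type} [Field F] [NumberField F] [Ctx F]

/-- Minkowski inequality for an infinite sum of finite vectors. -/
theorem bo_mink {ι κ : Type*} (H : Finset κ) (g : ι → κ → ℂ) (G : κ → ℂ)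
    (hF : ∀ h ∈ H, HasSum (fun d => g d h) (G h)) (b : ι → ℝ) (hb : Summable b)
    (hb0 : ∀ d, 0 ≤ b d) (hg : ∀ d, ∑ h ∈ H, ‖g d h‖ ^ 2 ≤ b d ^ 2) :
    ∑ h ∈ H, ‖G h‖ ^ 2 ≤ (∑' d, b d) ^ 2 := by
  let e := (EuclideanSpace.equiv H ℂ).symm
  have h1 : HasSum (fun d => (fun h : H => g d h)) (fun h : H => G h) :=
    Pi.hasSum.mpr fun h => hF h h.2
  have h2 := (e.hasSum').mpr h1
  have h3 : ∀ v : κ → ℂ, ‖e (fun h : H => v h)‖ ^ 2 = ∑ h ∈ H, ‖v h‖ ^ 2 := fun v => by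
    rw [EuclideanSpace.norm_sq_eq, ← Finset.sum_coe_sort H]
    rfl
  have h4 := h2.norm_le_of_bounded hb.hasSum fun d =>
    (pow_le_pow_iff_left₀ (norm_nonneg _) (hb0 d) two_ne_zero).mp ((h3 _).le.trans (hg d))
  rw [← h3]
  exact pow_le_pow_left₀ (norm_nonneg _) h4 2

theorem bo_cop_mul (D x y : R F) : cop D (x * y) = cop D x * cop D y := by
  unfold cop
  by_cases hx : IsCoprime x D <;> by_cases hy : IsCoprime y D <;>
    simp [hx, hy, IsCoprime.mul_left_iff]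

theorem Bd1.bo_mul {H G : R F → ℂ} (hF : Bd1 H) (hG : Bd1 G) : Bd1 (fun c => H c * G c) :=
  fun c => by
  rw [norm_mul]
  exact mul_le_one₀ (hF c) (norm_nonneg _) (hG c)

theorem bo_bd (Xi : R F → ℂ) (hB : Bd1 Xi) (D h : R F) :
    Bd1 (fun c => Xi c * cop D c * chi 1 h c) :=
  (hB.bo_mul (norm_cop_le D)).bo_mul (norm_chi_le 1 h)

/-- The mean square of the full theta sums. -/
def boT (Xi : R F → ℂ) (D0 : R F) (Y K t : ℝ) : ℝ :=
  ∑ h ∈ ball F K, ‖Tth true (fun c => Xi c * cop D0 c * chi 1 h c) Y t‖ ^ 2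

theorem bo_split (Xi : R F → ℂ) (D h : R F) {d e : R F} (hd : d ≠ 0) (he : e ≠ 0) :
    Xi (e * d ^ 3) * cop D (e * d ^ 3) * chi 1 h (e * d ^ 3) =
      (cop D (d ^ 3) * chi 1 h (d ^ 3)) * (Xi (e * d ^ 3) * cop D e * chi 1 h e) := by
  rw [bo_cop_mul, chi_mul_right 1 h he (pow_ne_zero 3 hd)]
  ring

theorem bo_fac_le (D h d : R F) : ‖cop D (d ^ 3) * chi 1 h (d ^ 3)‖ ≤ 1 := by
  rw [norm_mul]
  exact mul_le_one₀ (norm_cop_le _ _) (norm_nonneg _) (norm_chi_le _ _ _)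

theorem bo_sq_le {x y z u : ℂ} {d : R F} (hx : ‖x‖ ≤ ab d) (hy : ‖y‖ = 1) (hz : ‖z‖ ≤ 1) :
    ‖x * y * (z * u)‖ ^ 2 ≤ N d * ‖u‖ ^ 2 := by
  rw [← ab_sq, ← mul_pow, norm_mul, norm_mul, norm_mul, hy, mul_one]
  refine pow_le_pow_left₀ (by positivity) ?_ 2
  exact mul_le_mul hx (mul_le_of_le_one_left (norm_nonneg _) hz) (by positivity) (ab_nonneg d)

theorem bo_BB_le {Xi : R F → ℂ} (hB : Bd1 Xi) (D : R F) {Y : ℝ} (hY : 0 < Y) (K t : ℝ)
    (b : R F → ℝ) (hb : Summable b) (hb0 : ∀ d, 0 ≤ b d)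
    (h : ∀ d, P0 d → N d * boT (fun c => Xi (c * d ^ 3)) D (Y / N d ^ 3) K t ≤ b d ^ 2) :
    BB Xi D Y K t ≤ (∑' d, b d) ^ 2 := by
  refine bo_mink (ball F K) _ _ (fun h _ => Tsq_hasSum true (bo_bd Xi hB D h) hY t) b hb hb0
    fun d => ?_
  by_cases hd : P0 d
  · refine le_trans ?_ (h d hd)
    rw [boT, Finset.mul_sum]
    refine Finset.sum_le_sum fun k _ => ?_
    rw [Tth_congr true (fun e he => bo_split Xi D k hd.ne_zero he.ne_zero), Tth_const_mul]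
    refine bo_sq_le ?_ (norm_nit _ _) (bo_fac_le _ _ _)
    rw [norm_mul]
    exact (mul_le_of_le_one_left (norm_nonneg _) (norm_mu0_le d)).trans (norm_bet_le _ _)
  · have : mu0 d = 0 := by
      by_contra hc
      exact hd (mu0_ne_zero.mp hc)
    simp only [this, zero_mul, norm_zero, ne_eq, OfNat.ofNat_ne_zero, not_false_eq_true, zero_pow,
      Finset.sum_const_zero]
    positivity

theorem bo_T_le {Xi : R F → ℂ} (hB : Bd1 Xi) (D : R F) {Y : ℝ} (hY : 0 < Y) (K t : ℝ)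
    (b : R F → ℝ) (hb : Summable b) (hb0 : ∀ d, 0 ≤ b d)
    (h : ∀ d, P1 d → N d * BB (fun c => Xi (c * d ^ 3)) D (Y / N d ^ 3) K t ≤ b d ^ 2) :
    boT Xi D Y K t ≤ (∑' d, b d) ^ 2 := by
  refine bo_mink (ball F K) _ _ (fun h _ => Tth_hasSum true (bo_bd Xi hB D h) hY t) b hb hb0
    fun d => ?_
  by_cases hd : P1 d
  · refine le_trans ?_ (h d hd)
    rw [BB, Finset.mul_sum]
    refine Finset.sum_le_sum fun k _ => ?_
    rw [Tsq_congr true (fun e he => bo_split Xi D k hd.ne_zero he.ne_zero), Tsq_const_mul]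
    exact bo_sq_le (norm_bet_le _ _) (norm_nit _ _) (bo_fac_le _ _ _)
  · have : bet true d = 0 := if_neg hd
    simp only [this, zero_mul, norm_zero, ne_eq, OfNat.ofNat_ne_zero, not_false_eq_true, zero_pow,
      Finset.sum_const_zero]
    positivity

theorem bo_pow_sq {n : ℝ} (hn : 0 < n) : (n ^ (-(41 / 32 : ℝ))) ^ 2 = n ^ (-(41 / 16 : ℝ)) := by
  rw [← Real.rpow_natCast, ← Real.rpow_mul hn.le]
  norm_num

theorem bo_div_rpow {n Y : ℝ} (hn : 0 < n) (hY : 0 < Y) (k : ℕ) (a : ℝ) :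
    (Y / n ^ k) ^ a = Y ^ a * n ^ (-(k * a)) := by
  rw [Real.div_rpow hY.le (by positivity), ← Real.rpow_natCast, ← Real.rpow_mul hn.le,
    Real.rpow_neg hn.le, div_eq_mul_inv]

theorem bo_scale {n Y K g : ℝ} (hn : 1 ≤ n) (hY : 0 < Y) (hK : 0 ≤ K) (hg : 0 ≤ g) :
    n * ((Y / n ^ 3 + K * (Y / n ^ 3) ^ (3 / 16 : ℝ)) * (Y / n ^ 3) ^ (1 + g)) ≤
      (Y + K * Y ^ (3 / 16 : ℝ)) * Y ^ (1 + g) * (n ^ (-(41 / 32 : ℝ))) ^ 2 := by
  have hn0 : 0 < n := by linarith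
  have h1 : Y / n ^ 3 + K * (Y / n ^ 3) ^ (3 / 16 : ℝ) ≤
      (Y + K * Y ^ (3 / 16 : ℝ)) * n ^ (-(9 / 16 : ℝ)) := by
    rw [bo_div_rpow hn0 hY, add_mul, mul_assoc]
    refine add_le_add ?_ (le_of_eq (by norm_num))
    rw [div_eq_mul_inv, ← Real.rpow_natCast, ← Real.rpow_neg hn0.le]
    exact mul_le_mul_of_nonneg_left (Real.rpow_le_rpow_of_exponent_le hn (by norm_num)) hY.le
  have h2 : (Y / n ^ 3) ^ (1 + g) ≤ Y ^ (1 + g) * n ^ (-(3 : ℝ)) := by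
    rw [bo_div_rpow hn0 hY]
    exact mul_le_mul_of_nonneg_left (Real.rpow_le_rpow_of_exponent_le hn (by push_cast; linarith))
      (by positivity)
  have h3 : n * (n ^ (-(9 / 16 : ℝ)) * n ^ (-(3 : ℝ))) = (n ^ (-(41 / 32 : ℝ))) ^ 2 := by
    rw [bo_pow_sq hn0, ← Real.rpow_add hn0, ← Real.rpow_one_add' hn0.le (by norm_num)]
    norm_num
  rw [← h3]
  calc _ ≤ n * (((Y + K * Y ^ (3 / 16 : ℝ)) * n ^ (-(9 / 16 : ℝ))) *
        (Y ^ (1 + g) * n ^ (-(3 : ℝ)))) := by gcongr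
    _ = _ := by ring

theorem bo_scale' {n Y e : ℝ} (hn : 1 ≤ n) (hY : 0 < Y) (he : 0 ≤ e) :
    n * (Y / n ^ 3) ^ (2 + e) ≤ Y ^ (2 + e) * (n ^ (-(41 / 32 : ℝ))) ^ 2 := by
  have hn0 : 0 < n := by linarith
  rw [bo_div_rpow hn0 hY, bo_pow_sq hn0, mul_left_comm]
  refine mul_le_mul_of_nonneg_left ?_ (by positivity)
  nth_rewrite 1 [← Real.rpow_one n]
  rw [← Real.rpow_add hn0]
  exact Real.rpow_le_rpow_of_exponent_le hn (by push_cast; linarith)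

/-- The weights of the zeta function. -/
def boZ (s : ℝ) (d : R F) : ℝ := if P1 d then N d ^ (-s) else 0
/-- Their tails. -/
def boY (U s : ℝ) (d : R F) : ℝ := if P1 d ∧ U < N d then N d ^ (-s) else 0

theorem boZ_nonneg (s : ℝ) (d : R F) : 0 ≤ boZ s d := by
  unfold boZ
  split_ifs
  exacts [Real.rpow_nonneg (N_nonneg d) _, le_rfl]

theorem boY_nonneg (U s : ℝ) (d : R F) : 0 ≤ boY U s d := by
  unfold boY
  split_ifs
  exacts [Real.rpow_nonneg (N_nonneg d) _, le_rfl]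

theorem boZ_summable {s : ℝ} (hs : 1 < s) : Summable (boZ (F := F) s) := summable_N_rpow hs

theorem boY_summable (U : ℝ) {s : ℝ} (hs : 1 < s) : Summable (boY (F := F) U s) :=
  (boZ_summable hs).of_nonneg_of_le (boY_nonneg U s) fun d => by
    by_cases h : P1 d ∧ U < N d
    · rw [boY, boZ, if_pos h, if_pos h.1]
    · rw [boY, if_neg h]
      exact boZ_nonneg s d

theorem boZ_eq (s : ℝ) {d : R F} (h : P1 d) : boZ s d = N d ^ (-s) := if_pos h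

theorem boY_eq (U s : ℝ) {d : R F} (h : P1 d) :
    boY U s d = if U < N d then N d ^ (-s) else 0 := by
  simp only [boY, h, true_and]

variable (F) in
/-- The constant sum of N d ^ (-41/32). -/
def boS : ℝ := ∑' d : R F, boZ (41 / 32) d

theorem bo_summable : Summable (boZ (F := F) (41 / 32)) := boZ_summable (by norm_num)

variable (F) in
/-- The shape of the bound given by the reverse Poisson step. -/
def boR (C : ℝ) (A : ℕ) (g e : ℝ) : Prop :=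
  ∀ Xi : R F → ℂ, Per 1 Xi → Bd1 Xi → ∀ D0 : R F, P0 D0 → ∀ Y K t : ℝ, 0 < Y → 0 < K →
    BB Xi D0 Y K t ≤ C * (1 + |t|) ^ A * N D0 ^ e * (Y + K * Y ^ (3 / 16 : ℝ)) * Y ^ (1 + g)

theorem bo_T_of_R {C : ℝ} {A : ℕ} {g e : ℝ} (hC : 0 ≤ C) (hg : 0 ≤ g)
    (hR : boR F C A g e) {Xi : R F → ℂ} (hP : Per 1 Xi) (hB : Bd1 Xi) {D : R F} (hD : P0 D)
    {Y K : ℝ} (t : ℝ) (hY : 0 < Y) (hK : 0 < K) :
    boT Xi D Y K t ≤
      boS F ^ 2 * (C * (1 + |t|) ^ A * N D ^ e * (Y + K * Y ^ (3 / 16 : ℝ)) * Y ^ (1 + g)) := by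
  obtain ⟨X, hX⟩ : ∃ X, X = C * (1 + |t|) ^ A * N D ^ e := ⟨_, rfl⟩
  have hX0 : 0 ≤ X := by
    have := Real.rpow_nonneg (N_nonneg D) e
    rw [hX]
    positivity
  obtain ⟨Z, hZ⟩ : ∃ Z, Z = X * (Y + K * Y ^ (3 / 16 : ℝ)) * Y ^ (1 + g) := ⟨_, rfl⟩
  have hZ0 : 0 ≤ Z := by rw [hZ]; positivity
  rw [← hX, ← hZ]
  have h1 := bo_T_le hB D hY K t (fun d => √Z * boZ (41 / 32) d) (bo_summable.mul_left _)
    (fun d => mul_nonneg (Real.sqrt_nonneg _) (boZ_nonneg _ d)) fun d hd => by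
      have hn := one_le_N hd.ne_zero
      have h2 := hR _ (hP.comp_mul' (pow_ne_zero 3 hd.ne_zero)) (fun c => hB _) D hD
        (Y / N d ^ 3) K t (by positivity) hK
      rw [← hX] at h2
      have h3 := mul_le_mul_of_nonneg_left (bo_scale hn hY hK.le hg) hX0
      rw [boZ_eq _ hd, mul_pow, Real.sq_sqrt hZ0, hZ]
      refine (mul_le_mul_of_nonneg_left h2 (by positivity)).trans
        (le_trans (le_of_eq ?_) (h3.trans (le_of_eq ?_))) <;> ring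
  rwa [tsum_mul_left, mul_pow, Real.sq_sqrt hZ0, mul_comm] at h1

variable (F) in
/-- The shape of the bound given by the Voronoi step. -/
def boV (C : ℝ) (A C0 : ℕ) (e : ℝ) : Prop :=
  ∀ (Xi : R F → ℂ), Per 1 Xi → Bd1 Xi → ∀ D0 : R F, P0 D0 → ∀ Y P K t : ℝ, 1 ≤ Y → 1 ≤ P →
    N D0 ≤ P → K ≤ P * Y ^ (13 / 16 : ℝ) →
    boT Xi D0 Y K t ≤ C * (1 + |t|) ^ A * P ^ C0 * Y ^ (2 + e)

/-- The bound for a small coprimality modulus. -/
theorem bo_small {C C' Ct : ℝ} {A A' C0 : ℕ} {g e : ℝ} (hC : 0 ≤ C) (hC' : 0 ≤ C')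
    (hg : 0 ≤ g) (he : 0 ≤ e) (hR : boR F C A g e) (hV : boV F C' A' C0 e)
    (hCt : ∀ x : ℝ, 0 < x → ∑' c : R F, boY x (41 / 32) c ≤ Ct * x ^ (1 - (41 / 32 : ℝ)))
    {Xi : R F → ℂ} (hP : Per 1 Xi) (hB : Bd1 Xi) {D : R F} (hD : P0 D)
    {Y K U P : ℝ} (t : ℝ) (hK : 0 < K) (hU : 1 ≤ U) (hUY : U ^ 3 ≤ Y) (hP1 : 1 ≤ P)
    (hDP : N D ≤ P) (hKP : K ≤ P * (Y / U ^ 3) ^ (13 / 16 : ℝ)) :
    BB Xi D Y K t ≤
      2 * (Ct ^ 2 * U ^ (-(9 / 16 : ℝ)) * boS F ^ 2 *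
        (C * (1 + |t|) ^ A * N D ^ e * (Y + K * Y ^ (3 / 16 : ℝ)) * Y ^ (1 + g))) +
      2 * (boS F ^ 2 * (C' * (1 + |t|) ^ A' * P ^ C0 * Y ^ (2 + e))) := by
  have hU0 : 0 < U := by linarith
  have hY : 0 < Y := lt_of_lt_of_le (by positivity) hUY
  obtain ⟨X, hX⟩ : ∃ X, X = C * (1 + |t|) ^ A * N D ^ e := ⟨_, rfl⟩
  have hX0 : 0 ≤ X := by
    have := Real.rpow_nonneg (N_nonneg D) e
    rw [hX]
    positivity
  obtain ⟨Z, hZ⟩ : ∃ Z, Z = boS F ^ 2 * (X * (Y + K * Y ^ (3 / 16 : ℝ)) * Y ^ (1 + g)) := ⟨_, rfl⟩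
  have hZ0 : 0 ≤ Z := by rw [hZ]; positivity
  obtain ⟨X', hX'⟩ : ∃ X', X' = C' * (1 + |t|) ^ A' * P ^ C0 := ⟨_, rfl⟩
  have hX0' : 0 ≤ X' := by rw [hX']; positivity
  obtain ⟨Z', hZ'⟩ : ∃ Z', Z' = X' * Y ^ (2 + e) := ⟨_, rfl⟩
  have hZ0' : 0 ≤ Z' := by rw [hZ']; positivity
  have hs := boY_summable (F := F) U (s := 41 / 32) (by norm_num)
  have h1 := bo_BB_le hB D hY K t
    (fun d => √Z * boY U (41 / 32) d + √Z' * boZ (41 / 32) d)
    ((hs.mul_left _).add (bo_summable.mul_left _))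
    (fun d => add_nonneg (mul_nonneg (Real.sqrt_nonneg _) (boY_nonneg _ _ d))
      (mul_nonneg (Real.sqrt_nonneg _) (boZ_nonneg _ d))) fun d hd => by
      have hn := one_le_N hd.ne_zero
      have hp := Real.rpow_nonneg (N_nonneg d) (-(41 / 32 : ℝ))
      have hP' := hP.comp_mul' (pow_ne_zero 3 hd.ne_zero)
      have hB' : Bd1 fun c => Xi (c * d ^ 3) := fun c => hB _
      rw [boY_eq _ _ hd.1, boZ_eq _ hd.1]
      split_ifs with hUd
      · refine le_trans ?_ (pow_le_pow_left₀ (by positivity)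
          (le_add_of_nonneg_right (by positivity)) 2)
        have h2 := bo_T_of_R hC hg hR hP' hB' hD (Y := Y / N d ^ 3) t (by positivity) hK
        rw [← hX] at h2
        have h3 := mul_le_mul_of_nonneg_left (bo_scale hn hY hK.le hg)
          (mul_nonneg (sq_nonneg (boS F)) hX0)
        rw [mul_pow, Real.sq_sqrt hZ0, hZ]
        refine (mul_le_mul_of_nonneg_left h2 (by positivity)).trans
          (le_trans (le_of_eq ?_) (h3.trans (le_of_eq ?_))) <;> ring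
      · have h4 : Y / U ^ 3 ≤ Y / N d ^ 3 := by
          gcongr
          exact not_lt.mp hUd
        have h2 := hV _ hP' hB' D hD (Y / N d ^ 3) P K t
          (le_trans ((one_le_div (by positivity)).mpr hUY) h4) hP1 hDP
          (hKP.trans (by gcongr))
        rw [← hX'] at h2
        have h3 := mul_le_mul_of_nonneg_left (bo_scale' hn hY he) hX0'
        rw [mul_zero, zero_add, mul_pow, Real.sq_sqrt hZ0', hZ']
        refine (mul_le_mul_of_nonneg_left h2 (by positivity)).trans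
          (le_trans (le_of_eq ?_) (h3.trans (le_of_eq ?_))) <;> ring
  rw [(hs.mul_left _).tsum_add (bo_summable.mul_left _), tsum_mul_left, tsum_mul_left] at h1
  have h5 := hCt U hU0
  have h6 : 0 ≤ ∑' c : R F, boY U (41 / 32) c := tsum_nonneg (boY_nonneg _ _)
  have h7 : (U ^ (1 - (41 / 32 : ℝ))) ^ 2 = U ^ (-(9 / 16 : ℝ)) := by
    rw [← Real.rpow_natCast, ← Real.rpow_mul hU0.le]
    norm_num
  have h8 := pow_le_pow_left₀ h6 h5 2
  rw [mul_pow, h7] at h8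
  rw [← hX, ← hX', ← hZ', mul_assoc _ (boS F ^ 2), ← hZ]
  refine h1.trans ((add_sq_le).trans ?_)
  rw [mul_pow, mul_pow, Real.sq_sqrt hZ0, Real.sq_sqrt hZ0', mul_add, mul_comm Z, mul_comm Z']
  exact add_le_add (mul_le_mul_of_nonneg_left (mul_le_mul_of_nonneg_right h8 hZ0) zero_le_two)
    le_rfl

end

end Vale.Agent.P319B
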