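import Vale.Agent.P319B.RLem
import Vale.Agent.P319B.VStep
import Vale.Agent.P319B.BootA

/-! The bootstrap. -/

namespace Vale.Agent.P319B

open Complex NumberField
open scoped Classical ComplexConjugate
open Vale.Agent.P026 (w kk fk)

variable {F : Type} [Field F] [NumberField F] [Ctx F]

theorem bo_scaleD {n Y Y' K E f e : ℝ} (hn : 1 ≤ n) (hY' : 0 < Y') (hYY : Y' ≤ Y) (hK : 0 ≤ K)
    (hE : 1 ≤ E) (hKE : K ≤ E * Y ^ (13 / 16 : ℝ)) (hf : 0 ≤ f) (he : 0 ≤ e) :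
    n * (n ^ e * (Y' / n + K / n ^ 2 * (Y' / n) ^ (3 / 16 : ℝ)) * (Y' / n) ^ (1 + (f + e))) ≤
      2 * E * Y ^ (2 + (f + e)) * n ^ (-(1 + f)) := by
  have hn0 : 0 < n := by linarith
  have hY : 0 < Y := by linarith
  have h1 : Y' / n ≤ E * Y / n := by
    gcongr
    nlinarith
  have h2 : K / n ^ 2 * (Y' / n) ^ (3 / 16 : ℝ) ≤ E * Y / n := by
    have h3 : K / n ^ 2 ≤ E * Y ^ (13 / 16 : ℝ) / n := by
      gcongr
      nlinarith
    have h4 : (Y' / n) ^ (3 / 16 : ℝ) ≤ Y ^ (3 / 16 : ℝ) := by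
      gcongr
      exact (div_le_self hY'.le hn).trans hYY
    refine (mul_le_mul h3 h4 (by positivity) (by positivity)).trans (le_of_eq ?_)
    rw [div_mul_eq_mul_div, mul_assoc, ← Real.rpow_add hY]
    norm_num
  have h5 : (Y' / n) ^ (1 + (f + e)) ≤ Y ^ (1 + (f + e)) * n ^ (-(1 + (f + e))) := by
    rw [Real.rpow_neg hn0.le, ← div_eq_mul_inv, ← Real.div_rpow hY.le hn0.le]
    gcongr
  have h6 : n ^ e * n ^ (-(1 + (f + e))) = n ^ (-(1 + f)) := by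
    rw [← Real.rpow_add hn0]
    ring_nf
  have h7 : Y ^ (2 + (f + e)) = Y * Y ^ (1 + (f + e)) := by
    rw [← Real.rpow_one_add' hY.le (by positivity)]
    ring_nf
  rw [← h6, h7]
  calc _ ≤ n * (n ^ e * (E * Y / n + E * Y / n) * (Y ^ (1 + (f + e)) * n ^ (-(1 + (f + e))))) := by
        gcongr
    _ = _ := by field_simp; ring

theorem bo_scaleD' {n Y Y' e : ℝ} (hn : 1 ≤ n) (hY' : 0 < Y') (hYY : Y' ≤ Y) (he : 0 ≤ e) :
    n * (Y' / n) ^ (2 + e) ≤ Y ^ (2 + e) * n ^ (-(1 + e)) := by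
  have hn0 : 0 < n := by linarith
  have hY : 0 < Y := by linarith
  have h5 : (Y' / n) ^ (2 + e) ≤ Y ^ (2 + e) * n ^ (-(2 + e)) := by
    rw [Real.rpow_neg hn0.le, ← div_eq_mul_inv, ← Real.div_rpow hY.le hn0.le]
    gcongr
  refine (mul_le_mul_of_nonneg_left h5 hn0.le).trans (le_of_eq ?_)
  rw [mul_left_comm, ← Real.rpow_one_add' hn0.le (by linarith)]
  ring_nf

/-- The bound for one value of the coprimality modulus. -/
theorem bo_one {C C' Ct : ℝ} {A A' C0 : ℕ} {f e : ℝ} (hC : 0 ≤ C) (hC' : 0 ≤ C')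
    (hf : 0 ≤ f) (he : 0 ≤ e) (hR : boR F C A (f + e) e) (hV : boV F C' A' C0 e)
    (hCt : ∀ x : ℝ, 0 < x → ∑' c : R F, boY x (41 / 32) c ≤ Ct * x ^ (1 - (41 / 32 : ℝ)))
    {Xi : R F → ℂ} (hP : Per 1 Xi) (hB : Bd1 Xi) {D : R F} (hD : P0 D) {Y Y' K U E : ℝ} (t : ℝ)
    (hK : 0 < K) (hU : 1 ≤ U) (hUY : 2 * U ^ 4 ≤ Y) (hY1 : Y / 2 ≤ Y') (hY2 : Y' ≤ Y) (hE : 1 ≤ E)
    (hKE : K ≤ E * Y ^ (13 / 16 : ℝ)) :
    N D * BB Xi D (Y' / N D) (K / N D ^ 2) t ≤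
      (C * (1 + |t|) ^ A * (2 * E * Y ^ (2 + (f + e)))) *
          (if U < N D then N D ^ (-(1 + f)) else 0) +
        (2 * (Ct ^ 2 * U ^ (-(9 / 16 : ℝ)) * boS F ^ 2) *
          (C * (1 + |t|) ^ A * (2 * E * Y ^ (2 + (f + e))))) * N D ^ (-(1 + f)) +
        (2 * boS F ^ 2 * (C' * (1 + |t|) ^ A' * (2 * U ^ 4 * E) ^ C0 * Y ^ (2 + e))) *
          N D ^ (-(1 + e)) := by
  have hn := one_le_N hD.ne_zero
  have hU4 : 1 ≤ U ^ 4 := one_le_pow₀ hU
  have hY : 0 < Y := by linarith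
  have hY' : 0 < Y' := by linarith
  have h1 := mul_le_mul_of_nonneg_left (bo_scaleD hn hY' hY2 hK.le hE hKE hf he)
    (show 0 ≤ C * (1 + |t|) ^ A by positivity)
  split_ifs with hUD
  · have h2 := mul_le_mul_of_nonneg_left
      (hR Xi hP hB D hD (Y' / N D) (K / N D ^ 2) t (by positivity) (by positivity)) (N_nonneg D)
    rw [add_assoc]
    refine le_trans ?_ (le_add_of_nonneg_right (by positivity))
    refine h2.trans (le_trans (le_of_eq ?_) (h1.trans (le_of_eq ?_))) <;> ring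
  · have hDU : N D ≤ U := not_lt.mp hUD
    have h3 : Y / (2 * U ^ 4) ≤ Y' / N D / U ^ 3 := by
      calc Y / (2 * U ^ 4) = Y / 2 / U / U ^ 3 := by field_simp
        _ ≤ _ := by gcongr
    have h4 : 1 ≤ Y / (2 * U ^ 4) := (one_le_div (by positivity)).mpr hUY
    have h5 : K / N D ^ 2 ≤ 2 * U ^ 4 * E * (Y' / N D / U ^ 3) ^ (13 / 16 : ℝ) := by
      have h6 : (2 * U ^ 4) ^ (13 / 16 : ℝ) ≤ 2 * U ^ 4 :=
        Real.rpow_le_self_of_one_le (by linarith) (by norm_num)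
      calc K / N D ^ 2 ≤ K := div_le_self hK.le (one_le_pow₀ hn)
        _ ≤ E * Y ^ (13 / 16 : ℝ) := hKE
        _ = (2 * U ^ 4) ^ (13 / 16 : ℝ) * E * (Y / (2 * U ^ 4)) ^ (13 / 16 : ℝ) := by
          rw [Real.div_rpow hY.le (by positivity)]
          field_simp
        _ ≤ _ := by gcongr
    have h7 : N D ≤ 2 * U ^ 4 * E := by
      have : U ≤ U ^ 4 := le_self_pow₀ hU (by norm_num)
      nlinarith
    have h2 := mul_le_mul_of_nonneg_left (bo_small hC hC' (add_nonneg hf he) he hR hV hCt hP hB hD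
      (Y := Y' / N D) (K := K / N D ^ 2) (P := 2 * U ^ 4 * E) t (by positivity) hU
      ((one_le_div (by positivity)).mp (h4.trans h3)) (hn.trans h7) h7 h5) (N_nonneg D)
    have h8 := mul_le_mul_of_nonneg_left h1
      (show 0 ≤ 2 * (Ct ^ 2 * U ^ (-(9 / 16 : ℝ)) * boS F ^ 2) by positivity)
    have h9 := mul_le_mul_of_nonneg_left (bo_scaleD' hn hY' hY2 he)
      (show 0 ≤ 2 * boS F ^ 2 * (C' * (1 + |t|) ^ A' * (2 * U ^ 4 * E) ^ C0) by positivity)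
    rw [mul_zero, zero_add]
    refine h2.trans (le_trans (le_of_eq ?_) ((add_le_add h8 h9).trans (le_of_eq ?_))) <;> ring

theorem bo_sum_le (s : Finset (R F)) (hs : ∀ D ∈ s, P1 D) {α β γ U a b : ℝ} (hα : 0 ≤ α)
    (hβ : 0 ≤ β) (hγ : 0 ≤ γ) (ha : 1 < a) (hb : 1 < b) :
    ∑ D ∈ s, (α * (if U < N D then N D ^ (-a) else 0) + β * N D ^ (-a) + γ * N D ^ (-b)) ≤
      α * ∑' D : R F, boY U a D + β * ∑' D : R F, boZ a D + γ * ∑' D : R F, boZ b D := by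
  rw [Finset.sum_congr rfl fun D hD => by
      rw [← boY_eq U a (hs D hD), ← boZ_eq a (hs D hD), ← boZ_eq b (hs D hD)],
    Finset.sum_add_distrib, Finset.sum_add_distrib, ← Finset.mul_sum, ← Finset.mul_sum,
    ← Finset.mul_sum]
  gcongr
  · exact (boY_summable U ha).sum_le_tsum s fun c _ => boY_nonneg _ _ _
  · exact (boZ_summable ha).sum_le_tsum s fun c _ => boZ_nonneg _ _
  · exact (boZ_summable hb).sum_le_tsum s fun c _ => boZ_nonneg _ _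

/-- The theta side of the Poisson inequality. -/
theorem bo_theta {C C' : ℝ} {A A' C0 : ℕ} {f e κ g : ℝ} (hC : 0 ≤ C) (hC' : 0 ≤ C')
    (hf : 0 < f) (he : 0 < e) (hκ : 0 < κ) (hκ' : κ ≤ 1 / 100) (hR : boR F C A (f + e) e)
    (hV : boV F C' A' C0 e) (hg1 : f + 2 * e - κ * min f (9 / 16) ≤ g)
    (hg2 : C0 * (4 * κ + e) + e ≤ g) :
    ∃ B : ℝ, 0 ≤ B ∧ ∀ Xi : R F → ℂ, Per 1 Xi → Bd1 Xi → ∀ Y Y' K t : ℝ, 4 ≤ Y → Y / 2 ≤ Y' →
      Y' ≤ Y → 0 < K → K ≤ Y ^ e * Y ^ (13 / 16 : ℝ) →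
      QQ 1 (fun c => alph true c * Xi c * W Y' t c) K ≤
        B * Y ^ (2 + g) * (1 + |t|) ^ (A + A') := by
  obtain ⟨Ct, -, hCt⟩ := tail_N_rpow (F := F) (s := 41 / 32) (by norm_num)
  obtain ⟨Cf, hCf0, hCf⟩ := tail_N_rpow (F := F) (s := 1 + f) (by linarith)
  obtain ⟨Sf, hSf⟩ : ∃ S, S = ∑' D : R F, boZ (1 + f) D := ⟨_, rfl⟩
  obtain ⟨Se, hSe⟩ : ∃ S, S = ∑' D : R F, boZ (1 + e) D := ⟨_, rfl⟩
  have hSf0 : 0 ≤ Sf := hSf ▸ tsum_nonneg (boZ_nonneg _)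
  have hSe0 : 0 ≤ Se := hSe ▸ tsum_nonneg (boZ_nonneg _)
  refine ⟨2 * C * Cf + 4 * Ct ^ 2 * boS F ^ 2 * C * Sf + 2 * boS F ^ 2 * C' * 2 ^ C0 * Se,
    by positivity, fun Xi hP hB Y Y' K t hY hY1 hY2 hK hKE => ?_⟩
  have hY0 : 0 < Y := by linarith
  have hY1' : 1 ≤ Y := by linarith
  have hU : 1 ≤ Y ^ κ := Real.one_le_rpow hY1' hκ.le
  have hE : 1 ≤ Y ^ e := Real.one_le_rpow hY1' he.le
  have hU4 : (Y ^ κ) ^ 4 = Y ^ (4 * κ) := by
    rw [← Real.rpow_natCast, ← Real.rpow_mul hY0.le, mul_comm]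
    norm_num
  have hUY : 2 * (Y ^ κ) ^ 4 ≤ Y := by
    have h1 : Y ^ (4 * κ) ≤ Y ^ (1 / 2 : ℝ) :=
      Real.rpow_le_rpow_of_exponent_le hY1' (by linarith)
    have h2 : 2 ≤ Y ^ (1 / 2 : ℝ) := by
      rw [← Real.sqrt_eq_rpow]
      exact Real.le_sqrt_of_sq_le (by linarith)
    have h3 : Y ^ (1 / 2 : ℝ) * Y ^ (1 / 2 : ℝ) = Y := by
      rw [← Real.rpow_add hY0]
      norm_num
    rw [hU4]
    nlinarith
  rw [QQ_alph]
  refine (Finset.sum_le_sum fun D hD => bo_one hC hC' hf.le he.le hR hV hCt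
    ((hP.comp_mul (Finset.mem_filter.mp hD).2.ne_zero).mul (per_B3_right 1 _))
    (Bd1.bo_mul (fun c => hB _) fun c => (norm_B3 _ _).le) (Finset.mem_filter.mp hD).2 t hK hU hUY
    hY1 hY2 hE hKE).trans ?_
  refine (bo_sum_le _ (fun D hD => (Finset.mem_filter.mp hD).2.1) (by positivity) (by positivity) (by positivity) (by linarith)
    (by linarith)).trans ?_
  rw [← hSf, ← hSe]
  have ht : 1 ≤ 1 + |t| := by linarith [abs_nonneg t]
  have a1 : (1 + |t|) ^ A ≤ (1 + |t|) ^ (A + A') := pow_le_pow_right₀ ht (by omega)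
  have a2 : (1 + |t|) ^ A' ≤ (1 + |t|) ^ (A + A') := pow_le_pow_right₀ ht (by omega)
  have b0 : ∀ x, min f (9 / 16) ≤ x →
      Y ^ e * Y ^ (2 + (f + e)) * (Y ^ κ) ^ (-x) ≤ Y ^ (2 + g) := fun x hx => by
    rw [← Real.rpow_mul hY0.le, ← Real.rpow_add hY0, ← Real.rpow_add hY0]
    exact Real.rpow_le_rpow_of_exponent_le hY1' (by nlinarith)
  have b1 := b0 f (min_le_left _ _)
  have b2 := b0 (9 / 16) (min_le_right _ _)
  have b3 : (2 * (Y ^ κ) ^ 4 * Y ^ e) ^ C0 * Y ^ (2 + e) ≤ 2 ^ C0 * Y ^ (2 + g) := by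
    rw [hU4, mul_assoc 2, ← Real.rpow_add hY0, mul_pow, ← Real.rpow_natCast (Y ^ _),
      ← Real.rpow_mul hY0.le, mul_assoc, ← Real.rpow_add hY0]
    exact mul_le_mul_of_nonneg_left (Real.rpow_le_rpow_of_exponent_le hY1' (by linarith))
      (by positivity)
  have c1 : ∑' D : R F, boY (Y ^ κ) (1 + f) D ≤ _ := hCf (Y ^ κ) (by positivity)
  rw [show 1 - (1 + f) = -f by ring] at c1
  calc _ ≤ C * (1 + |t|) ^ A * (2 * Y ^ e * Y ^ (2 + (f + e))) * (Cf * (Y ^ κ) ^ (-f)) + _ + _ := by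
        gcongr
    _ = 2 * C * Cf * (Y ^ e * Y ^ (2 + (f + e)) * (Y ^ κ) ^ (-f)) * (1 + |t|) ^ A +
        4 * Ct ^ 2 * boS F ^ 2 * C * Sf *
          (Y ^ e * Y ^ (2 + (f + e)) * (Y ^ κ) ^ (-(9 / 16 : ℝ))) * (1 + |t|) ^ A +
        2 * boS F ^ 2 * C' * Se * ((2 * (Y ^ κ) ^ 4 * Y ^ e) ^ C0 * Y ^ (2 + e)) *
          (1 + |t|) ^ A' := by ring
    _ ≤ 2 * C * Cf * Y ^ (2 + g) * (1 + |t|) ^ (A + A') +
        4 * Ct ^ 2 * boS F ^ 2 * C * Sf * Y ^ (2 + g) * (1 + |t|) ^ (A + A') +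
        2 * boS F ^ 2 * C' * Se * (2 ^ C0 * Y ^ (2 + g)) * (1 + |t|) ^ (A + A') := by gcongr
    _ = _ := by ring

theorem bo_final {Y M B e g f' : ℝ} {J : ℕ} (hY : 1 ≤ Y) (hM : Y ^ (19 / 16 : ℝ) ≤ M) (hB : 0 ≤ B)
    (he : 0 < e) (hJ : 1 ≤ e * (J - 1)) (hg : g + e ≤ f') (hf : 0 ≤ f') :
    M * Y + M / Y * (Y ^ 2 / M) ^ e * (B * Y ^ (2 + g)) + Y ^ 3 * (Y ^ e) ^ (1 - (J : ℝ)) ≤
      (2 + B) * M * Y ^ (1 + f') := by
  have hY0 : 0 < Y := by linarith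
  have hYM : Y ≤ M := (Real.self_le_rpow_of_one_le hY (by norm_num)).trans hM
  have hM0 : 0 < M := by linarith
  have h0 : Y ≤ Y ^ (1 + f') := Real.self_le_rpow_of_one_le hY (by linarith)
  have h1 : (Y ^ 2 / M) ^ e ≤ Y ^ e := by
    gcongr
    rw [div_le_iff₀ hM0]
    nlinarith
  have h2 : Y ^ e * Y ^ (2 + g) ≤ Y * Y ^ (1 + f') := by
    rw [← Real.rpow_one_add' hY0.le (by positivity), ← Real.rpow_add hY0]
    exact Real.rpow_le_rpow_of_exponent_le hY (by linarith)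
  have h3 : Y ^ 3 * (Y ^ e) ^ (1 - (J : ℝ)) ≤ Y * Y := by
    rw [← Real.rpow_mul hY0.le, ← Real.rpow_natCast, ← Real.rpow_add hY0, ← sq,
      ← Real.rpow_natCast]
    exact Real.rpow_le_rpow_of_exponent_le hY (by push_cast; linarith)
  calc _ ≤ M * Y ^ (1 + f') + M / Y * Y ^ e * (B * Y ^ (2 + g)) + M * Y ^ (1 + f') := by
        refine add_le_add (add_le_add (by gcongr) (by gcongr)) (h3.trans (by gcongr))
    _ = 2 * M * Y ^ (1 + f') + M / Y * B * (Y ^ e * Y ^ (2 + g)) := by ring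
    _ ≤ 2 * M * Y ^ (1 + f') + M / Y * B * (Y * Y ^ (1 + f')) := by gcongr
    _ = _ := by field_simp

theorem boot_step (T : Theta F) :
    ∃ C1 : ℝ, 0 < C1 ∧ ∀ κ f f' : ℝ, 0 < κ → κ ≤ 1 / 100 → 0 < f → f ≤ 1 → C1 * κ < f' →
      f - κ * min f (9 / 16) < f' → HH F f → HH F f' := by
  obtain ⟨C0, hC0⟩ := vstep T
  refine ⟨4 * C0 + 1, by positivity, fun κ f f' hκ hκ' hf hf1 h1 h2 hH => ?_⟩
  by_cases hff : f ≤ f'
  · exact hH.mono hff
  have hf' : 0 < f' := lt_trans (by positivity) h1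
  obtain ⟨e, he, he1, he2, he3⟩ : ∃ e : ℝ, 0 < e ∧ e ≤ 1 / 2 ∧
      f + 3 * e - κ * min f (9 / 16) ≤ f' ∧ C0 * (4 * κ + e) + 2 * e ≤ f' := by
    refine ⟨min (1 / 2) (min ((f' - (f - κ * min f (9 / 16))) / 3) (κ / (C0 + 2))),
      lt_min (by norm_num) (lt_min (by linarith) (by positivity)), min_le_left _ _, ?_, ?_⟩
    · have := (min_le_right (1 / 2 : ℝ) _).trans
        (min_le_left ((f' - (f - κ * min f (9 / 16))) / 3) (κ / (C0 + 2)))
      linarith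
    · have := (min_le_right (1 / 2 : ℝ) _).trans
        (min_le_right ((f' - (f - κ * min f (9 / 16))) / 3) (κ / (C0 + 2)))
      rw [le_div_iff₀ (by positivity)] at this
      linarith
  obtain ⟨C, A, hC, hR⟩ := rlem hf.le hH he
  obtain ⟨C', A', hC', hV⟩ := hC0 e he
  obtain ⟨B, hB0, hB⟩ := bo_theta (F := F) (A := A) (A' := A') (C0 := C0) (g := f' - e) hC.le
    hC'.le hf he hκ hκ' (fun Xi a b D c Y K t d d' => by
      have := hR Xi a b D c Y K t d d'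
      rwa [add_assoc] at this) hV (by linarith) (by linarith)
  obtain ⟨J, hJ⟩ := exists_nat_ge (1 / e + 2)
  have hJ' : 1 ≤ e * (J - 1) := by
    have : e * (1 / e) = 1 := by field_simp
    nlinarith
  have hJ2 : 2 ≤ J := by
    have : (0 : ℝ) < 1 / e := by positivity
    exact_mod_cast (show (2 : ℝ) ≤ J by linarith)
  obtain ⟨Cp, hCp, hp⟩ := lemP2 (F := F) he he1 (A + A') J hJ2
  obtain ⟨Cq, hCq, hq'⟩ := QQ_triv (F := F) 2 le_rfl
  obtain ⟨η, hη1, hη2, hη3⟩ := exists_eta (F := F)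
  refine ⟨4 * Cq + Cp * (2 + B), A + A', fun Xi hP hX Y M t hY hM => ?_⟩
  have ha : Bd1 fun c => mu0 c * Xi c * cop 1 c :=
    (Bd1.bo_mul norm_mu0_le hX).bo_mul (norm_cop_le 1)
  have ht : 1 ≤ (1 + |t|) ^ (A + A') := one_le_pow₀ (by linarith [abs_nonneg t])
  have hY19 : 0 < Y ^ (19 / 16 : ℝ) := by positivity
  rcases le_total Y 4 with hY4 | hY4
  · have h3 := hq' 2 _ (fun c hc => (mu0_ne_zero.mp
      (left_ne_zero_of_mul (left_ne_zero_of_mul hc))).1) ha Y M t hY hM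
    rw [Real.rpow_two, ite_self] at h3
    have h4 : Y ^ 2 ≤ 4 * Y ^ (1 + f') := by
      have h5 : Y ^ (1 - f') ≤ 4 := by
        refine (Real.rpow_le_rpow hY.le hY4 (by linarith)).trans ?_
        exact Real.rpow_le_self_of_one_le (by norm_num) (by linarith)
      calc Y ^ 2 = Y ^ (1 - f') * Y ^ (1 + f') := by
            rw [← Real.rpow_add hY, ← Real.rpow_two]
            norm_num
        _ ≤ _ := by gcongr
    calc AA Xi 1 Y M t ≤ Cq * M * Y ^ 2 := h3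
      _ ≤ Cq * (M + Y ^ (19 / 16 : ℝ)) * (4 * Y ^ (1 + f')) := by gcongr; linarith
      _ = (4 * Cq + 0) * 1 * (M + Y ^ (19 / 16 : ℝ)) * Y ^ (1 + f') := by ring
      _ ≤ _ := by gcongr; positivity
  · have hY1 : 1 ≤ Y := by linarith
    obtain ⟨M', hM'⟩ : ∃ M', M' = M + Y ^ (19 / 16 : ℝ) := ⟨_, rfl⟩
    have hM1 : Y ^ (19 / 16 : ℝ) ≤ M' := by linarith
    have hM0 : 0 < M' := by linarith
    have hK : Y ^ e * Y ^ 2 / M' ≤ Y ^ e * Y ^ (13 / 16 : ℝ) := by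
      rw [mul_div_assoc]
      gcongr
      rw [div_le_iff₀ hM0]
      calc Y ^ 2 = Y ^ (13 / 16 : ℝ) * Y ^ (19 / 16 : ℝ) := by
            rw [← Real.rpow_add hY, ← Real.rpow_two]
            norm_num
        _ ≤ _ := by gcongr
    have h3 := hp 2 1 (by norm_num) _ (fun c hc => mu0_ne_zero.mp
      (left_ne_zero_of_mul (left_ne_zero_of_mul hc))) ha Y M' (Y ^ e) t (B * Y ^ (2 + (f' - e)))
      hY hM0 (by positivity) (by positivity) fun i Y' t' a1 a2 => by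
        have h4 := hB (fun c => η c * (Xi c * clsI i c))
          (hη1.mul (hP.mul (per_clsI 1 i)))
          (hη2.bo_mul (hX.bo_mul (norm_clsI_le i))) Y Y' _ t' hY4 a1 a2 (by positivity) hK
        refine le_trans (le_of_eq ?_) h4
        refine congrArg (fun a => QQ 1 a _) (funext fun c => ?_)
        have h5 : cop 1 c = 1 := if_pos isCoprime_one_right
        rw [h5]
        linear_combination (Xi c * clsI i c * W Y' t' c) * hη3 c
    have h6 := bo_final hY1 hM1 hB0 he hJ' (g := f' - e) (f' := f') (by linarith) hf'.le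
    rw [← hM']
    calc AA Xi 1 Y M t ≤ _ := QQ_mono 2 _ (show M ≤ M' by linarith)
      _ ≤ _ := h3
      _ ≤ Cp * (1 + |t|) ^ (A + A') * ((2 + B) * M' * Y ^ (1 + f')) := by gcongr
      _ = (0 + Cp * (2 + B)) * (1 + |t|) ^ (A + A') * M' * Y ^ (1 + f') := by ring
      _ ≤ _ := by gcongr; positivity

theorem boot (T : Theta F) {f : ℝ} (hf : 0 < f) : HH F f := by
  by_cases hf1 : 1 ≤ f
  · exact HH_one.mono hf1
  obtain ⟨C1, hC1, h⟩ := boot_step T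
  obtain ⟨κ, hκ, hκ1, hκ2⟩ : ∃ κ : ℝ, 0 < κ ∧ κ ≤ 1 / 100 ∧ C1 * κ < f := by
    refine ⟨min (1 / 100) (f / (2 * C1)), lt_min (by norm_num) (by positivity), min_le_left _ _, ?_⟩
    have := min_le_right (1 / 100 : ℝ) (f / (2 * C1))
    rw [le_div_iff₀ (by positivity)] at this
    linarith
  obtain ⟨δ, hδ⟩ : ∃ δ, δ = κ * min f (9 / 16) / 2 := ⟨_, rfl⟩
  have hδ0 : 0 < δ := by
    have : 0 < min f (9 / 16) := lt_min hf (by norm_num)
    rw [hδ]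
    positivity
  have key : ∀ n : ℕ, HH F (max f (1 - n * δ)) := by
    intro n
    induction n with
    | zero => exact HH_one.mono (by simp)
    | succ n ih =>
      have h1 : f ≤ max f (1 - n * δ) := le_max_left _ _
      refine h κ _ _ hκ hκ1 (by linarith) (max_le (by linarith) (by
        have : 0 ≤ (n : ℝ) * δ := by positivity
        linarith)) (hκ2.trans_le (le_max_left _ _)) ?_ ih
      have h2 : κ * min f (9 / 16) ≤ κ * min (max f (1 - n * δ)) (9 / 16) := by gcongr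
      have h3 : max f (1 - n * δ) ≤ max f (1 - (n + 1 : ℕ) * δ) + δ := by
        refine max_le (by linarith [le_max_left f (1 - (n + 1 : ℕ) * δ)]) ?_
        have := le_max_right f (1 - (n + 1 : ℕ) * δ)
        push_cast at this ⊢
        linarith
      linarith
  obtain ⟨n, hn⟩ := exists_nat_ge (1 / δ)
  refine (key n).mono (max_le le_rfl ?_)
  rw [div_le_iff₀ hδ0] at hn
  linarith

end Vale.Agent.P319B
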