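import Vale.Agent.P319B.Ring

/-! Existence of the arithmetic data. -/

namespace Vale.Agent.P319B

open Complex NumberField
open scoped Classical ComplexConjugate
open Vale.Agent.P026 (w kk fk)

theorem ctx_pid0 {O B : Type} [CommRing O] [IsDedekindDomain O] [Module.Free ℤ O] [CommRing B]
    (ι : O →+* B) {M : ℕ} {v : B} (hu : (M : B) * v = 1)
    (key : ∀ x : B, ∃ (k : ℕ) (y : O), ι y = (M : B) ^ k * x)
    (h : ∀ C : ClassGroup O, ∃ I, ClassGroup.mk0 I = C ∧ Ideal.absNorm I.1 ∣ M) :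
    IsPrincipalIdealRing B := by
  refine ⟨fun J => ?_⟩
  by_cases h0 : J.comap ι = ⊥
  · refine ⟨0, le_antisymm (fun x hx => ?_) (by simp)⟩
    obtain ⟨k, y, hy⟩ := key x
    have : y ∈ J.comap ι := by
      rw [Ideal.mem_comap, hy]
      exact J.mul_mem_left _ hx
    rw [h0, Ideal.mem_bot] at this
    rw [this, map_zero, eq_comm, ((IsUnit.of_mul_eq_one _ hu).pow k).mul_right_eq_zero] at hy
    simp [hy]
  have h1 : J.comap ι ∈ nonZeroDivisors (Ideal O) := mem_nonZeroDivisors_of_ne_zero h0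
  obtain ⟨I, hI, c, hc⟩ := h (ClassGroup.mk0 ⟨_, h1⟩)⁻¹
  have h2 : ClassGroup.mk0 (⟨_, h1⟩ * I) = 1 := by rw [map_mul, hI, mul_inv_cancel]
  obtain ⟨a, ha⟩ : ∃ a, J.comap ι * I.1 = Submodule.span O {a} :=
    ((ClassGroup.mk0_eq_one_iff (mul_mem h1 I.2)).1 h2).principal
  have h3 : a ∈ J.comap ι :=
    Ideal.mul_le_left (I := J.comap ι) (J := I.1) (ha.ge (Submodule.mem_span_singleton_self a))
  refine ⟨ι a, le_antisymm (fun x hx => ?_) ((Submodule.span_singleton_le_iff_mem _ _).2 h3)⟩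
  obtain ⟨k, y, hy⟩ := key x
  have h4 : y ∈ J.comap ι := by
    rw [Ideal.mem_comap, hy]
    exact J.mul_mem_left _ hx
  obtain ⟨b, hb⟩ := Submodule.mem_span_singleton.1
    (ha.le (Ideal.mul_mem_mul h4 (Ideal.absNorm_mem I.1)))
  have h5 := congrArg ι hb
  rw [smul_eq_mul, map_mul, map_mul, map_natCast, hy] at h5
  have h6 : (M : B) = Ideal.absNorm I.1 * c := by rw [← Nat.cast_mul, ← hc]
  refine Submodule.mem_span_singleton.2 ⟨v ^ (k + 1) * (ι b * c), ?_⟩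
  have h7 : ((M : B) * v) ^ (k + 1) = 1 := by rw [hu, one_pow]
  rw [smul_eq_mul]
  linear_combination v ^ (k + 1) * c * h5 - v ^ (k + 1) * (M : B) ^ k * x * h6 + x * h7

theorem ctx_pid (F : Type) [Field F] [NumberField F] {M : ℕ} (hM : M ≠ 0)
    (h : ∀ C : ClassGroup (𝓞 F), ∃ I, ClassGroup.mk0 I = C ∧ Ideal.absNorm I.1 ∣ M) :
    IsPrincipalIdealRing (Rr F M) := by
  have hM' : (M : F) ≠ 0 := Nat.cast_ne_zero.2 hM
  refine ctx_pid0 ((algebraMap (𝓞 F) F).codRestrict (Rr F M) fun x =>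
    ⟨0, by simpa using x.isIntegral_coe⟩)
    (v := ⟨(M : F)⁻¹, 1, by rw [pow_one, mul_inv_cancel₀ hM']; exact isIntegral_one⟩)
    (Subtype.ext (by simp [hM'])) (fun ⟨x, k, hk⟩ => ⟨k, ⟨_, hk⟩, Subtype.ext ?_⟩) h
  show (M : F) ^ k * x = _
  simp

theorem exists_ctx0 (F : Type) [Field F] [NumberField F] (ω : F) (hω : ω ^ 2 + ω + 1 = 0) {m : ℕ}
    (hm : m ≠ 0) : ∃ c : Ctx0 F, m ∣ c.M := by
  choose I hI using ClassGroup.mk0_surjective (R := 𝓞 F)
  have h0 : 6 * (discr F).natAbs * m * ∏ C, Ideal.absNorm (I C).1 ≠ 0 :=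
    mul_ne_zero (mul_ne_zero (mul_ne_zero (by norm_num) (Int.natAbs_ne_zero.2 (discr_ne_zero F)))
      hm) (Finset.prod_ne_zero_iff.2 fun C _ => Ideal.absNorm_ne_zero_of_nonZeroDivisors _)
  exact ⟨@Ctx0.mk F _ _ ⟨ω, hω⟩ _ h0 (((dvd_mul_right _ _).mul_right _).mul_right _)
    (((dvd_mul_left _ _).mul_right _).mul_right _) (ctx_pid F h0 fun C => ⟨I C, hI C,
      (Finset.dvd_prod_of_mem _ (Finset.mem_univ C)).mul_left _⟩), (dvd_mul_left _ _).mul_right _⟩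

theorem ctx_compl {G : Type} [CommGroup G] {S U : Subgroup G} (h6 : ∀ x, x ^ 6 ∈ S) :
    ∃ H : Subgroup G, S ≤ H ∧ H ⊓ U ≤ S ∧ ∀ x, x ∈ H ⊔ U := by
  obtain ⟨H, h1, h2⟩ := zorn_le_nonempty₀ {H : Subgroup G | H ⊓ (S ⊔ U) ≤ S}
    (fun c hc hc' y hy => ⟨sSup c, fun x hx => by
      obtain ⟨K, hK, hx'⟩ := (Subgroup.mem_sSup_of_directedOn ⟨y, hy⟩ hc'.directedOn).1 hx.1
      exact hc hK ⟨hx', hx.2⟩, fun z hz => le_sSup hz⟩) S
    (show S ⊓ (S ⊔ U) ≤ S from inf_le_left)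
  have hle : S ⊔ U ≤ H ⊔ U := sup_le_sup_right h1 _
  have key : ∀ p : ℕ, p.Prime → ∀ x, x ^ p ∈ S → x ∈ H ⊔ U := fun p hp x hx => by
    by_contra hc
    refine hc ((le_sup_left : H ≤ H ⊔ U) (h2.2 (y := H ⊔ Subgroup.zpowers x) (fun z hz => ?_)
      le_sup_left ((le_sup_right : _ ≤ H ⊔ _) (Subgroup.mem_zpowers x))))
    obtain ⟨h, hh, _, ⟨k, rfl⟩, rfl⟩ := Subgroup.mem_sup.1 hz.1
    have hxp : x ^ (p : ℤ) ∈ S := by rwa [zpow_natCast]
    by_cases hk : (p : ℤ) ∣ k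
    · obtain ⟨l, rfl⟩ := hk
      exact h2.1 ⟨mul_mem hh (h1 (by simpa only [zpow_mul] using zpow_mem hxp l)), hz.2⟩
    · obtain ⟨a, b, hab⟩ := (Nat.prime_iff_prime_int.1 hp).irreducible.coprime_iff_not_dvd.2 hk
      have h3 : x ^ k ∈ H ⊔ U :=
        (mul_mem_cancel_left ((le_sup_left : H ≤ H ⊔ U) hh)).1 (hle hz.2)
      have h4 := mul_mem (zpow_mem (hle ((le_sup_left : S ≤ S ⊔ U) hxp)) a) (zpow_mem h3 b)
      rw [← zpow_mul, ← zpow_mul, ← zpow_add, mul_comm _ a, mul_comm _ b, hab, zpow_one] at h4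
      exact absurd h4 hc
  refine ⟨H, h1, (inf_le_inf_left _ le_sup_right).trans h2.1, fun x => ?_⟩
  have := div_mem (key 2 Nat.prime_two (x ^ 3) (by rw [← pow_mul]; exact h6 x))
    (key 3 Nat.prime_three (x ^ 2) (by rw [← pow_mul]; exact h6 x))
  rwa [pow_succ', mul_div_cancel_right] at this

open UniqueFactorizationMonoid in
theorem ctx_sec {A : Type} [CommRing A] [IsDomain A] [UniqueFactorizationMonoid A]
    (T : Submonoid A) (hT : ∀ x : A, x ≠ 0 → ∃ y ∈ T, Associated x y) :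
    ∃ P : Submonoid A, P ≤ T ∧ (0 : A) ∉ P ∧ ∀ x : A, x ≠ 0 → ∃! p, p ∈ P ∧ Associated x p := by
  have h1 : ∀ a : Associates A, ∃ y, Associates.mk y = a ∧ (a ≠ 0 → y ∈ T) := fun a => by
    obtain ⟨x, rfl⟩ := Associates.mk_surjective a
    by_cases hx : x = 0
    · exact ⟨x, rfl, fun h => absurd (by simp [hx]) h⟩
    · obtain ⟨y, hy, h⟩ := hT x hx
      exact ⟨y, Associates.mk_eq_mk_iff_associated.2 h.symm, fun _ => hy⟩
  choose g hg hgT using h1
  let σ : Associates A → A := fun a => ((normalizedFactors a).map g).prod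
  have s1 : ∀ x : A, x ≠ 0 → Associates.mk (σ (Associates.mk x)) = Associates.mk x := fun x hx => by
    rw [← Associates.prod_mk, Multiset.map_map]
    simp only [Function.comp_def, hg, Multiset.map_id']
    exact associated_iff_eq.1 (prod_normalizedFactors (Associates.mk_ne_zero.2 hx))
  refine ⟨⟨⟨{x | x ≠ 0 ∧ σ (Associates.mk x) = x}, fun {x y} hx hy => ⟨mul_ne_zero hx.1 hy.1, ?_⟩⟩,
    one_ne_zero, ?_⟩, fun x hx => ?_, fun h => h.1 rfl, fun x hx => ?_⟩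
  · conv_rhs => rw [← hx.2, ← hy.2]
    simp only [σ]
    rw [← Associates.mk_mul_mk, normalizedFactors_mul (Associates.mk_ne_zero.2 hx.1)
      (Associates.mk_ne_zero.2 hy.1), Multiset.map_add, Multiset.prod_add]
  · simp only [σ]
    rw [Associates.mk_one, normalizedFactors_one, Multiset.map_zero, Multiset.prod_zero]
  · rw [← hx.2]
    refine multiset_prod_mem _ fun y hy => ?_
    obtain ⟨a, ha, rfl⟩ := Multiset.mem_map.1 hy
    exact hgT a fun h => zero_notMem_normalizedFactors _ (h ▸ ha)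
  · have h2 := Associates.mk_eq_mk_iff_associated.1 (s1 x hx)
    refine ⟨σ (Associates.mk x), ⟨⟨h2.ne_zero_iff.2 hx, by rw [s1 x hx]⟩, h2.symm⟩,
      fun p hp => ?_⟩
    rw [Associates.mk_eq_mk_iff_associated.2 hp.2]
    exact hp.1.2.symm

theorem exists_ctx_of (F : Type) [Field F] [NumberField F] [c0 : Ctx0 F] :
    ∃ c : Ctx F, c.toCtx0 = c0 := by
  let S : Subgroup Fˣ :=
    { carrier := {u | S6 (u : F)}
      mul_mem' := fun ha hb => S6.mul ha hb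
      one_mem' := S6.of_inU (InU.one 3)
      inv_mem' := fun {u} ha => by
        show S6 _
        rw [Units.val_inv_eq_inv_val]
        exact S6.inv ha }
  let f : (R F)ˣ →* Fˣ := Units.map (Rr F (Ctx0.M F)).subtype.toMonoidHom
  obtain ⟨H, h1, h2, h3⟩ := ctx_compl (S := S) (U := f.range) fun x => S6.pow_six x.ne_zero
  obtain ⟨P, p1, p2, p3⟩ := ctx_sec ((H.toSubmonoid.map (Units.coeHom F)).comap
    (Rr F (Ctx0.M F)).subtype.toMonoidHom) fun x hx => by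
      obtain ⟨h, hh, _, ⟨e, rfl⟩, he⟩ := Subgroup.mem_sup.1
        (h3 (Units.mk0 (x : F) fun h => hx (Subtype.ext h)))
      refine ⟨x * ↑e⁻¹, ⟨h, hh, ?_⟩, e⁻¹, rfl⟩
      have := congrArg Units.val (eq_mul_inv_of_mul_eq he)
      rw [← map_inv] at this
      exact this
  refine ⟨⟨P, p2, p3, fun x hx y hy u hu h => ?_⟩, rfl⟩
  obtain ⟨X, hX, eX⟩ := p1 hx
  obtain ⟨Y, hY, eY⟩ := p1 hy
  obtain ⟨u, rfl⟩ := hu
  have h4 : f u * X / Y ∈ S := by
    show S6 _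
    rw [Units.val_div_eq_div_val, Units.val_mul, show (X : F) = x from eX, show (Y : F) = y from eY]
    exact h
  have h5 := mul_mem (mul_mem (h1 h4) hY) (inv_mem (show X ∈ H from hX))
  rw [div_mul_cancel, mul_inv_cancel_right] at h5
  exact h2 ⟨h5, u, rfl⟩

theorem exists_ctx (F : Type) [Field F] [NumberField F] (ω : F) (hω : ω ^ 2 + ω + 1 = 0) {m : ℕ}
    (hm : m ≠ 0) : ∃ c : Ctx F, m ∣ c.M := by
  obtain ⟨c0, h0⟩ := exists_ctx0 F ω hω hm
  obtain ⟨c, hc⟩ := exists_ctx_of F (c0 := c0)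
  exact ⟨c, by rw [hc]; exact h0⟩

end Vale.Agent.P319B
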