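import Vale.Agent.P319B.ClsA

/-! Finiteness of the class group and sums over units of R. -/

namespace Vale.Agent.P319B

open Complex NumberField
open scoped Classical ComplexConjugate
open Vale.Agent.P026 (w kk fk)

variable {F : Type} [Field F] [NumberField F] [Ctx0 F]

/-- Balancing of the valuations at M by sixth powers of units of R. -/
theorem exists_balance : ∃ K : ℕ, ∀ x : F, x ≠ 0 → ∃ s : R F, IsUnit s ∧
    (s : F) ^ 6 * x ∈ Ol F ∧ MF F ^ K / ((s : F) ^ 6 * x) ∈ Ol F := by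
  obtain ⟨ρ, H, hρ, hd⟩ := cla_dec (F := F)
  refine ⟨H, fun x hx => ?_⟩
  obtain ⟨a, ha⟩ := exists_Hi x
  have ha' : Hi (a * 6) x := ha.mono (by omega)
  obtain ⟨k, hk1, hk2⟩ := hd _ ha' (mul_ne_zero (pow_ne_zero _ MF_ne) hx)
  have hP : IsUnit (∏ i, ρ i ^ k i) := IsUnit.prod_univ_iff.2 fun i => (hρ i).1.pow _
  obtain ⟨P, hP'⟩ := hP
  have h1 : (((P⁻¹ : (R F)ˣ) : R F) : F) = ((∏ i, ρ i ^ k i : R F) : F)⁻¹ := by
    refine eq_inv_of_mul_eq_one_left ?_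
    rw [← hP', ← Subring.coe_mul, Units.inv_mul, Subring.coe_one]
  have h2 : (((((Ctx0.M F : ℕ) : R F) ^ a * (P⁻¹ : (R F)ˣ) : R F) : F)) ^ 6 * x =
      MF F ^ (a * 6) * x / ((∏ i, ρ i ^ k i : R F) : F) ^ 6 := by
    rw [Subring.coe_mul, h1, SubmonoidClass.coe_pow, coe_M]; ring
  refine ⟨((Ctx0.M F : ℕ) : R F) ^ a * (P⁻¹ : (R F)ˣ), (isUnit_M.pow a).mul (Units.isUnit _), ?_⟩
  rw [h2]; exact ⟨hk1, hk2⟩
instance : Finite (Cl F) := by
  obtain ⟨K, hK⟩ := exists_balance (F := F)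
  obtain ⟨n, hn⟩ := cla_card (F := F) 3 K
  choose s hs h1 h2 using fun κ : Cl F => hK (rep κ) (rep_ne κ)
  have h0 : ∀ κ, (s κ : F) ^ 6 * rep κ ≠ 0 := fun κ =>
    mul_ne_zero (pow_ne_zero _ (isUnit_iff_inv.1 (hs κ)).1) (rep_ne κ)
  have hc : ∀ κ, cls ((s κ : F) ^ 6 * rep κ) = κ := fun κ => by
    have := cls_omg (Omg.pow_six (hs κ)) (rep κ)
    rwa [cls_rep, SubmonoidClass.coe_pow] at this
  by_contra hf
  have : Infinite (Cl F) := not_finite_iff_infinite.1 hf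
  obtain ⟨t, ht⟩ := Infinite.exists_subset_card_eq (Cl F) (n + 1)
  have := hn t (fun κ => (s κ : F) ^ 6 * rep κ)
    (fun κ _ => ⟨h0 κ, Hi.of_mem K (h1 κ), by rw [Hi, ← div_eq_mul_inv]; exact h2 κ⟩)
    (fun κ _ κ' _ h => by rw [← hc κ, cls_of_inU h, hc κ'])
  omega
noncomputable instance : Fintype (Cl F) := Fintype.ofFinite _
theorem sum_clsI (c : R F) : ∑ κ : Cl F, clsI κ c = 1 := by
  simp [clsI]
theorem exists_pow_cls {x : F} (hx : x ≠ 0) : ∃ j : ℕ, 0 < j ∧ cls (x ^ j) = 1 :=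
  ⟨Fintype.card (Cl F), Fintype.card_pos, by rw [cls_pow hx, pow_card_eq_one]⟩
/-- Uniform bounds for the chosen representatives. -/
theorem exists_rep_bd : ∃ a : ℕ, ∀ κ : Cl F, Hi a (rep κ) ∧ Hi a (rep κ)⁻¹ := by
  choose a ha using fun κ : Cl F => exists_Hi (rep κ)
  choose b hb using fun κ : Cl F => exists_Hi (rep κ)⁻¹
  refine ⟨∑ κ, (a κ + b κ), fun κ => ?_⟩
  have := Finset.single_le_sum (f := fun κ => a κ + b κ) (fun _ _ => Nat.zero_le _)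
    (Finset.mem_univ κ)
  exact ⟨(ha κ).mono (by omega), (hb κ).mono (by omega)⟩
/-- Sums over the units of R. -/
theorem SU_sum {e : ℕ} (he : 1 ≤ e) (a : ℕ) {σ : ℝ} (hσ : 0 < σ) : ∃ C : ℝ, 0 < C ∧
    ∀ z : F, z ≠ 0 →
      Summable (fun s : R F =>
        if s ∈ SU F e ∧ Hi a ((s : F) * z) then nf ((s : F) * z) ^ (-σ) else 0) ∧
      ∑' s : R F, (if s ∈ SU F e ∧ Hi a ((s : F) * z) then nf ((s : F) * z) ^ (-σ) else 0)
        ≤ C := by
  obtain ⟨ρ, H, hρ, hd⟩ := cla_dec (F := F)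
  obtain ⟨n, hn⟩ := cla_card (F := F) e H
  have hρ0 : ∀ i, (ρ i : F) ≠ 0 := fun i => (isUnit_iff_inv.1 (hρ i).1).1
  let r : claS F → ℝ := fun i => (nf (ρ i : F) ^ 6) ^ (-σ)
  have hr0 : ∀ i, 0 ≤ r i := fun i => Real.rpow_nonneg (pow_pos (nf_pos _) _).le _
  have hr1 : ∀ i, r i < 1 := fun i =>
    Real.rpow_lt_one_of_one_lt_of_neg (one_lt_pow₀ (hρ i).2 (by norm_num)) (by linarith)
  have hpr : 0 < ∏ i, (1 - r i)⁻¹ := Finset.prod_pos fun i _ => inv_pos.2 (by linarith [hr1 i])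
  have hMa : 0 < nf (MF F ^ a) ^ σ := Real.rpow_pos_of_pos (nf_pos _) _
  refine ⟨(n + 1) * nf (MF F ^ a) ^ σ * ∏ i, (1 - r i)⁻¹, by positivity, fun z hz => ?_⟩
  have hnn : ∀ s : R F,
      0 ≤ (if s ∈ SU F e ∧ Hi a ((s : F) * z) then nf ((s : F) * z) ^ (-σ) else 0) := fun s => by
    split_ifs
    · exact Real.rpow_nonneg (nf_pos _).le _
    · exact le_rfl
  suffices hb : ∀ t : Finset (R F),
      ∑ s ∈ t, (if s ∈ SU F e ∧ Hi a ((s : F) * z) then nf ((s : F) * z) ^ (-σ) else 0) ≤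
        (n + 1) * nf (MF F ^ a) ^ σ * ∏ i, (1 - r i)⁻¹ from
    ⟨summable_of_sum_le hnn hb, Real.tsum_le_of_sum_le hnn hb⟩
  intro t
  have h1 : ∀ s : R F, ∃ k : claS F → ℕ, s ∈ SU F e ∧ Hi a ((s : F) * z) →
      MF F ^ a * ((s : F) * z) / ((∏ i, ρ i ^ k i : R F) : F) ^ 6 ∈ Ol F ∧
      MF F ^ H / (MF F ^ a * ((s : F) * z) / ((∏ i, ρ i ^ k i : R F) : F) ^ 6) ∈ Ol F := by
    intro s
    by_cases hs : s ∈ SU F e ∧ Hi a ((s : F) * z)
    · obtain ⟨k, hk⟩ := hd _ hs.2 (mul_ne_zero (pow_ne_zero _ MF_ne)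
        (mul_ne_zero (isUnit_iff_inv.1 (SU_unit hs.1)).1 hz))
      exact ⟨k, fun _ => hk⟩
    · exact ⟨0, fun h => absurd h hs⟩
  choose k hk using h1
  have hP0 : ∀ c : claS F → ℕ, ((∏ i, ρ i ^ c i : R F) : F) ≠ 0 := fun c => by
    push_cast
    exact Finset.prod_ne_zero_iff.2 fun i _ => pow_ne_zero _ (hρ0 i)
  have hnf : ∀ c : claS F → ℕ,
      nf (((∏ i, ρ i ^ c i : R F) : F) ^ 6) ^ (-σ) = ∏ i, r i ^ c i := fun c => by
    have h2 : ∀ u : Finset (claS F), nf (∏ i ∈ u, (ρ i : F) ^ c i) =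
        ∏ i ∈ u, nf (ρ i : F) ^ c i := fun u => by
      induction u using Finset.induction_on with
      | empty => simp [nf_one]
      | insert j u hj ih =>
        rw [Finset.prod_insert hj, Finset.prod_insert hj, nf_mul (pow_ne_zero _ (hρ0 j))
          (Finset.prod_ne_zero_iff.2 fun i _ => pow_ne_zero _ (hρ0 i)), nf_pow (hρ0 j), ih]
    rw [nf_pow (hP0 c)]
    push_cast
    rw [h2, ← Finset.prod_pow, ← Real.finsetProd_rpow _ _ fun i _ => (pow_pos (pow_pos (nf_pos _) _) _).le]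
    refine Finset.prod_congr rfl fun i _ => ?_
    rw [← pow_mul, mul_comm, pow_mul, ← Real.rpow_natCast, ← Real.rpow_mul (pow_pos (nf_pos _) _).le,
      mul_comm, Real.rpow_mul (pow_pos (nf_pos _) _).le, Real.rpow_natCast]
  rw [← Finset.sum_filter]
  set t' := t.filter fun s : R F => s ∈ SU F e ∧ Hi a ((s : F) * z) with ht'
  have hm : ∀ s ∈ t', s ∈ SU F e ∧ Hi a ((s : F) * z) := fun s hs => (Finset.mem_filter.1 hs).2
  have h3 : ∀ s ∈ t', nf ((s : F) * z) ^ (-σ) ≤ nf (MF F ^ a) ^ σ * ∏ i, r i ^ k s i := by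
    intro s hs
    have hsz := mul_ne_zero (isUnit_iff_inv.1 (SU_unit (hm s hs).1)).1 hz
    have h4 := nf_le_of_div (mul_ne_zero (pow_ne_zero _ MF_ne) hsz) (pow_ne_zero _ (hP0 _))
      (hk s (hm s hs)).1
    rw [nf_mul (pow_ne_zero _ MF_ne) hsz] at h4
    have h5 := Real.rpow_le_rpow_of_nonpos (nf_pos _) h4 (by linarith : -σ ≤ 0)
    rw [hnf, Real.mul_rpow (nf_pos _).le (nf_pos _).le, Real.rpow_neg (nf_pos _).le,
      inv_mul_le_iff₀ hMa] at h5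
    exact h5
  refine (Finset.sum_le_sum h3).trans ?_
  rw [← Finset.mul_sum, Finset.sum_comp (fun c : claS F → ℕ => ∏ i, r i ^ c i) k]
  have h6 : ∀ c ∈ t'.image k, (t'.filter fun s => k s = c).card • ∏ i, r i ^ c i ≤
      (n + 1) * ∏ i, r i ^ c i := fun c _ => by
    have h7 := hn (t'.filter fun s => k s = c)
      (fun s : R F => MF F ^ a * ((s : F) * z) / ((∏ i, ρ i ^ c i : R F) : F) ^ 6)
      (fun s hs0 => by
        obtain ⟨hs, hc⟩ := Finset.mem_filter.1 hs0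
        rw [← hc]
        refine ⟨div_ne_zero (mul_ne_zero (pow_ne_zero _ MF_ne)
          (mul_ne_zero (isUnit_iff_inv.1 (SU_unit (hm s hs).1)).1 hz)) (pow_ne_zero _ (hP0 _)),
          Hi.of_mem H (hk s (hm s hs)).1, ?_⟩
        rw [Hi, ← div_eq_mul_inv]; exact (hk s (hm s hs)).2)
      (fun s hs s' hs' h => by
        refine cla_su he (hm s (Finset.mem_filter.1 hs).1).1 (hm s' (Finset.mem_filter.1 hs').1).1 ?_
        rwa [div_div_div_cancel_right₀ (pow_ne_zero _ (hP0 _)),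
          mul_div_mul_left _ _ (pow_ne_zero _ MF_ne), mul_div_mul_right _ _ hz] at h)
    rw [nsmul_eq_mul]
    refine mul_le_mul_of_nonneg_right ?_ (Finset.prod_nonneg fun i _ => pow_nonneg (hr0 i) _)
    exact_mod_cast h7.trans (Nat.le_succ n)
  have h8 := (Finset.sum_le_sum h6).trans_eq (Finset.mul_sum _ _ _).symm
  have h9 := cla_geo r hr0 hr1 (t'.image k)
  calc _ ≤ nf (MF F ^ a) ^ σ * ((n + 1) * ∏ i, (1 - r i)⁻¹) :=
        mul_le_mul_of_nonneg_left (h8.trans (mul_le_mul_of_nonneg_left h9 (by positivity))) hMa.le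
    _ = _ := by ring
/-- Some representative has small local norm. -/
theorem SU_small {e : ℕ} (he : 1 ≤ e) (b : ℕ) : ∃ C : ℝ, 0 < C ∧ ∀ z : F, z ≠ 0 →
    ∃ s ∈ SU F e, Lo b ((s : F) * z) ∧ nf ((s : F) * z) ≤ C := by
  obtain ⟨K, hK⟩ := exists_balance (F := F)
  refine ⟨nf (MF F ^ b) * nf (MF F ^ K), mul_pos (nf_pos _) (nf_pos _), fun z hz => ?_⟩
  obtain ⟨t, ht, h1, h2⟩ := hK z hz
  obtain ⟨s, ⟨hs, hs'⟩, -⟩ := SU_ex he ((isUnit_M.pow b).mul (ht.pow 6))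
  have hc : ((((Ctx0.M F : ℕ) : R F) ^ b * t ^ 6 : R F) : F) = MF F ^ b * (t : F) ^ 6 := by
    rw [Subring.coe_mul, SubmonoidClass.coe_pow, SubmonoidClass.coe_pow, coe_M]
  rw [hc] at hs'
  have ht0 : (t : F) ≠ 0 := (isUnit_iff_inv.1 ht).1
  have htz : (t : F) ^ 6 * z ≠ 0 := mul_ne_zero (pow_ne_zero _ ht0) hz
  have hM := MF_ne (F := F)
  have h3 := InU.symm he hs'
  refine ⟨s, hs, ?_, ?_⟩
  · have h4 : (s : F) * z = (s : F) / (MF F ^ b * (t : F) ^ 6) * (MF F ^ b * ((t : F) ^ 6 * z)) := by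
      field_simp
    rw [h4]
    exact ((Lo_MF_pow b).mul_right h1).mul_left h3.mem
  · have h4 : InU e ((s : F) * z / (MF F ^ b * ((t : F) ^ 6 * z))) := by
      rwa [← mul_assoc, mul_div_mul_right _ _ hz]
    rw [nf_eq_of_inU he h4, nf_mul (pow_ne_zero _ hM) htz]
    exact mul_le_mul_of_nonneg_left (nf_le_of_div (pow_ne_zero _ hM) htz h2) (nf_pos _).le
/-- The pairs (s, κ) parametrise the cosets of the local units. -/
theorem exists_coset {z : F} (hz : z ≠ 0) :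
    ∃ p : R F × Cl F, p.1 ∈ SU F 3 ∧ Omg p.1 ∧ p.2 = cls z ∧ InU 3 (z / ((p.1 : F) * rep p.2)) := by
  obtain ⟨u, hu, h1⟩ := (cls_eq_iff hz (rep_ne (cls z))).1 (cls_rep _).symm
  obtain ⟨v, hv, huv⟩ := hu.exists_inv
  obtain ⟨s, ⟨hs, hs'⟩, -⟩ := SU_ex (e := 3) (by norm_num) hv.1
  have hv0 := hv.coe_ne
  have hs0 : (s : F) ≠ 0 := (isUnit_iff_inv.1 (SU_unit hs)).1
  have huv' : (u : F) * v = 1 := by rw [← Subring.coe_mul, huv, Subring.coe_one]
  refine ⟨(s, cls z), hs, ⟨SU_unit hs, ?_⟩, rfl, ?_⟩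
  · have h2 := hv.2.mul (S6.of_inU (InU.symm (by norm_num) hs'))
    rwa [mul_div_cancel₀ _ hv0] at h2
  · have h2 := InU.mul_div hs' h1
    rwa [← mul_assoc, mul_comm (v : F), huv', one_mul] at h2
theorem coset_unique {s s' : R F} {κ κ' : Cl F} (hs : s ∈ SU F 3) (hs' : s' ∈ SU F 3) (ho : Omg s)
    (ho' : Omg s') (h : InU 3 ((s : F) * rep κ / ((s' : F) * rep κ'))) : s = s' ∧ κ = κ' := by
  have h1 := cls_of_inU h
  rw [cls_omg ho, cls_omg ho', cls_rep, cls_rep] at h1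
  subst h1
  rw [mul_div_mul_right _ _ (rep_ne κ)] at h
  exact ⟨cla_su (by norm_num) hs hs' h, rfl⟩
/-- Only finitely many units have valuations in a bounded range. -/
theorem SU_finite {e : ℕ} (he : 1 ≤ e) (a : ℕ) {z : F} (hz : z ≠ 0) :
    {s : R F | s ∈ SU F e ∧ Hi a ((s : F) * z) ∧ Hi a ((s : F) * z)⁻¹}.Finite := by
  obtain ⟨n, hn⟩ := cla_card (F := F) e a
  by_contra hf
  obtain ⟨t, ht, hc⟩ := Set.Infinite.exists_subset_card_eq hf (n + 1)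
  have := hn t (fun s : R F => (s : F) * z)
    (fun s hs => ⟨mul_ne_zero (isUnit_iff_inv.1 (SU_unit (ht hs).1)).1 hz, (ht hs).2⟩)
    (fun s hs s' hs' h => cla_su he (ht hs).1 (ht hs').1 (by rwa [mul_div_mul_right _ _ hz] at h))
  omega

end Vale.Agent.P319B
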