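import Vale.Agent.P319B.Count
import Vale.Agent.P319B.Cls

/-! Equidistribution of normalised generators in ideal classes. -/

namespace Vale.Agent.P319B

open Complex NumberField Filter Topology
open scoped Classical ComplexConjugate
open Vale.Agent.P026 (w kk fk)

variable {F : Type} [Field F] [NumberField F] [Ctx F]

theorem cntB_cl : ∃ f : F → ClassGroup (𝓞 F),
    (∀ x y : F, x ≠ 0 → y ≠ 0 → (SameO x y ↔ f x = f y)) ∧
      ∀ m : R F, m ≠ 0 → f m = ClassGroup.mk0 (cntJ m) := by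
  have h := fun z : F => cntC_exists (z := z)
  choose! g hg hg' using h
  refine ⟨fun z => ClassGroup.mk0 (cntJ (g z)), fun x y hx hy => ?_, fun m hm => ?_⟩
  · rw [← cntC_same (hg x hx) (hg y hy)]
    exact ⟨fun h => ((hg' x hx).trans h).trans (hg' y hy).symm,
      fun h => ((hg' x hx).symm.trans h).trans (hg' y hy)⟩
  · have h0 : (m : F) ≠ 0 := fun h => hm (Subtype.ext h)
    exact (cntC_same (hg _ h0) hm).1 (hg' _ h0)

/-- A finite set of representatives for SameO. -/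
theorem exists_sameO_reps : ∃ Z : Finset F, (∀ z ∈ Z, z ≠ 0) ∧
    ∀ x : F, x ≠ 0 → ∃! z, z ∈ Z ∧ SameO x z := by
  obtain ⟨f, hf, -⟩ := cntB_cl (F := F)
  have h : ∀ C : ClassGroup (𝓞 F), (∃ x, x ≠ 0 ∧ f x = C) → ∃ x, x ≠ 0 ∧ f x = C :=
    fun _ h => h
  choose! g hg hg' using h
  refine ⟨(Finset.univ.filter fun C => ∃ x, x ≠ 0 ∧ f x = C).image g, fun z hz => ?_,
    fun x hx => ⟨g (f x), ⟨?_, ?_⟩, ?_⟩⟩
  · obtain ⟨C, hC, rfl⟩ := Finset.mem_image.1 hz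
    exact hg C (Finset.mem_filter.1 hC).2
  · exact Finset.mem_image_of_mem _ (Finset.mem_filter.2 ⟨Finset.mem_univ _, x, hx, rfl⟩)
  · exact (hf _ _ hx (hg _ ⟨x, hx, rfl⟩)).2 (hg' _ ⟨x, hx, rfl⟩).symm
  · rintro z ⟨hz, h⟩
    obtain ⟨C, hC, rfl⟩ := Finset.mem_image.1 hz
    have h1 := (Finset.mem_filter.1 hC).2
    rw [(hf _ _ hx (hg C h1)).1 h, hg' C h1]
theorem tendsto_card_cls : ∃ c : ℝ, 0 < c ∧ ∀ z : F, z ≠ 0 →
    Tendsto (fun X : ℝ => (((ball F X).filter (fun m : R F => SameO (m : F) z)).card : ℝ) / X)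
      atTop (𝓝 c) := by
  obtain ⟨f, hf, hf'⟩ := cntB_cl (F := F)
  obtain ⟨c, hc, h⟩ := cntA_cop (cntM_ne (F := F))
  refine ⟨c, hc, fun z hz => (h (f z)).congr fun X => ?_⟩
  rw [← cntC_card]
  congr 3
  refine Finset.filter_congr fun m hm => ?_
  have h1 := (mem_ball.1 hm).1
  rw [hf _ _ h1.coe_ne hz, hf' m h1.ne_zero]
theorem card_P1_ge : ∃ c : ℝ, 0 < c ∧ ∀ Z : ℝ, 1 ≤ Z → c * Z ≤ ((ball F Z).card : ℝ) := by
  obtain ⟨c, hc, h⟩ := tendsto_card_cls (F := F)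
  obtain ⟨Z0, hZ0⟩ :=
    eventually_atTop.1 ((h 1 one_ne_zero).eventually (lt_mem_nhds (half_lt_self hc)))
  refine ⟨min (c / 2) (max Z0 1)⁻¹, lt_min (by linarith) (by positivity), fun Z hZ => ?_⟩
  rcases le_total Z0 Z with h1 | h1
  · have := (lt_div_iff₀ (by linarith)).1 (hZ0 Z h1)
    exact ((mul_le_mul_of_nonneg_right (min_le_left _ _) (by linarith)).trans this.le).trans
      (Nat.cast_le.2 (Finset.card_filter_le _ _))
  · have h2 : (1 : ℝ) ≤ (ball F Z).card :=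
      Nat.one_le_cast.2 (Finset.card_pos.2 ⟨1, mem_ball.2 ⟨P1.one, by rwa [N_one]⟩⟩)
    refine ((mul_le_mul_of_nonneg_right (min_le_right _ _) (by linarith)).trans ?_).trans h2
    rw [inv_mul_le_iff₀ (by positivity), mul_one]
    exact h1.trans (le_max_left _ _)

end Vale.Agent.P319B
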