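import Vale.Agent.P319B.PtwA

/-! From automorphy to the Voronoi identity. -/

namespace Vale.Agent.P319B

open Complex NumberField MeasureTheory Filter Topology
open scoped Classical ComplexConjugate
open Vale.Agent.P026 (w kk fk)

variable {F : Type} [Field F] [NumberField F] [Ctx0 F]

/-- The expansion as a function on forms. -/
noncomputable def ptwH (c : (Io F → ℝ) × (Io F → ℝ) → ℂ) (τ : R F → ℂ) (Q : HF F) : ℂ :=
  c (fun v => (Q v).2.2, fun v => dlt (Q v)) +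
    Ser τ (fun v => (Q v).2.1 / ((Q v).2.2 : ℂ)) (fun v => (Q v).2.2) (fun v => dlt (Q v))
/-- The new height up to a constant. -/
noncomputable def ptwS (x : Io F → ℂ) (D E : Io F → ℝ) : Io F → ℝ :=
  fun v => D v * normSq (x v) + E v / D v
/-- The odd displacement. -/
noncomputable def ptwW (c : F) (x : Io F → ℂ) (D S : Io F → ℝ) : Io F → ℂ :=
  fun v => -((D v : ℂ) * conj (x v) / (v.1 c ^ 2 * (S v : ℂ)))

theorem ptwH_pt (c : (Io F → ℝ) × (Io F → ℝ) → ℂ) (τ : R F → ℂ) (z : Io F → ℂ) {D : Io F → ℝ}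
    (hD : ∀ v, 0 < D v) (E : Io F → ℝ) : ptwH c τ (pt z D E) = c (D, E) + Ser τ z D E := by
  have h1 : (fun v => (pt z D E v).2.1 / ((pt z D E v).2.2 : ℂ)) = z :=
    funext fun v => mul_div_cancel_left₀ (z v) (ofReal_ne_zero.2 (hD v).ne')
  have h2 : (fun v => dlt (pt z D E v)) = E := funext (dlt_pt z hD E)
  rw [ptwH, h1, h2]; rfl

theorem ptw_ae_map {f : (Io F → ℂ) → Io F → ℂ} (hf : MeasurePreserving f volume volume)
    {P : (Io F → ℂ) × (Io F → ℝ) × (Io F → ℝ) → Prop}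
    (h : ∀ᵐ x ∂(volume.restrict (Set.univ ×ˢ DE F)), P x) :
    ∀ᵐ x ∂(volume.restrict (Set.univ ×ˢ DE F)), P (f x.1, x.2) := by
  rw [prod_DE] at h ⊢
  exact (hf.prod (MeasurePreserving.id _)).quasiMeasurePreserving.ae h

theorem ptwS_pos (x : Io F → ℂ) {D E : Io F → ℝ} (hD : ∀ v, 0 < D v) (hE : ∀ v, 0 < E v)
    (v : Io F) : 0 < ptwS x D E v :=
  add_pos_of_nonneg_of_pos (mul_nonneg (hD v).le (normSq_nonneg _)) (div_pos (hE v) (hD v))

theorem ptw_exp {θ : HF F → ℂ} {τ : R F → ℂ} (h : IsExp θ τ) :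
    ∃ c, ∀ᵐ Q ∂(nu F), θ Q = ptwH c τ Q := by
  obtain ⟨c, hc⟩ := h
  refine ⟨c, ae_of_pt ?_⟩
  filter_upwards [hc, ae_restrict_mem (MeasurableSet.univ.prod measurableSet_DE)] with x h1 h2
  rw [ptwH_pt c τ _ h2.2.1, h1]

theorem ptw_odd {θ1 θ2 : HF F → ℂ} {τ1 τ2 : R F → ℂ} (h1 : IsExp θ1 τ1) (h2 : IsExp θ2 τ2)
    (g1 : Gr τ1) (g2 : Gr τ2) {g : GM F} (hu : g.u = 1) (hc : g.c ≠ 0) {lam : ℂ}
    (h : ∀ᵐ Q ∂(nu F), θ1 Q = lam * θ2 (act g⁻¹ Q)) (x : Io F → ℂ) {D E : Io F → ℝ}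
    (hD : ∀ v, 0 < D v) (hE : ∀ v, 0 < E v) (a1 : 1 < ∏ v, E v) (a2 : ∏ v, E v < 2) :
    ptwAlt τ1 (emb ((g.a : F) / g.c)) x D E = lam * ptwAlt τ2 (emb (-(g.d : F) / g.c))
      (ptwW (g.c : F) x D (ptwS x D E)) (fun v => sqv (g.c : F) v * ptwS x D E v) E := by
  obtain ⟨c1, e1⟩ := ptw_exp h1
  obtain ⟨c2, e2⟩ := ptw_exp h2
  have hc0 : (g.c : F) ≠ 0 := fun h => hc (Subtype.ext h)
  have e3 := (measurePreserving_act (g := g⁻¹)
    (by rw [GM.inv_u, hu, inv_one]; exact Nin_one)).quasiMeasurePreserving.ae e2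
  have e4 : ∀ᵐ Q ∂(nu F), ptwH c1 τ1 Q = lam * ptwH c2 τ2 (act g⁻¹ Q) := by
    filter_upwards [e1, e3, h] with Q b1 b2 b3
    rw [← b1, ← b2, b3]
  have e5 := ptw_ae_map (measurePreserving_add_left volume (emb ((g.a : F) / g.c))) (ae_pt e4)
  have e6 := ae_all_iff.2 fun ε : Io F → Bool => ptw_ae_map (ptw_mp ε) e5
  have cS : ContinuousOn (fun p : (Io F → ℂ) × (Io F → ℝ) × (Io F → ℝ) => ptwS p.1 p.2.1 p.2.2)
      {p | (∀ v, 0 < p.2.1 v) ∧ ∀ v, 0 < p.2.2 v} :=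
    continuousOn_pi.2 fun v => (Continuous.continuousOn (by fun_prop)).add (ContinuousOn.div
      (Continuous.continuousOn (by fun_prop)) (Continuous.continuousOn (by fun_prop))
      fun p hp => (hp.1 v).ne')
  refine eq_of_ae_DE (f := fun p => ptwAlt τ1 (emb ((g.a : F) / g.c)) p.1 p.2.1 p.2.2)
    (g := fun p => lam * ptwAlt τ2 (emb (-(g.d : F) / g.c))
      (ptwW (g.c : F) p.1 p.2.1 (ptwS p.1 p.2.1 p.2.2)) (fun v => sqv (g.c : F) v * ptwS p.1 p.2.1 p.2.2 v)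
      p.2.2) ?_ ?_ ?_ x hD hE a1 a2
  · filter_upwards [e6, ae_restrict_mem (MeasurableSet.univ.prod measurableSet_DE)] with p b1 b2
    have b3 : ∀ v, 0 < sqv (g.c : F) v * ptwS p.1 p.2.1 p.2.2 v := fun v =>
      mul_pos (sqv_pos hc0 v) (ptwS_pos _ b2.2.1 b2.2.2.1 v)
    have b4 : ∀ ε : Io F → Bool, Ser τ1 (emb ((g.a : F) / g.c) + ptwFl ε p.1) p.2.1 p.2.2 =
        (lam * c2 (fun v => sqv (g.c : F) v * ptwS p.1 p.2.1 p.2.2 v, p.2.2) - c1 p.2) +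
        lam * Ser τ2 (emb (-(g.d : F) / g.c) + ptwFl ε (ptwW (g.c : F) p.1 p.2.1 (ptwS p.1 p.2.1 p.2.2)))
          (fun v => sqv (g.c : F) v * ptwS p.1 p.2.1 p.2.2 v) p.2.2 := fun ε => by
      have b5 := b1 ε
      have b6 : (fun v : Io F => v.1 (-(g.d : F) / g.c) - (p.2.1 v : ℂ) * conj (ptwFl ε p.1 v) /
          (v.1 (g.c : F) ^ 2 * ((ptwS p.1 p.2.1 p.2.2 v : ℝ) : ℂ))) =
          emb (-(g.d : F) / g.c) + ptwFl ε (ptwW (g.c : F) p.1 p.2.1 (ptwS p.1 p.2.1 p.2.2)) := by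
        funext v
        rw [ptw_conj]
        simp only [Pi.add_apply, emb, ptwFl, ptwW]; ring
      rw [act_inv_pt hu hc _ b2.2.1 b2.2.2.1, ptwH_pt _ _ _ b2.2.1] at b5
      simp only [ptw_normSq] at b5
      rw [← b6]
      have b7 := b5.trans (congrArg (lam * ·) (ptwH_pt c2 τ2 _ b3 _))
      exact (eq_sub_of_add_eq' b7).trans (by simp only [ptwS, Prod.mk.eta]; ring)
    simp only [ptwAlt, b4, mul_add, Finset.sum_add_distrib, ← Finset.sum_mul, ptw_sg0, zero_mul,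
      zero_add, Finset.mul_sum, mul_left_comm lam]
  · exact ptw_cont g1 _ continuousOn_fst (Continuous.continuousOn (by fun_prop))
      (Continuous.continuousOn (by fun_prop)) fun p hp => hp
  · refine continuousOn_const.mul (ptw_cont g2 _ (continuousOn_pi.2 fun v => ?_)
      (continuousOn_pi.2 fun v => continuousOn_const.mul (continuousOn_pi.1 cS v))
      (Continuous.continuousOn (by fun_prop)) fun p hp =>
        ⟨fun v => mul_pos (sqv_pos hc0 v) (ptwS_pos _ hp.1 hp.2 v), hp.2⟩)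
    exact (ContinuousOn.div (Continuous.continuousOn (by fun_prop)) (continuousOn_const.mul
      (continuous_ofReal.comp_continuousOn (continuousOn_pi.1 cS v))) fun p hp =>
        mul_ne_zero (pow_ne_zero 2 ((map_ne_zero v.1).2 hc0))
          (ofReal_ne_zero.2 (ptwS_pos _ hp.1 hp.2 v).ne')).neg

theorem ptw_der {θ1 θ2 : HF F → ℂ} {τ1 τ2 : R F → ℂ} (h1 : IsExp θ1 τ1) (h2 : IsExp θ2 τ2)
    (g1 : Gr τ1) (g2 : Gr τ2) {g : GM F} (hu : g.u = 1) (hc : g.c ≠ 0) {lam : ℂ}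
    (h : ∀ᵐ Q ∂(nu F), θ1 Q = lam * θ2 (act g⁻¹ Q)) (u : Io F → ℂ) {X : Io F → ℝ}
    (hX : ∀ v, 0 < X v) : ptwG τ1 (emb ((g.a : F) / g.c)) u X 0 =
      lam * ptwG τ2 (emb (-(g.d : F) / g.c))
        (fun v => -(conj (u v) / (v.1 (g.c : F) ^ 2 * (X v : ℂ) ^ 2)))
        (fun v => 1 / (sqv (g.c : F) v * X v)) 0 := by
  have hc0 : (g.c : F) ≠ 0 := fun h => hc (Subtype.ext h)
  obtain ⟨e, he0, he⟩ : ∃ e : ℝ, 0 < e ∧ (e ^ 2) ^ rr F = 3 / 2 :=
    ⟨√((3 / 2 : ℝ) ^ ((rr F : ℝ)⁻¹)), by positivity, by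
      rw [Real.sq_sqrt (by positivity), Real.rpow_inv_natCast_pow (by norm_num) rr_pos.ne']⟩
  obtain ⟨D, hD⟩ : ∃ D : Io F → ℝ, D = fun v => e / X v := ⟨_, rfl⟩
  have hD0 : ∀ v, 0 < D v := fun v => by rw [hD]; exact div_pos he0 (hX v)
  have hE0 : ∀ _ : Io F, 0 < e ^ 2 := fun _ => pow_pos he0 2
  have hP : ∏ _v : Io F, e ^ 2 = 3 / 2 := by rw [Finset.prod_const, Finset.card_univ]; exact he
  obtain ⟨S, hS⟩ : ∃ S : ℝ → Io F → ℝ, S = fun t : ℝ => ptwS (fun v => t * u v) D fun _ => e ^ 2 :=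
    ⟨_, rfl⟩
  have hS0 : ∀ t v, 0 < S t v := fun t v => by rw [hS]; exact ptwS_pos _ hD0 hE0 v
  have cS : Continuous S := by rw [hS]; unfold ptwS; fun_prop
  have hSz : ∀ v, S 0 v = e * X v := fun v => by
    have := (hX v).ne'
    simp only [hS, ptwS, hD, ofReal_zero, zero_mul, map_zero, mul_zero, zero_add]
    field_simp
  have t1 := ptw_lim g1 (emb ((g.a : F) / g.c)) (y := fun _ => u) (X := fun _ => X)
    continuousAt_const continuousAt_const hX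
  have t2 := ptw_lim g2 (emb (-(g.d : F) / g.c)) (y := fun t => ptwW (g.c : F) u D (S t))
    (X := fun t v => e / (sqv (g.c : F) v * S t v))
    (continuousAt_pi.2 fun v => (ContinuousAt.div (f := fun _ => (D v : ℂ) * conj (u v))
      (g := fun t => v.1 (g.c : F) ^ 2 * (S t v : ℂ)) continuousAt_const (by fun_prop)
      (mul_ne_zero (pow_ne_zero 2 ((map_ne_zero v.1).2 hc0)) (ofReal_ne_zero.2 (hS0 0 v).ne'))).neg)
    (continuousAt_pi.2 fun v => continuousAt_const.div (by fun_prop)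
      (mul_pos (sqv_pos hc0 v) (hS0 0 v)).ne')
    fun v => div_pos he0 (mul_pos (sqv_pos hc0 v) (hS0 0 v))
  have key := tendsto_nhds_unique_of_eventuallyEq
    (t1.tendsto.mono_left (nhdsWithin_le_nhds (s := Set.Ioi 0)))
    ((t2.tendsto.mono_left (nhdsWithin_le_nhds (s := Set.Ioi 0))).const_mul lam) (by
      filter_upwards [self_mem_nhdsWithin] with t ht
      have a := ptw_odd h1 h2 g1 g2 hu hc h (fun v => t * u v) hD0 hE0 (by rw [hP]; norm_num)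
        (by rw [hP]; norm_num)
      have a1 : ptwW (g.c : F) (fun v => t * u v) D (S t) = fun v => t * ptwW (g.c : F) u D (S t) v := by
        funext v; simp only [ptwW, map_mul, conj_ofReal]; ring
      have a2 : (fun v => √(e ^ 2) / D v) = X := by
        funext v
        have := (hX v).ne'
        rw [Real.sqrt_sq he0.le, hD]; field_simp
      have a3 : ptwS (fun v => t * u v) D (fun _ => e ^ 2) = S t := by rw [hS]
      rw [a3, a1, ptw_alt g1 _ _ hD0 hE0, a2,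
        ptw_alt g2 _ _ (fun v => mul_pos (sqv_pos hc0 v) (hS0 t v)) hE0, mul_left_comm lam,
        Real.sqrt_sq he0.le] at a
      refine mul_left_cancel₀ (mul_ne_zero (ofReal_ne_zero.2 (Finset.prod_pos fun v _ =>
        Real.rpow_pos_of_pos (hE0 v) _).ne') (pow_ne_zero _ (mul_ne_zero (mul_ne_zero ?_ I_ne_zero)
          (ofReal_ne_zero.2 (ne_of_gt ht))))) a
      exact mul_ne_zero (by norm_num) (ofReal_ne_zero.2 Real.pi_ne_zero))
  have a4 : ptwW (g.c : F) u D (S 0) = fun v => -(conj (u v) / (v.1 (g.c : F) ^ 2 * (X v : ℂ) ^ 2)) := by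
    funext v
    have := ofReal_ne_zero.2 (hX v).ne'
    have := ofReal_ne_zero.2 he0.ne'
    have := (map_ne_zero v.1).2 hc0
    simp only [ptwW, hSz, hD]; push_cast; field_simp
  have a5 : (fun v => e / (sqv (g.c : F) v * S 0 v)) = fun v => 1 / (sqv (g.c : F) v * X v) := by
    funext v
    have := (hX v).ne'
    have := (sqv_pos hc0 v).ne'
    rw [hSz]; field_simp
  rw [a4, a5] at key
  exact key

theorem ptw_w1 (o : Bool) (a : ℂ) :
    ∑ b : Bool, ptwWt o b * ((a * ptwU b).re : ℂ) = if o then a else conj a := by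
  cases o <;> apply Complex.ext <;> simp [ptwWt, ptwU]

theorem ptw_w2 (o : Bool) (a : ℂ) {c : ℂ} (hc : c ≠ 0) {x : ℝ} (hx : 0 < x) :
    ∑ b : Bool, ptwWt o b * ((a * -(conj (ptwU b) / (c ^ 2 * (x : ℂ) ^ 2))).re : ℂ) =
      (if !o then a else conj a) *
        (-1 * ((if o then c else conj c) / (‖c‖ : ℂ)) ^ 2 * ((1 / (normSq c * x) : ℝ) / x)) := by
  have h1 : ∑ b : Bool, ptwWt o b * ((a * -(conj (ptwU b) / (c ^ 2 * (x : ℂ) ^ 2))).re : ℂ) =
      -(if o then conj (a / (c ^ 2 * (x : ℂ) ^ 2)) else a / (c ^ 2 * (x : ℂ) ^ 2)) := by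
    have h2 : ∀ b, a * -(conj (ptwU b) / (c ^ 2 * (x : ℂ) ^ 2)) =
        -(a / (c ^ 2 * (x : ℂ) ^ 2) * conj (ptwU b)) := fun b => by ring
    simp only [h2]
    generalize a / (c ^ 2 * (x : ℂ) ^ 2) = y
    cases o <;> apply Complex.ext <;> simp [ptwWt, ptwU]
  have h3 : conj c ≠ 0 := (map_ne_zero _).2 hc
  have h4 : (x : ℂ) ≠ 0 := ofReal_ne_zero.2 hx.ne'
  have h5 : (‖c‖ : ℂ) ^ 2 = c * conj c := by rw [mul_conj, normSq_eq_norm_sq, ofReal_pow]
  rw [h1, div_pow, h5]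
  push_cast
  rw [← mul_conj]
  cases o
  · simp only [Bool.false_eq_true, if_false, Bool.not_false, if_true]; field_simp
  · simp only [Bool.false_eq_true, if_false, Bool.not_true, if_true, map_div₀, map_mul, map_pow,
      conj_ofReal]
    field_simp

theorem ptw {θ1 θ2 : HF F → ℂ} {τ1 τ2 : R F → ℂ} (h1 : IsExp θ1 τ1) (h2 : IsExp θ2 τ2)
    (g1 : Gr τ1) (g2 : Gr τ2) {g : GM F} (hu : g.u = 1) (hc : g.c ≠ 0) {lam : ℂ}
    (h : ∀ᵐ Q ∂(nu F), θ1 Q = lam * θ2 (act g⁻¹ Q)) (o : Bool) :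
    VorV (fun r => τ1 r * angI o (r : F) * eT ((r : F) * g.a / g.c))
      (fun r => τ2 r * angI (!o) (r : F) * eT (-((r : F) * g.d / g.c))) (g.c : F)
      ((-1) ^ rr F * lam * angI o (g.c : F) ^ 2) := by
  intro X hX
  have hc0 : (g.c : F) ≠ 0 := fun h => hc (Subtype.ext h)
  have k1 := ptw_comb g1 (emb ((g.a : F) / g.c)) hX (fun _ b => ptwU b) o
  have k2 := ptw_comb g2 (emb (-(g.d : F) / g.c)) (X := fun v => 1 / (sqv (g.c : F) v * X v))
    (fun v => one_div_pos.2 (mul_pos (sqv_pos hc0 v) (hX v)))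
    (fun v b => -(conj (ptwU b) / (v.1 (g.c : F) ^ 2 * (X v : ℂ) ^ 2))) o
  rw [Finset.sum_congr rfl fun δ _ => by rw [ptw_der h1 h2 g1 g2 hu hc h _ hX, mul_left_comm],
    ← Finset.mul_sum, k2] at k1
  obtain ⟨K, hK⟩ : ∃ K : ℂ, K = ∏ v : Io F, (-1 * ((if o then v.1 (g.c : F) else conj (v.1 (g.c : F))) /
      (‖v.1 (g.c : F)‖ : ℂ)) ^ 2 * ((1 / (sqv (g.c : F) v * X v) : ℝ) / X v)) := ⟨_, rfl⟩
  have k3 : ∀ r : F, ∏ v : Io F, (∑ b : Bool, ptwWt o b * ((v.1 r *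
      -(conj (ptwU b) / (v.1 (g.c : F) ^ 2 * (X v : ℂ) ^ 2))).re : ℂ)) / (‖v.1 r‖ : ℂ) =
      angI (!o) r * K := fun r => by
    rw [hK, angI, ← Finset.prod_mul_distrib]
    refine Finset.prod_congr rfl fun v _ => ?_
    rw [ptw_w2 o _ ((map_ne_zero v.1).2 hc0) (hX v), mul_div_right_comm]; rfl
  have k4 : ((∏ v, X v : ℝ) : ℂ) * K = (-1) ^ rr F * angI o (g.c : F) ^ 2 *
      ((∏ v, 1 / (sqv (g.c : F) v * X v) : ℝ) : ℂ) := by
    rw [hK, angI, rr, ← Finset.card_univ, ← Finset.prod_const, ofReal_prod, ofReal_prod,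
      ← Finset.prod_pow, ← Finset.prod_mul_distrib, ← Finset.prod_mul_distrib,
      ← Finset.prod_mul_distrib]
    refine Finset.prod_congr rfl fun v _ => ?_
    rw [mul_left_comm, mul_div_cancel₀ _ (ofReal_ne_zero.2 (hX v).ne')]
  simp only [ptw_w1, k3] at k1
  have k5 : ∑' r : R F, τ1 r * angI o (r : F) * eT ((r : F) * g.a / g.c) *
      ((∏ v, kp (‖v.1 (r : F)‖ * X v) : ℝ) : ℂ) =
      lam * (K * ∑' r : R F, τ2 r * angI (!o) (r : F) * eT (-((r : F) * g.d / g.c)) *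
        ((∏ v, kp (‖v.1 (r : F)‖ * (1 / (sqv (g.c : F) v * X v))) : ℝ) : ℂ)) := by
    rw [← tsum_mul_left (a := K)]
    refine (tsum_congr fun r => ?_).trans (k1.symm.trans (congrArg _ (tsum_congr fun r => ?_)))
    · rw [mul_div_assoc, eT_eq_eA, angI]; ring
    · rw [mul_div_assoc, ← mul_neg, ← neg_div, eT_eq_eA]; ring
  rw [PhiV, PhiV, k5]
  linear_combination (lam * ∑' r : R F, τ2 r * angI (!o) (r : F) * eT (-((r : F) * g.d / g.c)) *
    ((∏ v, kp (‖v.1 (r : F)‖ * (1 / (sqv (g.c : F) v * X v))) : ℝ) : ℂ)) * k4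

end Vale.Agent.P319B
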