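import Vale.Agent.P319B.Res2

/-! Hecke relations and the formula for the residues. -/

namespace Vale.Agent.P319B

open Complex NumberField
open scoped Classical ComplexConjugate
open Vale.Agent.P026 (w kk fk)

variable {F : Type} [Field F] [NumberField F] [Ctx F]

/-- The normalised residue. -/
noncomputable def hkw (y : F) (r : R F) : ℂ := ((nf y ^ (1 / 3 : ℝ) : ℝ) : ℂ) * rho y r

/-- The sixth root of the norm. -/
noncomputable def hkn (c : R F) : ℝ := N c ^ (1 / 6 : ℝ)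

theorem hkn_pos {c : R F} (hc : c ≠ 0) : 0 < hkn c := Real.rpow_pos_of_pos (N_pos hc) _

theorem hkn_ne {c : R F} (hc : c ≠ 0) : (hkn c : ℂ) ≠ 0 := by exact_mod_cast (hkn_pos hc).ne'

theorem hkn_pow (c : R F) (k : ℕ) : hkn c ^ k = N c ^ ((k : ℝ) / 6) := by
  rw [hkn, ← Real.rpow_natCast, ← Real.rpow_mul (N_nonneg c)]
  congr 1
  ring

theorem hkn_six (c : R F) : (N c : ℂ) = (hkn c : ℂ) ^ 6 := by
  have := hkn_pow c 6
  norm_num at this
  exact_mod_cast this.symm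

theorem hkn_three (c : R F) : (ab c : ℂ) = (hkn c : ℂ) ^ 3 := by
  have := hkn_pow c 3
  rw [show ((3 : ℕ) : ℝ) / 6 = 1 / 2 by norm_num, ← Real.sqrt_eq_rpow] at this
  exact_mod_cast this.symm

theorem hkn_mul (c d : R F) : hkn (c * d) = hkn c * hkn d := by
  rw [hkn, N_mul, Real.mul_rpow (N_nonneg _) (N_nonneg _)]
  rfl

theorem hkn_unit {c : R F} (hc : IsUnit c) : hkn c = 1 := by
  rw [hkn, N_unit hc, Real.one_rpow]

theorem hkn_pow' (c : R F) (k : ℕ) : hkn (c ^ k) = hkn c ^ k := by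
  induction k with
  | zero => simpa using hkn_unit isUnit_one
  | succ k ih => rw [pow_succ, hkn_mul, ih, pow_succ]

theorem hkw_split {p : R F} (hp : Prime p) {y : F} (hy : y ≠ 0) {r : R F} (hr : r ≠ 0) {n : ℕ}
    (hn : ¬ p ^ n ∣ r) :
    hkw y r * ((hkn p : ℂ) ^ 6 + 1) = (hkn p : ℂ) ^ 6 * ∑ k ∈ Finset.range (n + 1),
      B3 y (p : F) ^ k * gauss (fun u => cub u p ^ k) (p ^ k) r / ((hkn p : ℂ) ^ 8) ^ k *
        hkw (y / (p : F) ^ k) (r * p ^ k) := by
  have hp0 : (p : F) ≠ 0 := rs2_coe_ne hp.ne_zero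
  have hν := hkn_ne hp.ne_zero
  have h1 : (hkn p : ℂ) ^ 6 + 1 ≠ 0 := by
    have := hkn_pos hp.ne_zero
    exact_mod_cast (by positivity : hkn p ^ 6 + 1 ≠ 0)
  have key : ∀ k : ℕ, nf y ^ (1 / 3 : ℝ) * Nin (p : F) ^ (-(k : ℝ) / 3) * (hkn p ^ 2) ^ k =
      nf (y / (p : F) ^ k) ^ (1 / 3 : ℝ) := by
    intro k
    have a1 := nf_pos y
    have a2 := nf_pos (p : F)
    have a3 := N_pos hp.ne_zero
    rw [← pow_mul, hkn_pow, nf_div hy (pow_ne_zero k hp0), nf_pow hp0, Nin_eq_N_mul,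
      Real.mul_rpow a3.le a2.le, Real.div_rpow a1.le (by positivity), ← Real.rpow_natCast,
      ← Real.rpow_mul a2.le, div_eq_mul_inv (nf y ^ (1 / 3 : ℝ)), ← Real.rpow_neg a2.le]
    have e : N p ^ (-(k : ℝ) / 3) * N p ^ (((2 * k : ℕ) : ℝ) / 6) = 1 := by
      rw [← Real.rpow_add a3, ← Real.rpow_zero (N p)]
      congr 1
      push_cast
      ring
    rw [show -((k : ℝ) * (1 / 3)) = -(k : ℝ) / 3 by ring]
    linear_combination (nf y ^ (1 / 3 : ℝ) * nf (p : F) ^ (-(k : ℝ) / 3)) * e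
  rw [hkw, rho_split hp hy hr hn]
  push_cast
  rw [hkn_six, mul_left_comm, mul_assoc, mul_comm _ ((hkn p : ℂ) ^ 6 + 1), ← mul_assoc,
    div_mul_cancel₀ _ h1, Finset.mul_sum]
  congr 1
  refine Finset.sum_congr rfl fun k _ => ?_
  rw [hkw, ← key k]
  push_cast
  field_simp
  ring

theorem hk_gauss_zero (p r : R F) : gauss (fun u => cub u p ^ 0) (p ^ 0) r = 1 := by
  simp only [pow_zero, gauss, one_mul]
  rw [sum_res_unit isUnit_one (pe_psi 1 r)]
  exact psi_of_dvd (one_dvd _)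

theorem hk_gauss_succ {p : R F} (hp : Prime p) (k : ℕ) (r : R F) :
    gauss (fun u => cub u p ^ (k + 1)) (p ^ (k + 1)) (p ^ k * r) =
      (N p : ℂ) ^ k * gauss (fun u => cub u p ^ (k + 1)) p r := by
  have h : p ^ (k + 1 - 1) ∣ p ^ k * r := dvd_mul_right _ _
  rw [gauss_prime_pow hp (by omega), dif_pos h]
  have e : h.choose = r := (mul_left_cancel₀ (pow_ne_zero k hp.ne_zero) h.choose_spec).symm
  rw [e]
  rfl

theorem hkw_cube {p : R F} (hp : Prime p) {y : F} (hy : y ≠ 0) {r : R F} (hr : r ≠ 0) :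
    hkw y (r * p ^ 3) = hkw y r := by
  rw [hkw, rho_cube hp hy hr, hkw]

theorem hkw_unit_left {s : R F} (hs : IsUnit s) {y : F} (hy : y ≠ 0) {r : R F} (hr : r ≠ 0) :
    hkw ((s : F) * y) r = B3 (s : F) y * hkw y r := by
  have hs0 : (s : F) ≠ 0 := rs2_coe_ne hs.ne_zero
  have a1 := nf_pos y
  have a2 := nf_pos (s : F)
  have e : nf (s : F) ^ (1 / 3 : ℝ) * nf (s : F) ^ (-(1 / 3) : ℝ) = 1 := by
    rw [← Real.rpow_add a2]
    simp
  have e' := congrArg (fun x : ℝ => (x : ℂ)) e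
  rw [hkw, rho_unit_left hs hy hr, nf_mul hs0 hy, Real.mul_rpow a2.le a1.le, hkw]
  push_cast at e' ⊢
  linear_combination (B3 (s : F) y * ((nf y ^ (1 / 3 : ℝ) : ℝ) : ℂ) * rho y r) * e'

theorem hkw_unit_right {s : R F} (hs : IsUnit s) {y : F} (hy : y ≠ 0) {r : R F} (hr : r ≠ 0) :
    hkw y (r * s) = conj (B3 (s : F) y) * hkw y r := by
  rw [hkw, rho_unit_right hs hy hr, hkw]
  ring

theorem hkw_cls {z z' : F} (hz : z ≠ 0) (hz' : z' ≠ 0) (h : cls z = cls z') {r : R F}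
    (hr : r ≠ 0) : hkw z r = hkw z' r := by
  obtain ⟨u, hu, h1⟩ := (cls_eq_iff hz hz').1 h
  have k := hkw_unit_left hu.1 hz hr
  rw [B3_S6_left hu.2, one_mul] at k
  rw [← k, hkw, hkw, rho_inU h1, nf_eq_of_inU (by norm_num) h1]

theorem hkw_cube' {d : R F} (hd : d ≠ 0) {y : F} (hy : y ≠ 0) {r : R F} (hr : r ≠ 0) :
    hkw y (r * d ^ 3) = hkw y r := by
  induction d using UniqueFactorizationMonoid.induction_on_prime with
  | h₁ => exact absurd rfl hd
  | h₂ s hs =>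
    rw [hkw_unit_right (hs.pow 3) hy hr]
    push_cast
    rw [B3_pow_left (rs2_coe_ne hs.ne_zero), B3_cube, map_one, one_mul]
  | h₃ a p ha hp ih =>
    rw [show r * (p * a) ^ 3 = r * a ^ 3 * p ^ 3 by ring,
      hkw_cube hp hy (mul_ne_zero hr (pow_ne_zero 3 ha)), ih ha]

theorem hkw_one {p : R F} (hp : Prime p) {y : F} (hy : y ≠ 0) {r : R F} (hr : ¬ p ∣ r) :
    hkw y r = B3 y (p : F) * conj (cub r p) * g3 p * (hkn p : ℂ) * hkw (y / p) (r * p) := by
  have hr0 : r ≠ 0 := by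
    rintro rfl
    exact hr (dvd_zero p)
  have hν := hkn_ne hp.ne_zero
  have k := hkw_split hp hy hr0 (n := 1) (by rwa [pow_one])
  rw [Finset.sum_range_succ, Finset.sum_range_one, hk_gauss_zero] at k
  simp only [pow_zero, pow_one, div_one, mul_one, one_mul] at k
  rw [gauss_cub hp.squarefree, hkn_three] at k
  field_simp at k
  have k2 : (hkn p : ℂ) ^ 5 * hkw y r = (hkn p : ℂ) ^ 5 *
      (B3 y (p : F) * conj (cub r p) * g3 p * (hkn p : ℂ) * hkw (y / p) (r * p)) := by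
    linear_combination (exp := 1) (hkn p : ℂ) ^ 5 * k
  exact mul_left_cancel₀ (pow_ne_zero _ hν) k2

theorem hkw_three {p : R F} (hp : Prime p) {y : F} (hy : y ≠ 0) {r : R F} (hr : ¬ p ∣ r) :
    hkw (y / (p : F) ^ 3) r = hkw y r := by
  have hr0 : r ≠ 0 := by
    rintro rfl
    exact hr (dvd_zero p)
  have hp0 : (p : F) ≠ 0 := rs2_coe_ne hp.ne_zero
  have hν := hkn_ne hp.ne_zero
  have hn : ¬ p ^ 4 ∣ p ^ 3 * r := fun h => hr <| by
    rw [pow_succ] at h
    exact (mul_dvd_mul_iff_left (pow_ne_zero 3 hp.ne_zero)).1 h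
  have k := hkw_split hp hy (mul_ne_zero (pow_ne_zero 3 hp.ne_zero) hr0) hn
  have g1 : gauss (fun u => cub u p ^ 1) (p ^ 1) (p ^ 3 * r) = 0 := by
    have := hk_gauss_succ hp 0 (p ^ 3 * r)
    rw [gauss_prime_zero hp (by norm_num) (Dvd.intro (p ^ 2 * r) (by ring))] at this
    simpa using this
  have g2 : gauss (fun u => cub u p ^ 2) (p ^ 2) (p ^ 3 * r) = 0 := by
    have := hk_gauss_succ hp 1 (p ^ 2 * r)
    rw [gauss_prime_zero hp (by norm_num) (Dvd.intro (p * r) (by ring)),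
      show p ^ 1 * (p ^ 2 * r) = p ^ 3 * r by ring] at this
    simpa using this
  have g3' : gauss (fun u => cub u p ^ 3) (p ^ 3) (p ^ 3 * r) = (N p : ℂ) ^ 2 * (N p - 1) := by
    have := hk_gauss_succ hp 2 (p * r)
    rw [gauss_prime_cube hp (by norm_num) (by norm_num), if_pos (dvd_mul_right _ _),
      show p ^ 2 * (p * r) = p ^ 3 * r by ring] at this
    exact this
  have g4 : gauss (fun u => cub u p ^ 4) (p ^ 4) (p ^ 3 * r) =
      (N p : ℂ) ^ 3 * (conj (cub r p) * (ab p : ℂ) * g3 p) := by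
    have := hk_gauss_succ hp 3 r
    rw [← gauss_cub hp.squarefree]
    refine this.trans ?_
    simp only [Nat.reduceAdd, cub_pow_four]
  have hy3 : y / (p : F) ^ 3 ≠ 0 := div_ne_zero hy (pow_ne_zero _ hp0)
  have hy4 : y / (p : F) ^ 4 ≠ 0 := div_ne_zero hy (pow_ne_zero _ hp0)
  have e0 : hkw y (p ^ 3 * r) = hkw y r := by rw [mul_comm, hkw_cube hp hy hr0]
  have e3 : hkw (y / (p : F) ^ 3) (p ^ 3 * r * p ^ 3) = hkw (y / (p : F) ^ 3) r := by
    rw [hkw_cube hp hy3 (mul_ne_zero (pow_ne_zero 3 hp.ne_zero) hr0), mul_comm,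
      hkw_cube hp hy3 hr0]
  have e4 : hkw (y / (p : F) ^ 4) (p ^ 3 * r * p ^ 4) = hkw (y / (p : F) ^ 3 / p) (r * p) := by
    have h1 : r * p ≠ 0 := mul_ne_zero hr0 hp.ne_zero
    rw [show p ^ 3 * r * p ^ 4 = r * p * p ^ 3 * p ^ 3 by ring,
      hkw_cube hp hy4 (mul_ne_zero h1 (pow_ne_zero 3 hp.ne_zero)), hkw_cube hp hy4 h1,
      div_div, ← pow_succ]
  have k1 := hkw_one hp hy3 hr
  rw [rs2_B3 y hp0 hy] at k1
  have hB := B3_cube y (p : F)
  simp only [Finset.sum_range_succ, Finset.sum_range_zero, hk_gauss_zero, g1, g2, g3', g4, e3,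
    e4] at k
  simp only [pow_zero, div_one, mul_one, e0, hkn_six, hkn_three, mul_zero, zero_div, zero_mul,
    add_zero, zero_add, one_mul] at k
  rw [show B3 y (p : F) ^ 4 = B3 y (p : F) by rw [pow_succ, hB, one_mul], hB] at k
  generalize hkw (y / (p : F) ^ 3 / p) (r * p) = X at k k1
  generalize hkw (y / (p : F) ^ 3) r = Y at k k1
  generalize hkw y r = Z at k
  generalize (hkn p : ℂ) = ν at k k1 hν
  field_simp at k
  have k2 : ν ^ 6 * Y = ν ^ 6 * Z := by
    linear_combination k1 - k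
  exact mul_left_cancel₀ (pow_ne_zero _ hν) k2

theorem hkw_sq {p : R F} (hp : Prime p) {y : F} (hy : y ≠ 0) {r : R F} (hr : ¬ p ∣ r) :
    hkw (y / (p : F) ^ 3) (p ^ 2 * r) = -(N p : ℂ) * hkw y (p ^ 2 * r) := by
  have hr0 : r ≠ 0 := by
    rintro rfl
    exact hr (dvd_zero p)
  have hp0 : (p : F) ≠ 0 := rs2_coe_ne hp.ne_zero
  have hν := hkn_ne hp.ne_zero
  have hn : ¬ p ^ 3 ∣ p ^ 2 * r := fun h => hr <| by
    rw [pow_succ] at h
    exact (mul_dvd_mul_iff_left (pow_ne_zero 2 hp.ne_zero)).1 h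
  have hr2 := mul_ne_zero (pow_ne_zero 2 hp.ne_zero) hr0
  have k := hkw_split hp hy hr2 hn
  have g1 : gauss (fun u => cub u p ^ 1) (p ^ 1) (p ^ 2 * r) = 0 := by
    have := hk_gauss_succ hp 0 (p ^ 2 * r)
    rw [gauss_prime_zero hp (by norm_num) (Dvd.intro (p * r) (by ring))] at this
    simpa using this
  have g2 : gauss (fun u => cub u p ^ 2) (p ^ 2) (p ^ 2 * r) = 0 := by
    have := hk_gauss_succ hp 1 (p * r)
    rw [gauss_prime_zero hp (by norm_num) (dvd_mul_right _ _),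
      show p ^ 1 * (p * r) = p ^ 2 * r by ring] at this
    simpa using this
  have g3' : gauss (fun u => cub u p ^ 3) (p ^ 3) (p ^ 2 * r) = (N p : ℂ) ^ 2 * (-1) := by
    have := hk_gauss_succ hp 2 r
    rw [gauss_prime_cube hp (by norm_num) (by norm_num), if_neg hr] at this
    exact this
  have hy3 : y / (p : F) ^ 3 ≠ 0 := div_ne_zero hy (pow_ne_zero _ hp0)
  have hB := B3_cube y (p : F)
  simp only [Finset.sum_range_succ, Finset.sum_range_zero, hk_gauss_zero, g1, g2, g3',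
    hkw_cube hp hy3 hr2] at k
  simp only [pow_zero, div_one, mul_one, hkn_six, mul_zero, zero_div, zero_mul,
    add_zero, zero_add, one_mul, hB] at k
  rw [hkn_six]
  generalize hkw (y / (p : F) ^ 3) (p ^ 2 * r) = Y at k
  generalize hkw y (p ^ 2 * r) = Z at k
  generalize (hkn p : ℂ) = ν at k hν
  field_simp at k
  linear_combination k

theorem hkw_sq_zero {p : R F} (hp : Prime p) {y : F} (hy : y ≠ 0) {r : R F} (hr : ¬ p ∣ r) :
    hkw y (p ^ 2 * r) = 0 := by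
  have hr0 : r ≠ 0 := by
    rintro rfl
    exact hr (dvd_zero p)
  have hp0 : (p : F) ≠ 0 := rs2_coe_ne hp.ne_zero
  have h1 : ∀ j : ℕ, hkw (y / ((p : F) ^ j) ^ 3) (p ^ 2 * r) =
      (-(N p : ℂ)) ^ j * hkw y (p ^ 2 * r) := by
    intro j
    induction j with
    | zero => simp
    | succ j ih =>
      have := hkw_sq hp (div_ne_zero hy (pow_ne_zero 3 (pow_ne_zero j hp0))) hr
      rw [ih, div_div, ← mul_pow, ← pow_succ] at this
      rw [this]
      ring
  obtain ⟨j, hj, hc⟩ := exists_pow_cls hp0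
  have h2 : cls (y / ((p : F) ^ j) ^ 3) = cls y := by
    rw [cls_div hy (pow_ne_zero 3 (pow_ne_zero j hp0)), cls_pow (pow_ne_zero j hp0), hc, one_pow,
      div_one]
  have h3 := h1 j
  rw [hkw_cls (div_ne_zero hy (pow_ne_zero 3 (pow_ne_zero j hp0))) hy h2
    (mul_ne_zero (pow_ne_zero 2 hp.ne_zero) hr0)] at h3
  by_contra h
  have h4 : (-(N p : ℂ)) ^ j = 1 := mul_right_cancel₀ h (by rw [← h3, one_mul])
  have h5 := congrArg norm h4
  have h6 := seven_le_N hp.ne_zero hp.not_isUnit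
  rw [norm_pow, norm_neg, norm_one, Complex.norm_real, Real.norm_of_nonneg (N_nonneg _)] at h5
  have := one_lt_pow₀ (show (1 : ℝ) < N p by linarith) hj.ne'
  linarith

theorem Pt_cls {z z' : F} (hz : z ≠ 0) (hz' : z' ≠ 0) (h : cls z = cls z') : Pt z = Pt z' :=
  hkw_cls hz hz' h one_ne_zero

theorem Pt_bd : ∃ C : ℝ, ∀ z : F, z ≠ 0 → ‖Pt z‖ ≤ C := by
  refine ⟨∑ κ : Cl F, ‖Pt (rep κ)‖, fun z hz => ?_⟩
  rw [Pt_cls hz (rep_ne (cls z)) (cls_rep _).symm]
  exact Finset.single_le_sum (f := fun κ : Cl F => ‖Pt (rep κ)‖) (fun _ _ => norm_nonneg _)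
    (Finset.mem_univ _)

theorem Pt_cube {z : F} (hz : z ≠ 0) {c : R F} (hc : c ≠ 0) : Pt (z * (c : F) ^ 3) = Pt z := by
  change hkw _ 1 = hkw _ 1
  induction c using UniqueFactorizationMonoid.induction_on_prime with
  | h₁ => exact absurd rfl hc
  | h₂ s hs =>
    have := hkw_unit_left (hs.pow 3) hz (one_ne_zero (α := R F))
    push_cast at this
    rw [mul_comm, this, B3_pow_left (rs2_coe_ne hs.ne_zero), B3_cube, one_mul]
  | h₃ a p ha hp ih =>
    have hp0 : (p : F) ≠ 0 := rs2_coe_ne hp.ne_zero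
    have ha0 : (a : F) ≠ 0 := rs2_coe_ne ha
    have h1 : z * ((p * a : R F) : F) ^ 3 ≠ 0 :=
      mul_ne_zero hz (pow_ne_zero 3 (rs2_coe_ne hc))
    rw [← hkw_three hp h1 hp.not_dvd_one, ← ih ha]
    congr 1
    push_cast
    field_simp

theorem hkw_sqfree {s : R F} (hs : IsUnit s) {e : R F} (he : P0 e) : ∀ y : F, y ≠ 0 →
    (hkn e : ℂ) * hkw y (s * e) =
      B3 ((s * e : R F) : F) y * Pt (y * (s * e : R F)) * conj (g3 (s * e)) := by
  refine P0.induction (Pr := fun e => ∀ y : F, y ≠ 0 → (hkn e : ℂ) * hkw y (s * e) =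
      B3 ((s * e : R F) : F) y * Pt (y * (s * e : R F)) * conj (g3 (s * e))) ?_ ?_ he
  · intro y hy
    have k1 := hkw_unit_right hs hy (one_ne_zero (α := R F))
    have k2 : Pt (y * s) = B3 (s : F) y * hkw y 1 := by
      rw [mul_comm]
      exact hkw_unit_left hs hy one_ne_zero
    rw [g3_unit_mul hs one_ne_zero, cub_one_right, g3_one, mul_one, mul_one, k2,
      hkn_unit isUnit_one, ← one_mul s, k1, one_mul s, conj_B3]
    simp only [map_one, ofReal_one]
    ring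
  · intro p x hp _ hx hpx ih y hy
    have hp0 : (p : F) ≠ 0 := rs2_coe_ne hp.ne_zero
    have hr : ¬ p ∣ s * x := fun h => hpx ((hs.dvd_mul_left).1 h)
    have hr0 : s * x ≠ 0 := mul_ne_zero hs.ne_zero hx.ne_zero
    have hr1 : ((s * x : R F) : F) ≠ 0 := rs2_coe_ne hr0
    have hco : IsCoprime p (s * x) := (hp.irreducible.coprime_iff_not_dvd).2 hr
    have k1 := hkw_one hp (mul_ne_zero hy hp0) hr
    have k2 := ih (y * p) (mul_ne_zero hy hp0)
    rw [mul_div_cancel_right₀ _ hp0, B3_mul_left hy hp0, B3_self, mul_one] at k1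
    rw [show s * (p * x) = s * x * p by ring, hkn_mul, g3_mul hr0 hp.ne_zero hco.symm]
    rw [B3_mul_right _ hy hp0, k1] at k2
    generalize s * x = r at *
    have e1 : y * ((r * p : R F) : F) = y * p * r := by
      push_cast
      ring
    have e2 : B3 ((r * p : R F) : F) y = B3 (r : F) y * conj (B3 y (p : F)) := by
      push_cast
      rw [B3_mul_left hr1 hp0, B3_swap y (p : F)]
    rw [e1, e2]
    have a1 := cub_recip hr0 hp.ne_zero
    have a2 : conj (B3 y (p : F)) * B3 y (p : F) = 1 := by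
      rw [conj_B3, ← pow_succ, B3_cube]
    have a3 : conj (g3 p) * g3 p = 1 := by
      rw [conj_mul', norm_g3 hp.squarefree]
      simp
    have a4 := cub_cube hco
    have a5 := B3_cube (r : F) (p : F)
    simp only [map_mul, conj_cub] at k2 ⊢
    rw [a1] at k2 ⊢
    push_cast
    generalize cub p r = c at *
    generalize B3 (r : F) (p : F) = b at *
    generalize B3 y (p : F) = B at *
    generalize conj B = B' at *
    generalize g3 p = g at *
    generalize conj g = g' at *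
    generalize (hkn x : ℂ) = nx at *
    generalize (hkn p : ℂ) = np at *
    generalize hkw y (r * p) = X at *
    have k3 : np * nx * X * (B' * B) * (g' * g) * b ^ 3 * c ^ 3 = np * nx * X := by
      rw [a2, a3, a5, a4]
      ring
    have k4 : b ^ 2 * c = b ^ 2 * c ^ 4 := by
      linear_combination -(b ^ 2 * c) * a4
    linear_combination (B' * g' * b * c) * k2 - k3 +
      (B3 (r : F) y * B' * Pt (y * p * r) * conj (g3 r) * g') * k4

theorem hk_pow_eq {p u v : R F} (hp : Prime p) (hu : ¬ p ∣ u) (hv : ¬ p ∣ v) {a b : ℕ}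
    (h : p ^ a * u = p ^ b * v) : a = b := by
  have key : ∀ (u v : R F) (a b : ℕ), ¬ p ∣ u → p ^ a * u = p ^ b * v → b ≤ a := by
    intro u v a b hu h
    by_contra hab
    have h1 : p ^ (a + 1) ∣ p ^ a * u := h ▸ (pow_dvd_pow p (by omega)).mul_right v
    rw [pow_succ] at h1
    exact hu ((mul_dvd_mul_iff_left (pow_ne_zero a hp.ne_zero)).1 h1)
  exact le_antisymm (key v u b a hv h.symm) (key u v a b hu h)

theorem hk_tau0_zero {p r : R F} (hp : Prime p) (hr : ¬ p ∣ r) (k : ℕ) :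
    tau0 (p ^ 2 * r * (p ^ k) ^ 3) = 0 := by
  by_contra h
  obtain ⟨s, e, d, hs, he, hd, h1⟩ := tau0_supp h
  obtain ⟨i, e', he', rfl⟩ := WfDvdMonoid.max_power_factor he.ne_zero hp.irreducible
  obtain ⟨j, d', hd', rfl⟩ := WfDvdMonoid.max_power_factor hd.ne_zero hp.irreducible
  have h2 : i ≤ 1 := by
    by_contra hi
    have h3 : p * p ∣ p ^ i * e' := by
      rw [← pow_two]
      exact (pow_dvd_pow p (by omega)).mul_right _
    exact hp.not_isUnit (he.2 p h3)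
  have h3 : ¬ p ∣ s * e' * d' ^ 3 := by
    intro h
    rcases hp.dvd_or_dvd h with h | h
    · exact he' ((hs.dvd_mul_left).1 h)
    · exact hd' (hp.dvd_of_dvd_pow h)
  have h4 : p ^ (2 + 3 * k) * r = p ^ (i + 3 * j) * (s * e' * d' ^ 3) := by
    linear_combination h1
  have := hk_pow_eq hp hr h3 h4
  omega

theorem hkw_formula {y : F} (hy : y ≠ 0) {r : R F} (hr : r ≠ 0) :
    (hkn r : ℂ) * hkw y r = B3 (r : F) y * Pt (y * r) * tau0 r := by
  obtain ⟨s, x, hs, hx, rfl⟩ := exists_P1 hr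
  rcases cube_or hx with ⟨e, d, he, hd, rfl⟩ | ⟨p, u, k, hp, -, hu, hpu, rfl⟩
  · have h1 : s * e ≠ 0 := mul_ne_zero hs.ne_zero he.ne_zero
    have h2 : ((s * e : R F) : F) ≠ 0 := rs2_coe_ne h1
    have k1 := hkw_sqfree hs he y hy
    have e1 : B3 ((s * e * d ^ 3 : R F) : F) y = B3 ((s * e : R F) : F) y := by
      rw [Subring.coe_mul _ (s * e), Subring.coe_pow, B3_mul_left h2 (pow_ne_zero 3 hd.coe_ne),
        B3_pow_left hd.coe_ne, B3_cube, mul_one]
    have e2 : Pt (y * (s * e * d ^ 3 : R F)) = Pt (y * (s * e : R F)) := by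
      rw [Subring.coe_mul _ (s * e), Subring.coe_pow, ← mul_assoc,
        Pt_cube (mul_ne_zero hy h2) hd.ne_zero]
    rw [← mul_assoc s, hkw_cube' hd.ne_zero hy h1, tau0_eq hs he hd, e1, e2, hkn_mul, hkn_mul,
      hkn_unit hs, hkn_pow', hkn_three]
    push_cast at k1 ⊢
    linear_combination (hkn d : ℂ) ^ 3 * k1
  · have h1 : ¬ p ∣ s * u := fun h => hpu ((hs.dvd_mul_left).1 h)
    have h2 : p ^ 2 * (s * u) ≠ 0 :=
      mul_ne_zero (pow_ne_zero 2 hp.ne_zero) (mul_ne_zero hs.ne_zero hu.ne_zero)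
    rw [show s * (u * p ^ 2 * (p ^ 3) ^ k) = p ^ 2 * (s * u) * (p ^ k) ^ 3 by ring,
      hk_tau0_zero hp h1, hkw_cube' (pow_ne_zero k hp.ne_zero) hy h2, hkw_sq_zero hp hy h1]
    simp

theorem rho_formula {y : F} (hy : y ≠ 0) {r : R F} (hr : r ≠ 0) :
    rho y r = ((nf y ^ (-(1 / 3) : ℝ) * N r ^ (-(1 / 6) : ℝ) : ℝ) : ℂ) * B3 (r : F) y *
      Pt (y * r) * tau0 r := by
  have k := hkw_formula hy hr
  have a1 := nf_pos y
  have a2 := N_pos hr
  have e : nf y ^ (-(1 / 3) : ℝ) * N r ^ (-(1 / 6) : ℝ) * (hkn r * nf y ^ (1 / 3 : ℝ)) = 1 := by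
    rw [hkn, Real.rpow_neg a1.le, Real.rpow_neg a2.le]
    have := Real.rpow_pos_of_pos a1 (1 / 3)
    have := Real.rpow_pos_of_pos a2 (1 / 6)
    field_simp
  have e' := congrArg (fun x : ℝ => (x : ℂ)) e
  rw [hkw] at k
  simp only [ofReal_mul, ofReal_one] at e' ⊢
  linear_combination ((nf y ^ (-(1 / 3) : ℝ) : ℝ) : ℂ) * ((N r ^ (-(1 / 6) : ℝ) : ℝ) : ℂ) * k -
    rho y r * e'

end Vale.Agent.P319B
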