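import Vale.Agent.P319B.Coef
import Vale.Agent.P319B.Heck

/-! The expansion of the theta function on the primal side. -/

namespace Vale.Agent.P319B

open Complex NumberField MeasureTheory Filter Topology
open scoped Classical ComplexConjugate
open Vale.Agent.P026 (w kk fk)

variable {F : Type} [Field F] [NumberField F] [Ctx F]

theorem thp_inU {κ : Cl F} {r : R F} (h : inC κ r * tau0 r ≠ 0) : InU 3 ((r : F) / rep κ) :=
  (ite_ne_right_iff.1 (left_ne_zero_of_mul h)).1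

theorem thp_locF (z : ℂ) {y : F} (hy : y ≠ 0) : LocF fun x => z * PsiD y x := by
  obtain ⟨a, ha⟩ := PsiD_supp hy
  obtain ⟨A, hA⟩ := exists_Hi y
  refine ⟨⟨‖z‖ * (nf (y * MF F ^ 3))⁻¹, fun x => ?_⟩,
    ⟨a, fun x hx => ha x (right_ne_zero_of_mul hx)⟩, A, fun x x' h => ?_⟩
  · rw [norm_mul]
    exact mul_le_mul_of_nonneg_left (norm_PsiD_le y x) (norm_nonneg _)
  · have h1 := Ol_le_Od (loc_hi hA h)
    have h2 := Od_mul (pow_mem MF_mem_Ol 3) h1
    obtain ⟨d, rfl⟩ : ∃ d, x = x' + d := ⟨x - x', by ring⟩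
    rw [add_sub_cancel_left] at h1 h2
    rw [mul_left_comm, ← mul_assoc] at h2
    simp only [PsiD, mul_add, psiL_add, psiL_of_Od h1, mul_one, add_mem_cancel_right h2]

theorem gr_primal (κ : Cl F) : Gr (fun r : R F => inC κ r * tau0 r) := by
  obtain ⟨A, hA⟩ := exists_Hi (rep κ)
  refine Gr.of_sixth (by simp only [tau0_zero, mul_zero]) (fun r h => kg_Hi hA (thp_inU h))
    (B := (nf (rep κ))⁻¹ ^ (1 / 6 : ℝ)) fun r => ?_
  have h0 := (inv_pos.2 (nf_pos (rep κ))).le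
  rw [← Real.mul_rpow h0 (Nin_nonneg _), inC]
  split_ifs with h
  · rw [one_mul, Nin_eq_N_mul, nf_eq_of_inU bs_three h, mul_comm (N r),
      inv_mul_cancel_left₀ (nf_pos _).ne']
    exact norm_tau0_le r
  · rw [zero_mul, norm_zero]
    exact Real.rpow_nonneg (mul_nonneg h0 (Nin_nonneg _)) _
theorem exp_kII {z0 : F} (hz : z0 ≠ 0) (h0 : Pt z0 ≠ 0) (κ : Cl F) :
    ∃ (y : F) (φ : F → ℂ), y ≠ 0 ∧ LocF φ ∧ UInv φ ∧
      ∀ f, IsLim (kII y φ) f → IsExp f (fun r => inC κ r * tau0 r) := by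
  obtain ⟨i0, i1, i2⟩ := qsum_ind_Od (F := F)
  obtain ⟨A, hA⟩ := exists_Hi (rep κ)
  have k0 := rep_ne κ
  have M0 : MF F ≠ 0 := MF_ne
  obtain ⟨y, hy⟩ : ∃ y, y = z0 / rep κ := ⟨_, rfl⟩
  have y0 : y ≠ 0 := hy ▸ div_ne_zero hz k0
  have Y0 : -(rep κ / y) ≠ 0 := neg_ne_zero.2 (div_ne_zero k0 y0)
  obtain ⟨C, hC⟩ : ∃ C : ℂ, C * (i0 * ((nf y ^ (-(1 / 3) : ℝ) : ℝ) * B3 (rep κ) y * Pt z0)) =
      ((cov (latO F) / (mm F * nf (rep κ) ^ (1 / 6 : ℝ)) : ℝ) : ℂ) :=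
    ⟨_, div_mul_cancel₀ _ (mul_ne_zero (ofReal_ne_zero.2 i1.ne') (mul_ne_zero (mul_ne_zero
      (ofReal_ne_zero.2 (Real.rpow_pos_of_pos (nf_pos y) _).ne')
      (norm_ne_zero_iff.1 (by rw [norm_B3]; exact one_ne_zero))) h0))⟩
  have hL := thp_locF C Y0
  have hU : UInv fun x => C * PsiD (-(rep κ / y)) x := fun x u hu => by
    simp only [uInv_PsiD _ x u hu]
  obtain ⟨b0, g0⟩ := aK_kII y0 hL hU
  obtain ⟨b1, g1⟩ := adm_kII y0 hL
  refine ⟨y, _, y0, hL, hU, fun f hf => isExp (b := b0 + b1 + A) (g1.mono (by omega)) hf.meas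
    hf.conv (gr_primal κ) (fun r hr => mem_dual_Lb.2 ⟨r.2, Ol_le_Od ?_⟩) fun r r0 hr => ?_⟩
  · rw [mul_comm]
    exact (kg_Hi hA (thp_inU hr)).mono (by omega)
  have hb : MF F ^ (b0 + b1 + A) * rep κ ∈ Ol F := hA.mono (show A ≤ b0 + b1 + A by omega)
  generalize hb' : b0 + b1 + A = b at hb hr
  have Mb : MF F ^ b ≠ 0 := pow_ne_zero _ M0
  have q := i2 (y * MF F ^ b) (-(rep κ / y) * MF F ^ 3) (r / y + -(rep κ / y))
    (mul_ne_zero y0 Mb) (mul_ne_zero Y0 (pow_ne_zero _ M0)) (by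
      rw [show y * MF F ^ b * (-(rep κ / y) * MF F ^ 3) = -(MF F ^ b * rep κ * MF F ^ 3) by
        field_simp]
      exact neg_mem (mul_mem hb (pow_mem MF_mem_Ol 3))) (by
      rw [show (r / y + -(rep κ / y)) * (y * MF F ^ b) = r * MF F ^ b - MF F ^ b * rep κ by
        field_simp; ring]
      exact sub_mem (mem_dual_Lb.1 hr).2 (Ol_le_Od hb))
  rw [show (r / y + -(rep κ / y)) / (-(rep κ / y) * MF F ^ 3) = -((r / rep κ - 1) / MF F ^ 3) by
    field_simp; ring, neg_mem_iff] at q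
  have q2 : aK (kII y fun x => C * PsiD (-(rep κ / y)) x) b r =
      fun c => (C * i0 * nf (MF F ^ b) * inC κ r) * aII y r c := by
    funext c
    have q3 : ∀ d, C * PsiD (-(rep κ / y)) d * psiL (r / y * d) =
        C / nf (-(rep κ / y) * MF F ^ 3) * if d * (-(rep κ / y) * MF F ^ 3) ∈ Od F then
          psiL ((r / y + -(rep κ / y)) * d) else 0 := fun d => by
      rw [PsiD, mul_comm d, add_mul, psiL_add]
      split_ifs <;> ring
    rw [g0 b (by omega) r hr c]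
    simp only [q3]
    rw [qsum_const_mul, q, inC, nf_mul y0 Mb]
    have := ofReal_ne_zero.2 (nf_pos y).ne'
    have := ofReal_ne_zero.2 (nf_pos (-(rep κ / y) * MF F ^ 3)).ne'
    generalize nf (-(rep κ / y) * MF F ^ 3) = t at this ⊢
    by_cases h : InU 3 ((r : F) / rep κ)
    · rw [if_pos h, if_pos (by exact h)]
      push_cast
      field_simp
    · rw [if_neg h, if_neg (by exact h)]
      simp
  rw [q2, funext (Rsum_const_mul _ _ _)]
  refine ((rho_tendsto y0 r0).const_mul _).trans (le_of_eq (congrArg _ ?_))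
  by_cases h : InU 3 ((r : F) / rep κ)
  · rw [rho_formula y0 r0, B3_inU_left h, Pt_cls (mul_ne_zero y0 (nrm_coe_ne r0)) hz
      (cls_of_inU (by rwa [hy, show z0 / rep κ * r / z0 = r / rep κ by field_simp])), Lb,
      cov_lat one_ne_zero Mb, NF_one, one_mul, Nin_eq_N_mul, nf_eq_of_inU bs_three h,
      Real.mul_rpow (N_nonneg _) (nf_pos _).le, Real.rpow_neg (N_nonneg r)]
    push_cast at hC ⊢
    linear_combination (nf (MF F ^ b) * inC κ r * tau0 r * ((N r ^ (1 / 6 : ℝ) : ℝ) : ℂ)⁻¹) * hC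
  · simp [inC, h]

end Vale.Agent.P319B
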