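import Vale.Agent.P319B.Nonz
import Vale.Agent.P319B.ThP
import Vale.Agent.P319B.Ptw

/-! The theta datum. -/

namespace Vale.Agent.P319B

open Complex NumberField MeasureTheory Filter Topology
open scoped Classical ComplexConjugate
open Vale.Agent.P026 (w kk fk)

variable {F : Type} [Field F] [NumberField F] [Ctx F]

theorem tht_psi {q x x' r : R F} (h : q ∣ x' - x) {a : ℕ} (hr : Hi a (r : F))
    (hx : Lo a ((x' : F) / q)) : eT ((r : F) * x' / q) = psi q (r * x) := by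
  have h1 : (r : F) * ((x' : F) / q) ∈ Ol F := Lo_zero_iff.1 (hr.mul_Lo (e := 0) hx)
  have h2 : psi q (r * x') = psi q (r * x) := psi_congr (by
    rw [← mul_sub]
    exact h.mul_left r)
  rw [← h2, psi, mul_div_assoc, ← psiP_of_Od (Ol_le_Od h1), Subring.coe_mul, mul_div_assoc]

/-- The Voronoi identity for one pair of classes. -/
theorem tht_vor {z0 : F} (hz : z0 ≠ 0) (h0 : Pt z0 ≠ 0) (κ l : Cl F) :
    ∃ (T : F → ℂ) (a : ℕ) (C : ℝ), UInv T ∧ (∀ z, T z ≠ 0 → Hi a z) ∧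
      (∀ z, ‖T z‖ ≤ C * nf z ^ (1 / 6 : ℝ)) ∧
      ∀ (o : Bool) (A q d : R F), InU 3 ((q : F) / rep l) → q ∣ A * d - 1 →
        VorV (fun r => inC κ r * tau0 r * angI o (r : F) * psi q (r * A))
          (fun r => T r * tau0 r * angI (!o) (r : F) * psi q (-(r * d))) (q : F)
          (cub A q * angI o (q : F) ^ 2) := by
  obtain ⟨y, φ, hy, hφ, hU, h1⟩ := exp_kII hz h0 κ
  have hl := rep_ne l
  have hy' : -y / rep l ≠ 0 := div_ne_zero (neg_ne_zero.2 hy) hl
  have hφ' := hφ.comp_mul (inv_ne_zero hl)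
  obtain ⟨T, a, C, t1, t2, t3, -, h2⟩ := exp_kI hy' hφ' (hU.comp_mul (rep l)⁻¹)
  set e : ℂ := (-1) ^ rr F * B3 (-y / rep l) (rep l) with he
  have hne : ‖e‖ = 1 := by rw [he, norm_mul, norm_B3, norm_pow, norm_neg, norm_one, one_pow, one_mul]
  refine ⟨fun z => e * T z, a, C, fun x u hu => congrArg (e * ·) (t1 x u hu),
    fun z h => t2 z (right_ne_zero_of_mul h), fun z => by rw [norm_mul, hne, one_mul]; exact t3 z,
    fun o A q d hq hd => ?_⟩
  have hq' : (q : F) ≠ 0 := hq.left_ne (by norm_num)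
  have hq0 : q ≠ 0 := fun h => hq' (by rw [h]; rfl)
  obtain ⟨K1, k1⟩ := kII_trans hy hl hφ hU
  have g1 := gr_primal κ
  have g2 := gr_dual t2 t3
  obtain ⟨-, ⟨a1, s1⟩, -⟩ := id g1
  obtain ⟨K2, k2⟩ := exists_Lo_div hq' a1
  obtain ⟨K3, k3⟩ := exists_Lo_div hq' a
  obtain ⟨A', hA, lA⟩ := exists_cong_Lo hq0 A (K1 + K2)
  obtain ⟨d', hd', ld⟩ := exists_cong_Lo hq0 d (K1 + K3)
  obtain ⟨b, hb⟩ : q ∣ A' * d' - 1 := by
    have : A' * d' - 1 = (A' - A) * d' + A * (d' - d) + (A * d - 1) := by ring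
    rw [this]
    exact ((hA.mul_right _).add (hd'.mul_left _)).add hd
  let g : GM F := ⟨A', b, q, d', 1, by rw [Units.val_one]; linear_combination hb⟩
  have k4 := k1 g rfl hq (lA.mono (by omega)) (ld.mono (by omega))
  obtain ⟨f, hf⟩ := good_kII hy hφ
  obtain ⟨f', hf'⟩ := good_kI hy' hφ'
  have k5 := (hf'.smul (cub g.a g.c * B3 (-y / rep l) (rep l))).trl (g := g⁻¹) (by
    rw [GM.inv_u, show g.u = 1 from rfl, inv_one, Units.val_one, Subring.coe_one, Nin_one])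
  rw [← k4, ← trl_mul, mul_inv_cancel, trl_one] at k5
  have k6 := ptw (h1 f hf) (h2 f' hf') g1 g2 (g := g) rfl hq0
    (Conv.unique hf.meas k5.meas hf.conv k5.conv) o
  have e1 : (-1) ^ rr F * (cub g.a g.c * B3 (-y / rep l) (rep l)) * angI o (g.c : F) ^ 2 =
      cub A q * angI o (q : F) ^ 2 * e := by
    rw [he, ← cub_congr hA]
    ring
  rw [e1] at k6
  refine (VorV.move.1 k6).congr (fun r => ?_) fun r => ?_
  · by_cases h : inC κ r * tau0 r = 0
    · rw [h, zero_mul, zero_mul, zero_mul]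
    · rw [tht_psi hA (s1 r h) (k2 _ (lA.mono (by omega)))]
  · by_cases h : T r = 0
    · simp [h]
    · rw [eT_neg, psi_neg, tht_psi hd' (t2 r h) (k3 _ (ld.mono (by omega)))]
      ring

theorem nonempty_theta : Nonempty (Theta F) := by
  obtain ⟨z0, hz, h0⟩ := exists_Pt_ne (F := F)
  choose T a C h1 h2 h3 h4 using tht_vor hz h0
  refine ⟨⟨Finset.univ.sup fun p : Cl F × Cl F => a p.1 p.2, ∑ p : Cl F × Cl F, |C p.1 p.2|, T, h1,
    fun κ l z h => (h2 κ l z h).mono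
      (Finset.le_sup (f := fun p : Cl F × Cl F => a p.1 p.2) (Finset.mem_univ (κ, l))),
    fun κ l z => (h3 κ l z).trans (mul_le_mul_of_nonneg_right ((le_abs_self _).trans
      (Finset.single_le_sum (f := fun p : Cl F × Cl F => |C p.1 p.2|) (fun _ _ => abs_nonneg _)
        (Finset.mem_univ (κ, l)))) (Real.rpow_nonneg (nf_pos z).le _)),
    fun o κ l => h4 κ l o⟩⟩

end Vale.Agent.P319B
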