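import Vale.Agent.P319B.Defs

/-! The archimedean places. -/

namespace Vale.Agent.P319B

open Complex NumberField
open scoped Classical ComplexConjugate
open Vale.Agent.P026 (w kk fk)

variable {F : Type} [Field F] [NumberField F] [Om F]

theorem om0_eq : om0 ^ 2 + om0 + 1 = 0 := by
  have : P026.Eis.om ^ 2 + P026.Eis.om + 1 = 0 := by decide
  simpa [om0] using congrArg P026.Eis.toC this
theorem om0_cube : om0 ^ 3 = 1 := by linear_combination (om0 - 1) * om0_eq
theorem om0_ne_one : om0 ≠ 1 :=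
  fun h => by
  have := om0_eq
  rw [h] at this
  norm_num at this
theorem conj_om0 : conj om0 = om0 ^ 2 := by
  have h1 : om0.re = -1 / 2 := by
    show ((0 : ℤ) : ℝ) - ((1 : ℤ) : ℝ) / 2 = _
    norm_num
  have h2 : om0 + conj om0 = -1 := by
    rw [add_conj, h1]
    norm_num
  linear_combination h2 - om0_eq
theorem norm_om0 : ‖om0‖ = 1 := by
  have := congrArg norm om0_cube
  rw [norm_pow, norm_one] at this
  exact (pow_eq_one_iff_of_nonneg (norm_nonneg _) three_ne_zero).1 this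
theorem arch_im : om0.im ≠ 0 := by
  show ((1 : ℤ) : ℝ) * √3 / 2 ≠ 0
  positivity
theorem arch_conj_ne : conj om0 ≠ om0 := fun h => arch_im (conj_eq_iff_im.1 h)
omit [NumberField F] in
theorem arch_cases (φ : F →+* ℂ) : φ Om.om = om0 ∨ conj (φ Om.om) = om0 := by
  have h1 : φ Om.om ^ 2 + φ Om.om + 1 = 0 := by
    simpa using congrArg φ (Om.om_eq (F := F))
  have h2 : (φ Om.om - om0) * (φ Om.om - om0 ^ 2) = 0 := by
    linear_combination h1 + (om0 - 1 - φ Om.om) * om0_eq
  rcases mul_eq_zero.1 h2 with h | h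
  · exact Or.inl (sub_eq_zero.1 h)
  · exact Or.inr (by rw [sub_eq_zero.1 h, ← conj_om0, conj_conj])
instance : Nonempty (Io F) := by
  obtain ⟨φ⟩ : Nonempty (F →+* ℂ) := inferInstance
  rcases arch_cases φ with h | h
  · exact ⟨⟨φ, h⟩⟩
  · exact ⟨⟨ComplexEmbedding.conjugate φ, h⟩⟩
/-- The embeddings that are not in Io are the conjugates. -/
def archE : Io F ≃ {φ : F →+* ℂ // ¬ φ Om.om = om0} where
  toFun v := ⟨ComplexEmbedding.conjugate v.1, fun h => arch_conj_ne (by
    rw [ComplexEmbedding.conjugate_coe_eq, v.2] at h; exact h)⟩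
  invFun φ := ⟨ComplexEmbedding.conjugate φ.1, (arch_cases φ.1).resolve_left φ.2⟩
  left_inv v := Subtype.ext (ComplexEmbedding.involutive_conjugate F v.1)
  right_inv φ := Subtype.ext (ComplexEmbedding.involutive_conjugate F φ.1)
theorem arch_prod {M : Type*} [CommMonoid M] (f : (F →+* ℂ) → M) :
    ∏ φ, f φ = ∏ v : Io F, f v.1 * f (ComplexEmbedding.conjugate v.1) := by
  rw [← Fintype.prod_subtype_mul_prod_subtype (fun φ : F →+* ℂ => φ Om.om = om0),
    Finset.prod_mul_distrib, ← archE.prod_comp]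
  rfl
theorem arch_sum {M : Type*} [AddCommMonoid M] (f : (F →+* ℂ) → M) :
    ∑ φ, f φ = ∑ v : Io F, (f v.1 + f (ComplexEmbedding.conjugate v.1)) :=
  arch_prod (M := Multiplicative M) fun φ => Multiplicative.ofAdd (f φ)
theorem rr_pos : 0 < rr F :=
  Fintype.card_pos
theorem two_mul_rr : 2 * rr F = dg F := by
  have h := arch_sum (F := F) fun _ => (1 : ℕ)
  simp only [Finset.sum_const, Finset.card_univ, smul_eq_mul, mul_one, Embeddings.card] at h
  rw [dg, h, rr]
  ring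
/-- Every embedding is in Io or conjugate to one in Io. -/
theorem prod_embeddings {M : Type*} [CommMonoid M] (f : (F →+* ℂ) → M) :
    ∏ φ, f φ = ∏ v : Io F, f v.1 * f (ComplexEmbedding.conjugate v.1) :=
  arch_prod f
theorem exists_place (x : InfinitePlace F) : ∃! v : Io F, InfinitePlace.mk v.1 = x := by
  obtain ⟨v, hv⟩ : ∃ v : Io F, InfinitePlace.mk v.1 = x := by
    rcases arch_cases x.embedding with h | h
    · exact ⟨⟨_, h⟩, x.mk_embedding⟩
    · exact ⟨⟨ComplexEmbedding.conjugate x.embedding, h⟩,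
        (InfinitePlace.mk_conjugate_eq _).trans x.mk_embedding⟩
  refine ⟨v, hv, fun v' hv' => ?_⟩
  rcases InfinitePlace.mk_eq_iff.1 (hv'.trans hv.symm) with h | h
  · exact Subtype.ext h
  · exact absurd ((congrArg (fun φ : F →+* ℂ => φ Om.om) h).trans v.2) (archE v').2
theorem emb_add (x y : F) : emb (x + y) = emb x + emb y :=
  funext fun v => map_add v.1 x y
theorem emb_neg (x : F) : emb (-x) = -emb x :=
  funext fun v => map_neg v.1 x
theorem emb_zero : emb (0 : F) = 0 :=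
  funext fun v => map_zero v.1
theorem emb_mul (x y : F) : emb (x * y) = emb x * emb y :=
  funext fun v => map_mul v.1 x y
theorem emb_inj : Function.Injective (emb (F := F)) :=
  fun _ _ h =>
    (Classical.arbitrary (Io F)).1.injective (congrFun h (Classical.arbitrary (Io F)))
theorem sqv_nonneg (z : F) (v : Io F) : 0 ≤ sqv z v :=
  normSq_nonneg _
theorem sqv_pos {z : F} (hz : z ≠ 0) (v : Io F) : 0 < sqv z v :=
  normSq_pos.2 ((map_ne_zero v.1).2 hz)
theorem sqv_mul (x y : F) (v : Io F) : sqv (x * y) v = sqv x v * sqv y v := by simp [sqv]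
theorem sqv_one (v : Io F) : sqv (1 : F) v = 1 := by simp [sqv]
theorem sqv_inv (x : F) (v : Io F) : sqv x⁻¹ v = (sqv x v)⁻¹ := by simp [sqv]
theorem sqv_eq (x : F) (v : Io F) : sqv x v = ‖v.1 x‖ ^ 2 :=
  normSq_eq_norm_sq _
theorem Nin_eq (z : F) : Nin z = |((Algebra.norm ℚ z : ℚ) : ℝ)| := by
  have h := Algebra.norm_eq_prod_embeddings ℚ ℂ z
  rw [← (RingHom.equivRatAlgHom F ℂ).prod_comp] at h
  have h2 : ((Algebra.norm ℚ z : ℚ) : ℂ) = ((Nin z : ℝ) : ℂ) := by
    refine (h.trans (arch_prod fun φ : F →+* ℂ => φ z)).trans ?_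
    simp only [Nin, sqv, ofReal_prod, ComplexEmbedding.conjugate_coe_eq, mul_conj]
  have h3 : ((Algebra.norm ℚ z : ℚ) : ℝ) = Nin z := by exact_mod_cast h2
  rw [h3]
  exact (abs_of_nonneg (Finset.prod_nonneg fun v _ => sqv_nonneg z v)).symm
theorem Nin_nonneg (z : F) : 0 ≤ Nin z :=
  Finset.prod_nonneg fun v _ => sqv_nonneg z v
theorem Nin_pos {z : F} (hz : z ≠ 0) : 0 < Nin z :=
  Finset.prod_pos fun v _ => sqv_pos hz v
theorem Nin_zero : Nin (0 : F) = 0 :=
  Finset.prod_eq_zero (Finset.mem_univ (Classical.arbitrary (Io F))) (by simp [sqv])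
theorem Nin_one : Nin (1 : F) = 1 := by simp [Nin, sqv]
theorem Nin_neg (x : F) : Nin (-x) = Nin x := by simp [Nin, sqv]
theorem Nin_mul (x y : F) : Nin (x * y) = Nin x * Nin y := by simp [Nin, sqv, Finset.prod_mul_distrib]
theorem Nin_inv (x : F) : Nin x⁻¹ = (Nin x)⁻¹ := by simp [Nin, sqv]
theorem Nin_div (x y : F) : Nin (x / y) = Nin x / Nin y := by rw [div_eq_mul_inv, Nin_mul, Nin_inv, div_eq_mul_inv]
theorem Nin_pow (x : F) (k : ℕ) : Nin (x ^ k) = Nin x ^ k := by simp [Nin, sqv, Finset.prod_pow]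
theorem Nin_natCast (m : ℕ) : Nin (m : F) = (m : ℝ) ^ dg F := by
  simp only [Nin, sqv, map_natCast, normSq_natCast, Finset.prod_const, Finset.card_univ]
  rw [← two_mul_rr, pow_mul, sq]
  rfl
theorem sqrt_Nin (x : F) : √(Nin x) = ∏ v : Io F, ‖v.1 x‖ := by
  simp only [Nin, sqv_eq, Finset.prod_pow]
  exact Real.sqrt_sq (Finset.prod_nonneg fun _ _ => norm_nonneg _)
theorem one_le_Nin {z : F} (hz : z ≠ 0) (h : IsIntegral ℤ z) : 1 ≤ Nin z := by
  obtain ⟨x, rfl⟩ : ∃ x : 𝓞 F, (x : F) = z := ⟨⟨z, h⟩, rfl⟩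
  rw [Nin_eq, ← Algebra.coe_norm_int]
  have h1 : Algebra.norm ℤ x ≠ 0 := Algebra.norm_ne_zero_iff.2 fun h' => hz (by simp [h'])
  exact_mod_cast Int.one_le_abs h1
theorem Nin_unit {z : F} (hz : z ≠ 0) (h : IsIntegral ℤ z) (h' : IsIntegral ℤ z⁻¹) :
    Nin z = 1 := by
  have h1 := one_le_Nin (inv_ne_zero hz) h'
  rw [Nin_inv, one_le_inv₀ (Nin_pos hz)] at h1
  exact le_antisymm h1 (one_le_Nin hz h)
theorem Nin_eq_absNorm (x : 𝓞 F) :
    Nin (x : F) = (Ideal.absNorm (Ideal.span {x}) : ℝ) := by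
  rw [Nin_eq, ← Algebra.coe_norm_int, Ideal.absNorm_span_singleton, Nat.cast_natAbs]
  push_cast
  rfl
theorem lg_mul {x y : F} (hx : x ≠ 0) (hy : y ≠ 0) : lg (x * y) = lg x + lg y :=
  funext fun v => by
    simp only [lg, sqv_mul, Pi.add_apply]
    exact Real.log_mul (sqv_pos hx v).ne' (sqv_pos hy v).ne'
theorem lg_one : lg (1 : F) = 0 :=
  funext fun v => by simp [lg, sqv_one]
theorem lg_inv (x : F) : lg x⁻¹ = -lg x :=
  funext fun v => by simp [lg, sqv_inv]
theorem exp_lg {x : F} (hx : x ≠ 0) (v : Io F) : Real.exp (lg x v) = sqv x v :=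
  Real.exp_log (sqv_pos hx v)
theorem sum_lg {x : F} (hx : x ≠ 0) : ∑ v, lg x v = Real.log (Nin x) :=
  (Real.log_prod fun v _ => (sqv_pos hx v).ne').symm
theorem trace_eq (z : F) :
    ((Algebra.trace ℚ F z : ℚ) : ℝ) = ∑ v : Io F, 2 * (v.1 z).re := by
  have h := trace_eq_sum_embeddings ℂ (K := ℚ) (x := z)
  rw [← (RingHom.equivRatAlgHom F ℂ).sum_comp] at h
  have h2 : ((Algebra.trace ℚ F z : ℚ) : ℂ) = ((∑ v : Io F, 2 * (v.1 z).re : ℝ) : ℂ) := by
    refine (h.trans (arch_sum fun φ : F →+* ℂ => φ z)).trans ?_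
    simp only [ofReal_sum, ComplexEmbedding.conjugate_coe_eq, add_conj]
  exact_mod_cast h2
theorem eT_eq_eA (r z : F) : eT (r * z) = eA (emb r) (emb z) := by
  have h := trace_eq (r * z)
  simp only [map_mul] at h
  unfold eT eA emb
  rw [← h, ofReal_ratCast]
theorem eA_add (ξ x y : Io F → ℂ) : eA ξ (x + y) = eA ξ x * eA ξ y := by
  unfold eA
  rw [← Complex.exp_add, ← mul_add, ← ofReal_add, ← Finset.sum_add_distrib]
  simp only [Pi.add_apply, mul_add, add_re]
theorem eA_add_left (ξ ξ' x : Io F → ℂ) : eA (ξ + ξ') x = eA ξ x * eA ξ' x := by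
  unfold eA
  rw [← Complex.exp_add, ← mul_add, ← ofReal_add, ← Finset.sum_add_distrib]
  simp only [Pi.add_apply, mul_add, add_mul, add_re]
theorem eA_comm (ξ x : Io F → ℂ) : eA ξ x = eA x ξ := by simp only [eA, mul_comm (ξ _)]
theorem eA_zero (ξ : Io F → ℂ) : eA ξ 0 = 1 := by simp [eA]
theorem eA_neg (ξ x : Io F → ℂ) : eA ξ (-x) = conj (eA ξ x) := by
  unfold eA
  rw [← exp_conj]
  simp only [Pi.neg_apply, mul_neg, neg_re, Finset.sum_neg_distrib, ofReal_neg, map_mul, conj_I,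
    conj_ofReal, map_ofNat, neg_mul]
theorem norm_eA (ξ x : Io F → ℂ) : ‖eA ξ x‖ = 1 := by
  unfold eA
  rw [Complex.norm_exp]
  simp [-ofReal_sum]
theorem continuous_eA : Continuous (fun p : (Io F → ℂ) × (Io F → ℂ) => eA p.1 p.2) := by unfold eA; fun_prop
theorem eA_eq_prod (ξ x : Io F → ℂ) :
    eA ξ x = ∏ v, cexp (2 * Real.pi * I * ((2 * (ξ v * x v).re : ℝ) : ℂ)) := by rw [eA, ofReal_sum, Finset.mul_sum, Complex.exp_sum]
omit [Om F] in
theorem eT_add (x y : F) : eT (x + y) = eT x * eT y := by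
  unfold eT
  rw [map_add, ← Complex.exp_add, Rat.cast_add, mul_add]
omit [Om F] in
theorem eT_zero : eT (0 : F) = 1 := by simp [eT]
omit [Om F] in
theorem eT_neg (x : F) : eT (-x) = conj (eT x) := by
  unfold eT
  rw [← exp_conj]
  simp [map_ofNat]
omit [Om F] in
theorem norm_eT (x : F) : ‖eT x‖ = 1 := by
  unfold eT
  rw [Complex.norm_exp]
  simp
omit [Om F] in
theorem eT_eq_one_iff (x : F) : eT x = 1 ↔ ∃ k : ℤ, Algebra.trace ℚ F x = k := by
  unfold eT
  rw [Complex.exp_eq_one_iff]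
  refine exists_congr fun k => ?_
  rw [mul_comm (k : ℂ), mul_right_inj' two_pi_I_ne_zero]
  exact_mod_cast Iff.rfl
theorem angI_mul (o : Bool) (x y : F) : angI o (x * y) = angI o x * angI o y := by
  unfold angI
  rw [← Finset.prod_mul_distrib]
  refine Finset.prod_congr rfl fun v _ => ?_
  cases o <;> simp [mul_div_mul_comm]
theorem angI_one (o : Bool) : angI o (1 : F) = 1 := by cases o <;> simp [angI]
theorem angI_zero (o : Bool) : angI o (0 : F) = 0 :=
  Finset.prod_eq_zero (Finset.mem_univ (Classical.arbitrary (Io F))) (by simp)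
theorem norm_angI (o : Bool) {x : F} (hx : x ≠ 0) : ‖angI o x‖ = 1 := by
  unfold angI
  rw [norm_prod]
  refine Finset.prod_eq_one fun v _ => ?_
  have : ‖v.1 x‖ ≠ 0 := norm_ne_zero_iff.2 ((map_ne_zero v.1).2 hx)
  cases o <;> simp [this]
theorem norm_angI_le (o : Bool) (x : F) : ‖angI o x‖ ≤ 1 := by
  rcases eq_or_ne x 0 with rfl | hx
  · rw [angI_zero, norm_zero]; exact zero_le_one
  · exact (norm_angI o hx).le
theorem angI_not (o : Bool) (x : F) : angI (!o) x = conj (angI o x) := by cases o <;> simp [angI]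

end Vale.Agent.P319B
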