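import Mathlib

/-! An abstract Karamata lemma, proved by the layer cake formula. -/

namespace Vale.Agent.P319B

open MeasureTheory Filter Topology Set
open scoped Classical

section
variable {J : Type} {a n : J → ℝ}

theorem kar_summable (hfin : ∀ X : ℝ, {j | a j ≠ 0 ∧ n j ≤ X}.Finite) {P : J → Prop} {X : ℝ}
    (h : ∀ j, a j ≠ 0 → P j → n j ≤ X) : Summable fun j => if P j then a j else 0 :=
  summable_of_hasFiniteSupport ((hfin X).subset fun j hj => by
    by_cases hP : P j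
    · have h1 : a j ≠ 0 := by simpa [hP] using hj
      exact ⟨h1, h j h1 hP⟩
    · simp [hP] at hj)

theorem kar_mono (ha : ∀ j, 0 ≤ a j) (hfin : ∀ X : ℝ, {j | a j ≠ 0 ∧ n j ≤ X}.Finite)
    {P Q : J → Prop} {X : ℝ} (h : ∀ j, a j ≠ 0 → Q j → n j ≤ X) (hPQ : ∀ j, a j ≠ 0 → P j → Q j) :
    ∑' j, (if P j then a j else 0) ≤ ∑' j, if Q j then a j else 0 := by
  refine (kar_summable hfin fun j h1 h2 => h j h1 (hPQ j h1 h2)).tsum_le_tsum (fun j => ?_)
    (kar_summable hfin h)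
  by_cases h1 : a j = 0
  · simp [h1]
  · split_ifs with h2 h3
    exacts [le_rfl, absurd (hPQ j h1 h2) h3, ha j, le_rfl]

theorem kar_scale {A : ℝ → ℝ} {c u : ℝ} (hl : Tendsto (fun X : ℝ => A X / X) atTop (𝓝 c))
    (hu : 0 < u) : Tendsto (fun t : ℝ => t * A (u / t)) (𝓝[>] 0) (𝓝 (c * u)) := by
  have h1 : Tendsto (fun t : ℝ => u / t) (𝓝[>] 0) atTop :=
    tendsto_inv_nhdsGT_zero.const_mul_atTop hu
  refine ((hl.comp h1).mul_const u).congr' ?_
  filter_upwards [self_mem_nhdsWithin] with t (ht : 0 < t)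
  simp only [Function.comp]
  field_simp

/-- The count of the points that fall into an initial interval. -/
theorem kar_level (ha : ∀ j, 0 ≤ a j) (hn : ∀ j, a j ≠ 0 → 0 < n j)
    (hfin : ∀ X : ℝ, {j | a j ≠ 0 ∧ n j ≤ X}.Finite) {C c : ℝ}
    (hC : ∀ X : ℝ, 0 < X → ∑' j, (if n j ≤ X then a j else 0) ≤ C * X)
    (hl : Tendsto (fun X : ℝ => (∑' j, if n j ≤ X then a j else 0) / X) atTop (𝓝 c))
    {U : ℝ → Prop} {u : ℝ} (hu : 0 ≤ u) (h1 : ∀ v, 0 < v → v < u → U v)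
    (h2 : ∀ v, 0 < v → U v → v ≤ u) :
    (∀ t, 0 < t → t * ∑' j, (if U (t * n j) then a j else 0) ≤ C * u) ∧
      Tendsto (fun t : ℝ => t * ∑' j, if U (t * n j) then a j else 0) (𝓝[>] 0) (𝓝 (c * u)) := by
  have h3 : ∀ t, 0 < t → ∀ j, a j ≠ 0 → U (t * n j) → n j ≤ u / t := fun t ht j hj h =>
    (le_div_iff₀' ht).2 (h2 _ (mul_pos ht (hn j hj)) h)
  rcases hu.eq_or_lt with rfl | hu
  · have h4 : ∀ t, 0 < t → t * ∑' j, (if U (t * n j) then a j else 0) = 0 := fun t ht => by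
      rw [tsum_congr (g := fun _ => 0) fun j => ?_, tsum_zero, mul_zero]
      by_contra h
      have h5 : a j ≠ 0 := fun h0 => h (by simp [h0])
      have h6 : U (t * n j) := by_contra fun h0 => h (if_neg h0)
      exact (h2 _ (mul_pos ht (hn j h5)) h6).not_gt (mul_pos ht (hn j h5))
    refine ⟨fun t ht => by rw [h4 t ht, mul_zero], ?_⟩
    rw [mul_zero]
    refine tendsto_const_nhds.congr' ?_
    filter_upwards [self_mem_nhdsWithin] with t ht using (h4 t ht).symm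
  have up : ∀ t, 0 < t → t * ∑' j, (if U (t * n j) then a j else 0) ≤
      t * ∑' j, if n j ≤ u / t then a j else 0 := fun t ht =>
    mul_le_mul_of_nonneg_left (kar_mono ha hfin (fun _ _ h => h) (h3 t ht)) ht.le
  refine ⟨fun t ht => (up t ht).trans ((mul_le_mul_of_nonneg_left (hC _ (div_pos hu ht))
    ht.le).trans_eq (by field_simp)), tendsto_order.2 ⟨fun b hb => ?_, fun b hb => ?_⟩⟩
  · have h4 : Tendsto (fun v : ℝ => c * v) (𝓝[<] u) (𝓝 (c * u)) :=
      ((continuous_const.mul continuous_id).tendsto u).mono_left nhdsWithin_le_nhds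
    obtain ⟨v, h5, h6, h7⟩ := ((h4.eventually (lt_mem_nhds hb)).and (Ioo_mem_nhdsLT hu)).exists
    filter_upwards [(kar_scale hl h6).eventually (lt_mem_nhds h5), self_mem_nhdsWithin]
      with t h8 (ht : 0 < t)
    refine h8.trans_le (mul_le_mul_of_nonneg_left (kar_mono ha hfin (h3 t ht) fun j hj h =>
      h1 _ (mul_pos ht (hn j hj)) (((le_div_iff₀' ht).1 h).trans_lt h7)) ht.le)
  · filter_upwards [(kar_scale hl hu).eventually (gt_mem_nhds hb), self_mem_nhdsWithin]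
      with t h8 ht using (up t ht).trans_lt h8

theorem kar_interval {ψ : ℝ → ℝ} (hanti : AntitoneOn ψ (Ioi 0)) {l : ℝ}
    (hb : BddAbove {v | 0 < v ∧ l < ψ v}) : ∃ u, 0 ≤ u ∧ (∀ v, 0 < v → v < u → l < ψ v) ∧
      (∀ v, 0 < v → l < ψ v → v ≤ u) ∧
      volume.restrict (Ioi 0) {v | l < ψ v} = ENNReal.ofReal u := by
  have h1 : ∀ v, 0 < v → v < sSup {v | 0 < v ∧ l < ψ v} → l < ψ v := fun v hv h => by
    obtain ⟨x, hx, h2⟩ := (lt_csSup_iff hb (by
      by_contra h3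
      rw [not_nonempty_iff_eq_empty.1 h3, Real.sSup_empty] at h
      exact h.not_gt hv)).1 h
    exact hx.2.trans_le (hanti hv hx.1 h2.le)
  have h2 : ∀ v, 0 < v → l < ψ v → v ≤ sSup {v | 0 < v ∧ l < ψ v} :=
    fun v hv h => le_csSup hb ⟨hv, h⟩
  refine ⟨_, Real.sSup_nonneg fun x hx => hx.1.le, h1, h2, ?_⟩
  rw [Measure.restrict_apply' measurableSet_Ioi]
  refine le_antisymm ((measure_mono (t := Ioc 0 _) fun v hv => ⟨hv.2, h2 v hv.2 hv.1⟩).trans_eq
    (by simp)) (le_trans (by simp) (measure_mono (s := Ioo 0 _) fun v hv => ⟨h1 v hv.1 hv.2, hv.1⟩))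

theorem kar_cake {x y : ℝ} :
    ∫⁻ l in Ioi (0 : ℝ), ENNReal.ofReal (if l < y then x else 0) =
      ENNReal.ofReal x * ENNReal.ofReal y := by
  have : (fun l : ℝ => ENNReal.ofReal (if l < y then x else 0)) =
      (Iio y).indicator fun _ => ENNReal.ofReal x := by
    funext l
    by_cases h : l < y <;> simp [h]
  rw [this, lintegral_indicator_const measurableSet_Iio, Measure.restrict_apply measurableSet_Iio,
    Iio_inter_Ioi, Real.volume_Ioo, sub_zero]

theorem kar_core [Countable J] (ha : ∀ j, 0 ≤ a j) (hn : ∀ j, a j ≠ 0 → 0 < n j)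
    (hfin : ∀ X : ℝ, {j | a j ≠ 0 ∧ n j ≤ X}.Finite) {C c : ℝ}
    (hC : ∀ X : ℝ, 0 < X → ∑' j, (if n j ≤ X then a j else 0) ≤ C * X)
    (hl : Tendsto (fun X : ℝ => (∑' j, if n j ≤ X then a j else 0) / X) atTop (𝓝 c))
    {ψ : ℝ → ℝ} (h0 : ∀ y, 0 < y → 0 ≤ ψ y) (hanti : AntitoneOn ψ (Ioi 0))
    (hint : IntegrableOn ψ (Ioi 0)) (hb : ∀ l, 0 < l → BddAbove {v | 0 < v ∧ l < ψ v}) :
    (∀ t : ℝ, 0 < t → Summable fun j => a j * ψ (t * n j)) ∧
    Tendsto (fun t : ℝ => t * ∑' j, a j * ψ (t * n j)) (𝓝[>] 0)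
      (𝓝 (c * ∫ u in Ioi (0 : ℝ), ψ u)) := by
  have hA : ∀ P : J → Prop, 0 ≤ ∑' j, if P j then a j else 0 := fun P =>
    tsum_nonneg fun j => by split_ifs; exacts [ha j, le_rfl]
  have hc : 0 ≤ c := ge_of_tendsto hl ((eventually_ge_atTop 0).mono fun X hX =>
    div_nonneg (hA _) hX)
  have hC0 : 0 ≤ C := ((hA _).trans (hC 1 one_pos)).trans_eq (mul_one C)
  have hψ : 0 ≤ᵐ[volume.restrict (Ioi 0)] ψ :=
    (ae_restrict_iff' measurableSet_Ioi).2 (.of_forall h0)
  have hI := lintegral_eq_lintegral_meas_lt _ hψ hint.aemeasurable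
  rw [← ofReal_integral_eq_lintegral_ofReal hint hψ] at hI
  have hnn : ∀ t, 0 < t → ∀ j, 0 ≤ a j * ψ (t * n j) := fun t ht j => by
    by_cases h : a j = 0
    · rw [h, zero_mul]
    · exact mul_nonneg (ha j) (h0 _ (mul_pos ht (hn j h)))
  let B : ℝ → ℝ → ENNReal := fun t l =>
    ENNReal.ofReal t * ∑' j, ENNReal.ofReal (if l < ψ (t * n j) then a j else 0)
  have hm : ∀ t j, Measurable fun l => ENNReal.ofReal (if l < ψ (t * n j) then a j else 0) :=
    fun t j => (Measurable.ite measurableSet_Iio measurable_const measurable_const).ennreal_ofReal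
  have hB : ∀ t, ∫⁻ l in Ioi 0, B t l =
      ENNReal.ofReal t * ∑' j, ENNReal.ofReal (a j * ψ (t * n j)) := fun t => by
    rw [lintegral_const_mul _ (Measurable.tsum (hm t)),
      lintegral_tsum fun j => (hm t j).aemeasurable]
    simp only [kar_cake, ENNReal.ofReal_mul (ha _)]
  have key : ∀ l, 0 < l → (∀ t, 0 < t → B t l ≤
      ENNReal.ofReal C * volume.restrict (Ioi 0) {v | l < ψ v}) ∧ Tendsto (fun t => B t l) (𝓝[>] 0)
        (𝓝 (ENNReal.ofReal c * volume.restrict (Ioi 0) {v | l < ψ v})) := fun l hl0 => by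
    obtain ⟨u, hu, h1, h2, h3⟩ := kar_interval hanti (hb l hl0)
    obtain ⟨h4, h5⟩ := kar_level ha hn hfin hC hl (U := fun v => l < ψ v) hu h1 h2
    have h6 : ∀ t, 0 < t → B t l =
        ENNReal.ofReal (t * ∑' j, if l < ψ (t * n j) then a j else 0) := fun t ht => by
      rw [ENNReal.ofReal_mul ht.le, ENNReal.ofReal_tsum_of_nonneg (fun j => by
        split_ifs; exacts [ha j, le_rfl]) (kar_summable hfin (X := u / t) fun j hj h =>
          (le_div_iff₀' ht).2 (h2 _ (mul_pos ht (hn j hj)) h))]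
    rw [h3, ← ENNReal.ofReal_mul hC0, ← ENNReal.ofReal_mul hc]
    refine ⟨fun t ht => (h6 t ht).trans_le (ENNReal.ofReal_le_ofReal (h4 t ht)),
      (ENNReal.tendsto_ofReal h5).congr' ?_⟩
    filter_upwards [self_mem_nhdsWithin] with t ht using (h6 t ht).symm
  have hfin' : ∫⁻ l in Ioi 0, ENNReal.ofReal C * volume.restrict (Ioi 0) {v | l < ψ v} ≠ ⊤ := by
    rw [lintegral_const_mul' _ _ ENNReal.ofReal_ne_top, ← hI]
    exact ENNReal.mul_ne_top ENNReal.ofReal_ne_top ENNReal.ofReal_ne_top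
  have hle : ∀ t, 0 < t → ∀ᵐ l ∂volume.restrict (Ioi 0), B t l ≤
      ENNReal.ofReal C * volume.restrict (Ioi 0) {v | l < ψ v} := fun t ht =>
    (ae_restrict_iff' measurableSet_Ioi).2 (.of_forall fun l hl0 => (key l hl0).1 t ht)
  have hs : ∀ t : ℝ, 0 < t → Summable fun j => a j * ψ (t * n j) := fun t ht => by
    have h1 := ne_top_of_le_ne_top hfin' ((hB t).symm.trans_le (lintegral_mono_ae (hle t ht)))
    have h2 : ∑' j, ENNReal.ofReal (a j * ψ (t * n j)) ≠ ⊤ := fun h => h1 (by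
      rw [h, ENNReal.mul_top (ENNReal.ofReal_pos.2 ht).ne'])
    simpa only [ENNReal.toReal_ofReal (hnn t ht _)] using ENNReal.summable_toReal h2
  refine ⟨hs, ?_⟩
  have h1 := tendsto_lintegral_filter_of_dominated_convergence (l := 𝓝[>] (0 : ℝ)) _
    (.of_forall fun t => (Measurable.tsum (hm t)).const_mul (ENNReal.ofReal t))
    (eventually_nhdsWithin_of_forall hle) hfin'
    ((ae_restrict_iff' measurableSet_Ioi).2 (.of_forall fun l hl0 => (key l hl0).2))
  rw [lintegral_const_mul' _ _ ENNReal.ofReal_ne_top, ← hI, ← ENNReal.ofReal_mul hc] at h1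
  have h2 := (ENNReal.tendsto_toReal ENNReal.ofReal_ne_top).comp h1
  rw [ENNReal.toReal_ofReal (mul_nonneg hc (integral_nonneg_of_ae hψ))] at h2
  refine h2.congr' ?_
  filter_upwards [self_mem_nhdsWithin] with t (ht : 0 < t)
  show (∫⁻ l in Ioi 0, B t l).toReal = _
  rw [hB, ← ENNReal.ofReal_tsum_of_nonneg (hnn t ht) (hs t ht), ← ENNReal.ofReal_mul ht.le,
    ENNReal.toReal_ofReal (mul_nonneg ht.le (tsum_nonneg (hnn t ht)))]

end

end Vale.Agent.P319B
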