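import Vale.Agent.P319B.GeoM
import Vale.Agent.P319B.FIA

/-! The kernel fI and an abstract Karamata lemma. -/

namespace Vale.Agent.P319B

open Complex NumberField MeasureTheory Filter Topology
open scoped Classical ComplexConjugate
open Vale.Agent.P026 (w kk fk)

variable {F : Type} [Field F] [NumberField F] [Ctx0 F]

theorem fii_one {p q b : ℝ} (hp : 0 < p) (hq : -1 < q) (hb : 0 < b) :
    Integrable ((Set.Ioi (0 : ℝ)).indicator fun x => x ^ q * Real.exp (-b * x ^ p)) ∧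
    ∫ x, (Set.Ioi (0 : ℝ)).indicator (fun x => x ^ q * Real.exp (-b * x ^ p)) x =
      b ^ (-(q + 1) / p) * (1 / p) * Real.Gamma ((q + 1) / p) := by
  have h := (integral_indicator measurableSet_Ioi).trans
    (integral_rpow_mul_exp_neg_mul_rpow hp hq hb)
  refine ⟨Integrable.of_integral_ne_zero (h.trans_ne ?_), h⟩
  have := Real.Gamma_pos_of_pos (div_pos (show 0 < q + 1 by linarith) hp)
  positivity

theorem fii_amgm {y D E : ℝ} (hy : 0 < y) (hD : 0 < D) (hE : 0 < E) :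
    Real.exp (-D - y * E / D) ≤
      D ^ (0 : ℝ) * Real.exp (-(1 / 2) * D ^ (1 : ℝ)) * Real.exp (-√y * E ^ (1 / 2 : ℝ)) := by
  rw [Real.rpow_zero, one_mul, Real.rpow_one, ← Real.exp_add, ← Real.sqrt_eq_rpow, neg_mul √y,
    ← Real.sqrt_mul hy.le]
  refine Real.exp_le_exp.2 ?_
  have h1 := Real.sq_sqrt (mul_pos hy hE).le
  have h2 : √(y * E) - D / 2 ≤ y * E / D := by
    rw [le_div_iff₀ hD]
    nlinarith [sq_nonneg (D - √(y * E)), sq_nonneg √(y * E)]
  linarith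

theorem fii_meas (y : Io F → ℝ) : Measurable fun p : (Io F → ℝ) × (Io F → ℝ) =>
    Real.exp (-(∑ v, p.1 v) - ∑ v, y v * p.2 v / p.1 v) := by fun_prop

theorem fii_bound {s : ℝ} (hs : 0 < s) : ∃ K : ℝ, ∀ y : Io F → ℝ, (∀ v, 0 < y v) →
    IntegrableOn (fun p : (Io F → ℝ) × (Io F → ℝ) =>
      Real.exp (-(∑ v, p.1 v) - ∑ v, y v * p.2 v / p.1 v)) (DE F) ∧
    ∫ p in DE F, Real.exp (-(∑ v, p.1 v) - ∑ v, y v * p.2 v / p.1 v) ≤ K * (∏ v, y v) ^ (-s) := by
  obtain ⟨a1, -⟩ := fii_one (p := 1) (q := 0) (b := 1 / 2) one_pos (by norm_num) (by norm_num)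
  generalize hg : ((Set.Ioi (0 : ℝ)).indicator fun x => x ^ (0 : ℝ) *
    Real.exp (-(1 / 2) * x ^ (1 : ℝ))) = g at a1
  refine ⟨(2 * ∫ D : Io F → ℝ, ∏ v, g (D v)) * ∏ _v : Io F, 2 * Real.Gamma (2 * s), fun y hy => ?_⟩
  have a2 := fun v => fii_one (p := 1 / 2) (q := s - 1) (by norm_num) (by linarith)
    (Real.sqrt_pos.2 (hy v))
  generalize hh : (fun v => (Set.Ioi (0 : ℝ)).indicator fun x => x ^ (s - 1) *
    Real.exp (-√(y v) * x ^ (1 / 2 : ℝ))) = h
  have hh' := fun v => congrFun hh v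
  simp only [hh'] at a2
  have g0 : ∀ x, 0 ≤ g x := fun x => hg ▸ Set.indicator_nonneg (fun x hx => by
    have := hx.out; positivity) x
  have h0 : ∀ v x, 0 ≤ h v x := fun v x => hh' v ▸ Set.indicator_nonneg (fun x hx => by
    have := hx.out; positivity) x
  have hM : Integrable fun p : (Io F → ℝ) × (Io F → ℝ) =>
      (2 * ∏ v, g (p.1 v)) * ∏ v, h v (p.2 v) :=
    ((Integrable.fintype_prod fun _ => a1).const_mul 2).mul_prod
      (Integrable.fintype_prod fun v => (a2 v).1)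
  have hle : ∀ p ∈ DE F, Real.exp (-(∑ v, p.1 v) - ∑ v, y v * p.2 v / p.1 v) ≤
      (2 * ∏ v, g (p.1 v)) * ∏ v, h v (p.2 v) := by
    rintro ⟨D, E⟩ ⟨hD, hE, h1, h2⟩
    dsimp only at hD hE h1 h2 ⊢
    have h3 : 1 ≤ 2 * ∏ v, E v ^ (s - 1) := by
      rw [Real.finsetProd_rpow _ _ (fun v _ => (hE v).le)]
      have h4 := Real.rpow_le_rpow_of_exponent_le h1 (show -1 ≤ s - 1 by linarith)
      rw [Real.rpow_neg_one] at h4
      have h5 := inv_anti₀ (one_pos.trans_le h1) h2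
      linarith
    rw [← Finset.sum_neg_distrib, ← Finset.sum_sub_distrib, Real.exp_sum]
    refine (Finset.prod_le_prod (fun v _ => (Real.exp_pos _).le)
      fun v _ => fii_amgm (hy v) (hD v) (hE v)).trans ((le_mul_of_one_le_left
        (Finset.prod_nonneg fun v _ => by have := hD v; positivity) h3).trans_eq ?_)
    rw [mul_assoc, mul_assoc, ← Finset.prod_mul_distrib, ← Finset.prod_mul_distrib]
    refine congrArg _ (Finset.prod_congr rfl fun v _ => ?_)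
    rw [← hg, ← hh' v, Set.indicator_of_mem (Set.mem_Ioi.2 (hD v)),
      Set.indicator_of_mem (Set.mem_Ioi.2 (hE v))]
    ring
  have hI : IntegrableOn (fun p : (Io F → ℝ) × (Io F → ℝ) =>
      Real.exp (-(∑ v, p.1 v) - ∑ v, y v * p.2 v / p.1 v)) (DE F) :=
    hM.integrableOn.mono' (fii_meas y).aestronglyMeasurable
      ((ae_restrict_iff' measurableSet_DE).2 (.of_forall fun p hp => by
        rw [Real.norm_of_nonneg (Real.exp_pos _).le]; exact hle p hp))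
  refine ⟨hI, (setIntegral_mono_on hI hM.integrableOn measurableSet_DE hle).trans
    ((setIntegral_le_integral hM (.of_forall fun p => mul_nonneg (mul_nonneg zero_le_two
      (Finset.prod_nonneg fun v _ => g0 _)) (Finset.prod_nonneg fun v _ => h0 v _))).trans_eq ?_)⟩
  refine (integral_prod_mul (fun D : Io F → ℝ => 2 * ∏ v, g (D v))
    (fun E : Io F → ℝ => ∏ v, h v (E v))).trans ?_
  rw [integral_const_mul, integral_fintype_prod_volume_eq_prod h, mul_assoc _ _ (_ ^ _),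
    ← Real.finsetProd_rpow _ _ (fun v _ => (hy v).le), ← Finset.prod_mul_distrib]
  refine congrArg _ (Finset.prod_congr rfl fun v _ => ?_)
  rw [(a2 v).2, Real.sqrt_eq_rpow, ← Real.rpow_mul (hy v).le,
    show 1 / 2 * (-(s - 1 + 1) / (1 / 2)) = -s by ring, show (s - 1 + 1) / (1 / 2) = 2 * s by ring]
  ring

theorem fii_def (y : ℝ) : fI F y = ∫ p in DE F,
    Real.exp (-(∑ v, p.1 v) - ∑ v, y ^ ((rr F : ℝ)⁻¹) * p.2 v / p.1 v) := by
  simp only [fI, Finset.mul_sum, mul_div_assoc]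

theorem fii_prod {y : ℝ} (hy : 0 < y) : ∏ _v : Io F, y ^ ((rr F : ℝ)⁻¹) = y := by
  rw [Finset.prod_const]
  exact Real.rpow_inv_natCast_pow hy.le rr_pos.ne'

theorem fii_int {y : Io F → ℝ} (hy : ∀ v, 0 < y v) :
    IntegrableOn (fun p : (Io F → ℝ) × (Io F → ℝ) =>
      Real.exp (-(∑ v, p.1 v) - ∑ v, y v * p.2 v / p.1 v)) (DE F) :=
  let ⟨_, h⟩ := fii_bound (F := F) one_pos
  (h y hy).1

theorem fI_eq {y : Io F → ℝ} (hy : ∀ v, 0 < y v) :
    IntegrableOn (fun p : (Io F → ℝ) × (Io F → ℝ) =>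
      Real.exp (-(∑ v, p.1 v) - ∑ v, y v * p.2 v / p.1 v)) (DE F) ∧
    ∫ p in DE F, Real.exp (-(∑ v, p.1 v) - ∑ v, y v * p.2 v / p.1 v) = fI F (∏ v, y v) := by
  refine ⟨fii_int hy, ?_⟩
  have hY : 0 < ∏ v, y v := Finset.prod_pos fun v _ => hy v
  obtain ⟨z, hz⟩ : ∃ z, z = (∏ v, y v) ^ ((rr F : ℝ)⁻¹) := ⟨_, rfl⟩
  have hz0 : 0 < z := hz ▸ Real.rpow_pos_of_pos hY _
  have h1 : ∏ v, y v / z = 1 := by rw [Finset.prod_div_distrib, hz, fii_prod hY, div_self hY.ne']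
  have h2 : MeasurePreserving fun (E : Io F → ℝ) v => y v / z * E v := by
    have h3 := Real.smul_map_diagonal_volume_pi (D := fun v => y v / z) (by
      rw [Matrix.det_diagonal, h1]; exact one_ne_zero)
    rw [Matrix.det_diagonal, h1, abs_one, ENNReal.ofReal_one, one_smul] at h3
    refine ⟨by fun_prop, Eq.trans (congrArg (Measure.map · volume) ?_) h3⟩
    funext E v
    simp [Matrix.mulVec_diagonal]
  have h4 := ((MeasurePreserving.id volume).prod h2).restrict_preimage (measurableSet_DE (F := F))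
  have h5 : Prod.map id (fun (E : Io F → ℝ) v => y v / z * E v) ⁻¹' DE F = DE F := by
    ext p
    simp only [DE, Set.mem_preimage, Set.mem_ofPred_eq, Prod.map_fst, Prod.map_snd, id,
      Finset.prod_mul_distrib, h1, one_mul, mul_pos_iff_of_pos_left (div_pos (hy _) hz0)]
  rw [h5] at h4
  rw [fii_def, ← hz, Measure.volume_eq_prod, ← h4.map_eq, integral_map h4.measurable.aemeasurable
    (fii_meas fun _ => z).aestronglyMeasurable, h4.map_eq]
  refine integral_congr_ae (.of_forall fun p => congrArg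
    (fun x => Real.exp (-(∑ v, p.1 v) - x)) (Finset.sum_congr rfl fun v _ => ?_))
  rw [Prod.map_fst, Prod.map_snd, ← mul_assoc, mul_div_cancel₀ _ hz0.ne', id]
theorem fI_pos {y : ℝ} (hy : 0 < y) : 0 < fI F y := by
  have : NeZero (volume.restrict (DE F)) := ⟨restrict_DE_ne_zero⟩
  rw [fii_def]
  exact integral_exp_pos (fii_int fun _ => Real.rpow_pos_of_pos hy _)
theorem fI_antitoneOn : AntitoneOn (fI F) (Set.Ioi 0) := fun x hx y hy hxy => by
  rw [fii_def, fii_def]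
  refine setIntegral_mono_on (fii_int fun _ => Real.rpow_pos_of_pos hy _)
    (fii_int fun _ => Real.rpow_pos_of_pos hx _) measurableSet_DE fun p hp => ?_
  refine Real.exp_le_exp.2 (sub_le_sub_left (Finset.sum_le_sum fun v _ => ?_) _)
  have h1 := hp.1 v
  have h2 := hp.2.1 v
  have h3 := hx.out
  gcongr
theorem fI_le {σ : ℝ} (hσ : 0 < σ) : ∃ C : ℝ, ∀ y : ℝ, 0 < y → fI F y ≤ C * y ^ (-σ) := by
  obtain ⟨K, h⟩ := fii_bound (F := F) hσ
  refine ⟨K, fun y hy => ?_⟩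
  have := (h _ fun _ => Real.rpow_pos_of_pos hy ((rr F : ℝ)⁻¹)).2
  rwa [fii_prod hy, ← fii_def] at this

omit [NumberField F] [Ctx0 F] [Field F] in
theorem karamata {J : Type} [Countable J] {a n : J → ℝ} (ha : ∀ j, 0 ≤ a j)
    (hn : ∀ j, a j ≠ 0 → 0 < n j) (hfin : ∀ X : ℝ, {j | a j ≠ 0 ∧ n j ≤ X}.Finite) {C c : ℝ}
    (hC : ∀ X : ℝ, 0 < X → ∑' j, (if n j ≤ X then a j else 0) ≤ C * X)
    (hl : Tendsto (fun X : ℝ => (∑' j, if n j ≤ X then a j else 0) / X) atTop (𝓝 c))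
    {Φ : ℝ → ℝ} (h0 : ∀ y, 0 < y → 0 ≤ Φ y) (hanti : AntitoneOn Φ (Set.Ioi 0)) {C' : ℝ}
    (h1 : ∀ y, 0 < y → Φ y ≤ C' * y ^ (-(1 : ℝ))) (h2 : ∀ y, 0 < y → Φ y ≤ C' * y ^ (-(1 / 6 : ℝ))) :
    IntegrableOn (fun u : ℝ => Φ (u ^ 3)) (Set.Ioi 0) ∧
    (∀ x : ℝ, 0 < x → Summable (fun j => a j * Φ (x * n j ^ 3))) ∧
    Tendsto (fun x : ℝ => x ^ (1 / 3 : ℝ) * ∑' j, a j * Φ (x * n j ^ 3)) (𝓝[>] 0)
      (𝓝 (c * ∫ u in Set.Ioi (0 : ℝ), Φ (u ^ 3))) := by
  have ha' : AntitoneOn (fun u : ℝ => Φ (u ^ 3)) (Set.Ioi 0) := fun x hx y hy hxy =>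
    hanti (pow_pos hx.out 3) (pow_pos hy.out 3) (pow_le_pow_left₀ hx.out.le hxy 3)
  have key : ∀ (S : Set ℝ) (e : ℝ), MeasurableSet S → S ⊆ Set.Ioi 0 →
      (∀ y, 0 < y → Φ y ≤ C' * y ^ e) → IntegrableOn (fun u : ℝ => u ^ (3 * e)) S →
      IntegrableOn (fun u : ℝ => Φ (u ^ 3)) S := fun S e hS hS' h hi =>
    (hi.const_mul C').mono' (aemeasurable_restrict_of_antitoneOn hS
      (ha'.mono hS')).aestronglyMeasurable ((ae_restrict_iff' hS).2 (.of_forall fun u hu => by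
        have h3 := pow_pos (hS' hu).out 3
        rw [Real.norm_of_nonneg (h0 _ h3), Real.rpow_mul (hS' hu).out.le, Real.rpow_ofNat]
        exact h _ h3))
  have hint : IntegrableOn (fun u : ℝ => Φ (u ^ 3)) (Set.Ioi 0) := by
    rw [← Set.Ioc_union_Ioi_eq_Ioi zero_le_one]
    exact (key _ _ measurableSet_Ioc Set.Ioc_subset_Ioi_self h2
      (intervalIntegral.intervalIntegrable_rpow' (by norm_num)).1).union
      (key _ _ measurableSet_Ioi (Set.Ioi_subset_Ioi zero_le_one) h1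
        (integrableOn_Ioi_rpow_of_lt (by norm_num) one_pos))
  obtain ⟨k1, k2⟩ := kar_core ha hn hfin hC hl (fun y hy => h0 _ (pow_pos hy 3)) ha' hint
    fun l hl0 => ⟨max 1 (C' / l), fun v hv => le_max_iff.2 ((le_total v 1).imp_right fun h3 => by
      have h4 := hv.2.trans_le (h1 _ (pow_pos hv.1 3))
      rw [Real.rpow_neg_one, ← div_eq_mul_inv, lt_div_iff₀ (pow_pos hv.1 3)] at h4
      rw [le_div_iff₀' hl0]
      exact (mul_le_mul_of_nonneg_left (le_self_pow₀ h3 three_ne_zero) hl0.le).trans h4.le)⟩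
  have e : ∀ x : ℝ, 0 < x → ∀ j, (x ^ (1 / 3 : ℝ) * n j) ^ 3 = x * n j ^ 3 := fun x hx j => by
    rw [mul_pow, one_div, ← Nat.cast_ofNat (n := 3), Real.rpow_inv_natCast_pow hx.le three_ne_zero]
  have h3 : Tendsto (fun x : ℝ => x ^ (1 / 3 : ℝ)) (𝓝[>] 0) (𝓝[>] 0) := by
    refine tendsto_nhdsWithin_iff.2 ⟨?_, eventually_nhdsWithin_of_forall fun x hx =>
      Real.rpow_pos_of_pos hx _⟩
    have := (Real.continuousAt_rpow_const 0 (1 / 3) (Or.inr (by norm_num))).tendsto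
    rw [Real.zero_rpow (by norm_num)] at this
    exact this.mono_left nhdsWithin_le_nhds
  refine ⟨hint, fun x hx => by simpa only [e x hx] using k1 _ (Real.rpow_pos_of_pos hx (1 / 3)),
    (k2.comp h3).congr' (eventually_nhdsWithin_of_forall fun x hx => ?_)⟩
  simp only [Function.comp, e x hx]

end Vale.Agent.P319B
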