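import Vale.Agent.P319B.Norm

/-! Normalised generators, Moebius function, decompositions. -/

namespace Vale.Agent.P319B

open Complex NumberField
open scoped Classical ComplexConjugate
open Vale.Agent.P026 (w kk fk)

variable {F : Type} [Field F] [NumberField F] [Ctx F]

theorem P1.one : P1 (1 : R F) := Submonoid.one_mem _
theorem P1.mul {x y : R F} (hx : P1 x) (hy : P1 y) : P1 (x * y) := Submonoid.mul_mem _ hx hy
theorem P1.pow {x : R F} (hx : P1 x) (k : ℕ) : P1 (x ^ k) := Submonoid.pow_mem _ hx k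
theorem P1.ne_zero {x : R F} (hx : P1 x) : x ≠ 0 := fun h => Ctx.P_ne (F := F) (h ▸ hx)
theorem P1.coe_ne {x : R F} (hx : P1 x) : (x : F) ≠ 0 := fun h => hx.ne_zero (Subtype.ext h)
theorem P1.eq_of_associated {x y : R F} (hx : P1 x) (hy : P1 y) (h : Associated x y) :
    x = y :=
  (Ctx.P_ex x hx.ne_zero).unique ⟨hx, Associated.refl x⟩ ⟨hy, h⟩
theorem P1.of_mul {x y : R F} (hx : P1 x) (hxy : P1 (x * y)) : P1 y := by
  obtain ⟨p, ⟨hp, h⟩, -⟩ := Ctx.P_ex y (right_ne_zero_of_mul hxy.ne_zero)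
  rw [mul_left_cancel₀ hx.ne_zero (hxy.eq_of_associated (hx.mul hp) (h.mul_left x))]
  exact hp
theorem P1.eq_one_of_isUnit {x : R F} (hx : P1 x) (hu : IsUnit x) : x = 1 :=
  hx.eq_of_associated P1.one (associated_one_iff_isUnit.2 hu)
theorem P1.seven_le {x : R F} (hx : P1 x) (h1 : x ≠ 1) : 7 ≤ N x :=
  seven_le_N hx.ne_zero fun h => h1 (hx.eq_one_of_isUnit h)
theorem exists_P1 {r : R F} (hr : r ≠ 0) : ∃ s x : R F, IsUnit s ∧ P1 x ∧ r = s * x := by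
  obtain ⟨p, ⟨hp, h⟩, -⟩ := Ctx.P_ex r hr
  obtain ⟨u, hu⟩ := h.symm
  exact ⟨u, p, u.isUnit, hp, by rw [← hu, mul_comm]⟩
theorem unit_P1_unique {s s' x x' : R F} (hs : IsUnit s) (hs' : IsUnit s') (hx : P1 x)
    (hx' : P1 x') (h : s * x = s' * x') : s = s' ∧ x = x' := by
  obtain rfl : x = x' := hx.eq_of_associated hx'
    ((associated_unit_mul_right x s hs).trans (h ▸ associated_unit_mul_left x' s' hs'))
  exact ⟨mul_right_cancel₀ hx.ne_zero h, rfl⟩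
theorem P0.one : P0 (1 : R F) :=
  ⟨P1.one, squarefree_one⟩
theorem P0.ne_zero {x : R F} (hx : P0 x) : x ≠ 0 :=
  hx.1.ne_zero
theorem P0.mul {x y : R F} (hx : P0 x) (hy : P0 y) (h : IsCoprime x y) : P0 (x * y) :=
  ⟨hx.1.mul hy.1, squarefree_mul_iff.2 ⟨h.isRelPrime, hx.2, hy.2⟩⟩
theorem P0.of_mul {x y : R F} (hx : P1 x) (hxy : P0 (x * y)) :
    P0 x ∧ P0 y ∧ IsCoprime x y := by
  obtain ⟨h2, h3, h4⟩ := squarefree_mul_iff.1 hxy.2
  exact ⟨⟨hx, h3⟩, ⟨hx.of_mul hxy.1, h4⟩, isRelPrime_iff_isCoprime.1 h2⟩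
theorem P0.of_prime {p : R F} (hp : Prime p) (h : P1 p) : P0 p :=
  ⟨h, hp.squarefree⟩
theorem P1.induction {Pr : R F → Prop} (h1 : Pr 1)
    (hm : ∀ p x, Prime p → P1 p → P1 x → Pr x → Pr (p * x)) {x : R F} (hx : P1 x) :
    Pr x := by
  have key : ∀ y u : R F, IsUnit u → P1 (u * y) → Pr (u * y) := by
    intro y
    induction y using UniqueFactorizationMonoid.induction_on_prime with
    | h₁ => exact fun u _ h => absurd (mul_zero u) h.ne_zero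
    | h₂ y hy => exact fun u hu h => by rw [h.eq_one_of_isUnit (hu.mul hy)]; exact h1
    | h₃ a p _ hp ih =>
      intro u hu h
      obtain ⟨v, q, hv, hq, rfl⟩ := exists_P1 hp.ne_zero
      have e : u * (v * q * a) = q * (u * v * a) := by ring
      rw [e] at h ⊢
      exact hm _ _ ((associated_unit_mul_left q v hv).prime hp) hq (hq.of_mul h)
        (ih _ (hu.mul hv) (hq.of_mul h))
  simpa using key x 1 isUnit_one (by simpa using hx)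
theorem P0.induction {Pr : R F → Prop} (h1 : Pr 1)
    (hm : ∀ p x, Prime p → P1 p → P0 x → ¬ p ∣ x → Pr x → Pr (p * x)) {x : R F} (hx : P0 x) :
    Pr x :=
  P1.induction (Pr := fun x => P0 x → Pr x) (fun _ => h1) (fun p y hp h _ ih hpy =>
    have h' := P0.of_mul h hpy
    hm p y hp h h'.2.1 (hp.coprime_iff_not_dvd.1 h'.2.2) (ih h'.2.1)) hx.1 hx
theorem bs_exists_prime {x : R F} (hx : P1 x) : x ≠ 1 → ∃ p, Prime p ∧ P1 p ∧ p ∣ x :=
  P1.induction (Pr := fun y : R F => y ≠ (1 : R F) → ∃ p, Prime p ∧ P1 p ∧ p ∣ y)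
    (fun h => (h (Eq.refl (1 : R F))).elim)
    (fun p _ hp h _ _ _ => ⟨p, hp, h, dvd_mul_right _ _⟩) hx
theorem bs_gcd {x : R F} (hx : x ≠ 0) (y : R F) :
    ∃ g : R F, P1 g ∧ g ∣ x ∧ g ∣ y ∧ ∀ e, e ∣ x → e ∣ y → e ∣ g := by
  have h0 : IsBezout.gcd x y ≠ 0 := ne_zero_of_dvd_ne_zero hx (IsBezout.gcd_dvd_left x y)
  obtain ⟨s, g, hs, hg, e⟩ := exists_P1 h0
  have h1 : g ∣ IsBezout.gcd x y := Dvd.intro_left s e.symm
  exact ⟨g, hg, h1.trans (IsBezout.gcd_dvd_left x y), h1.trans (IsBezout.gcd_dvd_right x y),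
    fun d k1 k2 => hs.dvd_mul_left.1 (e ▸ IsBezout.dvd_gcd k1 k2)⟩
theorem exists_gcd_P0 {x y : R F} (hx : P0 x) (hy : y ≠ 0) :
    ∃ g x' : R F, P0 g ∧ P0 x' ∧ x = g * x' ∧ g ∣ y ∧ IsCoprime x' y ∧
      ∀ e, e ∣ x → e ∣ y → e ∣ g := by
  have _ := hy
  obtain ⟨g, hg, ⟨x', e⟩, k, h⟩ := bs_gcd hx.ne_zero y
  obtain ⟨h1, h2, h3⟩ := P0.of_mul hg (e ▸ hx)
  exact ⟨_, x', h1, h2, e, k, isRelPrime_iff_isCoprime.1 fun d k1 k2 =>
      h3.isUnit_of_dvd' (h d (k1.trans (Dvd.intro_left _ e.symm)) k2) k1, h⟩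
/-- Reduction of a fraction to lowest terms with normalised denominator. -/
theorem exists_lowest {q : R F} (hq : q ≠ 0) (y : R F) :
    ∃! p : R F × R F, P1 p.2 ∧ p.2 ∣ q ∧ IsCoprime p.1 p.2 ∧ y * p.2 = p.1 * q := by
  refine existsUnique_of_exists_of_unique ?_ ?_
  · obtain ⟨g, hg, ⟨q', rfl⟩, ⟨y', rfl⟩, h⟩ := bs_gcd hq y
    obtain ⟨s, x, ⟨s, rfl⟩, hx, rfl⟩ := exists_P1 (right_ne_zero_of_mul hq)
    refine ⟨((s⁻¹ : (R F)ˣ) * y', x), hx, ⟨g * s, by ring⟩, ?_,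
      by linear_combination (-(g * y' * x)) * s.inv_mul⟩
    refine (isCoprime_mul_unit_left_left (s⁻¹).isUnit _ _).2
      (isRelPrime_iff_isCoprime.1 fun d k1 k2 => isUnit_of_dvd_one ?_)
    refine (mul_dvd_mul_iff_left hg.ne_zero).1 ?_
    rw [mul_one]
    exact h _ (mul_dvd_mul_left g (k2.mul_left _)) (mul_dvd_mul_left g k1)
  · rintro ⟨a, b⟩ ⟨a', b'⟩ ⟨h1, -, h2, h3⟩ ⟨h4, -, h5, h6⟩
    have e : a * b' = a' * b := mul_right_cancel₀ hq (by linear_combination b * h6 - b' * h3)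
    obtain rfl : b = b' := h1.eq_of_associated h4 (associated_of_dvd_dvd
      (h2.symm.dvd_of_dvd_mul_left (Dvd.intro_left a' e.symm))
      (h5.symm.dvd_of_dvd_mul_left (Dvd.intro_left a e)))
    rw [mul_right_cancel₀ h1.ne_zero e]

/-- An element in the coset of the representative of the class of a normalised generator. -/
theorem omg_of_inU {κ : Cl F} {x0 : R F} (h0 : P1 x0) (hκ : cls (x0 : F) = κ) {s x : R F}
    (hs : IsUnit s) (hx : P1 x) (h : InU 3 (((s * x : R F) : F) / rep κ)) :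
    Omg s ∧ cls (x : F) = κ := by
  have h1 : cls ((s * x : R F) : F) = κ := (cls_of_inU h).trans (cls_rep κ)
  obtain ⟨u, hu, h2⟩ := (cls_eq_iff (h.left_ne (by norm_num)) h0.coe_ne).1 (h1.trans hκ.symm)
  have h3 : S6 ((u * s : R F) : F) := Ctx.P_ax x hx x0 h0 (u * s) (hu.1.mul hs)
    (S6.of_inU (by rwa [Subring.coe_mul, ← mul_assoc, ← Subring.coe_mul] at h2))
  have h4 : Omg s := ⟨hs, by
    have := hu.2.inv.mul h3
    rwa [Subring.coe_mul, inv_mul_cancel_left₀ hu.coe_ne] at this⟩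
  exact ⟨h4, by rw [← cls_omg h4, ← Subring.coe_mul, h1]⟩

theorem finite_ball (K : ℝ) : {c : R F | P1 c ∧ N c ≤ K}.Finite := by
  have key : ∀ c : R F, ∃ I : Ideal (𝓞 F), c ≠ 0 → ((Ideal.absNorm I : ℝ) = N c ∧
      ∀ x : 𝓞 F, x ∈ I ↔ (x : F) / (c : F) ∈ Rr F (Ctx0.M F)) := fun c => by
    by_cases hc : c = 0
    · exact ⟨⊥, fun h => absurd hc h⟩
    · obtain ⟨I, -, -, h⟩ := exists_ideal hc
      exact ⟨I, fun _ => h⟩
  choose I hI using key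
  have hd : ∀ c c' : R F, P1 c → P1 c' → I c = I c' → c' ∣ c := fun c c' h h' e => by
    obtain ⟨k, hk⟩ := mem_Rr.1 c.2
    have h1 := ((hI c' h'.ne_zero).2 ⟨_, hk⟩).1 (e ▸ ((hI c h.ne_zero).2 ⟨_, hk⟩).2 (by
      show MF F ^ k * c / c ∈ _
      rw [mul_div_cancel_right₀ _ h.coe_ne]
      exact pow_mem (natCast_mem _ _) k))
    have h2 : (MF F)⁻¹ ^ k * (MF F ^ k * c / c') ∈ Rr F (Ctx0.M F) :=
      mul_mem (pow_mem MF_inv_mem_R k) h1
    rw [← mul_div_assoc, ← mul_assoc, ← mul_pow, inv_mul_cancel₀ MF_ne, one_pow, one_mul] at h2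
    exact (dvd_iff_div h'.ne_zero).2 h2
  refine Set.Finite.of_finite_image (f := I)
    ((Ideal.finite_setOfPred_absNorm_le (S := 𝓞 F) ⌊K⌋₊).subset ?_) fun c h c' h' e =>
      h.1.eq_of_associated h'.1 (associated_of_dvd_dvd (hd _ _ h'.1 h.1 e.symm) (hd _ _ h.1 h'.1 e))
  rintro _ ⟨c, hc, rfl⟩
  exact Nat.le_floor ((hI c hc.1.ne_zero).1.trans_le hc.2)
theorem mem_ball {K : ℝ} {x : R F} : x ∈ ball F K ↔ P1 x ∧ N x ≤ K := by
  rw [ball, dif_pos (finite_ball K), Set.Finite.mem_toFinset]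
  rfl
theorem ball_mono {K L : ℝ} (h : K ≤ L) : ball F K ⊆ ball F L := fun _ hx =>
  mem_ball.2 ⟨(mem_ball.1 hx).1, (mem_ball.1 hx).2.trans h⟩
theorem ball_eq_empty {K : ℝ} (h : K < 1) : ball F K = ∅ :=
  Finset.eq_empty_of_forall_notMem fun x hx => by
    linarith [one_le_N (mem_ball.1 hx).1.ne_zero, (mem_ball.1 hx).2]
theorem mem_divs {n d : R F} (hn : n ≠ 0) : d ∈ divs n ↔ P0 d ∧ d ∣ n := by
  rw [divs, Finset.mem_filter, mem_ball]
  exact ⟨fun h => h.2, fun h => ⟨⟨h.1.1, N_le_of_dvd hn h.2⟩, h⟩⟩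
theorem mem_dvs {n d : R F} (hn : n ≠ 0) : d ∈ dvs n ↔ P1 d ∧ d ∣ n := by
  rw [dvs, Finset.mem_filter, mem_ball]
  exact ⟨fun h => ⟨h.1.1, h.2⟩, fun h => ⟨⟨h.1, N_le_of_dvd hn h.2⟩, h.2⟩⟩

theorem mu0_one : mu0 (1 : R F) = 1 := by
  simp [mu0, P0.one]
theorem norm_mu0_le (c : R F) : ‖mu0 c‖ ≤ 1 := by
  unfold mu0
  split_ifs <;> simp
theorem mu0_ne_zero {c : R F} : mu0 c ≠ 0 ↔ P0 c := by
  unfold mu0
  split_ifs with h <;> simp [h]
theorem mu0_sq {c : R F} (hc : P0 c) : mu0 c * mu0 c = 1 := by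
  rw [mu0, if_pos hc, ← mul_pow]
  simp
theorem conj_mu0 (c : R F) : conj (mu0 c) = mu0 c := by
  unfold mu0
  split_ifs <;> simp
theorem mu0_prime {p : R F} (hp : Prime p) (h : P1 p) : mu0 p = -1 := by
  rw [mu0, if_pos (P0.of_prime hp h),
    UniqueFactorizationMonoid.card_factors_of_irreducible hp.irreducible, pow_one]
theorem mu0_mul {x y : R F} (hx : P0 x) : mu0 (x * y) = mu0 x * mu0 y * cop x y := by
  by_cases h : P0 (x * y)
  · obtain ⟨-, hy, hc⟩ := P0.of_mul hx.1 h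
    rw [mu0, mu0, mu0, cop, if_pos h, if_pos hx, if_pos hy, if_pos hc.symm, mul_one, ← pow_add,
      Multiset.card_eq_card_of_rel (UniqueFactorizationMonoid.factors_mul hx.ne_zero hy.ne_zero),
      Multiset.card_add]
  · rw [mu0, if_neg h]
    by_cases hy : P0 y
    · rw [cop, if_neg fun hc => h (hx.mul hy hc.symm), mul_zero]
    · rw [show mu0 y = 0 from if_neg hy, mul_zero, zero_mul]
theorem bs_prime {n : R F} (hn : n ≠ 0) (h : ¬ IsUnit n) : ∃ p, Prime p ∧ P1 p ∧ p ∣ n := by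
  obtain ⟨s, x, hs, hx, rfl⟩ := exists_P1 hn
  obtain ⟨p, h1, h2, h3⟩ := bs_exists_prime hx fun k => h (by rw [k, mul_one]; exact hs)
  exact ⟨p, h1, h2, h3.mul_left s⟩
theorem sum_mu0 {n : R F} (hn : n ≠ 0) :
    ∑ d ∈ divs n, mu0 d = if IsUnit n then 1 else 0 := by
  split_ifs with h
  · rw [Finset.sum_eq_single_of_mem 1 ((mem_divs hn).2 ⟨P0.one, one_dvd n⟩), mu0_one]
    intro d hd h1
    exact absurd (((mem_divs hn).1 hd).1.1.eq_one_of_isUnit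
      (isUnit_of_dvd_unit ((mem_divs hn).1 hd).2 h)) h1
  obtain ⟨p, hp, h1, hpn⟩ := bs_prime hn h
  have : ∑ d ∈ divs n with ¬ p ∣ d, -mu0 d = ∑ d ∈ divs n with p ∣ d, mu0 d := by
    refine Finset.sum_bij (fun d _ => p * d) (fun d hd => ?_)
      (fun d _ d' _ e => mul_left_cancel₀ hp.ne_zero e) (fun d hd => ?_) fun d hd => ?_
    · rw [Finset.mem_filter, mem_divs hn] at hd ⊢
      have hc := hp.coprime_iff_not_dvd.2 hd.2
      exact ⟨⟨(P0.of_prime hp h1).mul hd.1.1 hc, hc.mul_dvd hpn hd.1.2⟩, dvd_mul_right _ _⟩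
    · rw [Finset.mem_filter, mem_divs hn] at hd
      obtain ⟨⟨h2, h3⟩, d, rfl⟩ := hd
      obtain ⟨-, h4, h5⟩ := P0.of_mul h1 h2
      exact ⟨d, Finset.mem_filter.2 ⟨(mem_divs hn).2 ⟨h4, (dvd_mul_left d p).trans h3⟩,
        hp.coprime_iff_not_dvd.1 h5⟩, rfl⟩
    · rw [mu0_mul (P0.of_prime hp h1), mu0_prime hp h1, cop,
        if_pos (hp.coprime_iff_not_dvd.2 (Finset.mem_filter.1 hd).2).symm]
      ring
  rw [← Finset.sum_filter_add_sum_filter_not _ (p ∣ ·), ← this, Finset.sum_neg_distrib,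
    neg_add_cancel]
theorem cop_eq_sum {c l : R F} (hc : c ≠ 0) (hl : l ≠ 0) :
    cop l c = ∑ d ∈ divs l, if d ∣ c then mu0 d else 0 := by
  obtain ⟨g, hg, h1, h2, h3⟩ := bs_gcd hc l
  have e : {d ∈ divs l | d ∣ c} = divs g := by
    ext d
    rw [Finset.mem_filter, mem_divs hl, mem_divs hg.ne_zero]
    exact ⟨fun h => ⟨h.1.1, h3 d h.2 h.1.2⟩, fun h => ⟨⟨h.1, h.2.trans h2⟩, h.2.trans h1⟩⟩
  rw [← Finset.sum_filter, e, sum_mu0 hg.ne_zero, cop]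
  exact if_congr ⟨fun h => h.isUnit_of_dvd' h1 h2, fun h => isRelPrime_iff_isCoprime.1
    fun d k1 k2 => isUnit_of_dvd_unit (h3 d k1 k2) h⟩ rfl rfl
theorem sum_mu0_P1 {n : R F} (hn : P1 n) : ∑ d ∈ divs n, mu0 d = if n = 1 then 1 else 0 := by
  rw [sum_mu0 hn.ne_zero]
  exact if_congr ⟨hn.eq_one_of_isUnit, fun h => h ▸ isUnit_one⟩ rfl rfl
theorem bs_pow_inj {p x y : R F} (hp : Prime p) (hx : ¬ p ∣ x) (hy : ¬ p ∣ y) {a b : ℕ}
    (h : p ^ a * x = p ^ b * y) : a = b := by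
  have key : ∀ {x y : R F} {a b : ℕ}, ¬ p ∣ x → p ^ a * x = p ^ b * y → b ≤ a := by
    intro x y a b hx h
    by_contra hc
    obtain ⟨c, rfl⟩ := Nat.exists_eq_add_of_lt (not_le.1 hc)
    exact hx ⟨p ^ c * y, mul_left_cancel₀ (pow_ne_zero a hp.ne_zero) (by rw [h]; ring)⟩
  exact le_antisymm (key hy h.symm) (key hx h)
theorem bs_dvd {k k' l l' : R F} (hk : P0 k) {m : ℕ} (hm : 2 ≤ m) (hl : l ≠ 0) (hl' : l' ≠ 0)
    (h : k * l ^ m = k' * l' ^ m) : k ∣ k' := by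
  refine P0.induction (Pr := fun x => x ∣ k → x ∣ k') (fun _ => one_dvd _)
    (fun p x hp _ _ hpx ih hd => (hp.coprime_iff_not_dvd.2 hpx).mul_dvd ?_
      (ih ((dvd_mul_left x p).trans hd))) hk dvd_rfl
  obtain ⟨k, rfl⟩ := (dvd_mul_right p x).trans hd
  obtain ⟨a, l, h3, rfl⟩ := WfDvdMonoid.max_power_factor hl hp.irreducible
  obtain ⟨b, l', h4, rfl⟩ := WfDvdMonoid.max_power_factor hl' hp.irreducible
  by_contra h5
  have := bs_pow_inj hp (x := k * l ^ m) (y := k' * l' ^ m) (a := m * a + 1) (b := m * b)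
    (hp.not_dvd_mul (fun h => hp.not_isUnit (hk.2 p (mul_dvd_mul_left p h)))
      fun h => h3 (hp.dvd_of_dvd_pow h))
    (hp.not_dvd_mul h5 fun h => h4 (hp.dvd_of_dvd_pow h))
    (by linear_combination h)
  have := Nat.le_of_dvd one_pos ((Nat.dvd_add_right (dvd_mul_right m a)).1
    (this ▸ dvd_mul_right m b))
  omega
/-- Kernel decomposition. -/
theorem exists_kernel {h : R F} (hh : P1 h) : ∃ k l : R F, P0 k ∧ P1 l ∧ h = k * l ^ 2 := by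
  refine P1.induction (Pr := fun h => ∃ k l : R F, P0 k ∧ P1 l ∧ h = k * l ^ 2)
    ⟨1, 1, P0.one, P1.one, by simp⟩ ?_ hh
  rintro p x hp h1 - ⟨k, l, hk, hl, rfl⟩
  by_cases h : p ∣ k
  · obtain ⟨k, rfl⟩ := h
    exact ⟨k, p * l, (P0.of_mul h1 hk).2.1, h1.mul hl, by ring⟩
  · exact ⟨p * k, l, (P0.of_prime hp h1).mul hk (hp.coprime_iff_not_dvd.2 h), hl, by ring⟩
theorem pow_inj_P1 {x y : R F} (hx : P1 x) (hy : P1 y) {k : ℕ} (hk : k ≠ 0) (h : x ^ k = y ^ k) :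
    x = y :=
  hx.eq_of_associated hy (associated_of_dvd_dvd
    ((UniqueFactorizationMonoid.pow_dvd_pow_iff_dvd hk).1 h.dvd)
    ((UniqueFactorizationMonoid.pow_dvd_pow_iff_dvd hk).1 h.symm.dvd))
theorem bs_unique {k k' l l' : R F} (hk : P0 k) (hk' : P0 k') (hl : P1 l) (hl' : P1 l') {m : ℕ}
    (hm : 2 ≤ m) (h : k * l ^ m = k' * l' ^ m) : k = k' ∧ l = l' := by
  obtain rfl : k = k' := hk.1.eq_of_associated hk'.1 (associated_of_dvd_dvd
    (bs_dvd hk hm hl.ne_zero hl'.ne_zero h) (bs_dvd hk' hm hl'.ne_zero hl.ne_zero h.symm))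
  exact ⟨rfl, pow_inj_P1 hl hl' (by omega) (mul_left_cancel₀ hk.ne_zero h)⟩
theorem kernel_unique {k k' l l' : R F} (hk : P0 k) (hk' : P0 k') (hl : P1 l) (hl' : P1 l')
    (h : k * l ^ 2 = k' * l' ^ 2) : k = k' ∧ l = l' :=
  bs_unique hk hk' hl hl' le_rfl h
theorem cube_unique {e e' d d' : R F} (he : P0 e) (he' : P0 e') (hd : P1 d) (hd' : P1 d')
    (h : e * d ^ 3 = e' * d' ^ 3) : e = e' ∧ d = d' :=
  bs_unique he he' hd hd' (by norm_num) h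
theorem cube_or {x : R F} (hx : P1 x) :
    (∃ e d, P0 e ∧ P1 d ∧ x = e * d ^ 3) ∨
      (∃ p y : R F, ∃ k : ℕ, Prime p ∧ P1 p ∧ P1 y ∧ ¬ p ∣ y ∧ x = y * p ^ 2 * (p ^ 3) ^ k) := by
  induction x using WellFounded.induction (wellFounded_dvdNotUnit (α := R F)) with
  | _ x ih =>
  by_cases h1 : x = 1
  · exact Or.inl ⟨1, 1, P0.one, P1.one, by simp [h1]⟩
  obtain ⟨p, hp, hp1, hpx⟩ := bs_exists_prime hx h1
  obtain ⟨m, y, hy, rfl⟩ := WfDvdMonoid.max_power_factor hx.ne_zero hp.irreducible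
  have hy1 := (hp1.pow m).of_mul hx
  have hm : m ≠ 0 := by
    rintro rfl
    exact hy (by simpa using hpx)
  rcases ih y ⟨hy1.ne_zero, p ^ m, fun h => hp.not_isUnit ((isUnit_pow_iff hm).1 h), mul_comm _ _⟩
    hy1 with ⟨e, d, he, hd, rfl⟩ | ⟨q, z, k, hq, hq1, hz, hqz, rfl⟩
  · obtain ⟨j, rfl | rfl | rfl⟩ : ∃ j, m = 3 * j ∨ m = 3 * j + 1 ∨ m = 3 * j + 2 :=
      ⟨m / 3, by omega⟩
    · exact Or.inl ⟨e, d * p ^ j, he, hd.mul (hp1.pow j), by ring⟩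
    · exact Or.inl ⟨p * e, d * p ^ j, (P0.of_prime hp hp1).mul he
        (hp.coprime_iff_not_dvd.2 fun h => hy (h.mul_right _)), hd.mul (hp1.pow j), by ring⟩
    · exact Or.inr ⟨p, _, j, hp, hp1, hy1, hy, by ring⟩
  · refine Or.inr ⟨q, z * p ^ m, k, hq, hq1, hz.mul (hp1.pow m), fun h => ?_, by ring⟩
    have := (hq.associated_of_dvd hp (hq.dvd_of_dvd_pow ((hq.dvd_or_dvd h).resolve_left hqz))).symm
    exact hy (((this.dvd.pow two_ne_zero).mul_left z).mul_right _)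
theorem tau0_eq {s e d : R F} (hs : IsUnit s) (he : P0 e) (hd : P1 d) :
    tau0 (s * e * d ^ 3) = conj (g3 (s * e)) * (ab d : ℂ) := by
  have h : ∃ p : R F × R F × R F, IsUnit p.1 ∧ P0 p.2.1 ∧ P1 p.2.2 ∧
      s * e * d ^ 3 = p.1 * p.2.1 * p.2.2 ^ 3 := ⟨(s, e, d), hs, he, hd, rfl⟩
  obtain ⟨h1, h2, h3, h4⟩ := h.choose_spec
  obtain ⟨h5, h6⟩ := unit_P1_unique hs h1 (he.1.mul (hd.pow 3)) (h2.1.mul (h3.pow 3))
    ((mul_assoc _ _ _).symm.trans (h4.trans (mul_assoc _ _ _)))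
  obtain ⟨h7, h8⟩ := cube_unique he h2 hd h3 h6
  rw [tau0, dif_pos h, ← h5, ← h7, ← h8]
theorem tau0_supp {r : R F} (h : tau0 r ≠ 0) :
    ∃ s e d : R F, IsUnit s ∧ P0 e ∧ P1 d ∧ r = s * e * d ^ 3 := by
  by_contra k
  exact h (dif_neg fun ⟨p, hp⟩ => k ⟨_, _, _, hp⟩)
theorem tau0_zero : tau0 (0 : R F) = 0 := by
  by_contra h
  obtain ⟨s, e, d, hs, he, hd, k⟩ := tau0_supp h
  exact mul_ne_zero (mul_ne_zero hs.ne_zero he.ne_zero) (hd.pow 3).ne_zero k.symm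
theorem bs_isTr {e : ℕ} (he : 1 ≤ e) (Pr : F → Prop)
    (hPr : ∀ z u, InU e u → (Pr (u * z) ↔ Pr z)) (t : R F → R F)
    (ht : ∀ x, P1 x → ∃ v, IsUnit v ∧ t x = v * x) (Q : R F × R F → Prop)
    (hQ : ∀ p : R F × R F, P1 p.1 → (Q p ↔ Pr ((p.2 : F) * (t p.1 : R F)))) :
    IsTr (Eu F e) {z | z ≠ 0 ∧ z ∈ Rr F (Ctx0.M F) ∧ Pr z}
      (fun j : {p : R F × R F // P1 p.1 ∧ p.2 ∈ SU F e ∧ Q p} =>
        (j.1.2 : F) * (t j.1.1 : R F)) := by
  have ne : ∀ {x s : R F}, P1 x → s ∈ SU F e → (s : F) * (t x : R F) ≠ 0 := fun {x s} hx hs => by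
    obtain ⟨v, hv, h⟩ := ht x hx
    rw [h, Subring.coe_mul]
    exact mul_ne_zero (isUnit_iff_inv.1 (SU_unit hs)).1
      (mul_ne_zero (isUnit_iff_inv.1 hv).1 hx.coe_ne)
  refine ⟨fun ⟨⟨x, s⟩, hx, hs, hq⟩ ⟨u, hu⟩ => ?_, fun z ⟨hz, hR, hP⟩ => ?_⟩
  · obtain ⟨y, -, h1, h2⟩ := (mem_Eu he).1 hu
    refine ⟨mul_ne_zero u.ne_zero (ne hx hs), ?_, ?_⟩
    · exact mul_mem (h2 ▸ y.2) (mul_mem s.2 (t x).2)
    · exact (hPr _ _ (h2 ▸ h1)).2 ((hQ _ hx).1 hq)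
  · refine existsUnique_of_exists_of_unique ?_ ?_
    · obtain ⟨a, x, ha, hx, k⟩ := exists_P1 (r := ⟨z, hR⟩) fun h => hz (congrArg Subtype.val h)
      obtain ⟨_, ⟨v, rfl⟩, hv⟩ := ht x hx
      obtain ⟨s, ⟨hs, h1⟩, -⟩ := SU_ex he (ha.mul (v⁻¹).isUnit)
      obtain ⟨s, rfl⟩ := SU_unit hs
      have h2 : ((a * (v⁻¹ : (R F)ˣ) * (s⁻¹ : (R F)ˣ) : R F) : F) =
          ((a * (v⁻¹ : (R F)ˣ) : R F) : F) / (s : R F) := by
        rw [eq_div_iff (isUnit_iff_inv.1 s.isUnit).1, ← Subring.coe_mul, mul_assoc, s.inv_mul,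
          mul_one]
      have h3 : IsUnit (a * (v⁻¹ : (R F)ˣ) * (s⁻¹ : (R F)ˣ) : R F) :=
        (ha.mul (v⁻¹).isUnit).mul (s⁻¹).isUnit
      have h4 : z = ((a * (v⁻¹ : (R F)ˣ) * (s⁻¹ : (R F)ˣ) : R F) : F) *
          (((s : R F) : F) * (t x : R F)) := by
        rw [← Subring.coe_mul, ← Subring.coe_mul, hv]
        refine congrArg Subtype.val (k.trans ?_)
        linear_combination (-(a * x)) * v.inv_mul - (a * x * v * (v⁻¹ : (R F)ˣ)) * s.inv_mul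
      refine ⟨(⟨(x, s), hx, hs, (hQ _ hx).2 ((hPr _ _ (h2 ▸ h1)).1 (h4 ▸ hP))⟩,
        ⟨Units.mk0 _ (isUnit_iff_inv.1 h3).1, (mem_Eu he).2 ⟨_, h3, h2 ▸ h1, rfl⟩⟩), h4⟩
    · rintro ⟨⟨⟨x, s⟩, hx, hs, hq⟩, u, hu⟩ ⟨⟨⟨x', s'⟩, hx', hs', hq'⟩, u', hu'⟩ h h'
      dsimp only at h h' hx hx' hs hs'
      obtain ⟨y, g0, g1, g2⟩ := (mem_Eu he).1 hu
      obtain ⟨y', g0', g1', g2'⟩ := (mem_Eu he).1 hu'
      obtain ⟨v, hv, e1⟩ := ht x hx
      obtain ⟨v', hv', e1'⟩ := ht x' hx'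
      have k : y * s * v * x = y' * s' * v' * x' := Subtype.ext (by
        have := h.symm.trans h'
        rw [← g2, ← g2', e1, e1'] at this
        push_cast at this ⊢
        linear_combination this)
      obtain ⟨k1, rfl⟩ := unit_P1_unique ((g0.mul (SU_unit hs)).mul hv)
        ((g0'.mul (SU_unit hs')).mul hv') hx hx' k
      obtain rfl : v = v' := mul_right_cancel₀ hx.ne_zero (e1.symm.trans e1')
      have k2 : y * s = y' * s' := mul_right_cancel₀ hv.ne_zero k1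
      obtain rfl : s = s' := (SU_ex he (g0.mul (SU_unit hs))).unique
        ⟨hs, by rwa [Subring.coe_mul, mul_div_cancel_right₀ _ (isUnit_iff_inv.1 (SU_unit hs)).1]⟩
        ⟨hs', by
          rwa [k2, Subring.coe_mul, mul_div_cancel_right₀ _ (isUnit_iff_inv.1 (SU_unit hs')).1]⟩
      obtain rfl : u = u' := Units.ext (mul_right_cancel₀ (ne hx hs) (h.symm.trans h'))
      rfl
/-- Transversals. -/
theorem isTr_SU {e : ℕ} (he : 1 ≤ e) (Pr : F → Prop) (hPr : ∀ z u, InU e u → (Pr (u * z) ↔ Pr z)) :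
    IsTr (Eu F e) {z | z ≠ 0 ∧ z ∈ Rr F (Ctx0.M F) ∧ Pr z}
      (fun j : {p : R F × R F // P1 p.1 ∧ p.2 ∈ SU F e ∧ Pr ((p.2 : F) * p.1)} =>
        (j.1.2 : F) * j.1.1) :=
  bs_isTr he Pr hPr (fun x => x) (fun x _ => ⟨1, isUnit_one, (one_mul x).symm⟩) _
    fun _ _ => Iff.rfl
theorem isTr_tilde {κ : Cl F} {x0 : R F} (h0 : P1 x0) (hκ : cls (x0 : F) = κ) :
    IsTr (Eu F 3) {z | z ∈ Rr F (Ctx0.M F) ∧ InU 3 (z / rep κ)}
      (fun j : {x : R F // P1 x ∧ cls (x : F) = κ} => ((tilde j.1 : R F) : F)) := by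
  have he : 1 ≤ 3 := by norm_num
  refine ⟨fun ⟨x, hx, hc⟩ ⟨u, hu⟩ => ?_, fun z ⟨hR, hP⟩ => ?_⟩
  · obtain ⟨y, -, h1, h2⟩ := (mem_Eu he).1 hu
    refine ⟨mul_mem (h2 ▸ y.2) (tilde x).2, ?_⟩
    show InU 3 ((u : F) * (tilde x : R F) / rep κ)
    rw [mul_div_assoc, ← h2, ← hc]
    exact h1.mul (tilde_inU hx.ne_zero)
  · refine existsUnique_of_exists_of_unique ?_ ?_
    · obtain ⟨a, x, ha, hx, k⟩ :=
        exists_P1 (r := ⟨z, hR⟩) fun h => hP.left_ne he (congrArg Subtype.val h)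
      obtain ⟨-, hc⟩ := omg_of_inU h0 hκ ha hx (k ▸ hP)
      obtain ⟨v, hv, e⟩ := (tw_omg (x : F)).exists_inv
      have h4 : z = ((a * v : R F) : F) * (tilde x : R F) := by
        rw [← Subring.coe_mul, tilde]
        refine congrArg Subtype.val (k.trans ?_)
        linear_combination (-(a * x)) * e
      have h1 := tilde_inU hx.ne_zero
      have h5 : InU 3 ((a * v : R F) : F) := by
        have := hP.trans he (hc ▸ h1.symm he)
        rwa [h4, mul_div_cancel_right₀ _ (h1.left_ne he)] at this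
      exact ⟨(⟨x, hx, hc⟩, ⟨Units.mk0 _ (h5.ne_zero he),
        (mem_Eu he).2 ⟨_, ha.mul hv.1, h5, rfl⟩⟩), h4⟩
    · rintro ⟨⟨x, hx, hc⟩, u, hu⟩ ⟨⟨x', hx', hc'⟩, u', hu'⟩ h h'
      dsimp only at h h'
      obtain ⟨y, g0, -, g2⟩ := (mem_Eu he).1 hu
      obtain ⟨y', g0', -, g2'⟩ := (mem_Eu he).1 hu'
      have k : y * tw (x : F) * x = y' * tw (x' : F) * x' := Subtype.ext (by
        have := h.symm.trans h'
        rw [← g2, ← g2', tilde, tilde] at this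
        push_cast at this ⊢
        linear_combination this)
      obtain ⟨-, rfl⟩ := unit_P1_unique (g0.mul (tw_omg _).1) (g0'.mul (tw_omg _).1) hx hx' k
      obtain rfl : u = u' := Units.ext
        (mul_right_cancel₀ ((tilde_inU hx.ne_zero).left_ne he) (h.symm.trans h'))
      rfl
theorem bs_Hi {e a : ℕ} (he : 1 ≤ e) (z u : F) (hu : InU e u) : Hi a (u * z) ↔ Hi a z := by
  refine ⟨fun h => ?_, fun h => ?_⟩
  · have := (Hi.of_mem 0 (hu.inv he).mem).mul h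
    rwa [zero_add, inv_mul_cancel_left₀ (hu.ne_zero he)] at this
  · have := (Hi.of_mem 0 hu.mem).mul h
    rwa [zero_add] at this
theorem isTr_SU_tilde (a : ℕ) :
    IsTr (Eu F 3) {z | z ≠ 0 ∧ z ∈ Rr F (Ctx0.M F) ∧ Hi a z}
      (fun j : {p : R F × R F // P1 p.1 ∧ p.2 ∈ SU F 3 ∧ Hi a ((p.2 : F) * rep (cls (p.1 : F)))} =>
        (j.1.2 : F) * (tilde j.1.1 : R F)) := by
  refine bs_isTr (by norm_num) (Hi a) (bs_Hi (by norm_num)) tilde
    (fun x _ => ⟨_, (tw_omg _).1, rfl⟩) _ fun p hp => ?_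
  rw [← bs_Hi (by norm_num) _ _ (tilde_inU hp.ne_zero)]
  have := rep_ne (cls (p.1 : F))
  rw [show ((tilde p.1 : R F) : F) / rep (cls (p.1 : F)) * (p.2 * rep (cls (p.1 : F))) =
    p.2 * (tilde p.1 : R F) by field_simp]

end Vale.Agent.P319B
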