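import Vale.Agent.P319B.GaussA
import Vale.Agent.P319B.Basic

/-! Gauss sums of the symbols. -/

namespace Vale.Agent.P319B

open Complex NumberField
open scoped Classical ComplexConjugate
open Vale.Agent.P026 (w kk fk)

variable {F : Type} [Field F] [NumberField F] [Ctx F]

theorem gauss_chi {j j' : ℕ} (hj : 3 ∣ j + j') {c : R F} (hc : Squarefree c) (h : R F) :
    gauss (fun x => chi j x c) c h = chi j' h c * (ab c : ℂ) * Gt j c := by
  rw [(ga_chi j).gauss_eq hc h, conj_chi hj h c, Gt, mul_assoc,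
    mul_div_cancel₀ _ (ga_ab_ne hc.ne_zero)]
theorem gauss_cub {c : R F} (hc : Squarefree c) (h : R F) :
    gauss (fun x => cub x c) c h = conj (cub h c) * (ab c : ℂ) * g3 c := by
  rw [ga_cub.gauss_eq hc h, g3, mul_assoc, mul_div_cancel₀ _ (ga_ab_ne hc.ne_zero)]
theorem norm_Gt (j : ℕ) {c : R F} (hc : Squarefree c) : ‖Gt j c‖ = 1 := (ga_chi j).norm_gauss hc
theorem norm_g3 {c : R F} (hc : Squarefree c) : ‖g3 c‖ = 1 := ga_cub.norm_gauss hc
theorem Gt_one (j : ℕ) : Gt j (1 : R F) = 1 := by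
  rw [Gt, (ga_chi j).gauss_unit isUnit_one, ab_one]; simp
theorem g3_one : g3 (1 : R F) = 1 := by
  rw [g3, ga_cub.gauss_unit isUnit_one, ab_one]; simp
theorem Gt_unit_mul (j : ℕ) {u c : R F} (hu : IsUnit u) (hc : c ≠ 0) :
    Gt j (u * c) = chi j u c * Gt j c := by
  rw [Gt, Gt, (ga_chi j).gauss_unit_mul hu hc, ab_mul, ab_unit hu, one_mul, mul_div_assoc]
theorem g3_unit_mul {u c : R F} (hu : IsUnit u) (hc : c ≠ 0) :
    g3 (u * c) = cub u c * g3 c := by
  rw [g3, g3, ga_cub.gauss_unit_mul hu hc, ab_mul, ab_unit hu, one_mul, mul_div_assoc]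
theorem Gt_mul (j : ℕ) {c d : R F} (hc : c ≠ 0) (hd : d ≠ 0) (h : IsCoprime c d) :
    Gt j (c * d) = Gt j c * Gt j d * chi j c d * chi j d c := by
  unfold Gt
  rw [(ga_chi j).gauss_mul hc hd h, ab_mul]
  push_cast
  ring
theorem g3_mul {c d : R F} (hc : c ≠ 0) (hd : d ≠ 0) (h : IsCoprime c d) :
    g3 (c * d) = g3 c * g3 d * (cub c d * cub d c) := by
  unfold g3
  rw [ga_cub.gauss_mul hc hd h, ab_mul]
  push_cast
  ring
theorem ga_quad_neg_sq (c : R F) : quad (-1) c * quad (-1) c = 1 := by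
  rw [← sq]; exact quad_sq isCoprime_one_left.neg_left
theorem Gt_mul_Gt {j j' : ℕ} (hj : 3 ∣ j + j') {c : R F} (hc : Squarefree c) :
    Gt j c * Gt j' c = quad (-1) c := by
  have h0 := hc.ne_zero
  have e1 : conj (gauss (fun x => chi j x c) c 1) = gauss (fun x => chi j' x c) c (-1) := by
    rw [gauss, gauss, map_sum]
    refine Finset.sum_congr rfl fun x _ => ?_
    rw [map_mul, conj_chi hj x c, one_mul, neg_one_mul, psi_neg]
  have e2 := (ga_chi j).gauss_mul_conj hc
  rw [e1, gauss_chi (j := j') (j' := j) (by rwa [add_comm]) hc (-1), gauss_chi hj hc 1,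
    chi_one_left, chi_neg_one, ← ga_ab_sq] at e2
  have e3 := ga_quad_neg_sq c
  have e4 := ga_ab_ne h0
  apply mul_left_cancel₀ (mul_ne_zero e4 e4)
  linear_combination quad (-1) c * e2 - ((ab c : ℂ) * ab c * Gt j c * Gt j' c) * e3
theorem Gt_zero {c : R F} (hc : Squarefree c) : Gt 0 c = Gam c := by
  refine ga_ind (Pr := fun c => Gt 0 c = Gam c) (fun u hu => ?_) ?_ hc
  · show Gt 0 u = Gam u
    rw [Gt, Gam, Gq, (ga_chi 0).gauss_unit hu, sum_res_unit hu (r2_pe 1 u),
      psi_of_dvd (by simp)]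
  · intro p x hp hx hpx ih
    have hcop := (ga_cop hp hpx).symm
    have e2 : Gt 0 p = Gam p := by
      rw [Gt, Gam, r2_prime hp isCoprime_one_left, quad_one_left, one_mul]
      simp only [chi_zero_eq]
    rw [Gt_mul 0 hp.ne_zero hx.ne_zero hcop, e2, ih, Gam_mul_coprime hp.ne_zero hx.ne_zero hcop,
      chi_zero_eq, chi_zero_eq, mul_assoc]

theorem ga_ang_assoc (o : Bool) (p q : R F) (hp : Prime p) (h : Associated p q) :
    (if o then -g3 p ^ 3 else conj (-g3 p ^ 3)) = if o then -g3 q ^ 3 else conj (-g3 q ^ 3) := by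
  obtain ⟨u, rfl⟩ := h
  rw [mul_comm p, g3_unit_mul u.isUnit hp.ne_zero, mul_pow, cub_cube (ga_unit_cop u.isUnit p),
    one_mul]
theorem norm_ang (o : Bool) (x : R F) : ‖ang o x‖ = 1 := by
  refine Multiset.prod_induction (fun z : ℂ => ‖z‖ = 1) _ (fun a b ha hb => by
    rw [norm_mul, ha, hb, one_mul]) norm_one fun z hz => ?_
  obtain ⟨p, hp, rfl⟩ := Multiset.mem_map.1 hz
  have := norm_g3 (UniqueFactorizationMonoid.prime_of_factor p hp).squarefree
  cases o <;> simp [this]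
theorem norm_ang_le (o : Bool) (x : R F) : ‖ang o x‖ ≤ 1 := (norm_ang o x).le
theorem ang_mul (o : Bool) {x y : R F} (hx : x ≠ 0) (hy : y ≠ 0) :
    ang o (x * y) = ang o x * ang o y := by
  unfold ang
  rw [ga_rel (ga_ang_assoc o) (UniqueFactorizationMonoid.factors_mul hx hy)
    UniqueFactorizationMonoid.prime_of_factor, Multiset.map_add, Multiset.prod_add]
theorem ang_unit (o : Bool) {u : R F} (hu : IsUnit u) : ang o u = 1 := by
  rw [ang, UniqueFactorizationMonoid.factors_of_isUnit hu, Multiset.map_zero, Multiset.prod_zero]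
theorem ang_one (o : Bool) : ang o (1 : R F) = 1 := ang_unit o isUnit_one
theorem ang_pow (o : Bool) (x : R F) (k : ℕ) (hx : x ≠ 0) : ang o (x ^ k) = ang o x ^ k := by
  induction k with
  | zero => rw [pow_zero, pow_zero, ang_one]
  | succ k ih => rw [pow_succ, pow_succ, ang_mul o (pow_ne_zero k hx) hx, ih]
theorem ang_prime {p : R F} (hp : Prime p) : ang true p = -g3 p ^ 3 := by
  obtain ⟨q, h1, h2⟩ := UniqueFactorizationMonoid.factors_eq_singleton_of_irreducible hp.irreducible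
  rw [ang, h2, Multiset.map_singleton, Multiset.prod_singleton, ← ga_ang_assoc true p q hp h1,
    if_pos rfl]
theorem ang_not (o : Bool) (x : R F) : ang (!o) x = conj (ang o x) := by
  rw [ang, ang, map_multiset_prod, Multiset.map_map]
  refine congrArg _ (Multiset.map_congr rfl fun p _ => ?_)
  cases o <;> simp
theorem norm_bet_le (o : Bool) (d : R F) : ‖bet o d‖ ≤ ab d := by
  unfold bet
  split_ifs
  · rw [norm_mul, norm_pow, norm_ang, one_pow, mul_one, norm_real,
      Real.norm_of_nonneg (ab_nonneg d)]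
  · rw [norm_zero]; exact ab_nonneg d
theorem bet_ne_zero {o : Bool} {d : R F} (h : bet o d ≠ 0) : P1 d := by
  by_contra h'
  exact h (by rw [bet, if_neg h'])
theorem bet_mul (o : Bool) {d e : R F} (hd : P1 d) : bet o (d * e) = bet o d * bet o e := by
  unfold bet
  by_cases he : P1 e
  · rw [if_pos (hd.mul he), if_pos hd, if_pos he, ab_mul, ang_mul o hd.ne_zero he.ne_zero]
    push_cast
    ring
  · rw [if_neg he, if_neg fun h => he (hd.of_mul h), mul_zero]
theorem bet_one (o : Bool) : bet o (1 : R F) = 1 := by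
  rw [bet, if_pos P1.one, ab_one, ang_one]; simp
theorem norm_alph_le (o : Bool) (e : R F) : ‖alph o e‖ ≤ 1 := by
  unfold alph
  split_ifs with h
  · rw [norm_mul, norm_conj, norm_g3 h.2, one_mul]; exact norm_ang_le o e
  · simp
theorem alph_ne_zero {o : Bool} {e : R F} (h : alph o e ≠ 0) : P0 e := by
  by_contra h'
  exact h (by rw [alph, if_neg h'])
theorem alph_one (o : Bool) : alph o (1 : R F) = 1 := by
  rw [alph, if_pos P0.one, g3_one, ang_one]; simp
theorem alph_mul (o : Bool) {D : R F} (hD : P0 D) (c : R F) :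
    alph o (D * c) = alph o D * alph o c * cub D c * B3 (D : F) c := by
  by_cases h : P0 (D * c)
  · obtain ⟨-, hc, hcop⟩ := P0.of_mul hD.1 h
    unfold alph
    rw [if_pos h, if_pos hD, if_pos hc, g3_mul hD.ne_zero hc.ne_zero hcop,
      ang_mul o hD.ne_zero hc.ne_zero, map_mul, map_mul, map_mul, conj_cub, conj_cub,
      ga_cubs hD.ne_zero hc.ne_zero]
    ring
  · by_cases hc : P0 c
    · have hn : ¬ IsCoprime D c := fun h' => h (hD.mul hc h')
      rw [(cub_eq_zero hc.ne_zero).2 hn, mul_zero, zero_mul, alph, if_neg h]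
    · rw [alph, alph, alph, if_neg h, if_neg hc]; ring
theorem norm_tau0_le (r : R F) : ‖tau0 r‖ ≤ N r ^ (1 / 6 : ℝ) := by
  by_cases h : tau0 r = 0
  · rw [h, norm_zero]
    exact Real.rpow_nonneg (N_nonneg r) _
  obtain ⟨s, e, d, hs, he, hd, rfl⟩ := tau0_supp h
  have h1 : ab d ^ 6 ≤ N (s * e * d ^ 3) := by
    rw [N_mul, N_mul, N_unit hs, one_mul, N_pow, ← ab_sq d, ← pow_mul]
    exact le_mul_of_one_le_left (pow_nonneg (ab_nonneg d) _) (one_le_N he.ne_zero)
  rw [tau0_eq hs he hd, g3_unit_mul hs he.ne_zero, norm_mul, norm_conj, norm_mul,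
    norm_cub (ga_unit_cop hs e), norm_g3 he.2, one_mul, one_mul, norm_real,
    Real.norm_of_nonneg (ab_nonneg d), one_div]
  exact (Real.le_rpow_inv_iff_of_pos (ab_nonneg d) (N_nonneg _) (by norm_num)).2
    (by exact_mod_cast h1)
theorem tau0_omg {u : R F} (hu : Omg u) (r : R F) : tau0 (u * r) = tau0 r := by
  have key : ∀ {u r : R F}, Omg u → tau0 r ≠ 0 → tau0 (u * r) = tau0 r := fun {u r} hu h => by
    obtain ⟨s, e, d, hs, he, hd, rfl⟩ := tau0_supp h
    rw [← mul_assoc, ← mul_assoc, tau0_eq (hu.1.mul hs) he hd, tau0_eq hs he hd, mul_assoc u,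
      g3_unit_mul hu.1 (mul_ne_zero hs.ne_zero he.ne_zero), cub_omg hu, one_mul]
  by_cases h : tau0 r = 0
  · by_contra h'
    obtain ⟨v, hv, huv⟩ := hu.exists_inv
    have := key hv (fun h0 => h' (h0.trans h.symm))
    rw [← mul_assoc, mul_comm v, huv, one_mul] at this
    exact h' this.symm
  · exact key hu h
theorem ga_mu_prime {p : R F} (hp : Prime p) (h1 : P1 p) :
    mu0 p * Gt 2 p = quad (-1) p * cub 4 p * conj (Gam p) * alph true p := by
  have h0 := hp.squarefree
  have e1 := ga_prod hp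
  rw [gauss_chi (j' := 0) (by norm_num) h0, gauss_chi (j' := 2) (by norm_num) h0, gauss_cub h0,
    chi_one_left, chi_one_left, cub_one_left, Gt_zero h0, map_one] at e1
  have e2 := Gt_mul_Gt (j := 1) (j' := 2) (by norm_num) h0
  have e3 := bs_conj (norm_Gam hp.ne_zero)
  have e4 := bs_conj (norm_g3 h0)
  have e5 := ga_ab_ne hp.ne_zero
  have e6 : Gam p * g3 p = cub 4 p * g3 p ^ 3 * Gt 1 p := by
    apply mul_left_cancel₀ (mul_ne_zero e5 e5)
    linear_combination e1
  rw [mu0_prime hp h1, alph, if_pos (P0.of_prime hp h1), ang_prime hp, ← e2]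
  linear_combination (-(Gt 2 p * conj (Gam p) * conj (g3 p))) * e6 +
    (Gt 2 p * (g3 p * conj (g3 p))) * e3 + Gt 2 p * e4
/-- The key identity between the Moebius function and the theta coefficients. -/
theorem mu_Gt_two {c : R F} (hc : P0 c) :
    mu0 c * Gt 2 c = quad (-1) c * cub 4 c * conj (Gam c) * alph true c := by
  refine P0.induction (Pr := fun c =>
    mu0 c * Gt 2 c = quad (-1) c * cub 4 c * conj (Gam c) * alph true c) ?_ ?_ hc
  · show mu0 1 * Gt 2 1 = quad (-1) 1 * cub 4 1 * conj (Gam 1) * alph true 1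
    rw [mu0_one, Gt_one, quad_one_right, cub_one_right, Gam_one, alph_one]; simp
  · intro p x hp h1 hx hpx ih
    have hcop := (ga_cop hp hpx).symm
    have h0 := P0.of_prime hp h1
    have e1 := ga_mu_prime hp h1
    have e2 : chi 2 p x * chi 2 x p = cub p x * B3 (p : F) x * (quad p x * quad x p) := by
      rw [chi, chi, ← ga_cubs hp.ne_zero hx.ne_zero]
      ring
    rw [mu0_mul h0, cop, if_pos hcop.symm, Gt_mul 2 hp.ne_zero hx.ne_zero hcop, alph_mul true h0,
      quad_mul_right _ hp.ne_zero hx.ne_zero, cub_mul_right _ hp.ne_zero hx.ne_zero,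
      Gam_mul_coprime hp.ne_zero hx.ne_zero hcop, map_mul, map_mul, map_mul, conj_quad, conj_quad]
    calc mu0 p * mu0 x * 1 * (Gt 2 p * Gt 2 x * chi 2 p x * chi 2 x p)
        = (mu0 p * Gt 2 p) * (mu0 x * Gt 2 x) * (chi 2 p x * chi 2 x p) := by ring
      _ = _ := by rw [e1, ih, e2]; ring
theorem ga_four : IsUnit (4 : R F) := by
  rw [show (4 : R F) = 2 * 2 by norm_num]
  exact isUnit_two.mul isUnit_two
theorem exists_eta : ∃ η : R F → ℂ, Per 1 η ∧ Bd1 η ∧
    ∀ c, mu0 c * Gt 2 c = η c * alph true c := by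
  refine ⟨fun c => B2 ((-1 : R F) : F) c * B3 ((4 : R F) : F) c * conj (Gam c),
    ((per_B2_right 1 _).mul (per_B3_right 1 _)).mul (per_Gam 1).conj, fun c => ?_, fun c => ?_⟩
  · beta_reduce
    rw [norm_mul, norm_mul, norm_conj, norm_B2, norm_B3, one_mul, one_mul]
    exact norm_Gam_le c
  · by_cases hc : P0 c
    · rw [mu_Gt_two hc, quad_unit_left isUnit_one.neg hc.ne_zero,
        cub_unit_left ga_four hc.ne_zero]
    · rw [alph, mu0, if_neg hc, if_neg hc]; simp
theorem exists_eta' : ∃ η : R F → ℂ, Per 1 η ∧ Bd1 η ∧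
    ∀ c, alph true c * Gt 1 c = η c * mu0 c := by
  refine ⟨fun c => conj (B3 ((4 : R F) : F) c) * Gam c,
    (per_B3_right 1 _).conj.mul (per_Gam 1), fun c => ?_, fun c => ?_⟩
  · beta_reduce
    rw [norm_mul, norm_conj, norm_B3, one_mul]
    exact norm_Gam_le c
  · by_cases hc : P0 c
    · beta_reduce
      rw [← cub_unit_left ga_four hc.ne_zero]
      have e1 := mu_Gt_two hc
      have e2 := Gt_mul_Gt (j := 1) (j' := 2) (by norm_num) hc.2
      have e3 := bs_conj (norm_Gam hc.ne_zero)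
      have e4 := bs_conj (norm_cub (ga_unit_cop ga_four c))
      have e5 := ga_quad_neg_sq c
      have e6 : mu0 c = cub 4 c * conj (Gam c) * alph true c * Gt 1 c := by
        linear_combination (quad (-1) c * Gt 1 c) * e1 - (quad (-1) c * mu0 c) * e2 +
          (cub 4 c * conj (Gam c) * alph true c * Gt 1 c - mu0 c) * e5
      rw [e6]
      linear_combination (-(alph true c * Gt 1 c * (Gam c * conj (Gam c)))) * e4 -
        (alph true c * Gt 1 c) * e3
    · rw [alph, mu0, if_neg hc, if_neg hc]; simp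

theorem gauss_prime_pow {p : R F} (hp : Prime p) {k : ℕ} (hk : 1 ≤ k) (r : R F) :
    gauss (fun u => cub u p ^ k) (p ^ k) r =
      if h : p ^ (k - 1) ∣ r then
        (N p : ℂ) ^ (k - 1) * gauss (fun u => cub u p ^ k) p h.choose else 0 := by
  obtain ⟨m, rfl⟩ : ∃ m, k = m + 1 := ⟨k - 1, by omega⟩
  have h0 := hp.ne_zero
  have hm : p ^ m ≠ 0 := pow_ne_zero _ h0
  have hF : Pe (p * p ^ m) fun u => cub u p ^ (m + 1) := fun x y h => by
    beta_reduce
    rw [cub_congr (dvd_of_mul_right_dvd h)]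
  have e1 : gauss (fun u => cub u p ^ (m + 1)) (p * p ^ m) r =
      ∑ u ∈ res p, cub u p ^ (m + 1) * psi (p * p ^ m) (r * u) *
        if p ^ m ∣ r then (N (p ^ m) : ℂ) else 0 := by
    rw [gauss, sum_res_mul h0 hm (hF.mul (pe_psi _ r))]
    refine Finset.sum_congr rfl fun u _ => ?_
    rw [← sum_psi hm, Finset.mul_sum]
    refine Finset.sum_congr rfl fun v _ => ?_
    rw [cub_congr (a := u + p * v) (b := u) (by simp),
      show r * (u + p * v) = r * u + p * (r * v) by ring, psi_add, mul_comm p (p ^ m),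
      psi_mul_left h0]
    ring
  rw [pow_succ' p m, e1]
  by_cases h : p ^ m ∣ r
  · rw [dif_pos (show p ^ (m + 1 - 1) ∣ r from h), gauss, Finset.mul_sum, N_pow]
    refine Finset.sum_congr rfl fun u _ => ?_
    have h1 : r * u = p ^ m * (h.choose * u) := by rw [← mul_assoc, ← h.choose_spec]
    rw [if_pos h, h1, psi_mul_left hm]
    push_cast
    exact mul_comm _ _
  · rw [dif_neg (show ¬p ^ (m + 1 - 1) ∣ r from h)]
    simp [h]
theorem gauss_prime_cube {p : R F} (hp : Prime p) {k : ℕ} (hk : 1 ≤ k) (h3 : 3 ∣ k)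
    (r : R F) : gauss (fun u => cub u p ^ k) p r = if p ∣ r then (N p : ℂ) - 1 else -1 := by
  have h0 := hp.ne_zero
  obtain ⟨m, rfl⟩ := h3
  have e1 : gauss (fun u => cub u p ^ (3 * m)) p r =
      ∑ u ∈ res p, (psi p (r * u) - if p ∣ u - 0 then psi p (r * u) else 0) := by
    refine Finset.sum_congr rfl fun u _ => ?_
    beta_reduce
    rw [sub_zero]
    split_ifs with h
    · rw [(cub_eq_zero h0).2 (ga_not_cop hp h), zero_pow (by omega)]; simp
    · rw [pow_mul, cub_cube (ga_cop hp h)]; simp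
  rw [e1, Finset.sum_sub_distrib, sum_psi h0, ga_pick h0 (pe_psi p r) 0, mul_zero,
    psi_of_dvd (dvd_zero p)]
  split_ifs <;> simp
theorem ga_sum_cub_pow {p : R F} (hp : Prime p) {k : ℕ} (h3 : ¬ 3 ∣ k) :
    ∑ u ∈ res p, cub u p ^ k = 0 := by
  obtain ⟨a, ha, hne⟩ := exists_cub_ne hp
  have hF : Pe p fun u => cub u p ^ k := fun x y h => by beta_reduce; rw [cub_congr h]
  have h := sum_res_affine hp.ne_zero hF (ga_cop hp ha) 0
  simp only [add_zero, cub_mul_left, mul_pow] at h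
  rw [← Finset.mul_sum] at h
  have h2 : (cub a p ^ k - 1) * ∑ x ∈ res p, cub x p ^ k = 0 := by linear_combination h
  refine (mul_eq_zero.1 h2).resolve_left (sub_ne_zero.2 fun h4 => h3 ?_)
  have : Fact (Nat.Prime 3) := ⟨Nat.prime_three⟩
  rw [← orderOf_eq_prime (cub_cube (ga_cop hp ha)) hne]
  exact orderOf_dvd_of_pow_eq_one h4
theorem gauss_prime_zero {p : R F} (hp : Prime p) {k : ℕ} (h3 : ¬ 3 ∣ k)
    {r : R F} (hr : p ∣ r) : gauss (fun u => cub u p ^ k) p r = 0 := by
  rw [← ga_sum_cub_pow hp h3]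
  refine Finset.sum_congr rfl fun x _ => ?_
  rw [psi_of_dvd (hr.mul_right x), mul_one]
theorem gauss_cub_unit {s c : R F} (hs : IsUnit s) (hc : c ≠ 0) (r : R F) :
    gauss (fun x => cub x (s * c)) (s * c) r = cub s c * gauss (fun x => cub x c) c r :=
  ga_cub.gauss_unit_mul hs hc r
theorem gauss_cub_freq {a c : R F} (hc : c ≠ 0) (h : IsCoprime a c) (r : R F) :
    gauss (fun x => cub x c) c (r * a) = conj (cub a c) * gauss (fun x => cub x c) c r :=
  ga_cub.gauss_cop hc h r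
theorem gauss_cub_split {p c : R F} (hp : Prime p) (hc : ¬ p ∣ c) (k : ℕ) (r : R F) :
    gauss (fun x => cub x (p ^ k * c)) (p ^ k * c) r = B3 (c : F) p ^ k *
      gauss (fun u => cub u p ^ k) (p ^ k) r * gauss (fun x => cub x c) c (r * p ^ k) := by
  have h0 : c ≠ 0 := fun h => hc (h ▸ dvd_zero p)
  have h1 : IsCoprime (p ^ k) c := (ga_cop hp hc).symm.pow_left
  rw [ga_cub.gauss_mul (pow_ne_zero k hp.ne_zero) h0 h1, gauss_cub_freq h0 h1, conj_cub]
  simp only [cub_pow_right _ hp.ne_zero]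
  rw [cub_recip h0 hp.ne_zero, cub_pow_left, mul_pow]
  ring
theorem ga_count {d n : R F} (hn : n ≠ 0) (h : d ∣ n) (z : ℂ) :
    ∑ x ∈ res n, (if d ∣ x then z else 0) = N n * (z / N d) := by
  obtain ⟨t, rfl⟩ := h
  have hd := left_ne_zero_of_mul hn
  have ht := right_ne_zero_of_mul hn
  have hP : Pe (d * t) fun x => if d ∣ x then z else 0 := fun x y h =>
    if_congr (dvd_iff_dvd_of_dvd_sub (dvd_of_mul_right_dvd h)) rfl rfl
  have h1 : ((res t).card : ℂ) = N t := by exact_mod_cast card_res ht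
  have h2 : (N d : ℂ) ≠ 0 := ofReal_ne_zero.2 (N_pos hd).ne'
  rw [sum_res_mul hd ht hP]
  simp only [dvd_add_left (dvd_mul_right d _), Finset.sum_const, nsmul_eq_mul, h1]
  have h3 := ga_pick hd (G := fun _ => z) (fun _ _ _ => rfl) 0
  simp only [sub_zero] at h3
  rw [← Finset.mul_sum, h3, N_mul]
  push_cast
  field_simp
theorem gauss_cub_zero_cube {m : R F} (hm : P1 m) :
    gauss (fun x => cub x (m ^ 3)) (m ^ 3) 0 =
      (N m : ℂ) ^ 3 * ∑ d ∈ divs m, mu0 d / (N d : ℂ) := by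
  have h0 := hm.ne_zero
  have e1 : ∀ x : R F, cub x (m ^ 3) = ∑ d ∈ divs m, if d ∣ x then mu0 d else 0 := fun x => by
    rw [cub_pow_right _ h0, cub_cube_eq_cop _ h0]
    rcases eq_or_ne x 0 with rfl | hx
    · simp only [dvd_zero, if_true, sum_mu0 h0, cop, isCoprime_zero_left]
    · exact cop_eq_sum hx h0
  unfold gauss
  simp only [zero_mul, psi_of_dvd (dvd_zero (m ^ 3)), mul_one, e1]
  rw [Finset.sum_comm, Finset.mul_sum]
  refine Finset.sum_congr rfl fun d hd => ?_
  rw [ga_count (pow_ne_zero 3 h0) (((mem_divs h0).1 hd).2.trans (dvd_pow_self m three_ne_zero)),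
    N_pow]
  push_cast
  rfl
theorem gauss_cub_zero {x : R F} (hx : P1 x) (h : ¬ ∃ m, P1 m ∧ x = m ^ 3) :
    gauss (fun y => cub y x) x 0 = 0 := by
  obtain ⟨p, c, k, hp, hc, hk, rfl⟩ : ∃ (p c : R F) (k : ℕ), Prime p ∧ ¬ p ∣ c ∧ ¬ 3 ∣ k ∧
      x = p ^ k * c := by
    rcases cube_or hx with ⟨e, d, he, hd, rfl⟩ | ⟨p, y, k, hp, -, -, hy, rfl⟩
    · have hu : ¬ IsUnit e := fun hu => h ⟨d, hd, by rw [he.1.eq_one_of_isUnit hu, one_mul]⟩
      obtain ⟨p, hp, e', rfl⟩ := WfDvdMonoid.exists_irreducible_factor hu he.ne_zero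
      obtain ⟨j, d', hd', rfl⟩ := WfDvdMonoid.max_power_factor hd.ne_zero hp
      refine ⟨p, e' * d' ^ 3, 3 * j + 1, hp.prime, fun h1 => ?_, by omega, by ring⟩
      rcases hp.prime.dvd_or_dvd h1 with h2 | h2
      · exact hp.not_isUnit (he.2 p (mul_dvd_mul_left p h2))
      · exact hd' (hp.prime.dvd_of_dvd_pow h2)
    · exact ⟨p, y, 3 * k + 2, hp, hy, by omega, by ring⟩
  have h1 : p ^ (k - 1) ∣ 0 := dvd_zero _
  have h2 : h1.choose = 0 :=
    (mul_eq_zero.1 h1.choose_spec.symm).resolve_left (pow_ne_zero _ hp.ne_zero)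
  rw [gauss_cub_split hp hc, gauss_prime_pow hp (by omega), dif_pos h1, h2,
    gauss_prime_zero hp hk (dvd_zero p), mul_zero, mul_zero, zero_mul]

end Vale.Agent.P319B
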