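import Vale.Agent.P319B.AsymA
import Vale.Agent.P319B.FI
import Vale.Agent.P319B.Gauss

/-! The residue of the constant term. -/

namespace Vale.Agent.P319B

open Complex NumberField Filter Topology
open scoped Classical ComplexConjugate
open Vale.Agent.P026 (w kk fk)

variable {F : Type} [Field F] [NumberField F] [Ctx F]

/-- One term of the sum over units. -/
noncomputable def asT (e : ℕ) (f : ℝ → ℝ) (z : F) (y : ℝ) (s : R F) : ℝ :=
  if s ∈ SU F e ∧ Lo e ((s : F) * z) then f (y * nf ((s : F) * z)) else 0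

section
variable {e : ℕ} (he : 1 ≤ e) {f : ℝ → ℝ} (hpos : ∀ y, 0 < y → 0 < f y)
  (hb : ∀ σ : ℝ, 0 < σ → ∃ C : ℝ, ∀ y : ℝ, 0 < y → f y ≤ C * y ^ (-σ))

include hpos in
theorem as_T0 (z : F) {y : ℝ} (hy : 0 < y) (s : R F) : 0 ≤ asT e f z y s :=
  ite_nonneg (hpos _ (mul_pos hy (nf_pos _))).le le_rfl

include he hpos hb

theorem as_bd {σ : ℝ} (hσ : 0 < σ) : ∃ C : ℝ, ∀ z : F, z ≠ 0 → ∀ y : ℝ, 0 < y →
    Summable (asT e f z y) ∧ ∑' s, asT e f z y s ≤ C * y ^ (-σ) := by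
  obtain ⟨C, hC⟩ := hb σ hσ
  obtain ⟨D, -, hD⟩ := SU_sum (F := F) he 0 hσ
  have C0 : 0 ≤ C := by simpa using (hpos 1 one_pos).le.trans (hC 1 one_pos)
  refine ⟨C * D, fun z hz y hy => ?_⟩
  have h : ∀ s, asT e f z y s ≤ C * y ^ (-σ) *
      if s ∈ SU F e ∧ Hi 0 ((s : F) * z) then nf ((s : F) * z) ^ (-σ) else 0 := fun s => by
    unfold asT
    split_ifs with h1 h2
    · rw [mul_assoc, ← Real.mul_rpow hy.le (nf_pos _).le]
      exact hC _ (mul_pos hy (nf_pos _))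
    · exact absurd ⟨h1.1, Hi.of_mem 0 h1.2.mem⟩ h2
    · have := nf_pos ((s : F) * z)
      positivity
    · simp
  have h1 := (hD z hz).1.mul_left (C * y ^ (-σ))
  have h2 := h1.of_nonneg_of_le (as_T0 hpos z hy) h
  refine ⟨h2, (h2.tsum_le_tsum h h1).trans ?_⟩
  rw [tsum_mul_left, mul_right_comm C D]
  exact mul_le_mul_of_nonneg_left (hD z hz).2 (by positivity)

theorem as_sm {z : F} (hz : z ≠ 0) {y : ℝ} (hy : 0 < y) : Summable (asT e f z y) :=
  ((as_bd he hpos hb one_pos).choose_spec z hz y hy).1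

theorem as_pos {z : F} (hz : z ≠ 0) {y : ℝ} (hy : 0 < y) : 0 < ∑' s, asT e f z y s := by
  obtain ⟨C, -, h⟩ := SU_small (F := F) he e
  obtain ⟨s, h1, h2, -⟩ := h z hz
  exact (as_sm he hpos hb hz hy).tsum_pos (as_T0 hpos z hy) s
    ((hpos _ (mul_pos hy (nf_pos _))).trans_eq (if_pos ⟨h1, h2⟩).symm)

theorem as_le {z z' : F} (h : SameO z' z) {y : ℝ} (hy : 0 < y) :
    ∑' s, asT e f z y s ≤ ∑' s, asT e f z' y s := by
  obtain ⟨t, ht, hu⟩ := h
  obtain ⟨h0, hz⟩ := div_ne_zero_iff.1 hu.1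
  obtain ⟨t0, hz'⟩ := mul_ne_zero_iff.1 h0
  choose σ hσ using fun s : SU F e => (SU_ex he ((SU_unit s.2).mul ht)).exists
  rw [← tsum_subtype_eq_of_support_subset (f := asT e f z y) (s := SU F e) fun s hs =>
    by_contra fun h => hs (if_neg fun h' => h h'.1)]
  refine ((as_sm he hpos hb hz hy).subtype _).tsum_le_tsum_of_inj σ (fun s s' h => ?_)
    (fun _ _ => as_T0 hpos z' hy _) (fun s => ?_) (as_sm he hpos hb hz' hy)
  · have h1 := ((hσ s).2.symm he).mul (hσ s').2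
    have s0 := (isUnit_iff_inv.1 (SU_unit s.2)).1
    have s1 := (isUnit_iff_inv.1 (SU_unit (hσ s').1)).1
    refine Subtype.ext ((SU_ex he (SU_unit s'.2)).unique ⟨s.2, ?_⟩
      ⟨s'.2, InU.div_self (isUnit_iff_inv.1 (SU_unit s'.2)).1⟩)
    rwa [h, show ((σ s' : R F) : F) / (s.1 * t : R F) * ((s'.1 * t : R F) / σ s') = s'.1 / s.1 by
      push_cast; field_simp] at h1
  · have s0 := (isUnit_iff_inv.1 (SU_unit s.2)).1
    have h1 := (((hσ s).2.symm he).olU he).mul hu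
    have h2 : ((σ s : R F) : F) * z' = (σ s : R F) / (s.1 * t : R F) * (t * z' / z) * (s.1 * z) := by
      push_cast; field_simp
    unfold asT
    split_ifs with h3 h4
    · rw [h2, nf_mul h1.1 (mul_ne_zero s0 hz), nf_olU h1, one_mul]
    · exact absurd ⟨(hσ s).1, h2 ▸ h3.2.mul_left h1.2.1⟩ h4
    · exact (hpos _ (mul_pos hy (nf_pos _))).le
    · rfl

omit he hpos hb in
theorem as_key {χ : R F → ℂ} {Q : R F → Prop} [DecidablePred Q]
    (hχ : ∀ m, χ (m ^ 3) = if Q m then 1 else 0) (x : ℝ) :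
    Tz e χ f x = ((x ^ (1 / 3 : ℝ) * ∑' p : R F × R F, (if P1 p.1 ∧ Q p.1 then hR p.1 else 0) *
      asT e f ((p.1 : F) ^ 3) (x * N p.1 ^ 3) p.2 : ℝ) : ℂ) := by
  rw [ofReal_mul, ofReal_tsum, Tz]
  refine congrArg _ ?_
  set g : R F × R F → ℝ := fun p =>
    (if P1 p.1 ∧ Q p.1 then hR p.1 else 0) * asT e f ((p.1 : F) ^ 3) (x * N p.1 ^ 3) p.2 with hg
  have g1 : ∀ p, (g p : ℂ) ≠ 0 → P1 p.1 := fun p h =>
    by_contra fun h' => left_ne_zero_of_mul (ofReal_ne_zero.1 h) (if_neg fun h => h' h.1)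
  set T : R F × R F → ℂ := fun p => if P1 p.1 ∧ p.2 ∈ SU F e ∧ Lo e ((p.2 : F) * p.1) then
    χ p.1 * (gauss (fun y => cub y p.1) p.1 0 / (N p.1 : ℂ)) * (f (x * Nin ((p.2 : F) * p.1)) : ℂ)
    else 0 with hT
  have key : ∀ m s, P1 m → T (m ^ 3, s) = g (m, s) := fun m s hm => by
    have n := ofReal_ne_zero.2 (N_pos hm.ne_zero).ne'
    simp only [hT, hg, asT, hm, hm.pow 3, true_and, hχ, gauss_cub_zero_cube hm, ← hR_eq, N_pow,
      ofReal_pow, mul_div_cancel_left₀ _ (pow_ne_zero 3 n), SubmonoidClass.coe_pow]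
    split_ifs with h h'
    · have := Nin_eq_N_mul (s * m ^ 3)
      rw [N_mul, N_unit (SU_unit h.1), one_mul, N_pow] at this
      push_cast at this ⊢
      rw [this, one_mul, mul_assoc]
    all_goals simp
  refine tsum_eq_tsum_of_ne_zero_bij (f := T) (g := fun p => (g p : ℂ))
    (fun p => (p.1.1 ^ 3, p.1.2)) (fun p q h => ?_) (fun p hp => ?_) fun p => key _ _ (g1 _ p.2)
  · exact Subtype.ext (Prod.ext (pow_inj_P1 (g1 _ p.2) (g1 _ q.2) three_ne_zero
      (Prod.mk.inj h).1) (Prod.mk.inj h).2)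
  · obtain ⟨y, s⟩ := p
    have hy : P1 y := by_contra fun h => hp (if_neg fun h' => h h'.1)
    obtain ⟨m, hm, rfl⟩ : ∃ m, P1 m ∧ y = m ^ 3 := by_contra fun h => hp (by
      simp [hT, gauss_cub_zero hy h])
    exact ⟨⟨(m, s), fun h => hp ((key m s hm).trans h)⟩, rfl⟩

theorem as_split {Z : Finset F} (hZ : ∀ x : F, x ≠ 0 → ∃! z, z ∈ Z ∧ SameO x z)
    {Q : R F → Prop} [DecidablePred Q] {x : ℝ} (hx : 0 < x)
    (K : ∀ z ∈ Z, Summable fun m : R F => (if P1 m ∧ SameO (m : F) z ∧ Q m then hR m else 0) *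
      ∑' s, asT e f (z ^ 3) (x * N m ^ 3) s) :
    ∑' p : R F × R F, (if P1 p.1 ∧ Q p.1 then hR p.1 else 0) *
      asT e f ((p.1 : F) ^ 3) (x * N p.1 ^ 3) p.2 = ∑ z ∈ Z, ∑' m : R F,
        (if P1 m ∧ SameO (m : F) z ∧ Q m then hR m else 0) *
          ∑' s, asT e f (z ^ 3) (x * N m ^ 3) s := by
  have xp : ∀ m : R F, P1 m → 0 < x * N m ^ 3 := fun m hm =>
    mul_pos hx (pow_pos (N_pos hm.ne_zero) 3)
  have g2 : ∀ m : R F, ∑' s, (if P1 m ∧ Q m then hR m else 0) *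
      asT e f ((m : F) ^ 3) (x * N m ^ 3) s = ∑ z ∈ Z,
        (if P1 m ∧ SameO (m : F) z ∧ Q m then hR m else 0) *
          ∑' s, asT e f (z ^ 3) (x * N m ^ 3) s := fun m => by
    rw [tsum_mul_left]
    split_ifs with h
    · obtain ⟨z, ⟨hz, hs⟩, hu⟩ := hZ _ h.1.coe_ne
      have h3 : SameO ((m : F) ^ 3) (z ^ 3) := by
        simpa only [pow_succ, pow_zero, one_mul] using (hs.mul hs).mul hs
      rw [Finset.sum_eq_single_of_mem z hz fun z' hz' hn => by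
        rw [if_neg fun h => hn (hu z' ⟨hz', h.2.1⟩), zero_mul], if_pos ⟨h.1, hs, h.2⟩,
        (as_le he hpos hb h3 (xp m h.1)).antisymm (as_le he hpos hb h3.symm (xp m h.1))]
    · rw [zero_mul, Finset.sum_eq_zero fun z _ => by
        rw [if_neg fun h' => h ⟨h'.1, h'.2.2⟩, zero_mul]]
  rw [← Summable.tsum_finsetSum K, ← tsum_congr g2]
  refine Summable.tsum_prod ((summable_prod_of_nonneg fun p => ?_).2 ⟨fun m => ?_, ?_⟩)
  · by_cases h : P1 p.1
    · exact mul_nonneg (ite_nonneg (hR_nonneg _) le_rfl) (as_T0 hpos _ (xp _ h) _)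
    · simp [h]
  · dsimp +instances only
    by_cases h : P1 m
    · exact (as_sm he hpos hb (pow_ne_zero 3 h.coe_ne) (xp m h)).mul_left _
    · simp [h, summable_zero]
  · simpa only [g2] using summable_sum K

theorem as_main (hanti : AntitoneOn f (Set.Ioi 0)) {Z : Finset F} (Z0 : ∀ z ∈ Z, z ≠ 0)
    (hZ : ∀ x : F, x ≠ 0 → ∃! z, z ∈ Z ∧ SameO x z) {χ : R F → ℂ} {Q : R F → Prop}
    [DecidablePred Q] (hχ : ∀ m, χ (m ^ 3) = if Q m then 1 else 0) {c : ℝ}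
    (hc : ∀ z : F, z ≠ 0 → Tendsto (fun X : ℝ =>
      (∑ m ∈ (ball F X).filter (fun m : R F => SameO (m : F) z ∧ Q m), hR m) / X) atTop (𝓝 c)) :
    (∀ z ∈ Z, MeasureTheory.IntegrableOn (fun u : ℝ => ∑' s, asT e f (z ^ 3) (u ^ 3) s)
      (Set.Ioi 0)) ∧ Tendsto (Tz e χ f) (𝓝[>] 0)
      (𝓝 ((c * ∑ z ∈ Z, ∫ u in Set.Ioi (0 : ℝ), ∑' s, asT e f (z ^ 3) (u ^ 3) s : ℝ) : ℂ)) := by
  obtain ⟨C, -, hC⟩ := card_ball_le (F := F)
  obtain ⟨C1, h1⟩ := as_bd (F := F) he hpos hb one_pos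
  obtain ⟨C2, h2⟩ := as_bd (F := F) he hpos hb (show (0 : ℝ) < 1 / 6 by norm_num)
  set a : F → R F → ℝ := fun z m => if P1 m ∧ SameO (m : F) z ∧ Q m then hR m else 0 with ha
  have a1 : ∀ z m, a z m ≠ 0 → P1 m := fun z m h => by_contra fun h' => h (if_neg fun h => h' h.1)
  have a2 : ∀ z X, ∑' m, (if N m ≤ X then a z m else 0) =
      ∑ m ∈ (ball F X).filter (fun m : R F => SameO (m : F) z ∧ Q m), hR m := fun z X => by
    rw [tsum_eq_sum (s := (ball F X).filter fun m : R F => SameO (m : F) z ∧ Q m) fun m hm => ?_]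
    · refine Finset.sum_congr rfl fun m hm => ?_
      simp only [Finset.mem_filter, mem_ball] at hm
      simp only [ha, hm.1.1, hm.1.2, hm.2, and_self, if_true]
    · simp only [Finset.mem_filter, mem_ball] at hm
      simp only [ha]
      split_ifs with h h'
      exacts [absurd ⟨⟨h'.1, h⟩, h'.2⟩ hm, rfl, rfl]
  have K := fun z (hz : z ∈ Z) => karamata (a := a z) (n := N) (C := C) (c := c)
    (Φ := fun y => ∑' s, asT e f (z ^ 3) y s) (C' := max C1 C2)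
    (fun m => ite_nonneg (hR_nonneg m) le_rfl) (fun m h => N_pos (a1 z m h).ne_zero)
    (fun X => (ball F X).finite_toSet.subset fun m h => mem_ball.2 ⟨a1 z m h.1, h.2⟩)
    (fun X hX => by
      rw [a2]
      refine (Finset.sum_le_card_nsmul _ _ 1 fun m _ => hR_le_one m).trans ?_
      rw [nsmul_one]
      exact (Nat.cast_le.2 (Finset.card_filter_le _ _)).trans (hC X hX.le))
    (by simpa only [a2] using hc z (Z0 z hz))
    (fun y hy => tsum_nonneg (as_T0 hpos _ hy))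
    (fun y hy y' hy' h => (as_sm he hpos hb (pow_ne_zero 3 (Z0 z hz)) hy').tsum_le_tsum (fun s => by
      unfold asT
      split_ifs
      · exact hanti (mul_pos hy (nf_pos _)) (mul_pos hy' (nf_pos _))
          (mul_le_mul_of_nonneg_right h (nf_pos _).le)
      · rfl) (as_sm he hpos hb (pow_ne_zero 3 (Z0 z hz)) hy))
    (fun y hy => (h1 _ (pow_ne_zero 3 (Z0 z hz)) y hy).2.trans (by gcongr; exact le_max_left _ _))
    fun y hy => (h2 _ (pow_ne_zero 3 (Z0 z hz)) y hy).2.trans (by gcongr; exact le_max_right _ _)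
  refine ⟨fun z hz => (K z hz).1, ?_⟩
  rw [Finset.mul_sum]
  refine ((continuous_ofReal.tendsto _).comp
    (tendsto_finsetSum Z fun z hz => (K z hz).2.2)).congr' ?_
  filter_upwards [self_mem_nhdsWithin] with x hx
  rw [Function.comp_apply, ← Finset.mul_sum, as_key hχ,
    as_split he hpos hb hZ hx fun z hz => (K z hz).2.1 x hx]

end

theorem asym {e : ℕ} (he : 1 ≤ e) {f : ℝ → ℝ} (hpos : ∀ y, 0 < y → 0 < f y)
    (hanti : AntitoneOn f (Set.Ioi 0))
    (hb : ∀ σ : ℝ, 0 < σ → ∃ C : ℝ, ∀ y : ℝ, 0 < y → f y ≤ C * y ^ (-σ)) :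
    ∃ l : ℝ, 0 < l ∧ Tendsto (Tz (F := F) e (fun _ => 1) f) (𝓝[>] 0) (𝓝 (l : ℂ)) ∧
      ∀ p : R F, Prime p → Tendsto (Tz e (fun x => if p ∣ x then 1 else 0) f) (𝓝[>] 0)
        (𝓝 ((l / (N p + 1) : ℝ) : ℂ)) := by
  obtain ⟨c, hc, h⟩ := asym_count (F := F)
  obtain ⟨Z, Z0, hZ⟩ := exists_sameO_reps (F := F)
  obtain ⟨h1, h2⟩ := as_main he hpos hb hanti Z0 hZ (χ := fun _ => 1) (Q := fun _ => True)
    (by simp) fun z hz => by simpa only [and_true] using (h z hz).1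
  refine ⟨_, mul_pos hc (Finset.sum_pos (fun z hz => ?_) ?_), h2, fun p hp => ?_⟩
  · have h3 := fun u (hu : u ∈ Set.Ioi (0 : ℝ)) =>
      as_pos he hpos hb (pow_ne_zero 3 (Z0 z hz)) (pow_pos hu 3)
    rw [MeasureTheory.setIntegral_pos_iff_support_of_nonneg_ae
      (MeasureTheory.ae_restrict_of_forall_mem measurableSet_Ioi fun u hu => (h3 u hu).le) (h1 z hz),
      Set.inter_eq_right.2 fun u hu => Function.mem_support.2 (h3 u hu).ne']
    simp
  · exact ⟨_, (hZ 1 one_ne_zero).choose_spec.1.1⟩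
  · rw [← div_mul_eq_mul_div]
    exact (as_main he hpos hb hanti Z0 hZ (Q := fun m => p ∣ m)
      (fun m => if_congr (hp.dvd_pow_iff_dvd three_ne_zero) rfl rfl) fun z hz => (h z hz).2 p hp).2

end Vale.Agent.P319B
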