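import Mathlib

/-! Counting ideals of a number field in a class, avoiding finitely many primes. -/

namespace Vale.Agent.P319B

open NumberField Filter Topology
open scoped Classical nonZeroDivisors

variable {K : Type} [Field K] [NumberField K]

variable (K) in
/-- Nonzero ideals of norm at most X. -/
noncomputable def cntB (X : ℝ) : Finset (Ideal (𝓞 K))⁰ :=
  (Ideal.finite_setOfPred_absNorm_le₀ (S := 𝓞 K) ⌊X⌋₊).toFinset

theorem mem_cntB {X : ℝ} {I : (Ideal (𝓞 K))⁰} :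
    I ∈ cntB K X ↔ (Ideal.absNorm (I : Ideal (𝓞 K)) : ℝ) ≤ X := by
  rw [cntB, Set.Finite.mem_toFinset, Set.mem_ofPred_eq,
    Nat.le_floor_iff' (Ideal.absNorm_ne_zero_of_nonZeroDivisors I)]

theorem cntA_all : ∃ c : ℝ, Tendsto (fun X : ℝ => ((cntB K X).card : ℝ) / X) atTop (𝓝 c) := by
  refine ⟨_, (Ideal.tendsto_norm_le_div_atTop₀ K).congr fun X => ?_⟩
  rw [Nat.subtype_card (cntB K X) fun I => mem_cntB]

theorem cntA_cls : ∃ c : ℝ, 0 < c ∧ ∀ C : ClassGroup (𝓞 K),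
    Tendsto (fun X : ℝ => (((cntB K X).filter fun I => ClassGroup.mk0 I = C).card : ℝ) / X)
      atTop (𝓝 c) := by
  refine ⟨_, ?_, fun C => (Ideal.tendsto_norm_le_and_mk_eq_div_atTop K C).congr fun X => ?_⟩
  · have h1 := Units.regulator_pos K
    have h2 : (0 : ℝ) < Units.torsionOrder K := by exact_mod_cast Units.torsionOrder_pos K
    have h3 : (0 : ℝ) < |(discr K : ℝ)| := abs_pos.2 (by exact_mod_cast discr_ne_zero K)
    have h4 : (0 : ℝ) < √|(discr K : ℝ)| := Real.sqrt_pos.2 h3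
    have h5 := Real.pi_pos
    positivity
  · rw [Nat.subtype_card ((cntB K X).filter fun I => ClassGroup.mk0 I = C) fun I => by
      rw [Finset.mem_filter, mem_cntB]]

variable (K) in
/-- Ideals of norm at most X in the class C that are not divisible by the primes in S. -/
noncomputable def cntS (S : Finset (Ideal (𝓞 K))) (C : ClassGroup (𝓞 K)) (X : ℝ) :
    Finset (Ideal (𝓞 K))⁰ :=
  (cntB K X).filter fun I => (∀ p ∈ S, ¬ p ∣ (I : Ideal (𝓞 K))) ∧ ClassGroup.mk0 I = C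

theorem mem_cntS {S : Finset (Ideal (𝓞 K))} {C : ClassGroup (𝓞 K)} {X : ℝ}
    {I : (Ideal (𝓞 K))⁰} : I ∈ cntS K S C X ↔ (Ideal.absNorm (I : Ideal (𝓞 K)) : ℝ) ≤ X ∧
      (∀ p ∈ S, ¬ p ∣ (I : Ideal (𝓞 K))) ∧ ClassGroup.mk0 I = C := by
  rw [cntS, Finset.mem_filter, mem_cntB]

theorem cntA_step {S : Finset (Ideal (𝓞 K))} (hS : ∀ q ∈ S, Prime q) {p : (Ideal (𝓞 K))⁰}
    (hp : Prime (p : Ideal (𝓞 K))) (hpS : (p : Ideal (𝓞 K)) ∉ S) (C : ClassGroup (𝓞 K))
    (X : ℝ) :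
    ((cntS K (insert (p : Ideal (𝓞 K)) S) C X).card : ℝ) = (cntS K S C X).card -
      (cntS K S (C * (ClassGroup.mk0 p)⁻¹) (X / Ideal.absNorm (p : Ideal (𝓞 K)))).card := by
  have hN : (0 : ℝ) < Ideal.absNorm (p : Ideal (𝓞 K)) := by
    exact_mod_cast Ideal.absNorm_pos_of_nonZeroDivisors p
  have h1 := Finset.card_filter_add_card_filter_not (s := cntS K S C X)
    (fun I => (p : Ideal (𝓞 K)) ∣ (I : Ideal (𝓞 K)))
  have h2 : (cntS K S C X).filter
      (fun I : (Ideal (𝓞 K))⁰ => ¬ (p : Ideal (𝓞 K)) ∣ (I : Ideal (𝓞 K))) =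
      cntS K (insert (p : Ideal (𝓞 K)) S) C X := by
    ext I
    simp only [Finset.mem_filter, mem_cntS, Finset.forall_mem_insert]
    tauto
  have key : ∀ I : (Ideal (𝓞 K))⁰, p * I ∈ cntS K S C X ↔
      I ∈ cntS K S (C * (ClassGroup.mk0 p)⁻¹) (X / Ideal.absNorm (p : Ideal (𝓞 K))) := by
    intro I
    rw [mem_cntS, mem_cntS, Submonoid.coe_mul, map_mul, map_mul, Nat.cast_mul, le_div_iff₀ hN,
      mul_comm (Ideal.absNorm (I : Ideal (𝓞 K)) : ℝ), eq_mul_inv_iff_mul_eq,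
      mul_comm (ClassGroup.mk0 I)]
    refine and_congr_right fun _ => and_congr_left fun _ => forall₂_congr fun q hq => ?_
    rw [(hS q hq).dvd_mul, or_iff_right]
    intro h
    have h3 := (hS q hq).associated_of_dvd hp h
    rw [associated_iff_eq] at h3
    exact hpS (h3 ▸ hq)
  have h3 : (cntS K S (C * (ClassGroup.mk0 p)⁻¹) (X / Ideal.absNorm (p : Ideal (𝓞 K)))).card =
      ((cntS K S C X).filter
        (fun I : (Ideal (𝓞 K))⁰ => (p : Ideal (𝓞 K)) ∣ (I : Ideal (𝓞 K)))).card := by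
    refine Finset.card_bij (fun I _ => p * I) (fun I hI => ?_) (fun I _ J _ h => ?_)
      fun I hI => ?_
    · exact Finset.mem_filter.2 ⟨(key I).2 hI, dvd_mul_right _ _⟩
    · exact mul_left_cancel h
    · obtain ⟨h4, J, hJ⟩ := Finset.mem_filter.1 hI
      have h5 : J ≠ 0 := by
        rintro rfl
        exact nonZeroDivisors.coe_ne_zero I (by rw [hJ, mul_zero])
      have h6 : p * ⟨J, mem_nonZeroDivisors_of_ne_zero h5⟩ = I := Subtype.ext hJ.symm
      exact ⟨⟨J, mem_nonZeroDivisors_of_ne_zero h5⟩, (key _).1 (h6 ▸ h4), h6⟩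
  rw [h3, ← h2, ← h1]
  push_cast
  ring

theorem cntA_S (S : Finset (Ideal (𝓞 K))) (hS : ∀ q ∈ S, Prime q) : ∃ c : ℝ, 0 < c ∧
    ∀ C : ClassGroup (𝓞 K),
      Tendsto (fun X : ℝ => ((cntS K S C X).card : ℝ) / X) atTop (𝓝 c) := by
  induction S using Finset.induction_on with
  | empty =>
    obtain ⟨c, hc, h⟩ := cntA_cls (K := K)
    exact ⟨c, hc, fun C => by simpa [cntS] using h C⟩
  | insert q S hq ih =>
    have hS' : ∀ q ∈ S, Prime q := fun r hr => hS r (Finset.mem_insert_of_mem hr)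
    obtain ⟨c, hc, h⟩ := ih hS'
    have hp := hS q (Finset.mem_insert_self _ _)
    set p : (Ideal (𝓞 K))⁰ := ⟨q, mem_nonZeroDivisors_of_ne_zero hp.ne_zero⟩ with hpd
    have h1 : (1 : ℝ) < Ideal.absNorm q := by
      have h2 := Ideal.absNorm_pos_of_nonZeroDivisors p
      have h3 : Ideal.absNorm q ≠ 1 := fun h =>
        hp.not_isUnit (Ideal.isUnit_iff.2 (Ideal.absNorm_eq_one_iff.1 h))
      exact_mod_cast lt_of_le_of_ne h2 h3.symm
    refine ⟨c - c / Ideal.absNorm q, sub_pos.2 (div_lt_self hc h1), fun C => ?_⟩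
    have h4 := ((h (C * (ClassGroup.mk0 p)⁻¹)).comp
      (tendsto_id.atTop_div_const (zero_lt_one.trans h1))).div_const (Ideal.absNorm q : ℝ)
    refine ((h C).sub h4).congr' ?_
    filter_upwards [eventually_gt_atTop 0] with X hX
    have h5 := cntA_step hS' (p := p) hp hq C X
    simp only [Function.comp, id]
    rw [show (cntS K (insert q S) C X).card = (cntS K (insert (p : Ideal (𝓞 K)) S) C X).card
      from rfl, h5]
    field_simp
    rfl

theorem cntA_cop {J : Ideal (𝓞 K)} (hJ : J ≠ ⊥) : ∃ c : ℝ, 0 < c ∧ ∀ C : ClassGroup (𝓞 K),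
    Tendsto (fun X : ℝ => (((cntB K X).filter fun I : (Ideal (𝓞 K))⁰ =>
      IsCoprime (I : Ideal (𝓞 K)) J ∧ ClassGroup.mk0 I = C).card : ℝ) / X) atTop (𝓝 c) := by
  obtain ⟨c, hc, h⟩ := cntA_S (UniqueFactorizationMonoid.normalizedFactors J).toFinset
    fun q hq => UniqueFactorizationMonoid.prime_of_normalized_factor q (Multiset.mem_toFinset.1 hq)
  refine ⟨c, hc, fun C => (h C).congr fun X => ?_⟩
  rw [cntS]
  congr 3
  refine Finset.filter_congr fun I _ => and_congr_left fun _ => ?_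
  simp only [Multiset.mem_toFinset, Ideal.mem_normalizedFactors_iff hJ, Ideal.dvd_iff_le]
  refine ⟨fun h => Ideal.coprime_of_no_prime_ge fun P h1 h2 h3 => h P ⟨h3, h2⟩ h1,
    fun h P h1 h2 => h1.1.ne_top ?_⟩
  rw [eq_top_iff, ← Ideal.isCoprime_iff_sup_eq.1 h]
  exact sup_le h2 h1.2

theorem cntA_upper {f : ℝ → ℝ} (hf : Monotone f) {c : ℝ}
    (h : Tendsto (fun X => f X / X) atTop (𝓝 c)) :
    ∃ C : ℝ, 0 < C ∧ ∀ X : ℝ, 1 ≤ X → f X ≤ C * X := by
  obtain ⟨Z, hZ⟩ := eventually_atTop.1 (h.eventually (gt_mem_nhds (lt_add_one c)))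
  refine ⟨max (max (c + 1) (f Z)) 1, lt_max_of_lt_right one_pos, fun X hX => ?_⟩
  have h0 : 0 < X := by linarith
  rcases le_total Z X with h1 | h1
  · have := (div_lt_iff₀ h0).1 (hZ X h1)
    exact this.le.trans (mul_le_mul_of_nonneg_right
      ((le_max_left _ _).trans (le_max_left _ _)) h0.le)
  · refine (hf h1).trans (((le_max_right (c + 1) _).trans (le_max_left _ 1)).trans ?_)
    exact le_mul_of_one_le_right (zero_le_one.trans (le_max_right _ _)) hX

theorem cntA_le : ∃ C : ℝ, 0 < C ∧ ∀ X : ℝ, 1 ≤ X → ((cntB K X).card : ℝ) ≤ C * X := by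
  obtain ⟨c, h⟩ := cntA_all (K := K)
  refine cntA_upper (fun X Y hXY => ?_) h
  exact Nat.cast_le.2 (Finset.card_le_card fun I hI => mem_cntB.2 ((mem_cntB.1 hI).trans hXY))

end Vale.Agent.P319B
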