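import Vale.Agent.P319B.Basic
import Vale.Agent.P319B.CountA

/-! The dictionary between elements of R and ideals of the ring of integers prime to M. -/

namespace Vale.Agent.P319B

open Complex NumberField Filter Topology
open scoped Classical nonZeroDivisors

section

variable {F : Type} [Field F] [NumberField F] [Ctx0 F]

variable (F) in
/-- The inclusion of the ring of integers in R. -/
noncomputable def cntE : 𝓞 F →+* R F :=
  (algebraMap (𝓞 F) F).codRestrict (Rr F (Ctx0.M F)) fun x => int_mem_R x.isIntegral_coe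

theorem cntE_coe (x : 𝓞 F) : ((cntE F x : R F) : F) = x := rfl

variable (F) in
/-- The ideal generated by M. -/
noncomputable abbrev cntM : Ideal (𝓞 F) := Ideal.span {((Ctx0.M F : ℕ) : 𝓞 F)}

theorem cntM_ne : cntM F ≠ ⊥ := by
  rw [Ne, Ideal.span_singleton_eq_bot, Nat.cast_eq_zero]
  exact Ctx0.M_ne

/-- The ideal of integers divisible by c in R. -/
noncomputable def cntI (c : R F) : Ideal (𝓞 F) := (Ideal.span {c}).comap (cntE F)

theorem mem_cntI {c : R F} {x : 𝓞 F} : x ∈ cntI c ↔ c ∣ cntE F x := Ideal.mem_span_singleton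

theorem cntI_spec {c : R F} (hc : c ≠ 0) : cntI c ≠ ⊥ ∧ IsCoprime (cntI c) (cntM F) ∧
    (Ideal.absNorm (cntI c) : ℝ) = N c := by
  obtain ⟨J, h1, h2, h3, h4⟩ := exists_ideal hc
  have : cntI c = J := Ideal.ext fun x => by rw [h4, mem_cntI, dvd_iff_div hc, cntE_coe]
  rw [this]
  exact ⟨h1, h2, h3⟩

theorem cntC_clear (x : R F) :
    ∃ (k : ℕ) (y : 𝓞 F), cntE F y = ((Ctx0.M F : ℕ) : R F) ^ k * x := by
  obtain ⟨k, hk⟩ := mem_Rr.1 x.2
  exact ⟨k, ⟨_, hk⟩, Subtype.ext (by rw [Subring.coe_mul, SubmonoidClass.coe_pow, coe_M]; rfl)⟩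

theorem map_cntI (c : R F) : (cntI c).map (cntE F) = Ideal.span {c} := by
  refine le_antisymm Ideal.map_comap_le ((Ideal.span_singleton_le_iff_mem _).2 ?_)
  obtain ⟨k, y, h⟩ := cntC_clear c
  have h1 : cntE F y ∈ (cntI c).map (cntE F) :=
    Ideal.mem_map_of_mem _ (mem_cntI.2 (h ▸ dvd_mul_left _ _))
  rwa [h, Ideal.unit_mul_mem_iff_mem _ (isUnit_M.pow k)] at h1

theorem cntC_mem_map {J : Ideal (𝓞 F)} {x : R F} (hx : x ∈ J.map (cntE F)) :
    ∃ (k : ℕ) (y : 𝓞 F), y ∈ J ∧ cntE F y = ((Ctx0.M F : ℕ) : R F) ^ k * x := by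
  induction hx using Submodule.span_induction with
  | mem x hx =>
    obtain ⟨y, hy, rfl⟩ := hx
    exact ⟨0, y, hy, by rw [pow_zero, one_mul]⟩
  | zero => exact ⟨0, 0, zero_mem _, by simp⟩
  | add x x' _ _ hx hx' =>
    obtain ⟨k, y, hy, h⟩ := hx
    obtain ⟨k', y', hy', h'⟩ := hx'
    refine ⟨k + k', (Ctx0.M F : ℕ) ^ k' * y + (Ctx0.M F : ℕ) ^ k * y',
      add_mem (J.mul_mem_left _ hy) (J.mul_mem_left _ hy'), ?_⟩
    simp only [map_add, map_mul, map_pow, map_natCast, h, h']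
    ring
  | smul a x _ hx =>
    obtain ⟨k, y, hy, h⟩ := hx
    obtain ⟨l, b, hb⟩ := cntC_clear a
    refine ⟨l + k, b * y, J.mul_mem_left _ hy, ?_⟩
    rw [map_mul, h, hb, smul_eq_mul]
    ring

theorem cntE_inj : Function.Injective (cntE F) := fun _ _ h =>
  RingOfIntegers.ext (congrArg (fun z : R F => (z : F)) h)

theorem cntC_comap_map {J : Ideal (𝓞 F)} (h : IsCoprime J (cntM F)) :
    (J.map (cntE F)).comap (cntE F) = J := by
  refine le_antisymm (fun x hx => ?_) Ideal.le_comap_map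
  obtain ⟨k, y, hy, h1⟩ := cntC_mem_map (Ideal.mem_comap.1 hx)
  have h2 : y = ((Ctx0.M F : ℕ) : 𝓞 F) ^ k * x :=
    cntE_inj (by rw [h1, map_mul, map_pow, map_natCast])
  have h3 := h.pow_right (n := k)
  rw [Ideal.span_singleton_pow, Ideal.isCoprime_iff_exists] at h3
  obtain ⟨a, ha, b, hb, hab⟩ := h3
  obtain ⟨t, rfl⟩ := Ideal.mem_span_singleton'.1 hb
  have h4 : x = x * a + t * y := by linear_combination (-x) * hab - t * h2
  rw [h4]
  exact add_mem (J.mul_mem_left _ ha) (J.mul_mem_left _ hy)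

theorem cntC_inj {J J' : Ideal (𝓞 F)} (h : IsCoprime J (cntM F)) (h' : IsCoprime J' (cntM F))
    (e : J.map (cntE F) = J'.map (cntE F)) : J = J' := by
  rw [← cntC_comap_map h, e, cntC_comap_map h']

/-- The nonzero ideal attached to c. -/
noncomputable def cntJ (c : R F) : (Ideal (𝓞 F))⁰ :=
  if h : c = 0 then 1 else ⟨cntI c, mem_nonZeroDivisors_of_ne_zero (cntI_spec h).1⟩

theorem cntJ_coe {c : R F} (hc : c ≠ 0) : (cntJ c : Ideal (𝓞 F)) = cntI c := by
  rw [cntJ, dif_neg hc]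

theorem cntC_nat {n : ℕ} (hn : n.Coprime (Ctx0.M F)) {a : 𝓞 F} (h : a ∣ (n : 𝓞 F)) :
    IsCoprime (Ideal.span {a}) (cntM F) := by
  rw [Ideal.isCoprime_span_singleton_iff]
  have h1 := (Nat.isCoprime_iff_coprime.2 hn).map (Int.castRingHom (𝓞 F))
  simp only [eq_intCast, Int.cast_natCast] at h1
  exact h1.of_isCoprime_of_dvd_left h

theorem cntC_Nn {m : R F} (hm : m ≠ 0) : ((Nn m : ℕ) : 𝓞 F) ∈ cntI m := by
  have h1 : Ideal.absNorm (cntI m) = Nn m := by
    have := (cntI_spec hm).2.2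
    rw [N_eq_Nn hm] at this
    exact Nat.cast_injective this
  rw [← h1]
  exact Ideal.absNorm_mem _

theorem cntC_Ol {m m' : R F} (hm : m ≠ 0) {x y : 𝓞 F} (hy : y ≠ 0)
    (h : Ideal.span {x} * cntI m = Ideal.span {y} * cntI m') : (x : F) / y ∈ Ol F := by
  have h2 : x * ((Nn m : ℕ) : 𝓞 F) ∈ Ideal.span {y} * cntI m' := by
    rw [← h]
    exact Ideal.mul_mem_mul (Ideal.mem_span_singleton_self x) (cntC_Nn hm)
  have h6 : Ideal.span {y} * cntI m' ≤ Ideal.span {y} := Ideal.mul_le_left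
  obtain ⟨t, ht⟩ := Ideal.mem_span_singleton'.1 (h6 h2)
  have h3 : (y : F) ≠ 0 := RingOfIntegers.coe_ne_zero_iff.2 hy
  refine mem_Ol.2 ⟨Nn m, Nn_coprime hm, ?_⟩
  have h4 : ((Nn m : ℕ) : F) * ((x : F) / y) = t := by
    have h5 : ((t * y : 𝓞 F) : F) = ((x * ((Nn m : ℕ) : 𝓞 F) : 𝓞 F) : F) := by rw [ht]
    rw [nrmC_mul, nrmC_mul, nrmC_nat] at h5
    rw [← mul_div_assoc, div_eq_iff h3, h5, mul_comm]
  rw [h4]
  exact t.isIntegral_coe

theorem cntC_same {m m' : R F} (hm : m ≠ 0) (hm' : m' ≠ 0) :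
    SameO (m : F) (m' : F) ↔ ClassGroup.mk0 (cntJ m) = ClassGroup.mk0 (cntJ m') := by
  have h0 : (m' : F) ≠ 0 := fun h => hm' (Subtype.ext h)
  rw [ClassGroup.mk0_eq_mk0_iff, cntJ_coe hm, cntJ_coe hm']
  constructor
  · rintro ⟨s, hs, h1, ⟨n, hn, h2⟩, n', hn', h3⟩
    set u : F := (s : F) * m / m' with hu
    have hn0 : (n : F) ≠ 0 := ring_ne hn
    obtain ⟨a, ha⟩ := nrmC_ex h2
    obtain ⟨b, hb⟩ := nrmC_ex h3
    have ha0 : (a : F) ≠ 0 := by
      rw [ha]
      exact mul_ne_zero hn0 h1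
    refine ⟨n, a, by exact_mod_cast Nat.cast_ne_zero.1 hn0,
      RingOfIntegers.coe_ne_zero_iff.1 ha0, cntC_inj
        ((cntC_nat hn dvd_rfl).mul_left (cntI_spec hm).2.1)
        ((cntC_nat (hn.mul_left hn') ⟨b, RingOfIntegers.ext ?_⟩).mul_left
          (cntI_spec hm').2.1) ?_⟩
    · rw [nrmC_nat, nrmC_mul, ha, hb, Nat.cast_mul, mul_mul_mul_comm, mul_inv_cancel₀ h1, mul_one]
    · rw [Ideal.map_mul, Ideal.map_mul, map_cntI, map_cntI, Ideal.map_span, Ideal.map_span,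
        Set.image_singleton, Set.image_singleton, Ideal.span_singleton_mul_span_singleton,
        Ideal.span_singleton_mul_span_singleton, ← Ideal.span_singleton_mul_left_unit hs]
      congr 2
      refine Subtype.ext ?_
      rw [map_natCast, Subring.coe_mul, Subring.coe_mul, Subring.coe_mul, cntE_coe, ha, hu,
        Subring.coe_natCast]
      field_simp
  · rintro ⟨x, y, hx, hy, h⟩
    have h1 := congrArg (Ideal.map (cntE F)) h
    rw [Ideal.map_mul, Ideal.map_mul, map_cntI, map_cntI, Ideal.map_span, Ideal.map_span,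
      Set.image_singleton, Set.image_singleton, Ideal.span_singleton_mul_span_singleton,
      Ideal.span_singleton_mul_span_singleton, Ideal.span_singleton_eq_span_singleton] at h1
    obtain ⟨s, hs⟩ := h1
    have hx' : (x : F) ≠ 0 := RingOfIntegers.coe_ne_zero_iff.2 hx
    have hy' : (y : F) ≠ 0 := RingOfIntegers.coe_ne_zero_iff.2 hy
    have h2 : ((s : R F) : F) * m / m' = (y : F) / x := by
      have h3 := congrArg Subtype.val hs
      rw [Subring.coe_mul, Subring.coe_mul, Subring.coe_mul, cntE_coe, cntE_coe] at h3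
      field_simp
      linear_combination h3
    refine ⟨s, s.isUnit, ?_⟩
    rw [h2]
    exact ⟨div_ne_zero hy' hx', cntC_Ol hm' hx h.symm, inv_div (y : F) x ▸ cntC_Ol hm hy h⟩

theorem cntC_exists {z : F} (hz : z ≠ 0) : ∃ m : R F, m ≠ 0 ∧ SameO (m : F) z := by
  obtain ⟨a, b, hb, h1, rfl⟩ := exists_div_R z
  have ha : (a : F) ≠ 0 := fun h => hz (by rw [h, zero_div])
  refine ⟨a, fun h => ha (by rw [h]; rfl), 1, isUnit_one, ?_⟩
  rwa [Subring.coe_one, one_mul, div_div_cancel₀ ha]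

end

variable {F : Type} [Field F] [NumberField F] [Ctx F]

theorem cntJ_inj {a b : R F} (ha : P1 a) (hb : P1 b) (h : cntJ a = cntJ b) : a = b := by
  have h1 := congrArg (fun J : (Ideal (𝓞 F))⁰ => (J : Ideal (𝓞 F)).map (cntE F)) h
  simp only [cntJ_coe ha.ne_zero, cntJ_coe hb.ne_zero, map_cntI] at h1
  exact ha.eq_of_associated hb (Ideal.span_singleton_eq_span_singleton.1 h1)

theorem cntJ_surj {J : (Ideal (𝓞 F))⁰} (h : IsCoprime (J : Ideal (𝓞 F)) (cntM F)) :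
    ∃ c : R F, P1 c ∧ cntJ c = J := by
  obtain ⟨r, hr⟩ := (IsPrincipalIdealRing.principal ((J : Ideal (𝓞 F)).map (cntE F))).principal
  have h0 : r ≠ 0 := by
    rintro rfl
    refine nonZeroDivisors.coe_ne_zero J ?_
    rw [← cntC_comap_map h, hr, Submodule.span_zero_singleton]
    exact Ideal.comap_bot_of_injective _ cntE_inj
  obtain ⟨s, c, hs, hc, rfl⟩ := exists_P1 h0
  refine ⟨c, hc, Subtype.ext ?_⟩
  rw [cntJ_coe hc.ne_zero, cntI, ← Ideal.span_singleton_mul_left_unit hs, ← cntC_comap_map h, hr]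

theorem cntC_card (X : ℝ) (C : ClassGroup (𝓞 F)) :
    ((ball F X).filter fun m => ClassGroup.mk0 (cntJ m) = C).card = ((cntB F X).filter
      fun J : (Ideal (𝓞 F))⁰ =>
        IsCoprime (J : Ideal (𝓞 F)) (cntM F) ∧ ClassGroup.mk0 J = C).card := by
  refine Finset.card_bij (fun m _ => cntJ m) (fun m hm => ?_) (fun a ha b hb h => ?_)
    fun J hJ => ?_
  · obtain ⟨h1, h2⟩ := Finset.mem_filter.1 hm
    obtain ⟨h3, h4⟩ := mem_ball.1 h1
    rw [Finset.mem_filter, mem_cntB, cntJ_coe h3.ne_zero, (cntI_spec h3.ne_zero).2.2]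
    exact ⟨h4, (cntI_spec h3.ne_zero).2.1, h2⟩
  · exact cntJ_inj (mem_ball.1 (Finset.mem_filter.1 ha).1).1
      (mem_ball.1 (Finset.mem_filter.1 hb).1).1 h
  · obtain ⟨h1, h2, h3⟩ := Finset.mem_filter.1 hJ
    obtain ⟨c, hc, rfl⟩ := cntJ_surj h2
    rw [mem_cntB, cntJ_coe hc.ne_zero, (cntI_spec hc.ne_zero).2.2] at h1
    exact ⟨c, Finset.mem_filter.2 ⟨mem_ball.2 ⟨hc, h1⟩, h3⟩, rfl⟩

theorem cntC_le (X : ℝ) : (ball F X).card ≤ (cntB F X).card := by
  refine Finset.card_le_card_of_injOn cntJ (fun m hm => ?_) fun a ha b hb h =>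
    cntJ_inj (mem_ball.1 ha).1 (mem_ball.1 hb).1 h
  obtain ⟨h3, h4⟩ := mem_ball.1 hm
  rw [Finset.mem_coe, mem_cntB, cntJ_coe h3.ne_zero, (cntI_spec h3.ne_zero).2.2]
  exact h4

end Vale.Agent.P319B
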