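import Vale.Agent.P319B.Basic
import Vale.Agent.P319B.CountC

/-! Counting normalised generators, divisor bound, sums of the weight w. -/

namespace Vale.Agent.P319B

open Complex NumberField Filter Topology
open scoped Classical ComplexConjugate
open Vale.Agent.P026 (w kk fk)

variable {F : Type} [Field F] [NumberField F] [Ctx F]

theorem card_ball_le : ∃ C : ℝ, 0 < C ∧ ∀ K : ℝ, 0 ≤ K → ((ball F K).card : ℝ) ≤ C * K := by
  obtain ⟨C, hC, h⟩ := cntA_le (K := F)
  refine ⟨C, hC, fun K hK => ?_⟩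
  rcases lt_or_ge K 1 with h1 | h1
  · rw [ball_eq_empty h1, Finset.card_empty, Nat.cast_zero]
    positivity
  · exact (Nat.cast_le.2 (cntC_le K)).trans (h K h1)

theorem cnt_layer : ∃ C : ℝ, 0 < C ∧ ∀ (s : Finset (R F)) (f : R F → ℝ) (g ρ : ℕ → ℝ),
    (∀ j, 0 ≤ g j) → (∀ j, 0 ≤ ρ j) → (Summable fun j => g j * ρ j) →
    (∀ c ∈ s, ∃ j, c ∈ ball F (ρ j) ∧ f c ≤ g j) → ∑ c ∈ s, f c ≤ C * ∑' j, g j * ρ j := by
  obtain ⟨C, hC, hb⟩ := card_ball_le (F := F)
  refine ⟨C, hC, fun s f g ρ hg hR hs h => ?_⟩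
  choose! idx h1 h2 using h
  rw [← Finset.sum_fiberwise_of_maps_to (g := idx) (t := s.image idx)
    (fun c hc => Finset.mem_image_of_mem idx hc)]
  have h3 : ∀ j ∈ s.image idx, ∑ c ∈ s with idx c = j, f c ≤ C * (g j * ρ j) := by
    intro j _
    have h4 : ∑ c ∈ s with idx c = j, f c ≤ ((s.filter (idx · = j)).card : ℝ) * g j := by
      rw [← nsmul_eq_mul]
      refine Finset.sum_le_card_nsmul _ _ _ fun c hc => ?_
      rw [Finset.mem_filter] at hc
      rw [← hc.2]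
      exact h2 c hc.1
    have h5 : (s.filter (idx · = j)).card ≤ (ball F (ρ j)).card := by
      refine Finset.card_le_card fun c hc => ?_
      rw [Finset.mem_filter] at hc
      rw [← hc.2]
      exact h1 c hc.1
    have h6 : ((s.filter (idx · = j)).card : ℝ) ≤ C * ρ j :=
      ((Nat.cast_le (α := ℝ)).2 h5).trans (hb _ (hR j))
    nlinarith [mul_le_mul_of_nonneg_right h6 (hg j)]
  refine (Finset.sum_le_sum h3).trans ?_
  rw [← Finset.mul_sum]
  exact mul_le_mul_of_nonneg_left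
    (hs.sum_le_tsum _ fun j _ => mul_nonneg (hg j) (hR j)) hC.le

theorem cnt_tail {s : ℝ} (hs : 1 < s) : ∃ C : ℝ, 0 < C ∧ ∀ x : ℝ, 0 < x → ∀ t : Finset (R F),
    ∑ c ∈ t, (if P1 c ∧ x < N c then N c ^ (-s) else 0) ≤ C * x ^ (1 - s) := by
  obtain ⟨C, hC, hl⟩ := cnt_layer (F := F)
  have hq0 : (0 : ℝ) ≤ 2 ^ (1 - s) := by positivity
  have hq1 : (2 : ℝ) ^ (1 - s) < 1 :=
    Real.rpow_lt_one_of_one_lt_of_neg (by norm_num) (by linarith)
  refine ⟨C * 2 * (1 - 2 ^ (1 - s))⁻¹, by have := sub_pos.2 hq1; positivity, fun x hx t => ?_⟩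
  have e : ∀ j : ℕ, ((2 : ℝ) ^ j * x) ^ (-s) * (2 ^ (j + 1) * x)
      = 2 * x ^ (1 - s) * (2 ^ (1 - s)) ^ j := by
    intro j
    have hp : (0 : ℝ) < 2 ^ j * x := by positivity
    rw [Real.rpow_pow_comm (by norm_num), mul_assoc 2, mul_comm (x ^ (1 - s)),
      ← Real.mul_rpow (by positivity) hx.le, sub_eq_add_neg, Real.rpow_add hp, Real.rpow_one]
    ring
  rw [← Finset.sum_filter]
  refine (hl _ _ (fun j => ((2 : ℝ) ^ j * x) ^ (-s)) (fun j => 2 ^ (j + 1) * x)
    (fun j => by positivity) (fun j => by positivity) ?_ ?_).trans ?_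
  · simp only [e]
    exact (summable_geometric_of_lt_one hq0 hq1).mul_left _
  · intro c hc
    obtain ⟨h0, h1⟩ := (Finset.mem_filter.1 hc).2
    obtain ⟨j, h2, h3⟩ := exists_nat_pow_near ((one_le_div hx).2 h1.le) (one_lt_two (α := ℝ))
    rw [le_div_iff₀ hx] at h2
    rw [div_lt_iff₀ hx] at h3
    exact ⟨j, mem_ball.2 ⟨h0, h3.le⟩,
      Real.rpow_le_rpow_of_nonpos (by positivity) h2 (by linarith)⟩
  · simp only [e]
    rw [tsum_mul_left, tsum_geometric_of_lt_one hq0 hq1]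
    apply le_of_eq
    ring

theorem cnt_ite_nonneg {p : Prop} {a : ℝ} (h : 0 ≤ a) : 0 ≤ if p then a else 0 := by
  split_ifs
  · exact h
  · exact le_rfl

theorem summable_N_rpow {s : ℝ} (hs : 1 < s) :
    Summable (fun c : R F => if P1 c then N c ^ (-s) else 0) := by
  obtain ⟨C, -, h⟩ := cnt_tail (F := F) hs
  refine summable_of_sum_le (fun c => cnt_ite_nonneg (Real.rpow_nonneg (N_nonneg c) _))
    (c := C * (1 / 2) ^ (1 - s)) fun t => le_trans (le_of_eq ?_) (h _ (by norm_num) t)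
  refine Finset.sum_congr rfl fun c _ => ?_
  by_cases hc : P1 c
  · rw [if_pos hc, if_pos ⟨hc, by linarith [one_le_N hc.ne_zero]⟩]
  · rw [if_neg hc, if_neg fun h => hc h.1]
theorem tail_N_rpow {s : ℝ} (hs : 1 < s) : ∃ C : ℝ, 0 < C ∧ ∀ x : ℝ, 0 < x →
    ∑' c : R F, (if P1 c ∧ x < N c then N c ^ (-s) else 0) ≤ C * x ^ (1 - s) := by
  obtain ⟨C, hC, h⟩ := cnt_tail (F := F) hs
  refine ⟨C, hC, fun x hx => Real.tsum_le_of_sum_le (fun c => ?_) (h x hx)⟩
  dsimp only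
  split_ifs
  · exact Real.rpow_nonneg (N_nonneg c) _
  · exact le_rfl
theorem sum_ball_rpow {s : ℝ} (hs : s < 1) : ∃ C : ℝ, 0 < C ∧ ∀ K : ℝ, 0 < K →
    ∑ c ∈ ball F K, N c ^ (-s) ≤ C * K ^ (1 - s) := by
  obtain ⟨C, hC, hl⟩ := cnt_layer (F := F)
  have hq0 : (0 : ℝ) ≤ (2⁻¹ : ℝ) ^ (1 - s) := by positivity
  have hq1 : (2⁻¹ : ℝ) ^ (1 - s) < 1 := Real.rpow_lt_one (by norm_num) (by norm_num) (by linarith)
  refine ⟨C * 2 * (1 - (2⁻¹ : ℝ) ^ (1 - s))⁻¹, by have := sub_pos.2 hq1; positivity,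
    fun K hK => ?_⟩
  have e : ∀ j : ℕ, (K / 2 ^ j) ^ (1 - s) * (2 ^ (j + 1) / K) * (K / 2 ^ j)
      = 2 * K ^ (1 - s) * ((2⁻¹ : ℝ) ^ (1 - s)) ^ j := by
    intro j
    rw [Real.rpow_pow_comm (by norm_num), mul_assoc 2,
      ← Real.mul_rpow hK.le (by positivity), inv_pow, ← div_eq_mul_inv]
    field_simp
    ring
  refine (hl _ _ (fun j => (K / 2 ^ j) ^ (1 - s) * (2 ^ (j + 1) / K)) (fun j => K / 2 ^ j)
    (fun j => by positivity) (fun j => by positivity) ?_ ?_).trans ?_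
  · simp only [e]
    exact (summable_geometric_of_lt_one hq0 hq1).mul_left _
  · intro c hc
    obtain ⟨h0, h1⟩ := mem_ball.1 hc
    have hp := N_pos h0.ne_zero
    obtain ⟨j, h2, h3⟩ := exists_nat_pow_near ((one_le_div hp).2 h1) (one_lt_two (α := ℝ))
    have h4 : N c ≤ K / 2 ^ j := by
      rw [le_div_iff₀ hp] at h2
      rw [le_div_iff₀ (by positivity)]
      linarith
    have h5 : (N c)⁻¹ ≤ 2 ^ (j + 1) / K := by
      rw [div_lt_iff₀ hp] at h3
      rw [le_div_iff₀ hK, inv_mul_le_iff₀ hp]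
      linarith
    refine ⟨j, mem_ball.2 ⟨h0, h4⟩, ?_⟩
    rw [show -s = (1 - s) + (-1) by ring, Real.rpow_add hp, Real.rpow_neg_one]
    exact mul_le_mul (Real.rpow_le_rpow hp.le h4 (by linarith)) h5 (by positivity) (by positivity)
  · simp only [e]
    rw [tsum_mul_left, tsum_geometric_of_lt_one hq0 hq1]
    apply le_of_eq
    ring
theorem sum_ball_inv {e : ℝ} (he : 0 < e) : ∃ C : ℝ, 0 < C ∧ ∀ K : ℝ, 0 < K →
    ∑ c ∈ ball F K, (N c)⁻¹ ≤ C * K ^ e := by
  obtain ⟨C, hC, h⟩ := sum_ball_rpow (F := F) (s := 1 - e) (by linarith)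
  refine ⟨C, hC, fun K hK => ?_⟩
  have h1 := h K hK
  rw [sub_sub_cancel] at h1
  refine le_trans (Finset.sum_le_sum fun c hc => ?_) h1
  rw [← Real.rpow_neg_one]
  exact Real.rpow_le_rpow_of_exponent_le (one_le_N (mem_ball.1 hc).1.ne_zero) (by linarith)

theorem cnt_dvd_pow {p m : R F} (hp : Prime p) (h1 : P1 p) (hm : m ≠ 0) (k : ℕ) :
    (dvs (p ^ k * m)).card ≤ (k + 1) * (dvs m).card := by
  have h : dvs (p ^ k * m) ⊆
      (Finset.range (k + 1) ×ˢ dvs m).image (fun y => p ^ y.1 * y.2) := by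
    intro d hd
    obtain ⟨hd1, hd2⟩ := (mem_dvs (mul_ne_zero (pow_ne_zero k hp.ne_zero) hm)).1 hd
    obtain ⟨d1, d2, h1', h2, rfl⟩ := exists_dvd_and_dvd_of_dvd_mul hd2
    obtain ⟨i, hi, u, hu⟩ := (dvd_prime_pow hp k).1 h1'
    have h3 : ((u⁻¹ : (R F)ˣ) : R F) * d2 ∣ m := (Units.isUnit u⁻¹).mul_left_dvd.2 h2
    have h4 : p ^ i * (((u⁻¹ : (R F)ˣ) : R F) * d2) = d1 * d2 := by
      rw [← hu, mul_assoc, Units.mul_inv_cancel_left]
    refine Finset.mem_image.2 ⟨(i, ((u⁻¹ : (R F)ˣ) : R F) * d2), ?_, h4⟩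
    simp only [Finset.mem_product, Finset.mem_range, mem_dvs hm]
    exact ⟨by omega, (h1.pow i).of_mul (h4 ▸ hd1), h3⟩
  refine (Finset.card_le_card h).trans (Finset.card_image_le.trans ?_)
  rw [Finset.card_product, Finset.card_range]

theorem card_dvs_le {e : ℝ} (he : 0 < e) : ∃ C : ℝ, 0 < C ∧ ∀ n : R F, n ≠ 0 →
    ((dvs n).card : ℝ) ≤ C * N n ^ e := by
  have hq : (1 : ℝ) < 2 ^ e := Real.one_lt_rpow (by norm_num) he
  obtain ⟨A, hA1, hA⟩ : ∃ A : ℝ, 1 ≤ A ∧ ∀ k : ℕ, (k : ℝ) + 1 ≤ A * (2 ^ e) ^ k := by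
    have hq' := sub_pos.2 hq
    refine ⟨1 + (2 ^ e - 1)⁻¹, by have := inv_pos.2 hq'; linarith, fun k => ?_⟩
    have h1 := one_add_mul_le_pow (a := (2 : ℝ) ^ e - 1) (by linarith) k
    rw [add_sub_cancel] at h1
    have h2 : (1 : ℝ) ≤ (2 ^ e) ^ k := one_le_pow₀ hq.le
    have h3 : (k : ℝ) ≤ (2 ^ e - 1)⁻¹ * (2 ^ e) ^ k := by
      rw [le_inv_mul_iff₀ hq']
      linarith
    linarith
  set B : ℝ := 2 ^ e⁻¹ with hB
  have key : ∀ (M : ℕ) (n : R F), Nn n = M → n ≠ 0 → ((dvs n).card : ℝ)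
        ≤ A ^ ((ball F B).filter (fun p => Prime p ∧ p ∣ n)).card * N n ^ e := by
    intro M
    induction M using Nat.strong_induction_on with
    | _ M ih =>
      intro n hM hn
      by_cases hu : IsUnit n
      · rw [N_unit hu, Real.one_rpow, mul_one]
        have h2 : (dvs n).card ≤ 1 := Finset.card_le_one.2 fun a ha b hb => by
          obtain ⟨h1, h2⟩ := (mem_dvs hn).1 ha
          obtain ⟨h3, h4⟩ := (mem_dvs hn).1 hb
          rw [h1.eq_one_of_isUnit (isUnit_of_dvd_unit h2 hu),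
            h3.eq_one_of_isUnit (isUnit_of_dvd_unit h4 hu)]
        exact (Nat.cast_le_one.2 h2).trans (one_le_pow₀ hA1)
      obtain ⟨p0, hp0, hpn0⟩ := WfDvdMonoid.exists_irreducible_factor hu hn
      obtain ⟨s, p, hs, hP, rfl⟩ := exists_P1 hp0.ne_zero
      have hp : Irreducible p := (irreducible_isUnit_mul hs).1 hp0
      have hpn : p ∣ n := (dvd_mul_left p s).trans hpn0
      obtain ⟨k, m, hm, rfl⟩ := WfDvdMonoid.max_power_factor hn hp
      have hpp : Prime p := hp.prime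
      have hm0 : m ≠ 0 := right_ne_zero_of_mul hn
      have hk : k ≠ 0 := by
        rintro rfl
        exact hm (by simpa using hpn)
      have h2 : 2 ≤ N p := by linarith [seven_le_N hpp.ne_zero hpp.not_isUnit]
      have hlt : Nn m < M := by
        have a1 : N m < N (p ^ k * m) := by
          rw [N_mul, N_pow]
          have : 1 < N p ^ k := one_lt_pow₀ (by linarith) hk
          nlinarith [N_pos hm0]
        rw [N_eq_Nn hm0, N_eq_Nn hn, hM] at a1
        exact_mod_cast a1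
      have h3 := ih _ hlt m rfl hm0
      have h4 := (Nat.cast_le (α := ℝ)).2 (cnt_dvd_pow hpp hP hm0 k)
      push_cast at h4
      have hsub : (ball F B).filter (fun q => Prime q ∧ q ∣ m) ⊆
          (ball F B).filter (fun q => Prime q ∧ q ∣ p ^ k * m) := by
        intro q hq
        rw [Finset.mem_filter] at *
        exact ⟨hq.1, hq.2.1, hq.2.2.mul_left _⟩
      have hN : N (p ^ k * m) ^ e = (N p ^ e) ^ k * N m ^ e := by
        rw [N_mul, N_pow, Real.mul_rpow (by positivity) (N_nonneg m),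
          Real.rpow_pow_comm (N_nonneg p)]
      have h5 : ((k : ℝ) + 1) * A ^ ((ball F B).filter (fun q => Prime q ∧ q ∣ m)).card
          ≤ A ^ ((ball F B).filter (fun q => Prime q ∧ q ∣ p ^ k * m)).card * (N p ^ e) ^ k := by
        by_cases hb : N p ≤ B
        · have c1 : ((ball F B).filter (fun q => Prime q ∧ q ∣ m)).card + 1
              ≤ ((ball F B).filter (fun q => Prime q ∧ q ∣ p ^ k * m)).card := by
            refine Finset.card_lt_card ((Finset.ssubset_iff_of_subset hsub).2 ⟨p, ?_, ?_⟩)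
            · exact Finset.mem_filter.2 ⟨mem_ball.2 ⟨hP, hb⟩, hpp, hpn⟩
            · exact fun h => hm (Finset.mem_filter.1 h).2.2
          have c2 := pow_le_pow_right₀ hA1 c1
          have c3 : ((2 : ℝ) ^ e) ^ k ≤ (N p ^ e) ^ k :=
            pow_le_pow_left₀ (by positivity) (Real.rpow_le_rpow (by norm_num) h2 he.le) k
          calc _ ≤ (A * (N p ^ e) ^ k) *
                  A ^ ((ball F B).filter (fun q => Prime q ∧ q ∣ m)).card :=
                mul_le_mul_of_nonneg_right ((hA k).trans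
                  (mul_le_mul_of_nonneg_left c3 (by linarith))) (by positivity)
            _ = A ^ (((ball F B).filter (fun q => Prime q ∧ q ∣ m)).card + 1) *
                  (N p ^ e) ^ k := by ring
            _ ≤ _ := mul_le_mul_of_nonneg_right c2 (by positivity)
        · have c1 : (2 : ℝ) ≤ N p ^ e := by
            have := Real.rpow_le_rpow (by positivity) (not_le.1 hb).le he.le
            rwa [hB, Real.rpow_inv_rpow (by norm_num) he.ne'] at this
          have c2 : (k : ℝ) + 1 ≤ (N p ^ e) ^ k := by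
            have := one_add_mul_le_pow (a := (1 : ℝ)) (by norm_num) k
            have c3 : ((1 : ℝ) + 1) ^ k ≤ (N p ^ e) ^ k :=
              pow_le_pow_left₀ (by norm_num) (by linarith) k
            linarith
          rw [mul_comm]
          exact mul_le_mul (pow_le_pow_right₀ hA1 (Finset.card_le_card hsub)) c2 (by positivity)
            (by positivity)
      have h6 : 0 ≤ N m ^ e := Real.rpow_nonneg (N_nonneg m) e
      rw [hN]
      calc _ ≤ ((k : ℝ) + 1) *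
            (A ^ ((ball F B).filter (fun q => Prime q ∧ q ∣ m)).card * N m ^ e) :=
            h4.trans (mul_le_mul_of_nonneg_left h3 (by positivity))
        _ = (((k : ℝ) + 1) * A ^ ((ball F B).filter (fun q => Prime q ∧ q ∣ m)).card)
            * N m ^ e := by ring
        _ ≤ (A ^ ((ball F B).filter (fun q => Prime q ∧ q ∣ p ^ k * m)).card * (N p ^ e) ^ k)
            * N m ^ e := by gcongr
        _ = _ := by ring
  refine ⟨A ^ (ball F B).card, by positivity, fun n hn => (key _ n rfl hn).trans ?_⟩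
  have := pow_le_pow_right₀ hA1 (Finset.card_filter_le (ball F B) (fun p => Prime p ∧ p ∣ n))
  have h6 : 0 ≤ N n ^ e := Real.rpow_nonneg (N_nonneg n) e
  gcongr
theorem card_divs_le {e : ℝ} (he : 0 < e) : ∃ C : ℝ, 0 < C ∧ ∀ n : R F, n ≠ 0 →
    ((divs n).card : ℝ) ≤ C * N n ^ e := by
  obtain ⟨C, hC, h⟩ := card_dvs_le (F := F) he
  refine ⟨C, hC, fun n hn =>
    le_trans (Nat.cast_le.2 (Finset.card_le_card fun d hd => ?_)) (h n hn)⟩
  obtain ⟨h1, h2⟩ := (mem_divs hn).1 hd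
  exact (mem_dvs hn).2 ⟨h1.1, h2⟩
theorem card_divs_prime_mul {p x : R F} (hp : Prime p) (h1 : P1 p) (hx : x ≠ 0) (h : ¬ p ∣ x) :
    (divs (p * x)).card = 2 * (divs x).card := by
  have hpx : p * x ≠ 0 := mul_ne_zero hp.ne_zero hx
  have e : divs (p * x) = divs x ∪ (divs x).image (p * ·) := by
    ext d
    rw [Finset.mem_union, Finset.mem_image, mem_divs hpx, mem_divs hx]
    constructor
    · rintro ⟨h2, h3⟩
      by_cases hd : p ∣ d
      · obtain ⟨d', rfl⟩ := hd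
        exact Or.inr ⟨d', (mem_divs hx).2 ⟨(P0.of_mul h1 h2).2.1,
          (mul_dvd_mul_iff_left hp.ne_zero).1 h3⟩, rfl⟩
      · exact Or.inl ⟨h2, (hp.coprime_iff_not_dvd.2 hd).symm.dvd_of_dvd_mul_left h3⟩
    · rintro (⟨h2, h3⟩ | ⟨d', hd', rfl⟩)
      · exact ⟨h2, h3.mul_left _⟩
      · rw [mem_divs hx] at hd'
        exact ⟨(P0.of_prime hp h1).mul hd'.1
          (hp.coprime_iff_not_dvd.2 fun h' => h (h'.trans hd'.2)), mul_dvd_mul_left _ hd'.2⟩
  have hdis : Disjoint (divs x) ((divs x).image (p * ·)) := by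
    rw [Finset.disjoint_left]
    intro d hd hd'
    obtain ⟨d', -, rfl⟩ := Finset.mem_image.1 hd'
    exact h ((dvd_mul_right p d').trans ((mem_divs hx).1 hd).2)
  rw [e, Finset.card_union_of_disjoint hdis,
    Finset.card_image_of_injective _ (mul_right_injective₀ hp.ne_zero), two_mul]

theorem cnt_w (k B : ℝ) {Y : ℝ} (hY : 0 < Y) {c : R F} (hc : c ≠ 0) :
    N c ^ k * w (N c / Y) ≤ Real.exp (B ^ 2 / 4) * Y ^ B * N c ^ (k - B) := by
  have hp := N_pos hc
  have h1 := P026.w_le_rpow (-B) (div_pos hp hY)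
  rw [neg_sq, Real.div_rpow hp.le hY.le, Real.rpow_neg hY.le, div_inv_eq_mul] at h1
  refine (mul_le_mul_of_nonneg_left h1 (Real.rpow_nonneg hp.le k)).trans (le_of_eq ?_)
  rw [sub_eq_add_neg, Real.rpow_add hp]
  ring

theorem cnt_w0 (k Y : ℝ) (c : R F) : 0 ≤ N c ^ k * w (N c / Y) :=
  mul_nonneg (Real.rpow_nonneg (N_nonneg c) k) (P026.w_pos _).le

theorem summable_w (k : ℝ) {Y : ℝ} (hY : 0 < Y) :
    Summable (fun c : R F => if P1 c then N c ^ k * w (N c / Y) else 0) := by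
  refine Summable.of_nonneg_of_le (fun c => cnt_ite_nonneg (cnt_w0 k Y c)) (fun c => ?_)
    ((summable_N_rpow one_lt_two).mul_left (Real.exp ((k + 2) ^ 2 / 4) * Y ^ (k + 2)))
  split_ifs with hc
  · have := cnt_w k (k + 2) hY hc.ne_zero
    rwa [show k - (k + 2) = -2 by ring] at this
  · rw [mul_zero]

theorem cnt_split {f G : R F → ℝ} {x D : ℝ} (hD : 0 ≤ D) (h0 : ∀ c, 0 ≤ f c) (hG : ∀ c, 0 ≤ G c)
    (h1 : ∀ c, c ≠ 0 → f c ≤ G c) (h2 : ∀ c, c ≠ 0 → f c ≤ D * N c ^ (-(2 : ℝ))) {U V : ℝ}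
    (hU : ∑ c ∈ ball F x, G c ≤ U)
    (hV : ∀ t : Finset (R F),
      ∑ c ∈ t, (if P1 c ∧ x < N c then N c ^ (-(2 : ℝ)) else 0) ≤ V) :
    ∑' c : R F, (if P1 c then f c else 0) ≤ U + D * V := by
  refine Real.tsum_le_of_sum_le (fun c => cnt_ite_nonneg (h0 c)) fun t => ?_
  have h3 : ∀ c ∈ t, (if P1 c then f c else 0) ≤ (if c ∈ ball F x then G c else 0) +
      D * (if P1 c ∧ x < N c then N c ^ (-(2 : ℝ)) else 0) := by
    intro c _
    by_cases hc : P1 c
    · rw [if_pos hc]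
      by_cases hx : x < N c
      · rw [if_pos (And.intro hc hx), if_neg (fun h => absurd (mem_ball.1 h).2 (not_le.2 hx)),
          zero_add]
        exact h2 c hc.ne_zero
      · rw [if_neg (fun h : P1 c ∧ x < N c => hx h.2), if_pos (mem_ball.2 ⟨hc, not_lt.1 hx⟩),
          mul_zero, add_zero]
        exact h1 c hc.ne_zero
    · rw [if_neg hc, if_neg (fun h : P1 c ∧ x < N c => hc h.1),
        if_neg (fun h => hc (mem_ball.1 h).1), mul_zero, add_zero]
  refine (Finset.sum_le_sum h3).trans ?_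
  rw [Finset.sum_add_distrib, ← Finset.mul_sum]
  refine add_le_add (le_trans ?_ hU) (mul_le_mul_of_nonneg_left (hV t) hD)
  rw [← Finset.sum_filter]
  exact Finset.sum_le_sum_of_subset_of_nonneg (fun c hc => (Finset.mem_filter.1 hc).2)
    fun c _ _ => hG c

theorem tsum_w_le {k : ℝ} (hk : -1 < k) : ∃ C : ℝ, 0 < C ∧ ∀ Y : ℝ, 0 < Y →
    ∑' c : R F, (if P1 c then N c ^ k * w (N c / Y) else 0) ≤ C * Y ^ (k + 1) := by
  obtain ⟨C1, hC1, h1⟩ := sum_ball_rpow (F := F) (s := -k) (by linarith)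
  obtain ⟨C2, hC2, h2⟩ := cnt_tail (F := F) one_lt_two
  refine ⟨C1 + Real.exp ((k + 2) ^ 2 / 4) * C2, by positivity, fun Y hY => ?_⟩
  have h3 := cnt_split (f := fun c : R F => N c ^ k * w (N c / Y)) (G := fun c => N c ^ (- -k))
    (D := Real.exp ((k + 2) ^ 2 / 4) * Y ^ (k + 2)) (by positivity) (cnt_w0 k Y)
    (fun c => Real.rpow_nonneg (N_nonneg c) _)
    (fun c _ => by
      rw [neg_neg]
      exact mul_le_of_le_one_right (Real.rpow_nonneg (N_nonneg c) k) (P026.w_le_one _))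
    (fun c hc => by
      have := cnt_w k (k + 2) hY hc
      rwa [show k - (k + 2) = -2 by ring] at this) (h1 Y hY) (h2 Y hY)
  refine h3.trans (le_of_eq ?_)
  have e : Y ^ (k + 2) * Y ^ ((1 : ℝ) - 2) = Y ^ (k + 1) := by
    rw [← Real.rpow_add hY]
    congr 1
    ring
  rw [show 1 - -k = k + 1 by ring]
  linear_combination Real.exp ((k + 2) ^ 2 / 4) * C2 * e
theorem tsum_w_small (k A : ℝ) : ∃ C : ℝ, 0 < C ∧ ∀ Y : ℝ, 0 < Y → Y ≤ 1 →
    ∑' c : R F, (if P1 c then N c ^ k * w (N c / Y) else 0) ≤ C * Y ^ A := by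
  have hs := summable_N_rpow (F := F) one_lt_two
  have hT : 0 ≤ ∑' c : R F, (if P1 c then N c ^ (-(2 : ℝ)) else 0) :=
    tsum_nonneg fun c => cnt_ite_nonneg (Real.rpow_nonneg (N_nonneg c) _)
  set B := max A (k + 2) with hB
  refine ⟨Real.exp (B ^ 2 / 4) * (∑' c : R F, (if P1 c then N c ^ (-(2 : ℝ)) else 0)) + 1,
    by positivity, fun Y hY hY1 => ?_⟩
  have h1 : ∀ c : R F, (if P1 c then N c ^ k * w (N c / Y) else 0)
      ≤ Real.exp (B ^ 2 / 4) * Y ^ A * (if P1 c then N c ^ (-(2 : ℝ)) else 0) := by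
    intro c
    split_ifs with hc
    · refine (cnt_w k B hY hc.ne_zero).trans ?_
      have a1 : Y ^ B ≤ Y ^ A := Real.rpow_le_rpow_of_exponent_ge hY hY1 (le_max_left _ _)
      have a2 : N c ^ (k - B) ≤ N c ^ (-(2 : ℝ)) :=
        Real.rpow_le_rpow_of_exponent_le (one_le_N hc.ne_zero)
          (by linarith [le_max_right A (k + 2)])
      have a3 := Real.rpow_nonneg (N_nonneg c) (k - B)
      gcongr
    · rw [mul_zero]
  have h2 := (summable_w k hY).tsum_le_tsum h1 (hs.mul_left _)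
  rw [tsum_mul_left] at h2
  have h3 : 0 < Y ^ A := Real.rpow_pos_of_pos hY A
  nlinarith

end Vale.Agent.P319B
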