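import Vale.Agent.P319B.Defs

/-! Further definitions for the construction of the theta function. -/

namespace Vale.Agent.P319B

open Complex NumberField
open scoped Classical ComplexConjugate
open Vale.Agent.P026 (w kk fk)

noncomputable section

section A
variable {F : Type} [Field F] [NumberField F] [Ctx0 F]

/-- Positive definite tuples. -/
def PosQ (Q : HF F) : Prop := ∀ v, 0 < (Q v).2.2 ∧ 0 < dlt (Q v)
/-- Partition of unity for the stabiliser of the row (0, 1). -/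
def indQ (e : ℕ) (γ : (Io F → ℝ) → ℝ) (Q : HF F) : ℝ :=
  (FD (Lb F e)).indicator (fun _ => (1 : ℝ)) (fun v => (Q v).2.1 / ((Q v).2.2 : ℂ)) *
    γ (fun v => Real.log (dlt (Q v)))
/-- The unfolded integrand. -/
def Fm (e : ℕ) (γ : (Io F → ℝ) → ℝ) (k : R F → R F → ℂ) (t t' : Io F → ℝ) (Q : HF F) : ℂ :=
  ((indQ e γ Q * Real.exp (-∑ v, t' v * (Q v).2.2) : ℝ) : ℂ) * Es k (sc t Q)
variable (F) in
/-- The kernel of the unfolded integral. -/
def fI (y : ℝ) : ℝ :=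
  ∫ p in DE F, Real.exp (-(∑ v, p.1 v) - y ^ ((rr F : ℝ)⁻¹) * ∑ v, p.2 v / p.1 v)
/-- Representatives of the lines modulo p. -/
def Lns (p : R F) : Finset (R F × R F) := insert (0, 1) ((res p).image fun j => (1, j))
/-- Admissible test functions. -/
def TestF (f : (Io F → ℝ) → ℂ) : Prop :=
  Measurable f ∧ ∃ C : ℝ, ∀ y : Io F → ℝ, (∀ v, 0 < y v) → ‖f y‖ ≤ C * ∏ v, ((1 + y v) ^ 2)⁻¹
/-- Mellin transform at the diagonal point one third. -/
def Mf (f : (Io F → ℝ) → ℂ) : ℂ :=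
  ∫ y in {y : Io F → ℝ | ∀ v, 0 < y v}, (((∏ v, y v) ^ (-(2 / 3) : ℝ) : ℝ) : ℂ) * f y
/-- Bounded coefficients with bounded denominators. -/
def BdA (a : R F → ℂ) : Prop :=
  a 0 = 0 ∧ (∃ A : ℕ, ∀ c, a c ≠ 0 → Hi A (c : F)) ∧ ∃ B : ℝ, ∀ c, ‖a c‖ ≤ B
/-- Local Fourier transform of the indicator of y U. -/
def PsiD (y z : F) : ℂ :=
  if y * MF F ^ 3 * z ∈ Od F then psiL (y * z) / (nf (y * MF F ^ 3) : ℂ) else 0
/-- Invariance under the units congruent to one. -/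
def EInv (a : R F → ℂ) : Prop := ∀ u r : R F, IsUnit u → InU 3 (u : F) → a (u * r) = a r

end A

section B
variable {F : Type} [Field F] [NumberField F] [Ctx F]

/-- The function phi(m) / N m. -/
def hR (m : R F) : ℝ := (∑ d ∈ divs m, mu0 d / (N d : ℂ)).re
/-- The main term of the unfolded integral. -/
def Tz (e : ℕ) (χ : R F → ℂ) (f : ℝ → ℝ) (x : ℝ) : ℂ :=
  ((x ^ (1 / 3 : ℝ) : ℝ) : ℂ) * ∑' p : R F × R F,
    if P1 p.1 ∧ p.2 ∈ SU F e ∧ Lo e ((p.2 : F) * p.1) then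
      χ p.1 * (gauss (fun y => cub y p.1) p.1 0 / (N p.1 : ℂ)) * (f (x * Nin ((p.2 : F) * p.1)) : ℂ)
    else 0

end B

end

end Vale.Agent.P319B
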