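import Vale.Agent.P319B.CountB
import Vale.Agent.P319B.TDef
import Vale.Agent.P319B.LemP1A

/-! Mean value of phi(m) / N m in a class. -/

namespace Vale.Agent.P319B

open Complex NumberField Filter Topology
open scoped Classical ComplexConjugate
open Vale.Agent.P026 (w kk fk)

variable {F : Type} [Field F] [NumberField F] [Ctx F]

theorem as_mu (d : R F) : ((mu0 d).re : ℂ) = mu0 d := conj_eq_iff_re.1 (conj_mu0 d)

theorem hR_eq (m : R F) : (hR m : ℂ) = ∑ d ∈ divs m, mu0 d / (N d : ℂ) :=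
  conj_eq_iff_re.1 (by simp only [map_sum, map_div₀, conj_mu0, conj_ofReal])

theorem as_hR (m : R F) : hR m = ∑ d ∈ divs m, (mu0 d).re / N d := by
  simp only [hR, re_sum, div_ofReal_re]

theorem as_hR_mul {p x : R F} (hp : Prime p) (h1 : P1 p) (hx : x ≠ 0) :
    hR (p * x) = (1 - (N p)⁻¹) * hR x + (N p)⁻¹ * if p ∣ x then hR x else 0 := by
  split_ifs with h
  · have : divs (p * x) = divs x := by
      ext d
      rw [mem_divs (mul_ne_zero hp.ne_zero hx), mem_divs hx]
      exact and_congr_right fun hd => ⟨fun h' => (hd.2.dvd_pow_iff_dvd two_ne_zero).1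
        (h'.trans (by rw [sq]; exact mul_dvd_mul_right h x)), fun h' => h'.mul_left p⟩
    rw [hR, this, ← hR]
    ring
  · rw [mul_zero, add_zero, ← ofReal_inj, ofReal_mul, hR_eq, hR_eq, l1_sum_divs hp h1 hx h,
      Finset.mul_sum]
    refine Finset.sum_congr rfl fun d hd => ?_
    rw [mu0_mul (P0.of_prime hp h1), mu0_prime hp h1, l1_cop_prime hp,
      if_neg fun h' => h (h'.trans ((mem_divs hx).1 hd).2), N_mul]
    push_cast
    ring

theorem as_hR_mem (m : R F) : 0 ≤ hR m ∧ hR m ≤ 1 := by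
  rcases eq_or_ne m 0 with rfl | hm
  · simp [hR, divs, ball_eq_empty]
  obtain ⟨s, x, hs, hx, rfl⟩ := exists_P1 hm
  have : divs (s * x) = divs x := by
    ext d
    rw [mem_divs hm, mem_divs hx.ne_zero, hs.dvd_mul_left]
  rw [hR, this, ← hR]
  refine P1.induction (Pr := fun x => 0 ≤ hR x ∧ hR x ≤ 1) (by simp [hR, l1_divs_one, mu0_one])
    (fun p x hp h1 hx ih => ?_) hx
  have h2 := inv_le_one_of_one_le₀ (one_le_N hp.ne_zero)
  have h3 := inv_pos.2 (N_pos hp.ne_zero)
  rw [as_hR_mul hp h1 hx.ne_zero]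
  split_ifs <;> constructor <;> nlinarith [ih.1, ih.2]

theorem hR_nonneg (m : R F) : 0 ≤ hR m := (as_hR_mem m).1
theorem hR_le_one (m : R F) : hR m ≤ 1 := (as_hR_mem m).2

theorem as_P0 {d : R F} (h : (mu0 d).re ≠ 0) : P0 d := mu0_ne_zero.1 fun h' => h (by simp [h'])

theorem as_abs (d : R F) : |(mu0 d).re| ≤ 1 := (abs_re_le_norm _).trans (norm_mu0_le d)

theorem as_two (d : R F) : N d ^ (-2 : ℝ) = (N d ^ 2)⁻¹ := by
  rw [Real.rpow_neg (N_nonneg d), Real.rpow_two]

theorem as_sum {D : R F} (hD : P1 D) (z : F) (X : ℝ) (g : R F → ℝ) :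
    ∑ m ∈ (ball F X).filter (fun m : R F => SameO (m : F) z ∧ D ∣ m), g m =
      ∑ m ∈ (ball F (X / N D)).filter (fun m : R F => SameO (m : F) (z / D)), g (D * m) := by
  have e : ∀ m : R F, SameO ((D * m : R F) : F) z ↔ SameO (m : F) (z / D) := fun m => by
    simp only [SameO, MulMemClass.coe_mul, div_div_eq_mul_div, mul_assoc, mul_comm (D : F)]
  have n := N_pos hD.ne_zero
  refine (Finset.sum_bij (fun m _ => D * m) (fun m hm => ?_) (fun _ _ _ _ h =>
    mul_left_cancel₀ hD.ne_zero h) (fun m hm => ?_) fun _ _ => rfl).symm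
  · simp only [Finset.mem_filter, mem_ball, le_div_iff₀' n] at hm ⊢
    exact ⟨⟨hD.mul hm.1.1, N_mul D m ▸ hm.1.2⟩, (e m).2 hm.2, dvd_mul_right _ _⟩
  · simp only [Finset.mem_filter, mem_ball, le_div_iff₀' n] at hm ⊢
    obtain ⟨⟨h1, h2⟩, h3, m, rfl⟩ := hm
    exact ⟨m, ⟨⟨hD.of_mul h1, N_mul D m ▸ h2⟩, (e m).1 h3⟩, rfl⟩

theorem as_scale {g : ℝ → ℝ} {c q : ℝ} (hq : 0 < q) (h : Tendsto (fun X => g X / X) atTop (𝓝 c)) :
    Tendsto (fun X => g (X / q) / X) atTop (𝓝 (c / q)) :=
  ((h.comp (tendsto_id.atTop_div_const hq)).div_const q).congr fun X => by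
    simp only [Function.comp_apply, id]
    rw [div_div, div_mul_cancel₀ _ hq.ne']

theorem as_gen {c : ℝ} (hc : ∀ z : F, z ≠ 0 → Tendsto (fun X : ℝ =>
      (((ball F X).filter (fun m : R F => SameO (m : F) z)).card : ℝ) / X) atTop (𝓝 c))
    {Q : R F → Prop} [DecidablePred Q] {l : R F → R F}
    (hl : ∀ d, P0 d → P1 (l d) ∧ d ∣ l d ∧ ∀ m, Q m ∧ d ∣ m ↔ l d ∣ m) {z : F} (hz : z ≠ 0) :
    Tendsto (fun X : ℝ => (∑ m ∈ (ball F X).filter (fun m : R F => SameO (m : F) z ∧ Q m), hR m) / X)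
      atTop (𝓝 (∑' d, (mu0 d).re / N d * (c / N (l d)))) := by
  obtain ⟨C, hC, hb⟩ := card_ball_le (F := F)
  refine (tendsto_tsum_of_dominated_convergence (f := fun X d => (mu0 d).re / N d *
    ((((ball F (X / N (l d))).filter (fun m : R F => SameO (m : F) (z / l d))).card : ℝ) / X))
    ((summable_N_rpow (F := F) one_lt_two).mul_left C) (fun d => ?_) ?_).congr fun X => ?_
  · by_cases h : (mu0 d).re = 0
    · simp [h]
    · have h1 := (hl d (as_P0 h)).1
      exact (as_scale (N_pos h1.ne_zero) (hc _ (div_ne_zero hz h1.coe_ne))).const_mul _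
  · filter_upwards [eventually_gt_atTop 0] with X hX d
    by_cases h : (mu0 d).re = 0
    · rw [h, zero_div, zero_mul, norm_zero]
      exact mul_nonneg hC.le (ite_nonneg (Real.rpow_nonneg (N_nonneg d) _) le_rfl)
    obtain ⟨h1, h2, -⟩ := hl d (as_P0 h)
    have n := N_pos (as_P0 h).ne_zero
    have n' := N_pos h1.ne_zero
    have h3 := (Nat.cast_le.2 (Finset.card_filter_le _
      fun m : R F => SameO (m : F) (z / l d))).trans (hb (X / N (l d)) (by positivity))
    rw [if_pos (as_P0 h).1, as_two, norm_mul, norm_div, Real.norm_of_nonneg n.le,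
      Real.norm_of_nonneg (r := _ / X) (by positivity)]
    calc _ ≤ 1 / N d * (C * (X / N d) / X) := by
          gcongr
          exacts [as_abs d, h3.trans (by gcongr; exact N_le_of_dvd h1.ne_zero h2)]
      _ = _ := by field_simp
  · have e : ∀ m ∈ (ball F X).filter (fun m : R F => SameO (m : F) z ∧ Q m),
        HasSum (fun d => if d ∣ m then (mu0 d).re / N d else 0) (hR m) := fun m hm => by
      have m0 := (mem_ball.1 (Finset.mem_filter.1 hm).1).1.ne_zero
      rw [as_hR, ← Finset.sum_congr rfl fun d hd => if_pos ((mem_divs m0).1 hd).2]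
      refine hasSum_sum_of_ne_finset_zero fun d hd => ?_
      split_ifs with h
      · rw [of_not_not fun h' => hd ((mem_divs m0).2 ⟨as_P0 h', h⟩), zero_div]
      · rfl
    rw [← (hasSum_sum e).tsum_eq, ← tsum_div_const]
    refine tsum_congr fun d => ?_
    by_cases h : (mu0 d).re = 0
    · simp [h]
    obtain ⟨h1, -, h3⟩ := hl d (as_P0 h)
    rw [← Finset.sum_filter, Finset.filter_filter]
    simp only [and_assoc, h3]
    rw [as_sum h1, Finset.sum_const, nsmul_eq_mul, mul_comm (_ : ℝ) (_ / N d), mul_div_assoc]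

theorem as_DZ : ∑' d : R F, (mu0 d).re / N d ^ 2 ≠ 0 := fun h0 => by
  have s2 := summable_N_rpow (F := F) one_lt_two
  simp only [as_two] at s2
  set G : R F → R F → ℝ := fun d m => if P1 m ∧ d ∣ m then (N m ^ 2)⁻¹ else 0 with hG
  have G0 : ∀ d m, 0 ≤ G d m := fun d m => ite_nonneg (by positivity) le_rfl
  have h1 : ∀ d, P1 d → HasSum (G d)
      ((N d ^ 2)⁻¹ * ∑' m : R F, if P1 m then (N m ^ 2)⁻¹ else 0) := fun d hd => by
    rw [← (mul_right_injective₀ hd.ne_zero).hasSum_iff fun m hm => if_neg fun h =>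
      hm (h.2.imp fun _ e => e.symm)]
    refine (congrArg (HasSum · _) (funext fun m => ?_)).mp (s2.hasSum.mul_left _)
    simp only [Function.comp_apply, dvd_mul_right, and_true, N_mul, mul_pow, mul_inv, mul_ite,
      mul_zero]
    exact if_congr ⟨hd.mul, hd.of_mul⟩ rfl rfl
  have h2 : ∀ d, HasSum (fun m => |(mu0 d).re| * G d m) (|(mu0 d).re| *
      ((N d ^ 2)⁻¹ * ∑' m : R F, if P1 m then (N m ^ 2)⁻¹ else 0)) := fun d => by
    by_cases h : (mu0 d).re = 0
    · simp [h, hasSum_zero]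
    · exact (h1 d (as_P0 h).1).mul_left _
  have h3 : Summable (Function.uncurry fun d m => (mu0 d).re * G d m) := by
    refine Summable.of_norm_bounded (g := fun p => |(mu0 p.1).re| * G p.1 p.2)
      ((summable_prod_of_nonneg fun p => mul_nonneg (abs_nonneg _) (G0 _ _)).2
        ⟨fun d => (h2 d).summable, ?_⟩) fun p => ?_
    · simp only [(h2 _).tsum_eq, ← mul_assoc]
      refine Summable.mul_right _ (s2.of_nonneg_of_le (fun d => by positivity) fun d => ?_)
      by_cases h : (mu0 d).re = 0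
      · simpa [h] using ite_nonneg (by positivity) le_rfl
      · rw [if_pos (as_P0 h).1]
        exact mul_le_of_le_one_left (by positivity) (as_abs d)
    · rw [Function.uncurry, norm_mul, Real.norm_of_nonneg (G0 _ _), Real.norm_eq_abs]
  have h4 : ∀ m, ∑' d, (mu0 d).re * G d m = if m = 1 then 1 else 0 := fun m => by
    by_cases hm : P1 m
    · rw [tsum_eq_sum (s := divs m) fun d hd => by_contra fun h => hd ((mem_divs hm.ne_zero).2
        ⟨as_P0 (left_ne_zero_of_mul h), by_contra fun h' => right_ne_zero_of_mul h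
          (if_neg fun h'' => h' h''.2)⟩), Finset.sum_congr rfl fun d hd => congrArg _
            (if_pos ⟨hm, ((mem_divs hm.ne_zero).1 hd).2⟩), ← Finset.sum_mul, ← re_sum,
        sum_mu0_P1 hm]
      split_ifs with h <;> simp [h]
    · simp [hG, hm, show m ≠ 1 from fun h => hm (h ▸ P1.one)]
  have h5 : ∀ d, ∑' m, (mu0 d).re * G d m =
      (mu0 d).re / N d ^ 2 * ∑' m : R F, if P1 m then (N m ^ 2)⁻¹ else 0 := fun d => by
    by_cases h : (mu0 d).re = 0
    · simp [h]
    · rw [tsum_mul_left, (h1 d (as_P0 h).1).tsum_eq, div_eq_mul_inv, mul_assoc]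
  have h6 := h3.tsum_comm
  simp only [h4, h5, tsum_mul_right, h0, tsum_ite_eq, zero_mul] at h6
  exact one_ne_zero h6

theorem asym_count : ∃ c : ℝ, 0 < c ∧ ∀ z : F, z ≠ 0 →
    Tendsto (fun X : ℝ =>
      (∑ m ∈ (ball F X).filter (fun m : R F => SameO (m : F) z), hR m) / X) atTop (𝓝 c) ∧
    ∀ p : R F, Prime p → Tendsto (fun X : ℝ =>
      (∑ m ∈ (ball F X).filter (fun m : R F => SameO (m : F) z ∧ p ∣ m), hR m) / X) atTop
        (𝓝 (c / (N p + 1))) := by
  obtain ⟨c, hc, h⟩ := tendsto_card_cls (F := F)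
  have h1 : ∀ z : F, z ≠ 0 → Tendsto (fun X : ℝ =>
      (∑ m ∈ (ball F X).filter (fun m : R F => SameO (m : F) z), hR m) / X) atTop
      (𝓝 (c * ∑' d : R F, (mu0 d).re / N d ^ 2)) := fun z hz => by
    have := as_gen h (Q := fun _ => True) (l := id) (fun d hd => ⟨hd.1, dvd_rfl, by simp⟩) hz
    rw [← tsum_mul_left, tsum_congr (g := fun d => (mu0 d).re / N d * (c / N d)) fun d => by ring]
    simpa only [and_true, id] using this
  refine ⟨_, (ge_of_tendsto (h1 1 one_ne_zero) ?_).lt_of_ne' (mul_ne_zero hc.ne' as_DZ),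
    fun z hz => ⟨h1 z hz, fun p hp => ?_⟩⟩
  · filter_upwards [eventually_ge_atTop 0] with X hX
    exact div_nonneg (Finset.sum_nonneg fun m _ => hR_nonneg m) hX
  obtain ⟨s, p, hs, hp1, rfl⟩ := exists_P1 hp.ne_zero
  simp only [hs.mul_left_dvd, N_mul, N_unit hs, one_mul]
  replace hp := (associated_unit_mul_left p s hs).prime hp
  have n := N_pos hp.ne_zero
  have n7 := seven_le_N hp.ne_zero hp.not_isUnit
  have h2 := fun (z : F) (hz : z ≠ 0) => as_gen h (Q := fun m => p ∣ m)
    (l := fun d => if p ∣ d then d else p * d) (fun d hd => by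
      split_ifs with h'
      · exact ⟨hd.1, dvd_rfl, fun m => and_iff_right_of_imp h'.trans⟩
      · exact ⟨hp1.mul hd.1, dvd_mul_left _ _, fun m => ⟨fun h'' =>
          (hp.coprime_iff_not_dvd.2 h').mul_dvd h''.1 h''.2, fun h'' =>
            ⟨(dvd_mul_right _ _).trans h'', (dvd_mul_left _ _).trans h''⟩⟩⟩) hz
  generalize ∑' d : R F, (mu0 d).re / N d * (c / N (if p ∣ d then d else p * d)) = L at h2
  generalize c * ∑' d : R F, (mu0 d).re / N d ^ 2 = c' at h1 ⊢
  have h3 := ((as_scale n (h1 _ (div_ne_zero hz hp1.coe_ne))).const_mul (1 - (N p)⁻¹)).add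
    ((as_scale n (h2 _ (div_ne_zero hz hp1.coe_ne))).const_mul (N p)⁻¹)
  have h4 := tendsto_nhds_unique (h2 z hz) (h3.congr fun X => by
    rw [as_sum hp1 z X, Finset.sum_congr rfl fun m hm => as_hR_mul hp hp1
      (mem_ball.1 (Finset.mem_filter.1 hm).1).1.ne_zero, Finset.sum_add_distrib, ← Finset.mul_sum,
      ← Finset.mul_sum, ← Finset.sum_filter, Finset.filter_filter]
    ring)
  have h5 : c' / (N p + 1) = L := by
    field_simp at h4 ⊢
    exact mul_left_cancel₀ (show N p - 1 ≠ 0 by linarith) (by linarith)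
  exact h5 ▸ h2 z hz

end Vale.Agent.P319B
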