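import Vale.Agent.P319B.Resid

/-! The cubic and quadratic symbols at a prime. -/

namespace Vale.Agent.P319B

open Complex NumberField
open scoped Classical ComplexConjugate

section gen

variable {A : Type} [CommRing A] [IsDomain A] [IsPrincipalIdealRing A]

theorem syA_max {p : A} (hp : Prime p) : (Ideal.span {p}).IsMaximal :=
  PrincipalIdealRing.isMaximal_of_irreducible hp.irreducible

omit [IsDomain A] [IsPrincipalIdealRing A] in
theorem syA_mk_eq {p a b : A} :
    Ideal.Quotient.mk (Ideal.span {p}) a = Ideal.Quotient.mk _ b ↔ p ∣ a - b := by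
  rw [Ideal.Quotient.eq, Ideal.mem_span_singleton]

omit [IsDomain A] [IsPrincipalIdealRing A] in
theorem syA_mk_zero {p a : A} : Ideal.Quotient.mk (Ideal.span {p}) a = 0 ↔ p ∣ a := by
  rw [Ideal.Quotient.eq_zero_iff_mem, Ideal.mem_span_singleton]

omit [IsDomain A] [IsPrincipalIdealRing A] in
theorem syA_unit {p : A} (hp : Prime p) {u : A} (hu : IsUnit u) : ¬ p ∣ u :=
  fun h => hp.not_isUnit (isUnit_of_dvd_unit h hu)

omit [IsDomain A] [IsPrincipalIdealRing A] in
theorem syA_rel {f : A → ℂ} (hf : ∀ p q, Associated p q → f p = f q) {s t : Multiset A}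
    (h : Multiset.Rel Associated s t) : (s.map f).prod = (t.map f).prod :=
  congrArg Multiset.prod
    (Multiset.rel_eq.1 (Multiset.rel_map.2 (h.mono fun a _ b _ hab => hf a b hab)))

theorem syA_fp_prime {f : A → ℂ} (hf : ∀ p q, Associated p q → f p = f q) {p : A}
    (hp : Prime p) : ((UniqueFactorizationMonoid.factors p).map f).prod = f p := by
  obtain ⟨q, h1, h2⟩ := UniqueFactorizationMonoid.factors_eq_singleton_of_irreducible hp.irreducible
  rw [h2, Multiset.map_singleton, Multiset.prod_singleton, hf p q h1]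

theorem syA_fp_mul {f : A → ℂ} (hf : ∀ p q, Associated p q → f p = f q) {c d : A}
    (hc : c ≠ 0) (hd : d ≠ 0) : ((UniqueFactorizationMonoid.factors (c * d)).map f).prod =
      ((UniqueFactorizationMonoid.factors c).map f).prod *
        ((UniqueFactorizationMonoid.factors d).map f).prod := by
  rw [syA_rel hf (UniqueFactorizationMonoid.factors_mul hc hd), Multiset.map_add,
    Multiset.prod_add]

theorem syA_fp_congr {f g : A → ℂ} {c : A} (h : ∀ p, Prime p → p ∣ c → f p = g p) :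
    ((UniqueFactorizationMonoid.factors c).map f).prod =
      ((UniqueFactorizationMonoid.factors c).map g).prod :=
  congrArg Multiset.prod (Multiset.map_congr rfl fun p hp =>
    h p (UniqueFactorizationMonoid.prime_of_factor p hp)
      (UniqueFactorizationMonoid.dvd_of_mem_factors hp))

theorem syA_fp_ind {f : A → ℂ} {c : A} (P : ℂ → Prop) (hm : ∀ x y, P x → P y → P (x * y))
    (h1 : P 1) (h : ∀ p, Prime p → p ∣ c → P (f p)) :
    P ((UniqueFactorizationMonoid.factors c).map f).prod :=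
  Multiset.prod_induction P _ hm h1 fun z hz => by
    obtain ⟨p, hp, rfl⟩ := Multiset.mem_map.1 hz
    exact h p (UniqueFactorizationMonoid.prime_of_factor p hp)
      (UniqueFactorizationMonoid.dvd_of_mem_factors hp)

theorem syA_fp_zero {f : A → ℂ} {a : A} (hf : ∀ p, f p = 0 ↔ p ∣ a) {c : A} (hc : c ≠ 0) :
    ((UniqueFactorizationMonoid.factors c).map f).prod = 0 ↔ ¬ IsCoprime a c := by
  rw [Multiset.prod_eq_zero_iff, Multiset.mem_map]
  constructor
  · rintro ⟨p, hp, h0⟩ h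
    exact (UniqueFactorizationMonoid.prime_of_factor p hp).not_isUnit (h.isUnit_of_dvd'
      ((hf p).1 h0) (UniqueFactorizationMonoid.dvd_of_mem_factors hp))
  · intro h
    by_contra h'
    refine h (IsCoprime.symm (isRelPrime_iff_isCoprime.1
      ((UniqueFactorizationMonoid.isRelPrime_iff_no_prime_factors hc).2 fun d h1 h2 hd => h' ?_)))
    obtain ⟨q, h3, h4⟩ := UniqueFactorizationMonoid.exists_mem_factors_of_dvd hc hd.irreducible h1
    exact ⟨q, h3, (hf q).2 (h4.dvd_iff_dvd_left.1 h2)⟩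

/-- A multiplicative function modulo a prime gives a character of the residue field. -/
theorem syA_mulChar {p : A} (hp : Prime p) {f : A → ℂ} (h1 : f 1 = 1) (h0 : f 0 = 0)
    (hm : ∀ a b, f (a * b) = f a * f b) (hc : ∀ a b, p ∣ a - b → f a = f b) :
    ∃ χ : MulChar (A ⧸ Ideal.span {p}) ℂ, ∀ a, χ (Ideal.Quotient.mk _ a) = f a := by
  have := syA_max hp
  let _ := Ideal.Quotient.field (Ideal.span {p})
  have key : ∀ a, f (Quotient.out (Ideal.Quotient.mk (Ideal.span {p}) a)) = f a :=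
    fun a => hc _ _ (syA_mk_eq.1 (Ideal.Quotient.mk_out _))
  refine ⟨⟨⟨⟨fun z => f (Quotient.out z), ?_⟩, ?_⟩, ?_⟩, key⟩
  · exact (key 1).trans h1
  · intro x y
    obtain ⟨a, rfl⟩ := Ideal.Quotient.mk_surjective x
    obtain ⟨b, rfl⟩ := Ideal.Quotient.mk_surjective y
    simp only [← map_mul, key, hm]
  · intro x hx
    have h2 : x = 0 := by simpa using hx
    subst h2
    exact (key 0).trans h0

end gen

theorem syA_conj {z : ℂ} {n : ℕ} (h : z ^ (n + 1) = 1) : conj z = z ^ n := by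
  have h1 := Complex.norm_eq_one_of_pow_eq_one h n.succ_ne_zero
  rw [← Complex.inv_eq_conj h1]
  exact (eq_inv_of_mul_eq_one_left (by rw [← pow_succ, h])).symm

variable {F : Type} [Field F] [NumberField F] [Ctx0 F]

theorem syA_fermat {p a : R F} (hp : Prime p) (ha : ¬ p ∣ a) : p ∣ a ^ (Nn p - 1) - 1 := by
  have := syA_max hp
  have := finite_quot hp.ne_zero
  let _ := Fintype.ofFinite (R F ⧸ Ideal.span {p})
  let _ := Ideal.Quotient.field (Ideal.span {p})
  have h := FiniteField.pow_card_sub_one_eq_one (Ideal.Quotient.mk (Ideal.span {p}) a)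
    (mt syA_mk_zero.1 ha)
  rw [← Nat.card_eq_fintype_card, ← map_pow,
    ← map_one (Ideal.Quotient.mk (Ideal.span {p}))] at h
  exact syA_mk_eq.1 h

theorem syA_Nn {p : R F} (hp : Prime p) : 7 ≤ Nn p ∧ Nn p % 6 = 1 := by
  have h := seven_le_N hp.ne_zero hp.not_isUnit
  rw [N_eq_Nn hp.ne_zero] at h
  exact ⟨by exact_mod_cast h, Nn_mod_six hp.ne_zero⟩

theorem syA_Nn_assoc {p q : R F} (h : Associated p q) : Nn p = Nn q := by
  rw [Nn, Nn, Ideal.span_singleton_eq_span_singleton.2 h]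

theorem syA_om_cube : omR F ^ 3 = 1 := by linear_combination (omR F - 1) * omR_eq (F := F)

theorem syA_dist {p : R F} (hp : Prime p) {i j : ℕ} (hij : p ∣ omR F ^ i - omR F ^ j) :
    i % 3 = j % 3 := by
  have h3 := syA_unit hp (isUnit_three (F := F))
  have e := omR_eq (F := F)
  have a1 : ¬ p ∣ omR F - 1 := fun h' => h3 (by
    rw [show (3 : R F) = (omR F - 1) * (omR F ^ 2 - 1) by linear_combination (2 - omR F) * e]
    exact h'.mul_right _)
  have a2 : ¬ p ∣ omR F ^ 2 - 1 := fun h' => a1 (by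
    rw [show omR F - 1 = (omR F ^ 2 - 1) * (omR F ^ 2 + 1) by
      linear_combination (-omR F ^ 2 + omR F) * e]
    exact h'.mul_right _)
  have a3 : ¬ p ∣ omR F ^ 2 - omR F := fun h' => a1 (by
    rw [show omR F - 1 = (omR F ^ 2 - omR F) * omR F ^ 2 by
      linear_combination (-omR F ^ 2 + 2 * omR F - 1) * e]
    exact h'.mul_right _)
  rw [pow_eq_pow_mod i syA_om_cube, pow_eq_pow_mod j syA_om_cube] at hij
  have hi : i % 3 < 3 := Nat.mod_lt _ (by norm_num)
  have hj : j % 3 < 3 := Nat.mod_lt _ (by norm_num)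
  generalize i % 3 = a at hi hij
  generalize j % 3 = b at hj hij
  interval_cases a <;> interval_cases b <;> simp only [pow_zero, pow_one] at hij ⊢
  · exact (a1 (dvd_sub_comm.1 hij)).elim
  · exact (a2 (dvd_sub_comm.1 hij)).elim
  · exact (a1 hij).elim
  · exact (a3 (dvd_sub_comm.1 hij)).elim
  · exact (a2 hij).elim
  · exact (a3 hij).elim

theorem syA_spec {p a : R F} (hp : Prime p) (ha : ¬ p ∣ a) :
    ∃ j : ℕ, cubP p a = om0 ^ j ∧ p ∣ a ^ ((Nn p - 1) / 3) - omR F ^ j := by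
  unfold cubP
  rw [if_neg ha]
  split_ifs with h1 h2
  · exact ⟨0, by simp, by simpa using h1⟩
  · exact ⟨1, by simp, by simpa using h2⟩
  · refine ⟨2, rfl, ?_⟩
    have hf := syA_fermat hp ha
    have h3 := syA_Nn hp
    rw [show Nn p - 1 = (Nn p - 1) / 3 * 3 by omega, pow_mul] at hf
    generalize a ^ ((Nn p - 1) / 3) = x at *
    rw [show x ^ 3 - 1 = (x - 1) * ((x - omR F) * (x - omR F ^ 2)) by
      linear_combination (x ^ 2 - x * omR F + omR F - 1) * omR_eq (F := F)] at hf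
    exact ((hp.dvd_or_dvd ((hp.dvd_or_dvd hf).resolve_left h1)).resolve_left h2)

theorem syA_eq {p a : R F} (hp : Prime p) (ha : ¬ p ∣ a) {j : ℕ}
    (hj : p ∣ a ^ ((Nn p - 1) / 3) - omR F ^ j) : cubP p a = om0 ^ j := by
  obtain ⟨i, hi, h1⟩ := syA_spec hp ha
  have := dvd_sub hj h1
  rw [sub_sub_sub_cancel_left] at this
  rw [hi, pow_eq_pow_mod i om0_cube, pow_eq_pow_mod j om0_cube, syA_dist hp this]

theorem syA_zero {p a : R F} (ha : p ∣ a) : cubP p a = 0 := if_pos ha

theorem syA_mul {p : R F} (hp : Prime p) (a b : R F) : cubP p (a * b) = cubP p a * cubP p b := by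
  by_cases ha : p ∣ a
  · rw [syA_zero ha, syA_zero (ha.mul_right b), zero_mul]
  by_cases hb : p ∣ b
  · rw [syA_zero hb, syA_zero (hb.mul_left a), mul_zero]
  obtain ⟨i, hi, h1⟩ := syA_spec hp ha
  obtain ⟨j, hj, h2⟩ := syA_spec hp hb
  rw [hi, hj, ← pow_add]
  refine syA_eq hp (fun hab => (hp.dvd_or_dvd hab).elim ha hb) ?_
  rw [mul_pow, pow_add]
  exact syA_mk_eq.1 (by rw [map_mul, map_mul, syA_mk_eq.2 h1, syA_mk_eq.2 h2])

theorem syA_congr {p a b : R F} (h : p ∣ a - b) : cubP p a = cubP p b := by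
  have h1 := syA_mk_eq.2 h
  unfold cubP
  simp only [← syA_mk_eq, map_pow, h1]
  simp only [← syA_mk_zero, h1]

theorem syA_qcongr {p a b : R F} (h : p ∣ a - b) : quadP p a = quadP p b := by
  have h1 := syA_mk_eq.2 h
  unfold quadP
  simp only [← syA_mk_eq, map_pow, h1]
  simp only [← syA_mk_zero, h1]

theorem syA_one {p : R F} (hp : Prime p) : cubP p 1 = 1 := by
  unfold cubP
  rw [if_neg (syA_unit hp isUnit_one), if_pos (by simp)]

theorem syA_val (p a : R F) : (p ∣ a ∧ cubP p a = 0) ∨ (¬ p ∣ a ∧ cubP p a ^ 3 = 1) := by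
  unfold cubP
  split_ifs with h1 h2 h3
  · exact Or.inl ⟨h1, rfl⟩
  · exact Or.inr ⟨h1, one_pow 3⟩
  · exact Or.inr ⟨h1, om0_cube⟩
  · exact Or.inr ⟨h1, by rw [← pow_mul, mul_comm, pow_mul, om0_cube, one_pow]⟩

theorem syA_qval (p a : R F) : (p ∣ a ∧ quadP p a = 0) ∨ (¬ p ∣ a ∧ quadP p a ^ 2 = 1) := by
  unfold quadP
  split_ifs with h1 h2 <;> simp [h1]

theorem syA_cub_ne {p : R F} (hp : Prime p) : ∃ a, ¬ p ∣ a ∧ cubP p a ≠ 1 := by
  have := syA_max hp
  have := finite_quot hp.ne_zero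
  let _ := Fintype.ofFinite (R F ⧸ Ideal.span {p})
  let _ := Ideal.Quotient.field (Ideal.span {p})
  obtain ⟨g, hg⟩ := IsCyclic.exists_generator (α := (R F ⧸ Ideal.span {p})ˣ)
  have h1 := orderOf_eq_card_of_forall_mem_zpowers hg
  rw [Nat.card_units] at h1
  obtain ⟨a, ha⟩ := Ideal.Quotient.mk_surjective (g : R F ⧸ Ideal.span {p})
  have ha' : ¬ p ∣ a := fun h' => g.ne_zero (ha ▸ syA_mk_zero.2 h')
  refine ⟨a, ha', fun h' => ?_⟩
  obtain ⟨j, hj, h2⟩ := syA_spec hp ha'
  have h5 : orderOf om0 = 3 := orderOf_eq_prime om0_cube om0_ne_one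
  have h6 : 3 ∣ j := by
    rw [← h5, orderOf_dvd_iff_pow_eq_one, ← hj, h']
  obtain ⟨k, rfl⟩ := h6
  rw [pow_mul, syA_om_cube, one_pow, ← syA_mk_eq, map_pow, map_one, ha,
    ← Units.val_pow_eq_pow_val, Units.val_eq_one] at h2
  have h4 := syA_Nn hp
  have h3 := Nat.le_of_dvd (by omega) (orderOf_dvd_of_pow_eq_one h2)
  rw [h1] at h3
  change Nn p - 1 ≤ _ at h3
  omega

theorem syA_cubChar {p : R F} (hp : Prime p) : ∃ χ : MulChar (R F ⧸ Ideal.span {p}) ℂ,
    (∀ a, χ (Ideal.Quotient.mk _ a) = cubP p a) ∧ orderOf χ = 3 := by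
  have := syA_max hp
  let _ := Ideal.Quotient.field (Ideal.span {p})
  obtain ⟨χ, hχ⟩ := syA_mulChar hp (syA_one hp) (syA_zero (dvd_zero p)) (syA_mul hp)
    fun _ _ => syA_congr
  refine ⟨χ, hχ, orderOf_eq_prime ?_ fun h1 => ?_⟩
  · refine MulChar.ext fun g => ?_
    obtain ⟨a, ha⟩ := Ideal.Quotient.mk_surjective (g : R F ⧸ Ideal.span {p})
    have ha' : ¬ p ∣ a := fun h' => g.ne_zero (ha ▸ syA_mk_zero.2 h')
    rw [MulChar.pow_apply_coe, MulChar.one_apply_coe, ← ha, hχ]
    exact ((syA_val p a).resolve_left fun h => ha' h.1).2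
  · obtain ⟨a, ha, ha'⟩ := syA_cub_ne hp
    rw [← hχ, h1, MulChar.one_apply (Ne.isUnit (mt syA_mk_zero.1 ha))] at ha'
    exact ha' rfl

theorem syA_quad_pack {p : R F} (hp : Prime p) :
    (∃ χ : MulChar (R F ⧸ Ideal.span {p}) ℂ,
      (∀ a, χ (Ideal.Quotient.mk _ a) = quadP p a) ∧ orderOf χ = 2) ∧
    (∃ a, ¬ p ∣ a ∧ quadP p a = -1) ∧
    ∀ y, ((((res p).filter (fun x => p ∣ x ^ 2 - y)).card : ℕ) : ℂ) = 1 + quadP p y := by
  have := syA_max hp
  have := finite_quot hp.ne_zero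
  let _ := Fintype.ofFinite (R F ⧸ Ideal.span {p})
  let _ := Ideal.Quotient.field (Ideal.span {p})
  have hcard : Fintype.card (R F ⧸ Ideal.span {p}) = Nn p := by
    rw [← Nat.card_eq_fintype_card, Nn]
  have hch : ringChar (R F ⧸ Ideal.span {p}) ≠ 2 := fun h2 => by
    have h3 := (ringChar.spec (R F ⧸ Ideal.span {p}) 2).2 (by rw [h2])
    rw [← map_natCast (Ideal.Quotient.mk (Ideal.span {p})), syA_mk_zero] at h3
    exact syA_unit hp isUnit_two (by exact_mod_cast h3)
  have key : ∀ a, ((quadraticChar (R F ⧸ Ideal.span {p}) (Ideal.Quotient.mk _ a) : ℤ) : ℂ) =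
      quadP p a := fun a => by
    unfold quadP
    by_cases ha : p ∣ a
    · rw [if_pos ha, syA_mk_zero.2 ha, MulChar.map_zero, Int.cast_zero]
    · have h2 := syA_Nn hp
      rw [if_neg ha, quadraticChar_eq_pow_of_char_ne_two hch (mt syA_mk_zero.1 ha), hcard,
        show Nn p / 2 = (Nn p - 1) / 2 by omega, ← map_pow,
        ← map_one (Ideal.Quotient.mk (Ideal.span {p}))]
      simp only [syA_mk_eq]
      split_ifs <;> simp
  obtain ⟨x, hx⟩ := quadraticChar_exists_neg_one hch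
  obtain ⟨a, rfl⟩ := Ideal.Quotient.mk_surjective x
  have ha : quadP p a = -1 := by rw [← key, hx]; simp
  refine ⟨⟨(quadraticChar _).ringHomComp (Int.castRingHom ℂ), key, ?_⟩, ⟨a, fun h' => ?_, ha⟩,
    fun y => ?_⟩
  · refine orderOf_eq_prime ((quadraticChar_isQuadratic _).comp _).sq_eq_one fun h1 => ?_
    exact quadraticChar_ne_one hch
      ((MulChar.ringHomComp_eq_one_iff (RingHom.injective_int _)).1 h1)
  · rw [quadP, if_pos h'] at ha
    norm_num at ha
  · have h1 := sum_res_quot hp.ne_zero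
      (fun z => if z ^ 2 = Ideal.Quotient.mk (Ideal.span {p}) y then (1 : ℂ) else 0)
    simp only [← map_pow, syA_mk_eq] at h1
    rw [Finset.sum_boole, Finset.sum_boole] at h1
    have h2 := quadraticChar_card_sqrts hch (Ideal.Quotient.mk (Ideal.span {p}) y)
    rw [Set.toFinset_ofPred] at h2
    rw [h1, ← key, add_comm, ← Int.cast_natCast (R := ℂ), h2]
    simp

end Vale.Agent.P319B
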