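import Vale.Agent.P319B.Resid
import Vale.Agent.P319B.SymA

/-! Elementary properties of the cubic and quadratic symbols. -/

namespace Vale.Agent.P319B

open Complex NumberField
open scoped Classical ComplexConjugate
open Vale.Agent.P026 (w kk fk)

variable {F : Type} [Field F] [NumberField F] [Ctx0 F]

theorem cubP_assoc {p q : R F} (h : Associated p q) (a : R F) : cubP p a = cubP q a := by
  unfold cubP
  simp only [syA_Nn_assoc h, h.dvd_iff_dvd_left]
theorem quadP_assoc {p q : R F} (h : Associated p q) (a : R F) : quadP p a = quadP q a := by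
  unfold quadP
  simp only [syA_Nn_assoc h, h.dvd_iff_dvd_left]
theorem cub_prime {p : R F} (hp : Prime p) (a : R F) : cub a p = cubP p a :=
  syA_fp_prime (fun _ _ h => cubP_assoc h a) hp
theorem quad_prime {p : R F} (hp : Prime p) (a : R F) : quad a p = quadP p a :=
  syA_fp_prime (fun _ _ h => quadP_assoc h a) hp
theorem cub_unit_right {u : R F} (hu : IsUnit u) (a : R F) : cub a u = 1 := by
  rw [cub, UniqueFactorizationMonoid.factors_of_isUnit hu, Multiset.map_zero, Multiset.prod_zero]
theorem quad_unit_right {u : R F} (hu : IsUnit u) (a : R F) : quad a u = 1 := by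
  rw [quad, UniqueFactorizationMonoid.factors_of_isUnit hu, Multiset.map_zero, Multiset.prod_zero]
theorem cub_one_right (a : R F) : cub a 1 = 1 := cub_unit_right isUnit_one a
theorem quad_one_right (a : R F) : quad a 1 = 1 := quad_unit_right isUnit_one a
theorem cub_zero_right (a : R F) : cub a 0 = 1 := by
  rw [cub, UniqueFactorizationMonoid.factors_zero, Multiset.map_zero, Multiset.prod_zero]
theorem quad_zero_right (a : R F) : quad a 0 = 1 := by
  rw [quad, UniqueFactorizationMonoid.factors_zero, Multiset.map_zero, Multiset.prod_zero]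
theorem cub_mul_right (a : R F) {c d : R F} (hc : c ≠ 0) (hd : d ≠ 0) :
    cub a (c * d) = cub a c * cub a d := syA_fp_mul (fun _ _ h => cubP_assoc h a) hc hd
theorem quad_mul_right (a : R F) {c d : R F} (hc : c ≠ 0) (hd : d ≠ 0) :
    quad a (c * d) = quad a c * quad a d := syA_fp_mul (fun _ _ h => quadP_assoc h a) hc hd
theorem cub_pow_right (a : R F) {c : R F} (hc : c ≠ 0) (k : ℕ) :
    cub a (c ^ k) = cub a c ^ k := by
  induction k with
  | zero => rw [pow_zero, pow_zero, cub_one_right]
  | succ k ih => rw [pow_succ, pow_succ, cub_mul_right a (pow_ne_zero k hc) hc, ih]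
theorem quad_pow_right (a : R F) {c : R F} (hc : c ≠ 0) (k : ℕ) :
    quad a (c ^ k) = quad a c ^ k := by
  induction k with
  | zero => rw [pow_zero, pow_zero, quad_one_right]
  | succ k ih => rw [pow_succ, pow_succ, quad_mul_right a (pow_ne_zero k hc) hc, ih]
theorem cub_assoc_right (a : R F) {c d : R F} (h : Associated c d) : cub a c = cub a d :=
  syA_rel (fun _ _ h => cubP_assoc h a) (UniqueFactorizationMonoid.factors_rel_of_associated h)
theorem quad_assoc_right (a : R F) {c d : R F} (h : Associated c d) : quad a c = quad a d :=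
  syA_rel (fun _ _ h => quadP_assoc h a) (UniqueFactorizationMonoid.factors_rel_of_associated h)
theorem cub_unit_mul_right (a : R F) {u : R F} (hu : IsUnit u) (c : R F) :
    cub a (u * c) = cub a c := cub_assoc_right a (associated_unit_mul_left c u hu)
theorem quad_unit_mul_right (a : R F) {u : R F} (hu : IsUnit u) (c : R F) :
    quad a (u * c) = quad a c := quad_assoc_right a (associated_unit_mul_left c u hu)
theorem cub_congr {a b c : R F} (h : c ∣ a - b) : cub a c = cub b c :=
  syA_fp_congr fun _ _ hp => syA_congr (hp.trans h)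
theorem quad_congr {a b c : R F} (h : c ∣ a - b) : quad a c = quad b c :=
  syA_fp_congr fun _ _ hp => syA_qcongr (hp.trans h)
theorem cub_congr_rad {a b c q : R F} {k : ℕ} (hc : c ∣ q ^ k) (h : q ∣ a - b) :
    cub a c = cub b c :=
  syA_fp_congr fun _ hp hpc => syA_congr ((hp.dvd_of_dvd_pow (hpc.trans hc)).trans h)
theorem quad_congr_rad {a b c q : R F} {k : ℕ} (hc : c ∣ q ^ k) (h : q ∣ a - b) :
    quad a c = quad b c :=
  syA_fp_congr fun _ hp hpc => syA_qcongr ((hp.dvd_of_dvd_pow (hpc.trans hc)).trans h)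
theorem norm_cub_le (a c : R F) : ‖cub a c‖ ≤ 1 :=
  syA_fp_ind (fun z => ‖z‖ ≤ 1)
    (fun x y hx hy => by rw [norm_mul]; exact mul_le_one₀ hx (norm_nonneg _) hy) (by simp)
    fun p _ _ => by
      rcases syA_val p a with h | h
      · rw [h.2]; simp
      · exact (Complex.norm_eq_one_of_pow_eq_one h.2 (by norm_num)).le
theorem norm_quad_le (a c : R F) : ‖quad a c‖ ≤ 1 :=
  syA_fp_ind (fun z => ‖z‖ ≤ 1)
    (fun x y hx hy => by rw [norm_mul]; exact mul_le_one₀ hx (norm_nonneg _) hy) (by simp)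
    fun p _ _ => by
      rcases syA_qval p a with h | h
      · rw [h.2]; simp
      · exact (Complex.norm_eq_one_of_pow_eq_one h.2 (by norm_num)).le
theorem cub_eq_zero {a c : R F} (hc : c ≠ 0) : cub a c = 0 ↔ ¬ IsCoprime a c :=
  syA_fp_zero (fun p => by
    rcases syA_val p a with h | h
    · simp [h.1, h.2]
    · exact ⟨fun h0 => by simp [h0] at h, fun h0 => (h.1 h0).elim⟩) hc
theorem quad_eq_zero {a c : R F} (hc : c ≠ 0) : quad a c = 0 ↔ ¬ IsCoprime a c :=
  syA_fp_zero (fun p => by
    rcases syA_qval p a with h | h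
    · simp [h.1, h.2]
    · exact ⟨fun h0 => by simp [h0] at h, fun h0 => (h.1 h0).elim⟩) hc
theorem cub_cube {a c : R F} (h : IsCoprime a c) : cub a c ^ 3 = 1 :=
  syA_fp_ind (fun z => z ^ 3 = 1) (fun x y hx hy => by rw [mul_pow, hx, hy, one_mul]) (one_pow 3)
    fun p hp hpc => ((syA_val p a).resolve_left fun h' =>
      hp.not_isUnit (h.isUnit_of_dvd' h'.1 hpc)).2
theorem quad_sq {a c : R F} (h : IsCoprime a c) : quad a c ^ 2 = 1 :=
  syA_fp_ind (fun z => z ^ 2 = 1) (fun x y hx hy => by rw [mul_pow, hx, hy, one_mul]) (one_pow 2)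
    fun p hp hpc => ((syA_qval p a).resolve_left fun h' =>
      hp.not_isUnit (h.isUnit_of_dvd' h'.1 hpc)).2
theorem norm_cub {a c : R F} (h : IsCoprime a c) : ‖cub a c‖ = 1 :=
  Complex.norm_eq_one_of_pow_eq_one (cub_cube h) (by norm_num)
theorem norm_quad {a c : R F} (h : IsCoprime a c) : ‖quad a c‖ = 1 :=
  Complex.norm_eq_one_of_pow_eq_one (quad_sq h) (by norm_num)
theorem conj_cub (a c : R F) : conj (cub a c) = cub a c ^ 2 :=
  syA_fp_ind (fun z => conj z = z ^ 2) (fun x y hx hy => by rw [map_mul, mul_pow, hx, hy])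
    (by simp) fun p _ _ => by
      rcases syA_val p a with h | h
      · rw [h.2]; simp
      · exact syA_conj h.2
theorem conj_quad (a c : R F) : conj (quad a c) = quad a c :=
  syA_fp_ind (fun z => conj z = z) (fun x y hx hy => by rw [map_mul, hx, hy])
    (by simp) fun p _ _ => by
      rcases syA_qval p a with h | h
      · rw [h.2]; simp
      · exact (syA_conj h.2).trans (pow_one _)
theorem cub_pow_four (a c : R F) : cub a c ^ 4 = cub a c :=
  syA_fp_ind (fun z => z ^ 4 = z) (fun x y hx hy => by rw [mul_pow, hx, hy])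
    (by simp) fun p _ _ => by
      rcases syA_val p a with h | h
      · rw [h.2]; simp
      · rw [pow_succ, h.2, one_mul]
theorem cub_cube_eq_cop (a : R F) {c : R F} (hc : c ≠ 0) : cub a c ^ 3 = cop c a := by
  unfold cop
  split_ifs with h
  · exact cub_cube h
  · rw [(cub_eq_zero hc).2 h, zero_pow three_ne_zero]
theorem quad_sq_eq_cop (a : R F) {c : R F} (hc : c ≠ 0) : quad a c ^ 2 = cop c a := by
  unfold cop
  split_ifs with h
  · exact quad_sq h
  · rw [(quad_eq_zero hc).2 h, zero_pow two_ne_zero]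
theorem cub_mul_left (a b c : R F) : cub (a * b) c = cub a c * cub b c := by
  unfold cub
  rw [← Multiset.prod_map_mul]
  exact syA_fp_congr fun p hp _ => syA_mul hp a b
theorem quad_mul_left (a b c : R F) : quad (a * b) c = quad a c * quad b c := by
  unfold quad
  rw [← Multiset.prod_map_mul]
  exact syA_fp_congr fun p hp _ => by
    obtain ⟨χ, hχ, -⟩ := (syA_quad_pack hp).1
    simp only [← hχ, map_mul]
theorem cub_one_left (c : R F) : cub 1 c = 1 :=
  syA_fp_ind (fun z => z = 1) (fun x y hx hy => by rw [hx, hy, one_mul]) rfl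
    fun _ hp _ => syA_one hp
theorem quad_one_left (c : R F) : quad 1 c = 1 :=
  syA_fp_ind (fun z => z = 1) (fun x y hx hy => by rw [hx, hy, one_mul]) rfl
    fun p hp _ => by rw [quadP, if_neg (syA_unit hp isUnit_one), if_pos (by simp)]
theorem cub_pow_left (a c : R F) (k : ℕ) : cub (a ^ k) c = cub a c ^ k := by
  induction k with
  | zero => rw [pow_zero, pow_zero, cub_one_left]
  | succ k ih => rw [pow_succ, pow_succ, cub_mul_left, ih]
theorem quad_pow_left (a c : R F) (k : ℕ) : quad (a ^ k) c = quad a c ^ k := by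
  induction k with
  | zero => rw [pow_zero, pow_zero, quad_one_left]
  | succ k ih => rw [pow_succ, pow_succ, quad_mul_left, ih]
theorem cub_neg_left (a c : R F) : cub (-a) c = cub a c := by
  rw [show -a = (-1) ^ 3 * a by ring, cub_mul_left, cub_pow_left,
    cub_cube isCoprime_one_left.neg_left, one_mul]
theorem cub_zero_left {c : R F} (hc : c ≠ 0) : cub 0 c = if IsUnit c then 1 else 0 := by
  split_ifs with h
  · exact cub_unit_right h 0
  · exact (cub_eq_zero hc).2 fun h' => h (isCoprime_zero_left.1 h')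
theorem exists_cub_ne {p : R F} (hp : Prime p) : ∃ a, ¬ p ∣ a ∧ cub a p ≠ 1 := by
  simpa only [cub_prime hp] using syA_cub_ne hp
theorem exists_quad_ne {p : R F} (hp : Prime p) : ∃ a, ¬ p ∣ a ∧ quad a p = -1 := by
  simpa only [quad_prime hp] using (syA_quad_pack hp).2.1
theorem card_sqrt {p : R F} (hp : Prime p) (y : R F) :
    ((((res p).filter (fun x => p ∣ x ^ 2 - y)).card : ℕ) : ℂ) = 1 + quad y p := by
  rw [quad_prime hp]
  exact (syA_quad_pack hp).2.2 y
/-- The characterising congruence. -/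
theorem cub_of_dvd {p a : R F} (hp : Prime p) (ha : ¬ p ∣ a) {j : ℕ}
    (h : p ∣ a ^ ((Nn p - 1) / 3) - omR F ^ j) : cub a p = om0 ^ j := by
  rw [cub_prime hp, syA_eq hp ha h]
theorem cub_spec {p a : R F} (hp : Prime p) (ha : ¬ p ∣ a) :
    ∃ j : ℕ, cub a p = om0 ^ j ∧ p ∣ a ^ ((Nn p - 1) / 3) - omR F ^ j := by
  rw [cub_prime hp]
  exact syA_spec hp ha
theorem exists_mulChar_cub {p : R F} (hp : Prime p) :
    ∃ χ : MulChar (R F ⧸ Ideal.span {p}) ℂ,
      (∀ a, χ (Ideal.Quotient.mk _ a) = cub a p) ∧ orderOf χ = 3 := by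
  simpa only [cub_prime hp] using syA_cubChar hp
theorem exists_mulChar_quad {p : R F} (hp : Prime p) :
    ∃ χ : MulChar (R F ⧸ Ideal.span {p}) ℂ,
      (∀ a, χ (Ideal.Quotient.mk _ a) = quad a p) ∧ orderOf χ = 2 := by
  simpa only [quad_prime hp] using (syA_quad_pack hp).1
theorem gauss_cub_cube {p : R F} (hp : Prime p) :
    gauss (fun x => cub x p) p 1 ^ 3 = (N p : ℂ) * ∑ x ∈ res p, cub x p * cub (1 - x) p := by
  have := syA_max hp
  have := finite_quot hp.ne_zero
  let _ := Fintype.ofFinite (R F ⧸ Ideal.span {p})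
  let _ := Ideal.Quotient.field (Ideal.span {p})
  obtain ⟨χ, hχ, h3⟩ := exists_mulChar_cub hp
  obtain ⟨e, he, hprim⟩ := exists_addChar hp.ne_zero
  have hJ : ∑ x ∈ res p, cub x p * cub (1 - x) p = jacobiSum χ χ := by
    rw [jacobiSum, ← sum_res_quot hp.ne_zero]
    refine Finset.sum_congr rfl fun x _ => ?_
    rw [← map_one (Ideal.Quotient.mk (Ideal.span {p})), ← map_sub, hχ, hχ]
  have h1 : gauss (fun x => cub x p) p 1 = gaussSum χ e := by
    rw [gauss, gaussSum, ← sum_res_quot hp.ne_zero]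
    refine Finset.sum_congr rfl fun x _ => ?_
    rw [hχ, he, one_mul]
  have h2 := gaussSum_pow_eq_prod_jacobiSum (χ := χ) (by rw [h3]; norm_num) hprim
  have h4 : χ (-1) = 1 := by
    rw [← map_one (Ideal.Quotient.mk (Ideal.span {p})), ← map_neg, hχ, cub_neg_left, cub_one_left]
  rw [h3, h4, ← Nat.card_eq_fintype_card,
    show Finset.Ico 1 (3 - 1) = {1} from rfl, Finset.prod_singleton, pow_one, one_mul] at h2
  rw [h1, h2, hJ, N_eq_Nn hp.ne_zero, Nn, ofReal_natCast]

theorem norm_chi_le (j : ℕ) (a c : R F) : ‖chi j a c‖ ≤ 1 := by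
  rw [chi, norm_mul, norm_pow]
  exact mul_le_one₀ (pow_le_one₀ (norm_nonneg _) (norm_cub_le a c)) (norm_nonneg _)
    (norm_quad_le a c)
theorem chi_congr (j : ℕ) {a b c : R F} (h : c ∣ a - b) : chi j a c = chi j b c := by
  rw [chi, chi, cub_congr h, quad_congr h]
theorem chi_congr_rad (j : ℕ) {a b c q : R F} {k : ℕ} (hc : c ∣ q ^ k) (h : q ∣ a - b) :
    chi j a c = chi j b c := by
  rw [chi, chi, cub_congr_rad hc h, quad_congr_rad hc h]
theorem chi_mul_left (j : ℕ) (a b c : R F) : chi j (a * b) c = chi j a c * chi j b c := by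
  rw [chi, chi, chi, cub_mul_left, quad_mul_left]
  ring
theorem chi_mul_right (j : ℕ) (a : R F) {c d : R F} (hc : c ≠ 0) (hd : d ≠ 0) :
    chi j a (c * d) = chi j a c * chi j a d := by
  rw [chi, chi, chi, cub_mul_right a hc hd, quad_mul_right a hc hd]
  ring
theorem chi_unit_mul_right (j : ℕ) (a : R F) {u : R F} (hu : IsUnit u) (c : R F) :
    chi j a (u * c) = chi j a c := by
  rw [chi, chi, cub_unit_mul_right a hu, quad_unit_mul_right a hu]
theorem chi_one_right (j : ℕ) (a : R F) : chi j a 1 = 1 := by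
  rw [chi, cub_one_right, quad_one_right, one_pow, one_mul]
theorem chi_one_left (j : ℕ) (c : R F) : chi j 1 c = 1 := by
  rw [chi, cub_one_left, quad_one_left, one_pow, one_mul]
theorem chi_eq_zero (j : ℕ) {a c : R F} (hc : c ≠ 0) : chi j a c = 0 ↔ ¬ IsCoprime a c := by
  refine ⟨fun h0 h => ?_, fun h => by rw [chi, (quad_eq_zero hc).2 h, mul_zero]⟩
  have h1 : ‖chi j a c‖ = 1 := by
    rw [chi, norm_mul, norm_pow, norm_cub h, norm_quad h, one_pow, one_mul]
  simp [h0] at h1
theorem norm_chi (j : ℕ) {a c : R F} (h : IsCoprime a c) : ‖chi j a c‖ = 1 := by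
  rw [chi, norm_mul, norm_pow, norm_cub h, norm_quad h, one_pow, one_mul]
theorem chi_zero_eq (a c : R F) : chi 0 a c = quad a c := by rw [chi, pow_zero, one_mul]
theorem conj_chi {j j' : ℕ} (hj : 3 ∣ j + j') (a c : R F) : conj (chi j a c) = chi j' a c := by
  rcases eq_or_ne c 0 with rfl | hc
  · simp [chi, cub_zero_right, quad_zero_right]
  by_cases h : IsCoprime a c
  · rw [chi, chi, map_mul, map_pow, conj_cub, conj_quad, ← pow_mul,
      pow_eq_pow_mod _ (cub_cube h), pow_eq_pow_mod j' (cub_cube h),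
      show 2 * j % 3 = j' % 3 by omega]
  · rw [(chi_eq_zero j hc).2 h, (chi_eq_zero j' hc).2 h, map_zero]
theorem chi_sixth (j : ℕ) (k : R F) {c : R F} (hc : c ≠ 0) : chi j (k ^ 6) c = cop k c := by
  unfold cop
  split_ifs with h
  · rw [chi, cub_pow_left, quad_pow_left,
      show cub k c ^ 6 = (cub k c ^ 3) ^ 2 by ring, show quad k c ^ 6 = (quad k c ^ 2) ^ 3 by ring,
      cub_cube h.symm, quad_sq h.symm]
    simp
  · exact (chi_eq_zero j hc).2 fun h' =>
      h ((IsCoprime.pow_left_iff (by norm_num)).1 h').symm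
theorem chi_zero_left (j : ℕ) {c : R F} (hc : c ≠ 0) :
    chi j 0 c = if IsUnit c then 1 else 0 := by
  split_ifs with h
  · rw [chi, cub_unit_right h, quad_unit_right h, one_pow, one_mul]
  · exact (chi_eq_zero j hc).2 fun h' => h (isCoprime_zero_left.1 h')

end Vale.Agent.P319B
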