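import Vale.Agent.P319B.Milg
import Vale.Agent.P319B.Sym

/-! Quadratic Gauss sums and quadratic reciprocity in F. -/

namespace Vale.Agent.P319B

open Complex NumberField
open scoped Classical ComplexConjugate
open Vale.Agent.P026 (w kk fk)

variable {F : Type} [Field F] [NumberField F] [Ctx0 F]

theorem r2_pe (a c : R F) : Pe c fun x => psi c (a * x ^ 2) := fun x y h =>
  psi_congr (by rw [← mul_sub]; exact (h.trans (sub_dvd_pow_sub_pow x y 2)).mul_left a)

theorem r2_single {c : R F} (hc : c ≠ 0) {f : R F → ℂ} (hf : Pe c f) (z : R F) :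
    ∑ y ∈ res c, (if c ∣ z - y then f y else 0) = f z := by
  obtain ⟨y, hy, h⟩ := exists_res hc z
  rw [Finset.sum_eq_single_of_mem y hy fun x hx hne => if_neg fun h' => hne
    (res_unique hx hy (by simpa using dvd_sub h h')), if_pos h, hf z y h]

theorem r2_sq {a c t : R F} (hc : c ≠ 0) (ht : t ≠ 0) (h : IsCoprime a t) :
    Gq a (c * t ^ 2) = N t * Gq a c := by
  have h1 := r2_pe a (t * (c * t))
  have h2 : ∀ u, Pe (c * t) fun v => psi (t * (c * t)) (a * (u + t * v) ^ 2) := fun u x y hxy =>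
    h1 _ _ (by rw [add_sub_add_left_eq_sub, ← mul_sub]; exact mul_dvd_mul_left t hxy)
  rw [Gq, show c * t ^ 2 = t * (c * t) by ring, sum_res_mul ht (mul_ne_zero hc ht) h1,
    ← r2_single ht (f := fun _ => N t * Gq a c) (fun _ _ _ => rfl) 0]
  refine Finset.sum_congr rfl fun u _ => ?_
  rw [sum_res_mul hc ht (h2 u)]
  have h3 : ∀ v x, psi (t * (c * t)) (a * (u + t * (v + c * x)) ^ 2) =
      psi (t * (c * t)) (a * (u + t * v) ^ 2) * psi t (2 * a * u * x) := fun v x => by
    rw [← psi_mul_left (mul_ne_zero hc ht) t, ← psi_add]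
    exact psi_congr ⟨a * x * (2 * v + c * x), by ring⟩
  have h4 : t ∣ 2 * a * u ↔ t ∣ 0 - u := by
    rw [zero_sub, dvd_neg, mul_assoc, isUnit_two.dvd_mul_left]
    exact ⟨h.symm.dvd_of_dvd_mul_left, fun h => h.mul_left _⟩
  simp only [h3, ← Finset.mul_sum, sum_psi ht, h4]
  split_ifs with h5
  · obtain ⟨s, hs⟩ := dvd_neg.1 (zero_sub u ▸ h5)
    rw [← Finset.sum_mul, mul_comm, Gq, ← sum_res_affine hc (r2_pe a c) isCoprime_one_left s]
    refine congrArg _ (Finset.sum_congr rfl fun v _ => ?_)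
    rw [← psi_mul_left (mul_ne_zero ht ht) c, hs]
    congr 1 <;> ring
  · simp

theorem r2_crt (a : R F) {c d : R F} (hc : c ≠ 0) (hd : d ≠ 0) (h : IsCoprime c d) :
    Gq a (c * d) = Gq (a * d) c * Gq (a * c) d := by
  rw [Gq, sum_res_crt hc hd h (r2_pe a _), Gq, Gq, Finset.sum_mul_sum]
  refine Finset.sum_congr rfl fun u _ => Finset.sum_congr rfl fun v _ => ?_
  rw [← psi_mul_left hd c, ← psi_mul_left hc d, mul_comm d c, ← psi_add]
  exact psi_congr ⟨2 * a * u * v, by ring⟩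

theorem r2_prime {a p : R F} (hp : Prime p) (h : IsCoprime a p) :
    Gq a p = quad a p * gauss (fun x => quad x p) p 1 := by
  have p0 := hp.ne_zero
  have h1 : Gq a p = ∑ y ∈ res p, (1 + quad y p) * psi p (a * y) := by
    simp only [← card_sqrt hp, Finset.card_filter, Nat.cast_sum, Finset.sum_mul, Nat.cast_ite,
      Nat.cast_one, Nat.cast_zero, ite_mul, one_mul, zero_mul]
    rw [Finset.sum_comm]
    exact Finset.sum_congr rfl fun x _ => (r2_single p0 (pe_psi p a) _).symm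
  have h2 := sum_res_affine p0 (G := fun x => quad x p * psi p (1 * x))
    (Pe.mul (fun _ _ h => quad_congr h) (pe_psi p 1)) h 0
  simp only [h1, add_mul, one_mul, Finset.sum_add_distrib, sum_psi p0, gauss,
    if_neg (hp.coprime_iff_not_dvd.1 h.symm), zero_add]
  simp only [add_zero, one_mul, quad_mul_left, mul_assoc, ← Finset.mul_sum] at h2
  rw [← h2, ← mul_assoc, ← sq, quad_sq h, one_mul]

theorem Gam_one : Gam (1 : R F) = 1 := by
  simp [Gam, Gq, ab_one, sum_res_unit isUnit_one (r2_pe 1 1), -one_mul]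

theorem norm_Gam {c : R F} (hc : c ≠ 0) : ‖Gam c‖ = 1 := by
  have h1 : Gq 1 c * conj (Gq 1 c) = N c := by
    rw [Gq, map_sum, Finset.mul_sum]
    have : ∀ y, (∑ x ∈ res c, psi c (1 * x ^ 2)) * conj (psi c (1 * y ^ 2)) =
        ∑ x ∈ res c, psi c (1 * x ^ 2) * psi c (2 * x * y) := fun y => by
      rw [← sum_res_affine hc (r2_pe 1 c) isCoprime_one_left y, Finset.sum_mul]
      refine Finset.sum_congr rfl fun x _ => ?_
      rw [← psi_neg, ← psi_add, ← psi_add]
      congr 1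
      ring
    have h2 : ∀ x, c ∣ 2 * x ↔ c ∣ 0 - x := fun x => by
      rw [zero_sub, dvd_neg, isUnit_two.dvd_mul_left]
    simp only [this]
    rw [Finset.sum_comm]
    simp only [← Finset.mul_sum, sum_psi hc, h2, mul_ite, mul_zero]
    rw [r2_single hc (Pe.mul (r2_pe 1 c) fun _ _ _ => rfl)]
    simp
  rw [mul_conj, normSq_eq_norm_sq, ← ab_sq, ofReal_inj,
    pow_left_inj₀ (norm_nonneg _) (ab_nonneg c) two_ne_zero] at h1
  rw [Gam, norm_div, h1, norm_real, Real.norm_of_nonneg (ab_nonneg c), div_self (ab_pos hc).ne']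

theorem norm_Gam_le (c : R F) : ‖Gam c‖ ≤ 1 := by
  rcases eq_or_ne c 0 with rfl | hc
  · simp [Gam, ab]
  · exact (norm_Gam hc).le

theorem Gam_mul_sq {c t : R F} (hc : c ≠ 0) (ht : t ≠ 0) : Gam (c * t ^ 2) = Gam c := by
  rw [Gam, Gam, r2_sq hc ht isCoprime_one_left, ab_mul, ab_pow, ab_sq, ofReal_mul, mul_comm (ab c : ℂ),
    mul_div_mul_left _ _ (ofReal_ne_zero.2 (N_pos ht).ne')]

theorem Gq_eq {a c : R F} (hc : c ≠ 0) (h : IsCoprime a c) : Gq a c = quad a c * Gq 1 c := by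
  induction c using (wellFounded_dvdNotUnit (α := R F)).induction generalizing a with
  | h c ih =>
    by_cases hu : IsUnit c
    · simp only [Gq, sum_res_unit hu (r2_pe _ c), quad_unit_right hu]
      simp
    obtain ⟨p, hp, d, rfl⟩ := WfDvdMonoid.exists_irreducible_factor hu hc
    have hp := hp.prime
    have hd := right_ne_zero_of_mul hc
    by_cases hpd : p ∣ d
    · obtain ⟨e, rfl⟩ := hpd
      have he := right_ne_zero_of_mul hd
      have e1 : p * (p * e) = e * p ^ 2 := by ring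
      have h1 := h.of_mul_right_left
      rw [e1, r2_sq he hp.ne_zero h1, r2_sq he hp.ne_zero isCoprime_one_left,
        ih e ⟨he, p ^ 2, fun hu => hp.not_isUnit ((isUnit_pow_iff two_ne_zero).1 hu), e1⟩ he
          h.of_mul_right_right.of_mul_right_right, quad_mul_right _ he (pow_ne_zero _ hp.ne_zero),
        quad_pow_right _ hp.ne_zero, quad_sq h1]
      ring
    · have h1 := hp.coprime_iff_not_dvd.2 hpd
      have ih' := fun b => @ih d ⟨hd, p, hp.not_isUnit, mul_comm _ _⟩ b hd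
      rw [r2_crt _ hp.ne_zero hd h1, r2_crt _ hp.ne_zero hd h1,
        r2_prime hp (h.of_mul_right_left.mul_left h1.symm),
        r2_prime hp (isCoprime_one_left.mul_left h1.symm),
        ih' _ (h.of_mul_right_right.mul_left h1), ih' _ (isCoprime_one_left.mul_left h1),
        quad_mul_right _ hp.ne_zero hd]
      simp only [quad_mul_left, quad_one_left]
      ring

theorem Gam_mul_coprime {c d : R F} (hc : c ≠ 0) (hd : d ≠ 0) (h : IsCoprime c d) :
    Gam (c * d) = Gam c * Gam d * (quad c d * quad d c) := by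
  rw [Gam, Gam, Gam, r2_crt _ hc hd h, one_mul, one_mul, Gq_eq hc h.symm, Gq_eq hd h, ab_mul,
    ofReal_mul]
  ring

theorem r2_six {c t : R F} (hc : c ≠ 0) (ht : t ≠ 0) : Gam (c * t ^ 6) = Gam c := by
  rw [show t ^ 6 = (t ^ 3) ^ 2 by ring, Gam_mul_sq hc (pow_ne_zero _ ht)]

theorem r2_ne {c : R F} (h : (c : F) ≠ 0) : c ≠ 0 := fun h' => h (by rw [h']; rfl)

theorem r2_coe_ne {c : R F} (h : c ≠ 0) : (c : F) ≠ 0 := fun h' => h (Subtype.ext h')

theorem Gam_of_inU {c c' : R F} (h : InU 3 ((c : F) / c')) : Gam c = Gam c' := by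
  have c0 := h.left_ne (by norm_num)
  have c0' := h.right_ne (by norm_num)
  obtain ⟨K, hK⟩ := milgram_loc c0'
  obtain ⟨t, ht, h1⟩ := exists_sixth h (K + 1)
  obtain ⟨a, b, hb, hb', rfl⟩ := exists_div_R t
  have ha : OlU (a : F) := by
    simpa only [div_mul_cancel₀ _ hb'.1] using (ht.olU le_rfl).mul hb'
  rw [← r2_six (r2_ne c0) hb, ← r2_six (r2_ne c0') (r2_ne ha.1)]
  refine hK _ _ ?_ ?_ <;> push_cast
  · rw [mul_div_cancel_left₀ _ c0']
    exact ha.pow 6
  · rwa [div_pow, div_div_div_eq, mul_div_mul_comm, ← mul_div_mul_comm] at h1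

theorem Gam_cls {c c' : R F} (hc : c ≠ 0) (hc' : c' ≠ 0) (h : cls (c : F) = cls (c' : F)) :
    Gam c = Gam c' := by
  obtain ⟨u, hu, h1⟩ := (cls_eq_iff (r2_coe_ne hc) (r2_coe_ne hc')).1 h
  obtain ⟨t, ht, h2⟩ := hu.2
  obtain ⟨a, b, hb, hb', rfl⟩ := exists_div_R t
  have ha : (a : F) ≠ 0 := fun h => ht (by rw [h, zero_div])
  rw [← Gam_of_inU (c := u * c) h1, ← r2_six (mul_ne_zero hu.ne_zero hc) hb, ← r2_six hc (r2_ne ha)]
  refine (Gam_of_inU ?_).symm
  have : ((u * c * b ^ 6 : R F) : F) / (c * a ^ 6 : R F) = u / (a / b) ^ 6 := by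
    have := r2_coe_ne hc
    have := hb'.1
    push_cast
    field_simp
  rwa [this]

theorem quad_core {x y : R F} (hx : InU 3 (x : F)) (hy : y ≠ 0) : quad x y = quad y x := by
  have x0 := r2_ne (hx.ne_zero (by norm_num))
  by_cases h : IsCoprime x y
  · have h1 := Gam_mul_coprime x0 hy h
    rw [Gam_of_inU (c' := y) (by push_cast; rwa [mul_div_cancel_right₀ _ (r2_coe_ne hy)]),
      Gam_of_inU (c := x) (c' := 1) (by simpa using hx), Gam_one, one_mul, eq_comm,
      mul_eq_left₀ (norm_ne_zero_iff.1 ((norm_Gam hy).trans_ne one_ne_zero))] at h1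
    linear_combination quad y x * h1 - quad x y * quad_sq h.symm
  · rw [(quad_eq_zero hy).2 h, (quad_eq_zero x0).2 fun h' => h h'.symm]

end Vale.Agent.P319B
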