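import Vale.Agent.P319B.Rec3
import Vale.Agent.P319B.Rec2

/-! The reciprocity factors B3, B2, Bc and periodicity of the symbols. -/

namespace Vale.Agent.P319B

open Complex NumberField
open scoped Classical ComplexConjugate
open Vale.Agent.P026 (w kk fk)

variable {F : Type} [Field F] [NumberField F] [Ctx0 F]

/-- The properties of a power residue symbol that are used for the reciprocity factor. -/
structure Sy (s : R F → R F → ℂ) : Prop where
  mul_left : ∀ a b c, s (a * b) c = s a c * s b c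
  mul_right : ∀ a {c d}, c ≠ 0 → d ≠ 0 → s a (c * d) = s a c * s a d
  eq_zero : ∀ {a c}, c ≠ 0 → (s a c = 0 ↔ ¬ IsCoprime a c)
  norm : ∀ {a c}, IsCoprime a c → ‖s a c‖ = 1
  core : ∀ {x y}, InU 3 ((x : R F) : F) → y ≠ 0 → s x y = s y x
  one_left : ∀ c, s 1 c = 1
  unit_right : ∀ {u}, IsUnit u → ∀ a, s a u = 1
  zero_right : ∀ a, s a 0 = 1
  congr : ∀ {a b c}, c ∣ a - b → s a c = s b c
  six : ∀ {a c}, IsCoprime a c → s a c ^ 6 = 1

theorem sy_cub : Sy (cub (F := F)) :=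
  ⟨cub_mul_left, cub_mul_right, cub_eq_zero, norm_cub, cub_core, cub_one_left, cub_unit_right,
    cub_zero_right, cub_congr, fun h => by rw [show 6 = 3 * 2 from rfl, pow_mul, cub_cube h, one_pow]⟩

theorem sy_quad : Sy (quad (F := F)) :=
  ⟨quad_mul_left, quad_mul_right, quad_eq_zero, norm_quad, quad_core, quad_one_left,
    quad_unit_right, quad_zero_right, quad_congr,
    fun h => by rw [show 6 = 2 * 3 from rfl, pow_mul, quad_sq h, one_pow]⟩

theorem bs_conj {z : ℂ} (h : ‖z‖ = 1) : z * conj z = 1 := by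
  rw [mul_conj, normSq_eq_norm_sq, h]
  simp

theorem bs_three : 1 ≤ 3 := by norm_num

theorem bs_pair {x y : F} (hx : x ≠ 0) (hy : y ≠ 0) :
    ∃ a b : R F, InU 3 ((a : F) / x) ∧ InU 3 ((b : F) / y) ∧ IsCoprime a b := by
  obtain ⟨b, -, hb⟩ := exists_inU_coprime one_ne_zero hy 3
  obtain ⟨a, h, ha⟩ := exists_inU_coprime (r2_ne (hb.left_ne bs_three)) hx 3
  exact ⟨a, b, ha, hb, h⟩

theorem bs_zero_left (s : R F → R F → ℂ) (y : F) : Bs s 0 y = 1 :=
  dif_neg fun ⟨_, h, _⟩ => h.right_ne bs_three rfl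

theorem bs_zero_right (s : R F → R F → ℂ) (x : F) : Bs s x 0 = 1 :=
  dif_neg fun ⟨_, _, h, _⟩ => h.right_ne bs_three rfl

theorem bs_pow {s : R F → R F → ℂ} {n : ℕ} (h : ∀ {a c}, IsCoprime a c → s a c ^ n = 1) (x y : F) :
    Bs s x y ^ n = 1 := by
  unfold Bs
  split_ifs with h'
  · rw [mul_pow, ← map_pow, h h'.choose_spec.2.2, h h'.choose_spec.2.2.symm, map_one, one_mul]
  · exact one_pow n

namespace Sy

variable {s : R F → R F → ℂ} (hs : Sy s)
include hs

theorem left {x x' y : R F} (h : InU 3 ((x : F) / x')) (hy : y ≠ 0) (h1 : IsCoprime x y)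
    (h2 : IsCoprime x' y) : s x y * conj (s y x) = s x' y * conj (s y x') := by
  have x0 := h.right_ne bs_three
  obtain ⟨t, ht, ht'⟩ := exists_inU_coprime hy (inv_ne_zero x0) 3
  have t0 := r2_ne (ht'.left_ne bs_three)
  rw [div_inv_eq_mul] at ht'
  have key : ∀ z : R F, z ≠ 0 → InU 3 ((t : F) * z) → IsCoprime z y →
      s z y * conj (s y z) = s y t * conj (s t y) := fun z z0 hz hzy => by
    have := hs.core (x := t * z) hz hy
    rw [hs.mul_left, hs.mul_right _ t0 z0] at this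
    linear_combination conj (s t y) * conj (s y z) * this -
      s z y * conj (s y z) * bs_conj (hs.norm ht) +
      s y t * conj (s t y) * bs_conj (hs.norm hzy.symm)
  rw [key x' (r2_ne x0) ht' h2, key x (r2_ne (h.left_ne bs_three)) (by
    simpa only [mul_assoc, mul_div_cancel₀ _ x0] using ht'.mul h) h1]

theorem eq {x y : F} {a b : R F} (ha : InU 3 ((a : F) / x)) (hb : InU 3 ((b : F) / y))
    (h : IsCoprime a b) : Bs s x y = s a b * conj (s b a) := by
  have h' : ∃ p : R F × R F, InU 3 ((p.1 : F) / x) ∧ InU 3 ((p.2 : F) / y) ∧ IsCoprime p.1 p.2 :=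
    ⟨(a, b), ha, hb, h⟩
  rw [Bs, dif_pos h']
  obtain ⟨h1, h2, h3⟩ := h'.choose_spec
  generalize h'.choose.1 = a' at h1 h3
  generalize h'.choose.2 = b' at h2 h3
  have b0 := r2_ne (hb.left_ne bs_three)
  have b0' := r2_ne (h2.left_ne bs_three)
  obtain ⟨c, h4, h5⟩ := exists_inU_coprime (mul_ne_zero b0 b0') (ha.right_ne bs_three) 3
  have h6 := congrArg conj (hs.left (hb.trans bs_three (h2.symm bs_three))
    (r2_ne (h5.left_ne bs_three)) h4.of_mul_right_left.symm h4.of_mul_right_right.symm)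
  rw [map_mul, map_mul, conj_conj, conj_conj, mul_comm, mul_comm (conj _)] at h6
  rw [hs.left (h1.trans bs_three (h5.symm bs_three)) b0' h3 h4.of_mul_right_right, ← h6,
    hs.left (h5.trans bs_three (ha.symm bs_three)) b0 h4.of_mul_right_left h]

theorem recip {x y : R F} (hx : x ≠ 0) (hy : y ≠ 0) : s x y = Bs s (x : F) y * s y x := by
  by_cases h : IsCoprime x y
  · rw [hs.eq (InU.div_self (r2_coe_ne hx)) (InU.div_self (r2_coe_ne hy)) h]
    linear_combination -s x y * bs_conj (hs.norm h.symm)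
  · rw [(hs.eq_zero hy).2 h, (hs.eq_zero hx).2 fun h' => h h'.symm, mul_zero]

theorem norm_eq (x y : F) : ‖Bs s x y‖ = 1 := by
  unfold Bs
  split_ifs with h'
  · rw [norm_mul, norm_conj, hs.norm h'.choose_spec.2.2, hs.norm h'.choose_spec.2.2.symm, one_mul]
  · exact norm_one

theorem swap (x y : F) : Bs s y x = conj (Bs s x y) := by
  rcases eq_or_ne x 0 with rfl | hx
  · rw [bs_zero_left, bs_zero_right, map_one]
  rcases eq_or_ne y 0 with rfl | hy
  · rw [bs_zero_left, bs_zero_right, map_one]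
  obtain ⟨a, b, ha, hb, h⟩ := bs_pair hx hy
  rw [hs.eq ha hb h, hs.eq hb ha h.symm, map_mul, conj_conj, mul_comm]

theorem mulL {x x' : F} (hx : x ≠ 0) (hx' : x' ≠ 0) (y : F) :
    Bs s (x * x') y = Bs s x y * Bs s x' y := by
  rcases eq_or_ne y 0 with rfl | hy
  · simp only [bs_zero_right, mul_one]
  obtain ⟨a, b, ha, hb, h⟩ := bs_pair hx hy
  obtain ⟨a', h', ha'⟩ := exists_inU_coprime (r2_ne (hb.left_ne bs_three)) hx' 3
  rw [hs.eq ha hb h, hs.eq ha' hb h', hs.eq (a := a * a') (ha.mul_div ha') hb (h.mul_left h'),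
    hs.mul_left, hs.mul_right _ (r2_ne (ha.left_ne bs_three)) (r2_ne (ha'.left_ne bs_three)),
    map_mul]
  ring

theorem mulR (x : F) {y y' : F} (hy : y ≠ 0) (hy' : y' ≠ 0) :
    Bs s x (y * y') = Bs s x y * Bs s x y' := by
  rw [hs.swap, hs.mulL hy hy', map_mul, ← hs.swap, ← hs.swap]

theorem oneL (y : F) : Bs s 1 y = 1 := by
  rcases eq_or_ne y 0 with rfl | hy
  · exact bs_zero_right _ _
  obtain ⟨b, -, hb⟩ := exists_inU_coprime one_ne_zero hy 3
  rw [hs.eq (x := 1) (a := 1) (InU.div_self one_ne_zero) hb isCoprime_one_left, hs.one_left,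
    hs.unit_right isUnit_one, map_one, one_mul]

theorem powL {x : F} (hx : x ≠ 0) (y : F) (k : ℕ) : Bs s (x ^ k) y = Bs s x y ^ k := by
  induction k with
  | zero => rw [pow_zero, pow_zero, hs.oneL]
  | succ k ih => rw [pow_succ, pow_succ, hs.mulL (pow_ne_zero _ hx) hx, ih]

theorem invL (x y : F) : Bs s x⁻¹ y = conj (Bs s x y) := by
  rcases eq_or_ne x 0 with rfl | hx
  · rw [inv_zero, bs_zero_left, map_one]
  have := hs.mulL (inv_ne_zero hx) hx y
  rw [inv_mul_cancel₀ hx, hs.oneL] at this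
  linear_combination -conj (Bs s x y) * this - Bs s x⁻¹ y * bs_conj (hs.norm_eq x y)

theorem inUL {x x' : F} (h : InU 3 (x / x')) (y : F) : Bs s x y = Bs s x' y := by
  rcases eq_or_ne y 0 with rfl | hy
  · simp only [bs_zero_right]
  obtain ⟨a, b, ha, hb, h'⟩ := bs_pair (h.left_ne bs_three) hy
  rw [hs.eq ha hb h', hs.eq (ha.trans bs_three h) hb h']

theorem inUR (x : F) {y y' : F} (h : InU 3 (y / y')) : Bs s x y = Bs s x y' := by
  rw [hs.swap, hs.inUL h, ← hs.swap]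

theorem S6L {x : F} (h : S6 x) (y : F) : Bs s x y = 1 := by
  obtain ⟨t, ht, h⟩ := h
  rw [hs.inUL h, hs.powL ht, bs_pow hs.six]

theorem clsL {x x' : F} (hx : x ≠ 0) (hx' : x' ≠ 0) (h : cls x = cls x') (y : F) :
    Bs s x y = Bs s x' y := by
  obtain ⟨u, hu, h1⟩ := (cls_eq_iff hx hx').1 h
  rw [← hs.inUL h1, hs.mulL hu.coe_ne hx, hs.S6L hu.2, one_mul]

theorem clsR (x : F) {y y' : F} (hy : y ≠ 0) (hy' : y' ≠ 0) (h : cls y = cls y') :
    Bs s x y = Bs s x y' := by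
  rw [hs.swap, hs.clsL hy hy' h, ← hs.swap]

theorem unitL {u c : R F} (hu : IsUnit u) (hc : c ≠ 0) : s u c = Bs s (u : F) c := by
  rw [hs.recip hu.ne_zero hc, hs.unit_right hu, mul_one]

theorem omg {u : R F} (hu : Omg u) (c : R F) : s u c = 1 := by
  rcases eq_or_ne c 0 with rfl | hc
  · exact hs.zero_right _
  · rw [hs.unitL hu.1 hc, hs.S6L hu.2]

theorem self {x : R F} (hx : x ≠ 0) : Bs s (x : F) x = conj (s (-1) x) := by
  obtain ⟨K, hK⟩ := exists_Lo_div (r2_coe_ne hx) 3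
  obtain ⟨m, hm, hm'⟩ : ∃ m : R F, IsUnit m ∧ Lo K (m : F) :=
    ⟨_, isUnit_M.pow K, by rw [SubmonoidClass.coe_pow, coe_M]; exact Lo_MF_pow K⟩
  have h1 : InU 3 (((m + x : R F) : F) / x) := by
    have := (InU.one 3).add_Lo (hK _ hm')
    rwa [one_add_div (r2_coe_ne hx), add_comm] at this
  have h2 : IsCoprime m x := by simpa using (isCoprime_mul_unit_left_left hm 1 x).2 isCoprime_one_left
  rw [hs.eq h1 (InU.div_self (r2_coe_ne hx)) (by simpa using h2.add_mul_left_left 1),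
    hs.congr (a := m + x) (b := m) (by simp), hs.congr (a := x) (b := -1 * m) ⟨1, by ring⟩,
    hs.unitL (isUnit_one.neg.mul hm) (r2_ne (h1.left_ne bs_three)), hs.inUR _ h1,
    ← hs.unitL (isUnit_one.neg.mul hm) hx, hs.mul_left, map_mul]
  linear_combination conj (s (-1) x) * bs_conj (hs.norm h2)

theorem perR (q : R F) (z : F) : Per q (fun e : R F => Bs s z (e : F)) :=
  Per.of_cls q fun _ _ hx hy h => hs.clsR z (r2_coe_ne hx) (r2_coe_ne hy) h

theorem perL (q : R F) (z : F) : Per q (fun e : R F => Bs s (e : F) z) :=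
  Per.of_cls q fun _ _ hx hy h => hs.clsL (r2_coe_ne hx) (r2_coe_ne hy) h z

theorem per {n q : R F} (hn : n ≠ 0) (h : ∀ x y, q ∣ x - y → s x n = s y n) :
    Per q (fun e => s n e) := by
  refine ⟨fun x y h1 h2 => ?_, fun u x hu => ?_⟩
  · simp only [hs.recip hn (r2_ne (h1.left_ne bs_three)), hs.recip hn (r2_ne (h1.right_ne bs_three)),
      hs.inUR _ h1, h x y h2]
  · rcases eq_or_ne x 0 with rfl | hx
    · rw [mul_zero]
    · simp only [hs.mul_right n hu.ne_zero hx, hs.unit_right hu.1, one_mul]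

end Sy

theorem cub_recip {x y : R F} (hx : x ≠ 0) (hy : y ≠ 0) : cub x y = B3 (x : F) y * cub y x :=
  sy_cub.recip hx hy
theorem norm_B3 (x y : F) : ‖B3 x y‖ = 1 :=
  sy_cub.norm_eq x y
theorem B3_cube (x y : F) : B3 x y ^ 3 = 1 :=
  bs_pow cub_cube x y
theorem conj_B3 (x y : F) : conj (B3 x y) = B3 x y ^ 2 := by
  linear_combination -conj (B3 x y) * B3_cube x y + B3 x y ^ 2 * bs_conj (norm_B3 x y)
theorem B3_swap (x y : F) : B3 y x = conj (B3 x y) :=
  sy_cub.swap x y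
theorem B3_mul_swap (x y : F) : B3 x y * B3 y x = 1 := by
  rw [B3_swap x y, bs_conj (norm_B3 x y)]
theorem B3_mul_left {x x' : F} (hx : x ≠ 0) (hx' : x' ≠ 0) (y : F) :
    B3 (x * x') y = B3 x y * B3 x' y :=
  sy_cub.mulL hx hx' y
theorem B3_mul_right (x : F) {y y' : F} (hy : y ≠ 0) (hy' : y' ≠ 0) :
    B3 x (y * y') = B3 x y * B3 x y' :=
  sy_cub.mulR x hy hy'
theorem B3_pow_left {x : F} (hx : x ≠ 0) (y : F) (k : ℕ) : B3 (x ^ k) y = B3 x y ^ k :=
  sy_cub.powL hx y k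
theorem B3_pow_right (x : F) {y : F} (hy : y ≠ 0) (k : ℕ) : B3 x (y ^ k) = B3 x y ^ k := by
  rw [B3_swap, B3_pow_left hy, map_pow, ← B3_swap]
theorem B3_inv_left (x y : F) : B3 x⁻¹ y = conj (B3 x y) :=
  sy_cub.invL x y
theorem B3_inv_right (x y : F) : B3 x y⁻¹ = conj (B3 x y) := by
  rw [B3_swap, B3_inv_left, ← B3_swap y x]
theorem B3_one_left (y : F) : B3 1 y = 1 :=
  sy_cub.oneL y
theorem B3_one_right (x : F) : B3 x 1 = 1 := by rw [B3_swap, B3_one_left, map_one]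
theorem B3_neg_left (x y : F) : B3 (-x) y = B3 x y := by
  rcases eq_or_ne x 0 with rfl | hx
  · rw [neg_zero]
  have h1 := B3_pow_left (neg_ne_zero.2 one_ne_zero) y 3
  rw [B3_cube, Odd.neg_one_pow (by decide)] at h1
  rw [← neg_one_mul, B3_mul_left (neg_ne_zero.2 one_ne_zero) hx, h1, one_mul]
theorem B3_neg_right (x y : F) : B3 x (-y) = B3 x y := by
  rw [B3_swap, B3_neg_left, ← B3_swap]
theorem B3_self (x : F) : B3 x x = 1 := by
  rcases eq_or_ne x 0 with rfl | hx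
  · exact bs_zero_left _ _
  obtain ⟨a, -, ha⟩ := exists_inU_coprime one_ne_zero hx 3
  rw [B3, ← sy_cub.inUL ha, ← sy_cub.inUR _ ha, sy_cub.self (r2_ne (ha.left_ne bs_three)),
    cub_neg_left, cub_one_left, map_one]
theorem B3_inU_left {x x' : F} (h : InU 3 (x / x')) (y : F) : B3 x y = B3 x' y :=
  sy_cub.inUL h y
theorem B3_inU_right (x : F) {y y' : F} (h : InU 3 (y / y')) : B3 x y = B3 x y' :=
  sy_cub.inUR x h
theorem B3_cls_left {x x' : F} (hx : x ≠ 0) (hx' : x' ≠ 0) (h : cls x = cls x') (y : F) :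
    B3 x y = B3 x' y :=
  sy_cub.clsL hx hx' h y
theorem B3_cls_right (x : F) {y y' : F} (hy : y ≠ 0) (hy' : y' ≠ 0) (h : cls y = cls y') :
    B3 x y = B3 x y' :=
  sy_cub.clsR x hy hy' h
theorem B3_S6_left {x : F} (h : S6 x) (y : F) : B3 x y = 1 :=
  sy_cub.S6L h y
theorem cub_unit_left {s c : R F} (hs : IsUnit s) (hc : c ≠ 0) : cub s c = B3 (s : F) c :=
  sy_cub.unitL hs hc
theorem B3_units {s t : R F} (hs : IsUnit s) (ht : IsUnit t) : B3 (s : F) t = 1 := by
  rw [← cub_unit_left hs ht.ne_zero, cub_unit_right ht]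
theorem cub_omg {u : R F} (hu : Omg u) (c : R F) : cub u c = 1 :=
  sy_cub.omg hu c

theorem quad_recip {x y : R F} (hx : x ≠ 0) (hy : y ≠ 0) :
    quad x y = B2 (x : F) y * quad y x :=
  sy_quad.recip hx hy
theorem norm_B2 (x y : F) : ‖B2 x y‖ = 1 :=
  sy_quad.norm_eq x y
theorem B2_sq (x y : F) : B2 x y ^ 2 = 1 :=
  bs_pow quad_sq x y
theorem conj_B2 (x y : F) : conj (B2 x y) = B2 x y := by
  linear_combination -conj (B2 x y) * B2_sq x y + B2 x y * bs_conj (norm_B2 x y)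
theorem B2_swap (x y : F) : B2 y x = B2 x y :=
  (sy_quad.swap x y).trans (conj_B2 x y)
theorem B2_mul_left {x x' : F} (hx : x ≠ 0) (hx' : x' ≠ 0) (y : F) :
    B2 (x * x') y = B2 x y * B2 x' y :=
  sy_quad.mulL hx hx' y
theorem B2_mul_right (x : F) {y y' : F} (hy : y ≠ 0) (hy' : y' ≠ 0) :
    B2 x (y * y') = B2 x y * B2 x y' :=
  sy_quad.mulR x hy hy'
theorem B2_one_left (y : F) : B2 1 y = 1 :=
  sy_quad.oneL y
theorem B2_self {x : R F} (hx : x ≠ 0) : B2 (x : F) x = quad (-1) x :=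
  (sy_quad.self hx).trans (conj_quad _ _)
theorem B2_cls_left {x x' : F} (hx : x ≠ 0) (hx' : x' ≠ 0) (h : cls x = cls x') (y : F) :
    B2 x y = B2 x' y :=
  sy_quad.clsL hx hx' h y
theorem B2_cls_right (x : F) {y y' : F} (hy : y ≠ 0) (hy' : y' ≠ 0) (h : cls y = cls y') :
    B2 x y = B2 x y' :=
  sy_quad.clsR x hy hy' h
theorem quad_unit_left {s c : R F} (hs : IsUnit s) (hc : c ≠ 0) : quad s c = B2 (s : F) c :=
  sy_quad.unitL hs hc
theorem quad_omg {u : R F} (hu : Omg u) (c : R F) : quad u c = 1 :=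
  sy_quad.omg hu c
theorem Gam_mul {c d : R F} (hc : c ≠ 0) (hd : d ≠ 0) :
    Gam (c * d) = Gam c * Gam d * B2 (c : F) d := by
  obtain ⟨a, h, ha⟩ := exists_inU_coprime hd (r2_coe_ne hc) 3
  rw [← Gam_of_inU (c := a * d) (ha.mul_div (InU.div_self (r2_coe_ne hd))),
    Gam_mul_coprime (r2_ne (ha.left_ne bs_three)) hd h, Gam_of_inU ha, B2,
    sy_quad.eq ha (InU.div_self (r2_coe_ne hd)) h, conj_quad]

theorem chi_recip (j : ℕ) {x y : R F} (hx : x ≠ 0) (hy : y ≠ 0) :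
    chi j x y = Bc j (x : F) y * chi j y x := by
  rw [chi, chi, Bc, cub_recip hx hy, quad_recip hx hy]
  ring
theorem norm_Bc (j : ℕ) (x y : F) : ‖Bc j x y‖ = 1 := by
  rw [Bc, norm_mul, norm_pow, norm_B3, norm_B2, one_pow, one_mul]
theorem Bc_swap (j : ℕ) (x y : F) : Bc j y x = conj (Bc j x y) := by
  rw [Bc, Bc, map_mul, map_pow, B3_swap, B2_swap, conj_B2]
theorem Bc_self (j : ℕ) {x : R F} (hx : x ≠ 0) : Bc j (x : F) x = quad (-1) x := by
  rw [Bc, B3_self, B2_self hx, one_pow, one_mul]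
theorem Bc_mul_left (j : ℕ) {x x' : F} (hx : x ≠ 0) (hx' : x' ≠ 0) (y : F) :
    Bc j (x * x') y = Bc j x y * Bc j x' y := by
  rw [Bc, Bc, Bc, B3_mul_left hx hx', B2_mul_left hx hx']
  ring
theorem Bc_mul_right (j : ℕ) (x : F) {y y' : F} (hy : y ≠ 0) (hy' : y' ≠ 0) :
    Bc j x (y * y') = Bc j x y * Bc j x y' := by
  rw [Bc, Bc, Bc, B3_mul_right x hy hy', B2_mul_right x hy hy']
  ring
theorem Bc_cls_left (j : ℕ) {x x' : F} (hx : x ≠ 0) (hx' : x' ≠ 0) (h : cls x = cls x') (y : F) :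
    Bc j x y = Bc j x' y := by
  rw [Bc, Bc, B3_cls_left hx hx' h, B2_cls_left hx hx' h]
theorem Bc_cls_right (j : ℕ) (x : F) {y y' : F} (hy : y ≠ 0) (hy' : y' ≠ 0) (h : cls y = cls y') :
    Bc j x y = Bc j x y' := by
  rw [Bc, Bc, B3_cls_right x hy hy' h, B2_cls_right x hy hy' h]
theorem chi_unit_left (j : ℕ) {s c : R F} (hs : IsUnit s) (hc : c ≠ 0) :
    chi j s c = Bc j (s : F) c := by
  rw [chi, Bc, cub_unit_left hs hc, quad_unit_left hs hc]
theorem chi_omg (j : ℕ) {u : R F} (hu : Omg u) (c : R F) : chi j u c = 1 := by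
  rw [chi, cub_omg hu, quad_omg hu, one_pow, one_mul]
theorem chi_neg_one (j : ℕ) (c : R F) : chi j (-1) c = quad (-1) c := by
  rw [chi, cub_neg_left, cub_one_left, one_pow, one_mul]

theorem per_B3_right (q : R F) (z : F) : Per q (fun e : R F => B3 z (e : F)) :=
  sy_cub.perR q z
theorem per_B3_left (q : R F) (z : F) : Per q (fun e : R F => B3 (e : F) z) :=
  sy_cub.perL q z
theorem per_B2_right (q : R F) (z : F) : Per q (fun e : R F => B2 z (e : F)) :=
  sy_quad.perR q z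
theorem per_B2_left (q : R F) (z : F) : Per q (fun e : R F => B2 (e : F) z) :=
  sy_quad.perL q z
theorem per_Bc_right (j : ℕ) (q : R F) (z : F) : Per q (fun e : R F => Bc j z (e : F)) :=
  Per.of_cls q fun _ _ hx hy h => Bc_cls_right j z (r2_coe_ne hx) (r2_coe_ne hy) h
theorem per_Bc_left (j : ℕ) (q : R F) (z : F) : Per q (fun e : R F => Bc j (e : F) z) :=
  Per.of_cls q fun _ _ hx hy h => Bc_cls_left j (r2_coe_ne hx) (r2_coe_ne hy) h z
theorem per_Gam (q : R F) : Per q Gam :=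
  Per.of_cls q fun _ _ => Gam_cls
theorem per_cub {n q : R F} (hq : q ≠ 0) {k : ℕ} (hn : n ∣ q ^ k) :
    Per q (fun e => cub n e) :=
  sy_cub.per (ne_zero_of_dvd_ne_zero (pow_ne_zero k hq) hn) fun _ _ => cub_congr_rad hn
theorem per_quad {n q : R F} (hq : q ≠ 0) {k : ℕ} (hn : n ∣ q ^ k) :
    Per q (fun e => quad n e) :=
  sy_quad.per (ne_zero_of_dvd_ne_zero (pow_ne_zero k hq) hn) fun _ _ => quad_congr_rad hn
theorem per_chi (j : ℕ) {n q : R F} (hq : q ≠ 0) {k : ℕ} (hn : n ∣ q ^ k) :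
    Per q (fun e => chi j n e) :=
  ⟨fun x y h1 h2 => congrArg₂ (fun a b => a ^ j * b) ((per_cub hq hn).1 x y h1 h2)
    ((per_quad hq hn).1 x y h1 h2), fun u x hu => congrArg₂ (fun a b => a ^ j * b)
      ((per_cub hq hn).2 u x hu) ((per_quad hq hn).2 u x hu)⟩
theorem per_chi_left (j : ℕ) {n q : R F} {k : ℕ} (hn : n ∣ q ^ k) :
    Per q (fun e => chi j e n) :=
  ⟨fun _ _ _ h => chi_congr_rad j hn h, fun u x hu => by
    simp only [chi_mul_left, chi_omg j hu, one_mul]⟩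

end Vale.Agent.P319B
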