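import Vale.Agent.P319B.CStepA

/-! The quadratic family bound for the dual sums. -/

namespace Vale.Agent.P319B

open Complex NumberField
open scoped Classical ComplexConjugate
open Vale.Agent.P026 (w kk fk)

variable {F : Type} [Field F] [NumberField F] [Ctx F]

theorem cs_num {δ Z Z' H K0 n : ℝ} (hδ : 0 < δ) (hδ' : δ ≤ 1 / 2) (hR : 1 ≤ Z) (hZ' : 0 < Z')
    (hRR : Z' ≤ Z) (hH : 1 ≤ H) (hK0 : 0 < K0) :
    (Z ^ δ * Z ^ 2 / H) ^ δ * (√(Z ^ δ * Z ^ 2 / H / max 1 K0) * Z' ^ 2 +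
        √Z' * Z' * (Z ^ δ * Z ^ 2 / H) + (Z ^ δ * Z ^ 2 / H) ^ 3) +
      n ^ 2 * Z' ^ (1 + 2 * δ) * (Z ^ δ * Z ^ 2 / H * √(Z ^ δ * Z ^ 2 / H)) * (K0 * √K0) ≤
    (Z ^ δ) ^ 6 * Z ^ 2 * (Z / √(H * max 1 K0) + Z ^ (3 / 2 : ℝ) / H + Z ^ 4 / H ^ 3
      + n ^ 2 * K0 ^ (3 / 2 : ℝ) * Z ^ 2 / H ^ (3 / 2 : ℝ)) := by
  have hR0 : 0 < Z := by linarith
  have hH0 : 0 < H := by linarith
  have hm : 0 < max 1 K0 := lt_max_of_lt_left one_pos
  have h32 : ∀ x : ℝ, 0 < x → x ^ (3 / 2 : ℝ) = x * √x := by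
    intro x hx
    rw [Real.sqrt_eq_rpow, show (3 / 2 : ℝ) = 1 + 1 / 2 by norm_num, Real.rpow_add hx,
      Real.rpow_one]
  have hL : 1 ≤ Z ^ δ := Real.one_le_rpow hR hδ.le
  have hLR : Z ^ δ ≤ Z := by
    simpa using Real.rpow_le_rpow_of_exponent_le hR (show δ ≤ 1 by linarith)
  have b1 : (Z ^ δ * Z ^ 2 / H) ^ δ ≤ (Z ^ δ) ^ 3 := by
    rw [← Real.rpow_natCast (Z ^ δ), ← Real.rpow_mul hR0.le, mul_comm δ, Real.rpow_mul hR0.le,
      Real.rpow_natCast]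
    refine Real.rpow_le_rpow (by positivity) ((div_le_self (by positivity) hH).trans ?_) hδ.le
    nlinarith [mul_le_mul_of_nonneg_right hLR (sq_nonneg Z)]
  have b2 : Z' ^ (1 + 2 * δ) ≤ Z * (Z ^ δ) ^ 2 := by
    refine (Real.rpow_le_rpow hZ'.le hRR (by linarith)).trans (le_of_eq ?_)
    rw [Real.rpow_add hR0, Real.rpow_one, mul_comm 2 δ, Real.rpow_mul hR0.le, Real.rpow_two]
  rw [h32 Z hR0, h32 K0 hK0, h32 H hH0]
  generalize (Z ^ δ * Z ^ 2 / H) ^ δ = a at b1 ⊢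
  generalize Z' ^ (1 + 2 * δ) = b at b2 ⊢
  generalize Z ^ δ = L at *
  generalize max 1 K0 = m at *
  have hL0 : 0 < L := by linarith
  have hsL : √L ≤ L := Real.sqrt_le_iff.2 ⟨hL0.le, by nlinarith⟩
  have hL3 : L ≤ L ^ 3 := le_self_pow₀ hL (by norm_num)
  have e1 : √(L * Z ^ 2 / H / m) = √L * Z / √(H * m) := by
    rw [div_div, Real.sqrt_div (by positivity), Real.sqrt_mul hL0.le, Real.sqrt_sq hR0.le]
  have e2 : √(L * Z ^ 2 / H) = √L * Z / √H := by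
    rw [Real.sqrt_div (by positivity), Real.sqrt_mul hL0.le, Real.sqrt_sq hR0.le]
  rw [e1, e2]
  have c1 : √L * Z / √(H * m) * Z' ^ 2 + √Z' * Z' * (L * Z ^ 2 / H) + (L * Z ^ 2 / H) ^ 3 ≤
      L ^ 3 * Z ^ 2 * (Z / √(H * m) + Z * √Z / H + Z ^ 4 / H ^ 3) := by
    calc _ ≤ L ^ 3 * Z / √(H * m) * Z ^ 2 + √Z * Z * (L ^ 3 * Z ^ 2 / H) +
          (L * Z ^ 2 / H) ^ 3 := by gcongr; exact hsL.trans hL3
      _ = _ := by ring
  have c2 : n ^ 2 * b * (L * Z ^ 2 / H * (√L * Z / √H)) * (K0 * √K0) ≤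
      L ^ 6 * Z ^ 2 * (n ^ 2 * (K0 * √K0) * Z ^ 2 / (H * √H)) := by
    calc _ ≤ n ^ 2 * (Z * L ^ 2) * (L * Z ^ 2 / H * (L ^ 3 * Z / √H)) * (K0 * √K0) := by
          gcongr; exact hsL.trans hL3
      _ = _ := by field_simp
  have c3 := mul_le_mul b1 c1 (by positivity) (by positivity)
  calc _ ≤ L ^ 3 * (L ^ 3 * Z ^ 2 * (Z / √(H * m) + Z * √Z / H + Z ^ 4 / H ^ 3)) +
        L ^ 6 * Z ^ 2 * (n ^ 2 * (K0 * √K0) * Z ^ 2 / (H * √H)) := add_le_add c3 c2
    _ = _ := by ring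

/-- Reduction to the second moments by reciprocity. -/
theorem cs_red (G : R F → ℂ) (X H τ : ℝ) :
    ∑ h ∈ (ball F H).filter P0, ‖Tsq false (fun c => G c * quad c h) X τ‖ ^ 2 ≤
      ∑ κ : Cl F, QQ 0 (fun c => alph false c * G c * B2 (c : F) (rep κ) * W X τ c) H := by
  refine le_trans ?_ (Finset.sum_le_sum fun i _ => le_QQ 0 _ H)
  rw [Finset.sum_comm]
  refine le_trans (Finset.sum_le_sum fun h hh => ?_) (Finset.sum_le_sum_of_subset_of_nonneg
    (Finset.filter_subset P0 _) fun h _ _ => Finset.sum_nonneg fun i _ => sq_nonneg _)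
  have hP := (Finset.mem_filter.1 hh).2
  refine le_trans (le_of_eq ?_) (Finset.single_le_sum
    (f := fun κ => ‖∑' c, alph false c * G c * B2 (c : F) (rep κ) * W X τ c * chi 0 h c‖ ^ 2)
    (fun i _ => sq_nonneg _) (Finset.mem_univ (cls (h : F))))
  refine congrArg (fun z : ℂ => ‖z‖ ^ 2) (tsum_congr fun c => ?_)
  by_cases hc : alph false c = 0
  · simp [hc]
  · beta_reduce
    rw [quad_recip (alph_ne_zero hc).ne_zero hP.ne_zero, chi_zero_eq,
      B2_cls_right _ hP.1.coe_ne (rep_ne _) (cls_rep _).symm]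
    ring

theorem cstep (T : Theta F) {e : ℝ} (he : 0 < e) : ∃ (C : ℝ) (A : ℕ), 0 < C ∧
    ∀ (q : R F) (G : R F → ℂ), q ≠ 0 → Per q G → Bd1 G → ∀ X H K0 τ : ℝ, 0 < X → 1 ≤ H → 0 < K0 →
      ∑ h ∈ (ball F H).filter P0, ‖Tsq false (fun c => G c * quad c h) X τ‖ ^ 2 ≤
        C * (1 + |τ|) ^ A * H * X ^ (1 + e) *
          (1 + X / √(H * max 1 K0) + X ^ (3 / 2 : ℝ) / H + X ^ 4 / H ^ 3
            + N q ^ 2 * K0 ^ (3 / 2 : ℝ) * X ^ 2 / H ^ (3 / 2 : ℝ)) := by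
  obtain ⟨δ, hδ, hδ', hδe⟩ : ∃ δ : ℝ, 0 < δ ∧ δ ≤ 1 / 2 ∧ δ * 8 ≤ e :=
    ⟨min (1 / 2) (e / 8), lt_min (by norm_num) (by positivity), min_le_left _ _, by
      linarith [min_le_right (1 / 2) (e / 8)]⟩
  obtain ⟨C1, A, hC1, h1⟩ := cs_core T hδ hδ'
  obtain ⟨J, hJ⟩ := exists_nat_ge (2 / δ)
  obtain ⟨C2, hC2, h2⟩ := lemP2 (F := F) hδ hδ' A (J + 2) (by omega)
  obtain ⟨C3, hC3, h3⟩ := Tsq_triv (F := F) (1 + e) (by linarith)
  obtain ⟨C4, hC4, h4⟩ := card_ball_le (F := F)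
  obtain ⟨n, hn⟩ : ∃ n : ℝ, n = (Finset.univ : Finset (Cl F)).card := ⟨_, rfl⟩
  have hn0 : 0 ≤ n := hn ▸ Nat.cast_nonneg _
  refine ⟨C4 * C3 ^ 2 + n * (C2 * (2 + C1)), A, by positivity,
    fun q G hq hP hB X H K0 τ hR hH hK0 => ?_⟩
  have hH0 : 0 < H := by linarith
  have hq0 := N_nonneg q
  have ht : 1 ≤ (1 + |τ|) ^ A := one_le_pow₀ (by linarith [abs_nonneg τ])
  have hm : 0 < max 1 K0 := lt_max_of_lt_left one_pos
  obtain ⟨Br, hBr⟩ : ∃ Br, Br = X / √(H * max 1 K0) + X ^ (3 / 2 : ℝ) / H + X ^ 4 / H ^ 3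
      + N q ^ 2 * K0 ^ (3 / 2 : ℝ) * X ^ 2 / H ^ (3 / 2 : ℝ) := ⟨_, rfl⟩
  have hBr0 : 0 ≤ Br := by rw [hBr]; positivity
  have hp : 0 < X ^ (1 + e) := Real.rpow_pos_of_pos hR _
  rw [show 1 + X / √(H * max 1 K0) + X ^ (3 / 2 : ℝ) / H + X ^ 4 / H ^ 3
      + N q ^ 2 * K0 ^ (3 / 2 : ℝ) * X ^ 2 / H ^ (3 / 2 : ℝ) = 1 + Br by rw [hBr]; ring]
  have hM : 0 ≤ (1 + |τ|) ^ A * H * X ^ (1 + e) * (1 + Br) := by positivity
  by_cases hR1 : X ≤ 1
  · have p : ∀ h ∈ (ball F H).filter P0, ‖Tsq false (fun c => G c * quad c h) X τ‖ ^ 2 ≤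
        C3 ^ 2 * X ^ (1 + e) := by
      intro h _
      have k := h3 false (fun c => G c * quad c h) (fun c => by
        rw [norm_mul]; exact mul_le_one₀ (hB c) (norm_nonneg _) (norm_quad_le _ _)) X τ hR
      rw [if_pos hR1] at k
      have k2 : X ^ (1 + e) ≤ 1 := Real.rpow_le_one hR.le hR1 (by linarith)
      refine (pow_le_pow_left₀ (norm_nonneg _) k 2).trans ?_
      rw [mul_pow]
      exact mul_le_mul_of_nonneg_left (by nlinarith) (sq_nonneg _)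
    refine (Finset.sum_le_card_nsmul _ _ _ p).trans ?_
    rw [nsmul_eq_mul]
    have hcard : (((ball F H).filter P0).card : ℝ) ≤ C4 * H :=
      le_trans (by exact_mod_cast Finset.card_filter_le _ _) (h4 _ hH0.le)
    refine (mul_le_mul_of_nonneg_right hcard (by positivity)).trans ?_
    have q1 : H * X ^ (1 + e) ≤ (1 + |τ|) ^ A * H * X ^ (1 + e) * (1 + Br) := by
      rw [mul_assoc _ H]
      exact (le_mul_of_one_le_left (by positivity) ht).trans
        (le_mul_of_one_le_right (by positivity) (by linarith))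
    have q2 := mul_le_mul_of_nonneg_left q1 (by positivity : 0 ≤ C4 * C3 ^ 2)
    have q3 := mul_nonneg (by positivity : 0 ≤ n * (C2 * (2 + C1))) hM
    nlinarith
  have hR1' : 1 ≤ X := (not_le.1 hR1).le
  have hL : 1 ≤ X ^ δ := Real.one_le_rpow hR1' hδ.le
  have p : ∀ i ∈ (Finset.univ : Finset (Cl F)),
      QQ 0 (fun c => alph false c * G c * B2 (c : F) (rep i) * W X τ c) H ≤
      C2 * (2 + C1) * ((1 + |τ|) ^ A * H * X ^ (1 + e) * (1 + Br)) := by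
    intro i _
    have k := h2 0 0 (by simp) (fun c => alph false c * G c * B2 (c : F) (rep i))
      (fun c hc => alph_ne_zero (left_ne_zero_of_mul (left_ne_zero_of_mul hc)))
      (fun c => by
        rw [norm_mul, norm_mul, norm_B2, mul_one]
        exact mul_le_one₀ (norm_alph_le _ _) (norm_nonneg _) (hB c))
      X H (X ^ δ) τ (C1 * ((X ^ δ) ^ 6 * X ^ 2 * Br)) hR hH0 (by linarith) (by positivity)
      (fun i' X' t' hR2 hR3 => by
        have hR' : 0 < X' := by linarith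
        have e1 : (fun c => alph false c * G c * B2 (c : F) (rep i) * clsI i' c * Gt 0 c *
            W X' t' c) = fun c =>
            alph false c * (G c * B2 (c : F) (rep i) * clsI i' c * Gam c) * W X' t' c := by
          funext c
          by_cases hc : alph false c = 0
          · simp [hc]
          · rw [Gt_zero (alph_ne_zero hc).2]; ring
        have k1 := h1 q (fun c => G c * B2 (c : F) (rep i) * clsI i' c * Gam c) hq
          (((hP.mul (per_B2_left q _)).mul (per_clsI q i')).mul (per_Gam q))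
          (fun c => by
            rw [norm_mul, norm_mul, norm_mul, norm_B2, mul_one]
            exact mul_le_one₀ (mul_le_one₀ (hB c) (norm_nonneg _) (norm_clsI_le _ _))
              (norm_nonneg _) (norm_Gam_le _))
          X' (X ^ δ * X ^ 2 / H) K0 t' hR' (by positivity) hK0
        rw [e1]
        refine k1.trans ((mul_le_mul_of_nonneg_left
          (cs_num hδ hδ' hR1' hR' hR3 hH hK0) (by positivity)).trans_eq ?_)
        rw [← hBr]
        ring)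
    refine k.trans ?_
    have b1 : (X ^ 2 / H) ^ δ ≤ (X ^ δ) ^ 2 := by
      rw [← Real.rpow_natCast (X ^ δ), ← Real.rpow_mul hR.le, mul_comm δ, Real.rpow_mul hR.le,
        Real.rpow_natCast]
      exact Real.rpow_le_rpow (by positivity) (div_le_self (by positivity) hH) hδ.le
    have b2 : X ^ 3 * (X ^ δ) ^ (1 - ((J + 2 : ℕ) : ℝ)) ≤ X := by
      rw [← Real.rpow_mul hR.le, ← Real.rpow_natCast, ← Real.rpow_add hR]
      refine (Real.rpow_le_rpow_of_exponent_le hR1' ?_).trans (Real.rpow_one X).le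
      rw [div_le_iff₀ hδ] at hJ
      push_cast
      nlinarith
    have b3 : X * (X ^ δ) ^ 8 ≤ X ^ (1 + e) := by
      rw [Real.rpow_add hR, Real.rpow_one, ← Real.rpow_natCast, ← Real.rpow_mul hR.le]
      exact mul_le_mul_of_nonneg_left
        (Real.rpow_le_rpow_of_exponent_le hR1' (by exact_mod_cast hδe)) hR.le
    have b4 : X ≤ X ^ (1 + e) := (le_mul_of_one_le_right hR.le (one_le_pow₀ hL)).trans b3
    generalize (X ^ δ) ^ (1 - ((J + 2 : ℕ) : ℝ)) = y at b2 ⊢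
    generalize (X ^ 2 / H) ^ δ = x at b1 ⊢
    generalize X ^ δ = L at *
    generalize X ^ (1 + e) = Z at *
    have b5 : H / X * x * (C1 * (L ^ 6 * X ^ 2 * Br)) ≤ C1 * (H * Z * Br) := by
      calc _ ≤ H / X * L ^ 2 * (C1 * (L ^ 6 * X ^ 2 * Br)) := by gcongr
        _ = C1 * (H * (X * L ^ 8) * Br) := by field_simp
        _ ≤ _ := by gcongr
    have b6 : H * X ≤ H * Z := mul_le_mul_of_nonneg_left b4 hH0.le
    have b7 : X ≤ H * X := le_mul_of_one_le_left hR.le hH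
    have b8 : H * X + H / X * x * (C1 * (L ^ 6 * X ^ 2 * Br)) + X ^ 3 * y ≤
        (2 + C1) * (H * Z * (1 + Br)) := by
      have r1 : 0 ≤ H * Z * Br := by positivity
      have r2 : 0 ≤ C1 * (H * Z) := by positivity
      nlinarith
    calc _ ≤ C2 * (1 + |τ|) ^ A * ((2 + C1) * (H * Z * (1 + Br))) :=
          mul_le_mul_of_nonneg_left b8 (by positivity)
      _ = _ := by ring
  refine (cs_red G X H τ).trans ((Finset.sum_le_card_nsmul _ _ _ p).trans ?_)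
  rw [nsmul_eq_mul, ← hn]
  have q3 := mul_nonneg (by positivity : 0 ≤ C4 * C3 ^ 2) hM
  nlinarith

end Vale.Agent.P319B
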