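import Vale.Agent.P319B.LatA

/-! Lattices, fundamental domains, covolumes, unfolding. -/

namespace Vale.Agent.P319B

open Complex NumberField MeasureTheory
open scoped Classical ComplexConjugate
open Vale.Agent.P026 (w kk fk)

variable {F : Type} [Field F] [NumberField F] [Om F]

omit [Om F] in
theorem mem_latO {x : F} : x ∈ latO F ↔ IsIntegral ℤ x := Iff.rfl
omit [Om F] in
theorem mem_dualL {L : AddSubgroup F} {h : F} :
    h ∈ dualL L ↔ ∀ x ∈ L, eT (h * x) = 1 := by
  simp only [eT_eq_one_iff]; rfl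
omit [Om F] in
theorem isLat_latO : IsLat (latO F) := by
  rw [lta_iff]
  have h : AddSubgroup.toIntSubmodule (latO F) =
      Submodule.span ℤ (Set.range (integralBasis F)) := by
    ext x
    rw [mem_span_integralBasis]
    constructor
    · intro hx; exact ⟨⟨x, hx⟩, rfl⟩
    · rintro ⟨y, rfl⟩; exact y.isIntegral_coe
  rw [h]
  exact ⟨Submodule.fg_span (Set.finite_range _), by simp [Submodule.span_span_of_tower]⟩
omit [Om F] in
/-- A subgroup squeezed between two multiples of a lattice is a lattice. -/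
theorem IsLat.of_squeeze {L L' : AddSubgroup F} (hL : IsLat L) {m : ℕ} (hm : m ≠ 0)
    (h1 : ∀ x ∈ L, (m : F) * x ∈ L') (h2 : ∀ x ∈ L', (m : F) * x ∈ L) : IsLat L' :=
  lta_squeeze hL (Nat.cast_ne_zero.2 hm) (Nat.cast_ne_zero.2 hm) h1 h2
omit [Om F] in
theorem IsLat.exists_mul {L L' : AddSubgroup F} (hL : IsLat L) (hL' : IsLat L') :
    ∃ m : ℕ, m ≠ 0 ∧ ∀ x ∈ L, (m : F) * x ∈ L' := lta_exists_mul hL hL'
omit [Om F] in
theorem IsLat.dual {L : AddSubgroup F} (hL : IsLat L) : IsLat (dualL L) := by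
  obtain ⟨b, hb⟩ := hL
  exact ⟨b.traceDual, lta_dual b hb⟩
omit [Om F] in
theorem IsLat.dual_dual {L : AddSubgroup F} (hL : IsLat L) : dualL (dualL L) = L := by
  obtain ⟨b, hb⟩ := hL
  ext x
  rw [lta_dual b.traceDual (lta_dual b hb), Module.Basis.traceDual_traceDual, hb]
omit [Om F] in
theorem IsLat.smul {L L' : AddSubgroup F} (hL : IsLat L) {c : F} (hc : c ≠ 0)
    (h : ∀ x, x ∈ L' ↔ x / c ∈ L) : IsLat L' :=
  lta_squeeze hL hc (inv_ne_zero hc)
    (fun x hx => by rw [h, mul_div_cancel_left₀ _ hc]; exact hx)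
    (fun x hx => by rw [h] at hx; rw [← div_eq_inv_mul]; exact hx)
omit [Om F] in
theorem IsLat.relIndex_ne {L L' : AddSubgroup F} (hL : IsLat L) (hL' : IsLat L') :
    L'.relIndex L ≠ 0 := lta_relIndex hL hL'
omit [Om F] in
theorem IsLat.countable {L : AddSubgroup F} : Countable L := by
  have : Countable F := (Module.finBasis ℚ F).equivFun.injective.countable
  infer_instance
omit [Om F] in
theorem discr_mul_dual {h : F} (hh : h ∈ dualL (latO F)) :
    IsIntegral ℤ (((NumberField.discr F : ℤ) : F) * h) := lta_discr hh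

theorem measurableSet_FD (L : AddSubgroup F) : MeasurableSet (FD L) := by
  by_cases hL : IsLat L
  · rw [lta_FD hL]; exact ZSpan.fundamentalDomain_measurableSet _
  · unfold FD; rw [dif_neg hL]; exact MeasurableSet.empty
theorem isBounded_FD (L : AddSubgroup F) : Bornology.IsBounded (FD L) := by
  by_cases hL : IsLat L
  · rw [lta_FD hL]; exact ZSpan.fundamentalDomain_isBounded _
  · unfold FD; rw [dif_neg hL]; exact Bornology.isBounded_empty
theorem existsUnique_FD {L : AddSubgroup F} (hL : IsLat L) (z : Io F → ℂ) :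
    ∃! y : L, z + emb (y : F) ∈ FD L := by
  obtain ⟨e, he⟩ := lta_equiv hL.choose hL.choose_spec
  obtain ⟨v, hv, hu⟩ := ZSpan.exist_unique_vadd_mem_fundamentalDomain (ltaB hL.choose) z
  rw [lta_FD hL]
  refine ⟨e.symm v, ?_, fun y hy => ?_⟩
  · beta_reduce
    rw [← he, Equiv.apply_symm_apply, add_comm]; exact hv
  · rw [Equiv.eq_symm_apply]
    refine hu (e y) ?_
    beta_reduce at hy
    rw [← he, add_comm] at hy; exact hy
theorem cov_pos {L : AddSubgroup F} (hL : IsLat L) : 0 < cov L := by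
  refine ENNReal.toReal_pos ?_ (isBounded_FD L).measure_lt_top.ne
  rw [lta_FD hL]; exact ZSpan.measure_fundamentalDomain_ne_zero _
theorem volume_FD (L : AddSubgroup F) : volume (FD L) = ENNReal.ofReal (cov L) :=
  (ENNReal.ofReal_toReal (isBounded_FD L).measure_lt_top.ne).symm
theorem lintegral_FD {L : AddSubgroup F} (hL : IsLat L) {f : (Io F → ℂ) → ENNReal}
    (hf : Measurable f) : ∫⁻ z, f z = ∑' y : L, ∫⁻ z in FD L, f (z + emb (y : F)) := by
  obtain ⟨e, he⟩ := lta_equiv hL.choose hL.choose_spec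
  have : Countable L := IsLat.countable
  have : Countable (Submodule.span ℤ (Set.range (ltaB hL.choose))).toAddSubgroup :=
    Countable.of_equiv _ e
  have h := (ZSpan.isAddFundamentalDomain' (ltaB hL.choose) volume).lintegral_eq_tsum'' f
  rw [h, lta_FD hL, ← e.tsum_eq]
  refine tsum_congr fun y => ?_
  simp only [← he, add_comm _ ((e y : _) : Io F → ℂ)]
  rfl
theorem integral_FD {L : AddSubgroup F} (hL : IsLat L) {f : (Io F → ℂ) → ℂ} (hf : Integrable f) :
    HasSum (fun y : L => ∫ z in FD L, f (z + emb (y : F))) (∫ z, f z) := by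
  obtain ⟨e, he⟩ := lta_equiv hL.choose hL.choose_spec
  have : Countable L := IsLat.countable
  have : Countable (Submodule.span ℤ (Set.range (ltaB hL.choose))).toAddSubgroup :=
    Countable.of_equiv _ e
  have h := (ZSpan.isAddFundamentalDomain' (ltaB hL.choose) volume).sum_restrict
  have h1 := hasSum_integral_measure (f := f) (by rw [h]; exact hf)
  rw [h, ← e.hasSum_iff] at h1
  rw [lta_FD hL]
  refine (congrArg (fun g => HasSum g (∫ z, f z)) ?_).mp h1
  funext y
  have h2 := (measurePreserving_vadd (e y) (volume : Measure (Io F → ℂ))).setIntegral_image_emb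
    (measurableEmbedding_const_vadd (e y)) f (ZSpan.fundamentalDomain (ltaB hL.choose))
  simp only [← he, add_comm _ ((e y : _) : Io F → ℂ)]
  exact h2
theorem integral_eA {L : AddSubgroup F} (hL : IsLat L) {h : F} (hh : h ∈ dualL L) :
    ∫ z in FD L, eA (emb h) z = if h = 0 then (cov L : ℂ) else 0 := by
  split_ifs with h0
  · subst h0
    simp only [emb_zero, eA_comm 0, eA_zero, integral_const, MeasurableSet.univ,
      measureReal_restrict_apply, Set.univ_inter, real_smul, mul_one]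
    rfl
  obtain ⟨e, he⟩ := lta_equiv hL.choose hL.choose_spec
  have : Countable L := IsLat.countable
  have : Countable (Submodule.span ℤ (Set.range (ltaB hL.choose))).toAddSubgroup :=
    Countable.of_equiv _ e
  obtain ⟨v⟩ : Nonempty (Io F) := Fintype.card_pos_iff.1 (rr_pos (F := F))
  have hv : v.1 h ≠ 0 := (map_ne_zero v.1).2 h0
  let t : Io F → ℂ := Pi.single v (1 / 4 / v.1 h)
  have ht : eA (emb h) t = -1 := by
    have h1 : (∑ u, 2 * (emb h u * t u).re : ℝ) = 1 / 2 := by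
      rw [Finset.sum_eq_single v]
      · have : emb h v * t v = ((1 / 4 : ℝ) : ℂ) := by
          simp only [t, emb, Pi.single_eq_same]; field_simp; push_cast; ring
        rw [this, ofReal_re]; norm_num
      · intro u _ hu; simp [t, Pi.single_eq_of_ne hu]
      · simp
    rw [eA, h1, ← exp_pi_mul_I]
    congr 1; push_cast; ring
  have hF := ZSpan.isAddFundamentalDomain' (ltaB hL.choose) (volume : Measure (Io F → ℂ))
  have h2 := hF.setIntegral_eq (hF.vadd_of_comm t) (f := fun z => eA (emb h) z) (fun g x => by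
    obtain ⟨y, rfl⟩ := e.surjective g
    change eA (emb h) ((e y : Io F → ℂ) + x) = _
    rw [he, eA_add, ← eT_eq_eA, mem_dualL.1 hh y y.2, one_mul])
  have h3 := (measurePreserving_vadd t (volume : Measure (Io F → ℂ))).setIntegral_image_emb
    (measurableEmbedding_const_vadd t) (fun z => eA (emb h) z)
    (ZSpan.fundamentalDomain (ltaB hL.choose))
  have h4 := h2.trans h3
  simp only [vadd_eq_add, eA_add, ht, neg_mul, one_mul, integral_neg] at h4
  rw [lta_FD hL]
  linear_combination h4 / 2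
theorem cov_le {L L' : AddSubgroup F} (hL : IsLat L) (hL' : IsLat L') (h : L' ≤ L) :
    cov L' = (L'.relIndex L : ℝ) * cov L := by
  obtain ⟨b, hb⟩ := hL
  obtain ⟨b', hb'⟩ := hL'
  rw [lta_cov b hb, lta_cov b' hb', lta_idx h b b' hb hb']
theorem cov_smul {L L' : AddSubgroup F} (hL : IsLat L) {c : F} (hc : c ≠ 0)
    (h : ∀ x, x ∈ L' ↔ x / c ∈ L) : cov L' = Nin c * cov L := by
  obtain ⟨b, hb⟩ := hL
  let e : F ≃ₗ[ℚ] F := LinearEquiv.ofBijective (Algebra.lmul ℚ F c)
    ⟨mul_right_injective₀ hc, fun y => ⟨y / c, by simp [mul_div_cancel₀ _ hc]⟩⟩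
  have he : ∀ x, e x = c * x := fun x => rfl
  have hb' : ∀ x, x ∈ L' ↔ x ∈ Submodule.span ℤ (Set.range (b.map e)) := fun x => by
    rw [h, hb, lta_coord, lta_coord]
    have : e.symm x = x / c := by
      rw [LinearEquiv.symm_apply_eq, he, mul_div_cancel₀ _ hc]
    simp only [Module.Basis.map_repr, LinearEquiv.trans_apply, this]
  rw [lta_cov b hb, lta_cov _ hb',
    ZSpan.measureReal_fundamentalDomain (ltaB (b.map e)) volume (ltaB b), ltaB_det, Nin_eq,
    Module.Basis.coe_map, Algebra.norm_apply]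
  have h1 := b.det_comp (Algebra.lmul ℚ F c) b
  rw [Module.Basis.det_self, mul_one] at h1
  rw [← h1]; rfl
/-- Lattice points in a ball. -/
theorem card_lat_le {L : AddSubgroup F} (hL : IsLat L) : ∃ C : ℝ, 0 < C ∧
    ∀ (z : Io F → ℂ) (ρ : ℝ), 0 ≤ ρ → ∀ s : Finset F, (∀ x ∈ s, x ∈ L ∧ ‖z + emb x‖ ≤ ρ) →
      (s.card : ℝ) ≤ C * (1 + ρ) ^ dg F := by
  obtain ⟨b, hb⟩ := hL
  set B := ltaB b with hB
  obtain ⟨K, hK0, hK⟩ : ∃ K : ℝ, 0 < K ∧ ∀ (x : Io F → ℂ) (i : Fin (dg F)),
      |B.repr x i| ≤ K * ‖x‖ := by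
    refine ⟨‖(B.equivFunL : (Io F → ℂ) →L[ℝ] (Fin (dg F) → ℝ))‖ + 1, by positivity, fun x i => ?_⟩
    have h1 := (B.equivFunL : (Io F → ℂ) →L[ℝ] (Fin (dg F) → ℝ)).le_opNorm x
    have h2 := norm_le_pi_norm ((B.equivFunL : (Io F → ℂ) →L[ℝ] (Fin (dg F) → ℝ)) x) i
    have h3 : |B.repr x i| = ‖(B.equivFunL : (Io F → ℂ) →L[ℝ] (Fin (dg F) → ℝ)) x i‖ := rfl
    nlinarith [norm_nonneg x]
  refine ⟨(2 * K + 1) ^ dg F, by positivity, fun z ρ hρ s hs => ?_⟩
  let T : Finset (Fin (dg F) → ℤ) := Fintype.piFinset fun i =>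
    Finset.Icc ⌈-B.repr z i - K * ρ⌉ ⌊-B.repr z i + K * ρ⌋
  have hint : ∀ x ∈ s, ∀ i, ((⌊b.repr x i⌋ : ℤ) : ℚ) = b.repr x i := fun x hx i => by
    obtain ⟨k, hk⟩ := (lta_coord b x).1 ((hb x).1 (hs x hx).1) i
    rw [hk, Int.floor_intCast]
  have h1 : s.card ≤ T.card := by
    refine Finset.card_le_card_of_injOn (fun x i => ⌊b.repr x i⌋) (fun x hx => ?_) ?_
    · simp only [T, Finset.mem_coe, Fintype.mem_piFinset, Finset.mem_Icc]
      intro i
      have h2 := hK (z + emb x) i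
      have h3 : ((⌊b.repr x i⌋ : ℤ) : ℝ) = (b.repr x i : ℝ) := by exact_mod_cast hint x hx i
      rw [map_add, Finsupp.add_apply, hB, ltaB_repr, ← hB, ← h3] at h2
      have h4 := mul_le_mul_of_nonneg_left (hs x hx).2 hK0.le
      rw [abs_le] at h2
      exact ⟨Int.ceil_le.2 (by linarith [h2.1]), Int.le_floor.2 (by linarith [h2.2])⟩
    · intro x hx y hy hxy
      refine b.ext_elem fun i => ?_
      rw [← hint x hx i, ← hint y hy i]
      exact congrArg _ (congrFun hxy i)
  have h2 : (T.card : ℝ) ≤ ((2 * K + 1) * (1 + ρ)) ^ dg F := by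
    simp only [T, Fintype.card_piFinset, Nat.cast_prod]
    refine (Finset.prod_le_prod (g := fun _ => (2 * K + 1) * (1 + ρ))
      (fun i _ => Nat.cast_nonneg _) fun i _ => ?_).trans (by simp)
    rw [Int.card_Icc]
    have h3 := Int.le_ceil (-B.repr z i - K * ρ)
    have h4 := Int.floor_le (-B.repr z i + K * ρ)
    have h5 : 0 ≤ K * ρ := by positivity
    rcases le_total (⌊-B.repr z i + K * ρ⌋ + 1 - ⌈-B.repr z i - K * ρ⌉) 0 with h | h
    · rw [Int.toNat_of_nonpos h, Nat.cast_zero]; positivity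
    · have h6 : (((⌊-B.repr z i + K * ρ⌋ + 1 - ⌈-B.repr z i - K * ρ⌉).toNat : ℕ) : ℝ) =
          (⌊-B.repr z i + K * ρ⌋ : ℝ) + 1 - (⌈-B.repr z i - K * ρ⌉ : ℝ) := by
        exact_mod_cast Int.toNat_of_nonneg h
      rw [h6]; nlinarith
  rw [← mul_pow]
  exact (Nat.cast_le.2 h1).trans h2
theorem summable_lat_rpow {L : AddSubgroup F} (hL : IsLat L) {s : ℝ} (hs : (dg F : ℝ) < s) :
    Summable (fun x : L => (1 + ‖emb (x : F)‖) ^ (-s)) := by
  obtain ⟨b, hb⟩ := hL
  obtain ⟨e, he⟩ := lta_equiv b hb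
  have hr : Module.finrank ℤ (Submodule.span ℤ (Set.range (ltaB b))) = dg F := by
    rw [ZLattice.rank ℝ, lta_finrank]
  have h1 := ZLattice.summable_norm_rpow (Submodule.span ℤ (Set.range (ltaB b))) (-s)
    (by rw [hr]; linarith)
  have h2 : Summable (fun x : L => ‖emb (x : F)‖ ^ (-s)) := by
    simp only [← he]
    exact e.summable_iff.2 h1
  refine Summable.of_norm_bounded_eventually h2 ?_
  refine (Set.finite_singleton (0 : L)).subset fun x hx => ?_
  by_contra h0
  apply hx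
  have h3 : 0 < ‖emb (x : F)‖ := by
    rw [norm_pos_iff, ← emb_zero]
    exact fun h => h0 (Subtype.ext (emb_inj h))
  have h4 : (0 : ℝ) ≤ dg F := Nat.cast_nonneg _
  change ‖(1 + ‖emb (x : F)‖) ^ (-s)‖ ≤ _
  rw [Real.norm_of_nonneg (by positivity)]
  exact Real.rpow_le_rpow_of_nonpos h3 (by linarith) (by linarith)
theorem summable_lat_gauss {L : AddSubgroup F} (hL : IsLat L) {a : ℝ} (ha : 0 < a) (k : ℕ) :
    Summable (fun x : L =>
      (1 + ‖emb (x : F)‖) ^ k * Real.exp (-(a * ∑ v, sqv (x : F) v))) := by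
  have h1 := (summable_lat_rpow hL (s := ((dg F + 1 : ℕ) : ℝ)) (by push_cast; linarith)).mul_left
    (Real.exp (((k + (dg F + 1) : ℕ) : ℝ) ^ 2 / (4 * a)))
  refine Summable.of_nonneg_of_le (fun x => by positivity) (fun x => ?_) h1
  set t := ‖emb (x : F)‖ with ht
  have ht0 : 0 ≤ t := norm_nonneg _
  set S := ∑ v, sqv (x : F) v with hS
  have hS0 : 0 ≤ S := Finset.sum_nonneg fun v _ => sqv_nonneg _ v
  have h2 : t ^ 2 ≤ S := by
    have : t ≤ √S := by
      refine (pi_norm_le_iff_of_nonneg (Real.sqrt_nonneg _)).2 fun v => ?_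
      refine Real.le_sqrt_of_sq_le ?_
      have := Finset.single_le_sum (f := fun v => sqv (x : F) v)
        (fun v _ => sqv_nonneg _ v) (Finset.mem_univ v)
      rw [sqv_eq] at this
      exact this
    calc t ^ 2 ≤ √S ^ 2 := by gcongr
      _ = S := Real.sq_sqrt hS0
  set m : ℕ := k + (dg F + 1) with hm
  have h3 : (1 + t) ^ m ≤ Real.exp (m * t) := by
    rw [Real.exp_nat_mul]
    have := Real.add_one_le_exp t
    gcongr; linarith
  have h4 : (m : ℝ) * t + -(a * S) ≤ (m : ℝ) ^ 2 / (4 * a) := by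
    rw [le_div_iff₀ (by positivity)]
    nlinarith [sq_nonneg ((m : ℝ) - 2 * a * t), mul_le_mul_of_nonneg_left h2 (sq_nonneg a)]
  rw [Real.rpow_neg (by positivity), Real.rpow_natCast, ← div_eq_mul_inv,
    le_div_iff₀ (by positivity)]
  calc (1 + t) ^ k * Real.exp (-(a * S)) * (1 + t) ^ (dg F + 1)
      = (1 + t) ^ m * Real.exp (-(a * S)) := by rw [hm, pow_add]; ring
    _ ≤ Real.exp (m * t) * Real.exp (-(a * S)) := by gcongr
    _ ≤ _ := by rw [← Real.exp_add]; exact Real.exp_le_exp.2 h4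

omit [Om F] in
/-- qsum is a finite sum over any complete system of representatives of the support. -/
theorem qsum_eq_sum {L : AddSubgroup F} {f : F → ℂ} (hf : ∀ x y, x - y ∈ L → f x = f y)
    (s : Finset F) (h1 : ∀ x ∈ s, ∀ y ∈ s, x - y ∈ L → x = y)
    (h2 : ∀ x, f x ≠ 0 → ∃ y ∈ s, x - y ∈ L) : qsum L f = ∑ x ∈ s, f x := by
  have hout : ∀ x : F, ((x : F ⧸ L)).out - x ∈ L := fun x => by
    rw [← QuotientAddGroup.eq_iff_sub_mem, QuotientAddGroup.out_eq']
  unfold qsum
  rw [tsum_eq_sum (s := s.image (fun x : F => (x : F ⧸ L))), Finset.sum_image]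
  · exact Finset.sum_congr rfl fun x _ => hf _ _ (hout x)
  · intro x hx y hy hxy
    exact h1 x hx y hy (QuotientAddGroup.eq_iff_sub_mem.1 hxy)
  · intro q hq
    by_contra h0
    obtain ⟨y, hy, hy'⟩ := h2 _ h0
    refine hq (Finset.mem_image.2 ⟨y, hy, ?_⟩)
    rw [← QuotientAddGroup.eq_iff_sub_mem.2 hy', QuotientAddGroup.out_eq']
omit [Om F] in
/-- Representatives of L modulo a subgroup of finite index. -/
theorem exists_reps {L L' : AddSubgroup F} (h : L'.relIndex L ≠ 0) : ∃ s : Finset F,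
    s.card = L'.relIndex L ∧ (∀ x ∈ s, x ∈ L) ∧ (∀ x ∈ s, ∀ y ∈ s, x - y ∈ L' → x = y) ∧
      ∀ x ∈ L, ∃ y ∈ s, x - y ∈ L' := by
  have : Finite (L ⧸ L'.addSubgroupOf L) := Nat.finite_of_card_ne_zero h
  have := Fintype.ofFinite (L ⧸ L'.addSubgroupOf L)
  have hinj : Function.Injective (fun q : L ⧸ L'.addSubgroupOf L => ((q.out : L) : F)) :=
    Subtype.val_injective.comp Quotient.out_injective
  refine ⟨Finset.univ.image (fun q : L ⧸ L'.addSubgroupOf L => ((q.out : L) : F)), ?_, ?_, ?_, ?_⟩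
  · rw [Finset.card_image_of_injective _ hinj, Finset.card_univ, ← Nat.card_eq_fintype_card]
    rfl
  · intro x hx
    obtain ⟨q, -, rfl⟩ := Finset.mem_image.1 hx
    exact q.out.2
  · intro x hx y hy hxy
    obtain ⟨q, -, rfl⟩ := Finset.mem_image.1 hx
    obtain ⟨q', -, rfl⟩ := Finset.mem_image.1 hy
    have : ((q.out : L) : L ⧸ L'.addSubgroupOf L) = (q'.out : L) :=
      QuotientAddGroup.eq_iff_sub_mem.2 (AddSubgroup.mem_addSubgroupOf.2 hxy)
    rw [QuotientAddGroup.out_eq', QuotientAddGroup.out_eq'] at this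
    rw [this]
  · intro x hx
    refine ⟨_, Finset.mem_image_of_mem _
      (Finset.mem_univ ((⟨x, hx⟩ : L) : L ⧸ L'.addSubgroupOf L)), ?_⟩
    have : ((⟨x, hx⟩ : L) : L ⧸ L'.addSubgroupOf L) =
        ((((⟨x, hx⟩ : L) : L ⧸ L'.addSubgroupOf L)).out : L) := (QuotientAddGroup.out_eq' _).symm
    exact AddSubgroup.mem_addSubgroupOf.1 (QuotientAddGroup.eq_iff_sub_mem.1 this)
omit [Om F] in
theorem qsum_shift {L : AddSubgroup F} {f : F → ℂ} (hf : ∀ x y, x - y ∈ L → f x = f y) (a : F) :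
    qsum L (fun x => f (a + x)) = qsum L f := by
  unfold qsum
  rw [← (Equiv.addLeft (a : F ⧸ L)).tsum_eq (fun z : F ⧸ L => f z.out)]
  refine tsum_congr fun q => hf _ _ ?_
  rw [← QuotientAddGroup.eq_iff_sub_mem, QuotientAddGroup.out_eq', QuotientAddGroup.mk_add,
    QuotientAddGroup.out_eq', Equiv.coe_addLeft]
omit [Om F] in
theorem qsum_scale {L L' : AddSubgroup F} {f : F → ℂ} (hf : ∀ x y, x - y ∈ L → f x = f y) {c : F}
    (hc : c ≠ 0) (h : ∀ x, x ∈ L' ↔ c * x ∈ L) : qsum L' (fun x => f (c * x)) = qsum L f := by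
  unfold qsum
  let g : F ⧸ L' → F ⧸ L := fun q => ((c * q.out : F) : F ⧸ L)
  have hg : Function.Bijective g := by
    constructor
    · intro q q' hq
      have h1 := QuotientAddGroup.eq_iff_sub_mem.1 hq
      rw [← mul_sub, ← h, ← QuotientAddGroup.eq_iff_sub_mem, QuotientAddGroup.out_eq',
        QuotientAddGroup.out_eq'] at h1
      exact h1
    · intro q
      obtain ⟨x, rfl⟩ := QuotientAddGroup.mk_surjective q
      refine ⟨((x / c : F) : F ⧸ L'), QuotientAddGroup.eq_iff_sub_mem.2 ?_⟩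
      have h1 : (((x / c : F) : F ⧸ L')).out - x / c ∈ L' := by
        rw [← QuotientAddGroup.eq_iff_sub_mem, QuotientAddGroup.out_eq']
      rw [h, mul_sub, mul_div_cancel₀ _ hc] at h1
      exact h1
  rw [← (Equiv.ofBijective g hg).tsum_eq (fun z : F ⧸ L => f z.out)]
  refine tsum_congr fun q => hf _ _ ?_
  rw [← QuotientAddGroup.eq_iff_sub_mem, QuotientAddGroup.out_eq']
  rfl
omit [Om F] in
theorem qsum_const_mul (L : AddSubgroup F) (z : ℂ) (f : F → ℂ) :
    qsum L (fun x => z * f x) = z * qsum L f := tsum_mul_left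

end Vale.Agent.P319B
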