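import Vale.Agent.P319B.Resid
import Vale.Agent.P319B.Lat

/-! The lattices lat c y, their duals and local sums. -/

namespace Vale.Agent.P319B

open Complex NumberField
open scoped Classical ComplexConjugate
open Vale.Agent.P026 (w kk fk)

variable {F : Type} [Field F] [NumberField F] [Ctx0 F]

theorem mem_locL {y x : F} : x ∈ locL y ↔ x / y ∈ Ol F := by
  rw [div_eq_mul_inv]
  rfl
theorem mem_lat {c y x : F} : x ∈ lat c y ↔ x / c ∈ Rr F (Ctx0.M F) ∧ x / y ∈ Ol F := by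
  rw [div_eq_mul_inv, div_eq_mul_inv]
  rfl
theorem mem_Lb {b : ℕ} {x : F} : x ∈ Lb F b ↔ x ∈ Rr F (Ctx0.M F) ∧ Lo b x := by
  rw [Lb, mem_lat, div_one]
  rfl
theorem lat_one_one : lat (1 : F) 1 = latO F := by
  ext x
  rw [mem_lat, div_one, mem_latO]
  exact ⟨fun h => int_of_mem h.1 h.2, fun h => ⟨int_mem_R h, int_mem_Ol h⟩⟩
theorem loc_den (z : F) : ∃ m : ℕ, m ≠ 0 ∧ IsIntegral ℤ ((m : F) * z) := by
  obtain ⟨m, k, h1, h2⟩ := ring_key z
  refine ⟨m * Ctx0.M F ^ k, mul_ne_zero (fun h => ring_ne (F := F) h1 (by simp [h]))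
    (pow_ne_zero _ Ctx0.M_ne), ?_⟩
  rw [Nat.cast_mul, Nat.cast_pow, mul_assoc]
  exact h2
theorem isLat_lat {c y : F} (hc : c ≠ 0) (hy : y ≠ 0) : IsLat (lat c y) := by
  obtain ⟨m1, a1, b1⟩ := loc_den c
  obtain ⟨m2, a2, b2⟩ := loc_den y
  obtain ⟨m3, a3, b3⟩ := loc_den c⁻¹
  obtain ⟨m4, a4, b4⟩ := loc_den y⁻¹
  refine isLat_latO.of_squeeze (m := m1 * m2 * m3 * m4) (by simp [*]) (fun x hx => ?_)
    fun x hx => ?_
  · rw [mem_latO] at hx
    refine mem_lat.2 ⟨int_mem_R ?_, int_mem_Ol ?_⟩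
    · have : ((m1 * m2 * m3 * m4 : ℕ) : F) * x / c = ((m1 * m2 * m4 : ℕ) : F) * (m3 * c⁻¹) * x := by
        push_cast
        ring
      rw [this]
      exact ((ring_nat _).mul b3).mul hx
    · have : ((m1 * m2 * m3 * m4 : ℕ) : F) * x / y = ((m1 * m2 * m3 : ℕ) : F) * (m4 * y⁻¹) * x := by
        push_cast
        ring
      rw [this]
      exact ((ring_nat _).mul b4).mul hx
  · rw [mem_lat] at hx
    refine mem_latO.2 (int_of_mem ?_ ?_)
    · have : ((m1 * m2 * m3 * m4 : ℕ) : F) * x = ((m2 * m3 * m4 : ℕ) : F) * (m1 * c) * (x / c) := by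
        push_cast
        field_simp
      rw [this]
      exact mul_mem (int_mem_R ((ring_nat _).mul b1)) hx.1
    · have : ((m1 * m2 * m3 * m4 : ℕ) : F) * x = ((m1 * m3 * m4 : ℕ) : F) * (m2 * y) * (x / y) := by
        push_cast
        field_simp
      rw [this]
      exact mul_mem (int_mem_Ol ((ring_nat _).mul b2)) hx.2
theorem isLat_Lb (b : ℕ) : IsLat (Lb F b) :=
  isLat_lat one_ne_zero (pow_ne_zero _ MF_ne)
theorem loc_hi {K : ℕ} {x y : F} (hx : Hi K x) (hy : Lo K y) : x * y ∈ Ol F :=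
  Lo_zero_iff.1 (hx.mul_Lo (e := 0) hy)
theorem mem_dual_lat {c y h : F} (hc : c ≠ 0) (hy : y ≠ 0) :
    h ∈ dualL (lat c y) ↔ h * c ∈ Rr F (Ctx0.M F) ∧ h * y ∈ Od F := by
  rw [mem_dualL]
  refine ⟨fun H => ⟨mem_R_iff_psiP.2 fun t => ?_, mem_Od_iff.2 fun t ht => ?_⟩, fun H x hx => ?_⟩
  · obtain ⟨m, hm, hm'⟩ := exists_mul_mem_R (h * c)
    obtain ⟨K1, h1⟩ := exists_Hi (h * c)
    obtain ⟨K2, h2⟩ := exists_Hi (c / y)
    have hm0 : ((m : ℕ) : R F) ≠ 0 := fun h0 => ring_ne (F := F) hm (by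
      simpa using congrArg (fun z : R F => (z : F)) h0)
    obtain ⟨t', ⟨s, hs⟩, ht'⟩ := exists_cong_Lo hm0 t (K1 + K2)
    have hs' : (t : F) = t' + -(m * s) := by
      have := congrArg (fun z : R F => (z : F)) hs
      simp only [AddSubgroupClass.coe_sub, Subring.coe_mul, Subring.coe_natCast] at this
      linear_combination -this
    have e1 := H (c * t') (mem_lat.2 ⟨by rw [mul_div_cancel_left₀ _ hc]; exact t'.2, by
      rw [mul_div_right_comm]; exact loc_hi h2 (ht'.mono (Nat.le_add_left _ _))⟩)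
    rw [eT_eq_mul, ← mul_assoc, psiL_of_Od (Ol_le_Od (loc_hi h1 (ht'.mono (Nat.le_add_right _ _)))),
      mul_one] at e1
    rw [hs', mul_add, psiP_add, e1, one_mul]
    refine psiP_of_mem_R ?_
    have : h * c * -((m : F) * s) = -(m * (h * c) * s) := by ring
    rw [this]
    exact neg_mem (mul_mem hm' s.2)
  · obtain ⟨m1, hm1, hm1'⟩ := exists_mul_mem_R c⁻¹
    obtain ⟨m2, hm2, hm2'⟩ := exists_mul_mem_R h
    obtain ⟨K1, h1⟩ := exists_Hi h
    obtain ⟨K2, h2⟩ := exists_Hi y⁻¹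
    have hm0 : ((m1 * m2 : ℕ) : R F) ≠ 0 := fun h0 => ring_ne (F := F) (hm1.mul_left hm2) (by
      simpa using congrArg (fun z : R F => (z : F)) h0)
    obtain ⟨x, ⟨s, hs⟩, hx⟩ := exists_approx hm0 0 (y * t) (pow_ne_zero (K1 + K2) (MF_ne (F := F)))
    have hx' : Lo (K1 + K2) ((x : F) - y * t) := hx
    have hs' : (x : F) = m1 * m2 * s := by
      simpa using congrArg (fun z : R F => (z : F)) hs
    have e1 := H x (mem_lat.2 ⟨?_, ?_⟩)
    · have e2 : psiP (h * x) = 1 := by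
        refine psiP_of_mem_R ?_
        have : h * x = m2 * h * ((m1 : R F) * s : R F) := by
          rw [hs']
          push_cast
          ring
        rw [this]
        exact mul_mem hm2' (Subtype.property _)
      rw [eT_eq_mul, e2, one_mul] at e1
      have : h * y * t = h * x + -(h * (x - y * t)) := by ring
      rw [this, psiL_add, e1, one_mul]
      exact psiL_of_Od (neg_mem (Ol_le_Od (loc_hi h1 (hx'.mono (Nat.le_add_right _ _)))))
    · have : (x : F) / c = m1 * c⁻¹ * ((m2 : R F) * s : R F) := by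
        rw [hs']
        push_cast
        ring
      rw [this]
      exact mul_mem hm1' (Subtype.property _)
    · have : (x : F) / y = y⁻¹ * (x - y * t) + t := by field_simp; ring
      rw [this]
      exact add_mem (loc_hi h2 (hx'.mono (Nat.le_add_left _ _))) ht
  · rw [mem_lat] at hx
    have e1 : h * x = h * c * (x / c) := by field_simp
    have e2 : h * x = x / y * (h * y) := by field_simp
    rw [eT_eq_mul, psiP_of_mem_R (e1 ▸ mul_mem H.1 hx.1), psiL_of_Od (e2 ▸ Od_mul hx.2 H.2), mul_one]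
theorem mem_dual_Lb {b : ℕ} {h : F} :
    h ∈ dualL (Lb F b) ↔ h ∈ Rr F (Ctx0.M F) ∧ h * MF F ^ b ∈ Od F := by
  rw [Lb, mem_dual_lat one_ne_zero (pow_ne_zero _ MF_ne), mul_one]
theorem loc_le {y z : F} (hz : z ≠ 0) (h : z / y ∈ Ol F) : locL z ≤ locL y := fun x hx => by
  rw [mem_locL] at hx ⊢
  have : x / y = x / z * (z / y) := by field_simp
  rw [this]
  exact mul_mem hx h
theorem loc_le' {c y z : F} (hz : z ≠ 0) (h : z / y ∈ Ol F) : lat c z ≤ lat c y :=
  inf_le_inf_left _ (loc_le hz h)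
theorem loc_idx {y z : F} (hy : y ≠ 0) (hz : z ≠ 0) (h : z / y ∈ Ol F) :
    (((lat 1 z).relIndex (lat 1 y) : ℕ) : ℝ) = nf z / nf y := by
  rw [← relIndex_locL hy hz h]
  have h1 : lat 1 z = locL z ⊓ lat 1 y := by
    ext x
    rw [AddSubgroup.mem_inf, mem_lat, mem_lat, ← mem_locL, ← mem_locL]
    exact ⟨fun hx => ⟨hx.2, hx.1, loc_le hz h hx.2⟩, fun hx => ⟨hx.2.1, hx.1⟩⟩
  have h2 : locL z ⊔ lat 1 y = locL y := by
    refine le_antisymm (sup_le (loc_le hz h) inf_le_right) fun x hx => ?_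
    obtain ⟨t, -, ht⟩ := exists_approx (c := 1) one_ne_zero 0 x hz
    have h3 := mem_locL.2 ht
    have : x = -((t : F) - x) + t := by ring
    rw [this]
    refine AddSubgroup.add_mem_sup (neg_mem h3) (mem_lat.2 ⟨by rw [div_one]; exact t.2, ?_⟩)
    simpa using mem_locL.1 (add_mem (loc_le hz h h3) hx)
  rw [h1, AddSubgroup.inf_relIndex_right, ← AddSubgroup.relIndex_sup_left, h2]
theorem loc_cov {z : F} (hz : z ≠ 0) : cov (lat 1 z) = nf z * cov (latO F) := by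
  obtain ⟨K, hK⟩ := exists_Hi z⁻¹
  have hM : MF F ^ K ≠ 0 := pow_ne_zero _ MF_ne
  have h1 : MF F ^ K / z ∈ Ol F := by rw [div_eq_mul_inv]; exact hK
  have h2 : MF F ^ K / 1 ∈ Ol F := by rw [div_one]; exact pow_mem MF_mem_Ol K
  have e1 := cov_le (isLat_lat one_ne_zero hz) (isLat_lat one_ne_zero hM) (loc_le' hM h1)
  have e2 := cov_le (isLat_lat one_ne_zero one_ne_zero) (isLat_lat one_ne_zero hM) (loc_le' hM h2)
  rw [loc_idx hz hM h1] at e1
  rw [loc_idx one_ne_zero hM h2, nf_one, div_one, lat_one_one, e1] at e2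
  have h3 := nf_pos z
  have h4 := nf_pos (MF F ^ K)
  field_simp at e2
  exact e2
theorem cov_lat {c y : F} (hc : c ≠ 0) (hy : y ≠ 0) :
    cov (lat c y) = NF c * nf y * cov (latO F) := by
  have h1 := div_ne_zero hy hc
  rw [cov_smul (isLat_lat one_ne_zero h1) hc (L' := lat c y) fun x => by
    rw [mem_lat, mem_lat, div_one, div_div_div_cancel_right₀ hc], loc_cov h1, nf_div hy hc,
    Nin_eq_NF_mul]
  have := nf_pos c
  field_simp
theorem int_of_Hi {a : ℕ} {c : R F} (h : Hi a (c : F)) :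
    IsIntegral ℤ ((((Ctx0.M F) ^ a : ℕ) : F) * (c : F)) := by
  rw [Nat.cast_pow]
  exact int_of_mem (mul_mem (pow_mem (natCast_mem _ _) a) c.2) h
theorem ext0_coe (f : R F → ℂ) (x : R F) : ext0 f (x : F) = f x :=
  dif_pos x.2
theorem ext0_of_not {f : R F → ℂ} {z : F} (h : z ∉ Rr F (Ctx0.M F)) : ext0 f z = 0 :=
  dif_neg h
theorem loc_idx_ne {y z : F} (hy : y ≠ 0) (hz : z ≠ 0) (h : z / y ∈ Ol F) :
    (locL z).relIndex (locL y) ≠ 0 := fun h0 => by
  have := relIndex_locL hy hz h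
  rw [h0, Nat.cast_zero] at this
  exact (div_pos (nf_pos z) (nf_pos y)).ne this
/-- Chinese remainder theorem for sums over cosets. -/
theorem qsum_crt {c : R F} (hc : c ≠ 0) {y : F} (hy : y ≠ 0) {f : R F → ℂ} (hf : Pe c f)
    {φ : F → ℂ} (hφ : ∀ x x', (x - x') / y ∈ Ol F → φ x = φ x') {a : ℕ}
    (hs : ∀ x, φ x ≠ 0 → Hi a x) :
    qsum (lat (c : F) y) (fun d => ext0 f d * φ d) = (∑ x ∈ res c, f x) * qsum (locL y) φ := by
  obtain ⟨K, hK⟩ := exists_Hi y
  have hM : (MF F ^ (a + K))⁻¹ ≠ 0 := inv_ne_zero (pow_ne_zero _ MF_ne)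
  have hH : ∀ x : F, Hi (a + K) x → x / (MF F ^ (a + K))⁻¹ ∈ Ol F := fun x hx => by
    rw [div_inv_eq_mul, mul_comm]
    exact hx
  obtain ⟨s, -, -, s2, s3⟩ :=
    exists_reps (loc_idx_ne hM hy (hH y (hK.mono (Nat.le_add_left _ _))))
  have s4 : ∀ x, φ x ≠ 0 → ∃ z ∈ s, x - z ∈ locL y := fun x hx =>
    s3 x (mem_locL.2 (hH x ((hs x hx).mono (Nat.le_add_right _ _))))
  choose g g1 g2 using fun p : R F × F => exists_approx hc p.1 p.2 hy
  have hd : ∀ x x' : R F, (x : F) - x' ∈ lat (c : F) y ↔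
      c ∣ x - x' ∧ ((x : F) - x') / y ∈ Ol F := fun x x' => by
    rw [mem_lat, dvd_iff_div hc, AddSubgroupClass.coe_sub]
  have hi : ∀ p ∈ res c ×ˢ s, ∀ q ∈ res c ×ˢ s, (g p : F) - g q ∈ lat (c : F) y → p = q := by
    intro p hp q hq h
    rw [Finset.mem_product] at hp hq
    rw [hd] at h
    refine Prod.ext (res_unique hp.1 hq.1 ?_) (s2 _ hp.2 _ hq.2 (mem_locL.2 ?_))
    · have : p.1 - q.1 = g p - g q - (g p - p.1) + (g q - q.1) := by ring
      rw [this]
      exact (h.1.sub (g1 p)).add (g1 q)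
    · have : (p.2 - q.2) / y = (g p - g q) / y - (g p - p.2) / y + (g q - q.2) / y := by ring
      rw [this]
      exact add_mem (sub_mem h.2 (g2 p)) (g2 q)
  rw [qsum_eq_sum (fun x x' h => hφ x x' (mem_locL.1 h)) s s2 s4,
    qsum_eq_sum (s := (res c ×ˢ s).image fun p => (g p : F)), Finset.sum_image, Finset.sum_mul_sum,
    Finset.sum_product]
  · refine Finset.sum_congr rfl fun x _ => Finset.sum_congr rfl fun z _ => ?_
    rw [ext0_coe, hf _ _ (g1 (x, z)), hφ _ _ (g2 (x, z))]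
  · intro p hp q hq h
    exact hi p hp q hq (by rw [show (g p : F) = g q from h, sub_self]; exact zero_mem _)
  · intro x x' h
    have h1 := mem_lat.1 h
    have h2 : x - x' ∈ Rr F (Ctx0.M F) := by
      have : x - x' = (x - x') / c * c := by
        rw [div_mul_cancel₀ _ fun h0 => hc (Subtype.ext h0)]
      rw [this]
      exact mul_mem h1.1 c.2
    rw [hφ x x' h1.2]
    by_cases hx : x' ∈ Rr F (Ctx0.M F)
    · have hx' : x ∈ Rr F (Ctx0.M F) := by simpa using add_mem h2 hx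
      rw [ext0_coe f ⟨x, hx'⟩, ext0_coe f ⟨x', hx⟩, hf _ _ ((hd ⟨x, hx'⟩ ⟨x', hx⟩).1 h).1]
    · rw [ext0_of_not hx, ext0_of_not fun hx' => hx (by simpa using sub_mem hx' h2)]
  · intro x hx x' hx' h
    obtain ⟨p, hp, rfl⟩ := Finset.mem_image.1 hx
    obtain ⟨q, hq, rfl⟩ := Finset.mem_image.1 hx'
    rw [hi p hp q hq h]
  · intro d hd0
    have h1 : d ∈ Rr F (Ctx0.M F) := by
      by_contra h
      exact left_ne_zero_of_mul hd0 (ext0_of_not h)
    obtain ⟨x, hx, hx'⟩ := exists_res hc ⟨d, h1⟩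
    obtain ⟨z, hz, hz'⟩ := s4 d (right_ne_zero_of_mul hd0)
    refine ⟨g (x, z), Finset.mem_image_of_mem _ (Finset.mk_mem_product hx hz),
      (hd ⟨d, h1⟩ _).2 ⟨?_, ?_⟩⟩
    · simpa using hx'.sub (g1 (x, z))
    · have : (d - g (x, z)) / y = (d - z) / y - (g (x, z) - z) / y := by ring
      show (d - g (x, z)) / y ∈ Ol F
      rw [this]
      exact sub_mem (mem_locL.1 hz') (g2 (x, z))
omit [Ctx0 F] in
theorem loc_bound {L L' : AddSubgroup F} (h : L'.relIndex L ≠ 0) {φ : F → ℂ}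
    (hφ : ∀ x x', x - x' ∈ L' → φ x = φ x') (hs : ∀ x, φ x ≠ 0 → x ∈ L) {B : ℝ}
    (hB : ∀ x, ‖φ x‖ ≤ B) : ‖qsum L' φ‖ ≤ B * (L'.relIndex L : ℝ) := by
  obtain ⟨s, s0, -, s2, s3⟩ := exists_reps h
  rw [qsum_eq_sum hφ s s2 fun x hx => s3 x (hs x hx), ← s0, mul_comm, ← nsmul_eq_mul]
  exact (norm_sum_le _ _).trans (Finset.sum_le_card_nsmul _ _ _ fun x _ => hB x)
theorem norm_qsum_locL_le {y : F} (hy : y ≠ 0) {φ : F → ℂ}
    (hφ : ∀ x x', (x - x') / y ∈ Ol F → φ x = φ x') {y0 : F} (hy0 : y0 ≠ 0) (h0 : y / y0 ∈ Ol F)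
    (hs : ∀ x, φ x ≠ 0 → x / y0 ∈ Ol F) {B : ℝ} (hB : ∀ x, ‖φ x‖ ≤ B) :
    ‖qsum (locL y) φ‖ ≤ B * (nf y / nf y0) := by
  rw [← relIndex_locL hy0 hy h0]
  exact loc_bound (loc_idx_ne hy0 hy h0) (fun x x' h => hφ x x' (mem_locL.1 h))
    (fun x h => mem_locL.2 (hs x h)) hB
theorem norm_qsum_lat_le {c : R F} (hc : c ≠ 0) {y : F} (hy : y ≠ 0) {φ : F → ℂ}
    (hφ : ∀ x x', x - x' ∈ lat (c : F) y → φ x = φ x') {y0 : F} (hy0 : y0 ≠ 0) (h0 : y / y0 ∈ Ol F)
    (hs : ∀ x, φ x ≠ 0 → x ∈ lat 1 y0) {B : ℝ} (hB : ∀ x, ‖φ x‖ ≤ B) :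
    ‖qsum (lat (c : F) y) φ‖ ≤ B * (N c * (nf y / nf y0)) := by
  have hc' : (c : F) ≠ 0 := fun h => hc (Subtype.ext h)
  have h1 := isLat_lat (F := F) one_ne_zero hy0
  have h2 := isLat_lat hc' hy
  have h3 : lat (c : F) y ≤ lat 1 y0 := fun x hx => by
    rw [mem_lat] at hx
    refine mem_lat.2 ⟨?_, mem_locL.1 (loc_le hy h0 (mem_locL.2 hx.2))⟩
    have : x / 1 = x / c * c := by field_simp
    rw [this]
    exact mul_mem hx.1 c.2
  have e := cov_le h1 h2 h3
  rw [cov_lat hc' hy, cov_lat one_ne_zero hy0, NF_one] at e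
  have e2 : N c * (nf y / nf y0) = ((lat (c : F) y).relIndex (lat 1 y0) : ℝ) := by
    have h4 := cov_pos (isLat_latO (F := F))
    have h5 := nf_pos y0
    rw [N]
    field_simp at e ⊢
    exact e
  rw [e2]
  exact loc_bound (h1.relIndex_ne h2) hφ hs hB
theorem loc_char {L L' : AddSubgroup F} (h : L'.relIndex L ≠ 0) (hle : L' ≤ L) {z : F}
    (hz : ∀ x ∈ L', psiL (z * x) = 1) :
    qsum L' (fun d => if d ∈ L then psiL (z * d) else 0) =
      if ∀ x ∈ L, psiL (z * x) = 1 then ((L'.relIndex L : ℝ) : ℂ) else 0 := by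
  have hp : ∀ x x', x - x' ∈ L' → (if x ∈ L then psiL (z * x) else 0) =
      if x' ∈ L then psiL (z * x') else 0 := fun x x' hx => by
    have h1 : x ∈ L ↔ x' ∈ L := ⟨fun h1 => by simpa using sub_mem h1 (hle hx),
      fun h1 => by simpa using add_mem (hle hx) h1⟩
    have h2 : z * x = z * (x - x') + z * x' := by ring
    rw [h2, psiL_add, hz _ hx, one_mul]
    simp only [h1]
  split_ifs with H
  · obtain ⟨s, s0, s1, s2, s3⟩ := exists_reps h
    rw [qsum_eq_sum hp s s2 fun x hx => s3 x (by by_contra h1; exact hx (if_neg h1)),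
      Finset.sum_congr rfl fun x hx => (if_pos (s1 x hx)).trans (H x (s1 x hx)), ← s0]
    simp
  · push Not at H
    obtain ⟨a, ha, ha'⟩ := H
    have e := qsum_shift hp a
    have e2 : (fun x => if a + x ∈ L then psiL (z * (a + x)) else 0) =
        fun x => psiL (z * a) * if x ∈ L then psiL (z * x) else 0 := by
      funext x
      rw [mul_add, psiL_add]
      simp only [add_mem_cancel_left ha, mul_ite, mul_zero]
    rw [e2, qsum_const_mul] at e
    exact (mul_eq_zero.1 (by linear_combination e : (psiL (z * a) - 1) * _ = 0)).resolve_left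
      (sub_ne_zero.2 ha')
theorem loc_od {y z : F} (hy : y ≠ 0) : (∀ x ∈ locL y, psiL (z * x) = 1) ↔ z * y ∈ Od F := by
  rw [mem_Od_iff]
  refine ⟨fun H x hx => ?_, fun H x hx => ?_⟩
  · rw [mul_assoc]
    exact H _ (mem_locL.2 (by rwa [mul_div_cancel_left₀ _ hy]))
  · have := H _ (mem_locL.1 hx)
    rwa [mul_assoc, mul_div_cancel₀ _ hy] at this
/-- Local Fourier transform of the indicator of a Ol. -/
theorem qsum_ind_Ol {y a z : F} (hy : y ≠ 0) (ha : a ≠ 0) (h1 : y / a ∈ Ol F) (h2 : z * y ∈ Od F) :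
    qsum (locL y) (fun d => if d / a ∈ Ol F then psiL (z * d) else 0) =
      if z * a ∈ Od F then ((nf y / nf a : ℝ) : ℂ) else 0 := by
  have := loc_char (loc_idx_ne ha hy h1) (loc_le hy h1) ((loc_od hy).2 h2)
  simp only [loc_od ha, relIndex_locL ha hy h1] at this
  simpa only [mem_locL] using this
/-- Local Fourier transform of the indicator of a ⁻¹ Od. -/
theorem qsum_ind_Od : ∃ i0 : ℝ, 0 < i0 ∧ ∀ y a z : F, y ≠ 0 → a ≠ 0 → y * a ∈ Ol F →
    z * y ∈ Od F → qsum (locL y) (fun d => if d * a ∈ Od F then psiL (z * d) else 0) =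
      if z / a ∈ Ol F then ((i0 * nf y * nf a : ℝ) : ℂ) else 0 := by
  have hM : (MF F)⁻¹ ≠ 0 := inv_ne_zero MF_ne
  have h0 : (locL (1 : F)).relIndex (Od F) ≠ 0 := fun h =>
    loc_idx_ne hM one_ne_zero (by simpa using MF_mem_Ol)
      (AddSubgroup.relIndex_eq_zero_of_le_right (fun x hx => mem_locL.2 (by
        simpa [Hi, mul_comm] using Hi_of_Od hx)) h)
  refine ⟨(locL (1 : F)).relIndex (Od F), by positivity, fun y a z hy ha h1 h2 => ?_⟩
  have ha' := inv_ne_zero ha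
  have h3 : y / a⁻¹ ∈ Ol F := by rwa [div_inv_eq_mul]
  have h4 : locL a⁻¹ = (locL 1).comap (AddMonoidHom.mulRight a) := by
    ext x
    rw [AddSubgroup.mem_comap, mem_locL, mem_locL, div_inv_eq_mul, div_one]
    rfl
  have h5 : locL a⁻¹ ≤ (Od F).comap (AddMonoidHom.mulRight a) := fun x hx => by
    rw [mem_locL, div_inv_eq_mul] at hx
    exact Ol_le_Od hx
  have h6 : (locL a⁻¹).relIndex ((Od F).comap (AddMonoidHom.mulRight a)) =
      (locL (1 : F)).relIndex (Od F) := by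
    rw [h4, AddSubgroup.relIndex_comap, AddSubgroup.map_comap_eq_self_of_surjective
      fun x => ⟨x / a, div_mul_cancel₀ x ha⟩]
  have h7 := AddSubgroup.relIndex_mul_relIndex _ _ _ (loc_le hy h3) h5
  rw [h6] at h7
  have h8 := loc_char (h7 ▸ mul_ne_zero (loc_idx_ne ha' hy h3) h0) ((loc_le hy h3).trans h5)
    ((loc_od hy).2 h2)
  have h9 : (∀ x ∈ (Od F).comap (AddMonoidHom.mulRight a), psiL (z * x) = 1) ↔ z / a ∈ Ol F := by
    rw [mem_Ol_iff_Od]
    refine ⟨fun H x hx => ?_, fun H x hx => ?_⟩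
    · rw [div_mul_comm, mul_comm]
      exact H _ (show x / a * a ∈ Od F by rwa [div_mul_cancel₀ _ ha])
    · have := H (x * a) hx
      rwa [mul_comm x, ← mul_assoc, div_mul_cancel₀ _ ha] at this
  simp only [h9, ← h7, Nat.cast_mul, relIndex_locL ha' hy h3, nf_inv, div_inv_eq_mul] at h8
  rw [mul_assoc, mul_comm]
  exact h8

end Vale.Agent.P319B
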