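import Vale.Agent.P319B.UA
import Vale.Agent.P319B.Loc
import Vale.Agent.P319B.Cls
import Vale.Agent.P319B.Count
import Vale.Agent.P319B.Gauss

/-! The Polya-Vinogradov bound. -/

namespace Vale.Agent.P319B

open Complex NumberField MeasureTheory
open scoped Classical ComplexConjugate
open Vale.Agent.P026 (w kk fk)

variable {F : Type} [Field F] [NumberField F] [Ctx F]

theorem summable_Vk {X : ℝ} (hX : 0 < X) :
    Summable (fun c : R F => if P1 c then Vk F (N c / X) else 0) := by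
  refine Summable.of_nonneg_of_le (fun c => by split_ifs; exacts [Vk_nonneg _, le_rfl])
    (fun c => ?_) ((summable_N_rpow (F := F) one_lt_two).mul_left
      (Real.exp (2 ^ 2 / 4) * (Real.pi ^ (-(2 : ℝ)) * Real.Gamma 2) ^ rr F * X ^ (2 : ℝ)))
  split_ifs with h
  · have h1 := N_pos h.ne_zero
    refine (Vk_le two_pos (div_pos h1 hX)).trans_eq ?_
    rw [Real.div_rpow h1.le hX.le, Real.rpow_neg hX.le, div_inv_eq_mul]
    ring
  · rw [mul_zero]

omit [NumberField F] [Ctx F] in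
theorem pv_scale {J : Type} {E : Subgroup Fˣ} {S : Set F} {ν : J → F} (h : IsTr E S ν) {c : F}
    (hc : c ≠ 0) : IsTr E {z | z / c ∈ S} (fun j => c * ν j) := by
  refine ⟨fun j u => ?_, fun z hz => ?_⟩
  · show ((u : Fˣ) : F) * (c * ν j) / c ∈ S
    rw [mul_left_comm, mul_div_cancel_left₀ _ hc]
    exact h.1 j u
  · refine (existsUnique_congr fun p => ?_).1 (h.2 _ hz)
    rw [div_eq_iff hc, mul_left_comm, mul_comm _ c]

theorem pv_inU {x y ρ : F} (h : (x - y) / (ρ * MF F ^ 3) ∈ Ol F) (hy : InU 3 (y / ρ)) :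
    InU 3 (x / ρ) := by
  have := hy.add_Lo (y := (x - y) / ρ) (by rwa [Lo, div_div])
  rwa [← add_div, add_sub_cancel] at this

theorem pv_iff {x y ρ : F} (h : (x - y) / (ρ * MF F ^ 3) ∈ Ol F) :
    InU 3 (x / ρ) ↔ InU 3 (y / ρ) :=
  ⟨pv_inU (by rw [← neg_sub, neg_div]; exact neg_mem h), pv_inU h⟩

/-- The function to which Poisson summation is applied. -/
noncomputable def pvF (k : R F) (ρ z : F) : ℂ :=
  ext0 (fun x => quad x k) z * if InU 3 (z / ρ) then 1 else 0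

theorem pvF_supp {k : R F} {ρ z : F} (h : pvF k ρ z ≠ 0) :
    z ∈ Rr F (Ctx0.M F) ∧ InU 3 (z / ρ) :=
  ⟨by_contra fun h1 => left_ne_zero_of_mul h (ext0_of_not h1),
    by_contra fun h1 => right_ne_zero_of_mul h (if_neg h1)⟩

theorem pvF_per {k : R F} (hk : k ≠ 0) {ρ : F} (x y : F)
    (h : x - y ∈ lat (k : F) (ρ * MF F ^ 3)) : pvF k ρ x = pvF k ρ y := by
  obtain ⟨h1, h2⟩ := mem_lat.1 h
  have k0 : (k : F) ≠ 0 := fun h => hk (Subtype.ext h)
  have h3 : x - y ∈ Rr F (Ctx0.M F) := div_mul_cancel₀ (x - y) k0 ▸ mul_mem h1 k.2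
  rw [pvF, pvF, pv_iff h2]
  congr 1
  by_cases hy : y ∈ Rr F (Ctx0.M F)
  · have hx : x ∈ Rr F (Ctx0.M F) := sub_add_cancel x y ▸ add_mem h3 hy
    rw [ext0, ext0, dif_pos hx, dif_pos hy]
    exact quad_congr ((dvd_iff_div hk).2 h1)
  · rw [ext0_of_not hy, ext0_of_not fun hx => hy (sub_sub_cancel x y ▸ sub_mem hx h3)]

theorem pvF_unit (k : R F) (ρ : F) (u : Eu F 3) (x : F) :
    pvF k ρ (((u : Fˣ) : F) * x) = pvF k ρ x := by
  obtain ⟨y, h0, h1, h2⟩ := (mem_Eu bs_three).1 u.2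
  have h3 : InU 3 ((y : F) * x / ρ) ↔ InU 3 (x / ρ) := by
    rw [mul_div_assoc]
    refine ⟨fun h => ?_, h1.mul⟩
    have := (h1.inv bs_three).mul h
    rwa [inv_mul_cancel_left₀ (h1.ne_zero bs_three)] at this
  rw [← h2, pvF, pvF, h3]
  congr 1
  by_cases hx : x ∈ Rr F (Ctx0.M F)
  · lift x to R F using hx
    rw [← Subring.coe_mul, ext0_coe, ext0_coe, quad_mul_left, quad_omg (Omg.of_inU h0 h1), one_mul]
  · rw [ext0_of_not hx, ext0_of_not fun h => hx ?_]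
    have := mul_mem (isUnit_iff_inv.1 h0).2 h
    rwa [inv_mul_cancel_left₀ (h1.ne_zero bs_three)] at this

theorem pv_qsum {k : R F} (hk : P0 k) {ρ : F} (hρ : ρ ≠ 0) {h : F}
    (hh : h ∈ dualL (lat (k : F) (ρ * MF F ^ 3))) :
    ‖qsum (lat (k : F) (ρ * MF F ^ 3)) fun x => pvF k ρ x * eT (h * x)‖ ≤
      (if h = 0 ∧ k ≠ 1 then 0 else ab k) * nf (MF F ^ 3) := by
  have hM : MF F ^ 3 ≠ 0 := pow_ne_zero 3 MF_ne
  have hy := mul_ne_zero hρ hM
  obtain ⟨h1, h2⟩ := (mem_dual_lat hk.1.coe_ne hy).1 hh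
  have e : (fun x => pvF k ρ x * eT (h * x)) = fun d =>
      ext0 (fun x => chi 0 x k * psi k (⟨_, h1⟩ * x)) d *
        ((if InU 3 (d / ρ) then 1 else 0) * psiL (h * d)) := by
    funext d
    by_cases hd : d ∈ Rr F (Ctx0.M F)
    · lift d to R F using hd
      rw [pvF, ext0_coe, ext0_coe, eT_eq_mul, chi_zero_eq, psi, Subring.coe_mul, mul_right_comm h,
        mul_div_cancel_right₀ _ hk.1.coe_ne]
      ring
    · rw [pvF, ext0_of_not hd, ext0_of_not hd, zero_mul, zero_mul, zero_mul]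
  have hφ : ∀ x x', (x - x') / (ρ * MF F ^ 3) ∈ Ol F →
      (if InU 3 (x / ρ) then 1 else 0) * psiL (h * x) =
        (if InU 3 (x' / ρ) then 1 else 0) * psiL (h * x') := fun x x' hx => by
    rw [pv_iff hx, show h * x = h * x' + (x - x') / (ρ * MF F ^ 3) * (h * (ρ * MF F ^ 3)) by
      rw [mul_left_comm, div_mul_cancel₀ _ hy]; ring, psiL_add, psiL_of_Od (Od_mul hx h2), mul_one]
  have hs : ∀ x, (if InU 3 (x / ρ) then 1 else 0) * psiL (h * x) ≠ 0 → x / ρ ∈ Ol F :=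
    fun x hx => InU.mem (by_contra fun h1 => left_ne_zero_of_mul hx (if_neg h1))
  obtain ⟨a, ha⟩ := exists_Hi ρ
  rw [e, qsum_crt hk.ne_zero hy (f := fun x => chi 0 x k * psi k (⟨_, h1⟩ * x))
    (Pe.mul (fun x y hxy => chi_congr 0 hxy) (pe_psi _ _)) hφ (a := a + 0) fun x hx =>
      mul_div_cancel₀ x hρ ▸ ha.mul (Hi.of_mem 0 (hs x hx)), norm_mul]
  refine mul_le_mul ?_ ?_ (norm_nonneg _) (by split_ifs; exacts [le_rfl, ab_nonneg k])
  · refine (congrArg norm (gauss_chi (j := 0) (j' := 0) (dvd_zero 3) hk.2 ⟨_, h1⟩)).trans_le ?_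
    rw [norm_mul, norm_mul, norm_Gt 0 hk.2, mul_one, Complex.norm_real,
      Real.norm_of_nonneg (ab_nonneg k)]
    split_ifs with h0
    · obtain ⟨rfl, h3⟩ := h0
      rw [show (⟨0 * (k : F), h1⟩ : R F) = 0 from Subtype.ext (zero_mul _),
        chi_zero_left 0 hk.ne_zero, if_neg fun h => h3 (hk.1.eq_one_of_isUnit h), norm_zero,
        zero_mul]
    · exact mul_le_of_le_one_left (ab_nonneg k) (norm_chi_le _ _ _)
  · refine (norm_qsum_locL_le hy hφ hρ ?_ hs (B := 1) fun x => ?_).trans_eq ?_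
    · rw [mul_div_cancel_left₀ _ hρ]
      exact pow_mem MF_mem_Ol 3
    · rw [norm_mul, norm_psiL, mul_one]
      split_ifs <;> simp
    · rw [one_mul, nf_mul hρ hM, mul_div_cancel_left₀ _ (nf_pos ρ).ne']

theorem pv_tilde {c : R F} (hc : P1 c) :
    Nin ((tilde c : R F) : F) = N c * nf (rep (cls (c : F))) := by
  rw [Nin_eq_N_mul, nf_eq_of_inU bs_three (tilde_inU hc.ne_zero), tilde, N_mul,
    N_unit (tw_omg _).1, one_mul]

theorem pv_dual : ∃ C : ℝ, 0 < C ∧ ∀ (k : R F) (κ : Cl F) {J : Type} (ν : J → F), P1 k →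
    IsTr (Eu F 3) {h | h ≠ 0 ∧ h ∈ dualL (lat (k : F) (rep κ * MF F ^ 3))} ν → ∀ t : ℝ, 0 < t →
    Summable (fun j => Vk F (t * Nin (ν j))) → ∑' j, Vk F (t * Nin (ν j)) ≤ C * N k / t := by
  obtain ⟨a, ha⟩ := exists_rep_bd (F := F)
  obtain ⟨C, hC, h1⟩ := tsum_tr_le (unitGrp_Eu (F := F) bs_three)
    (pow_ne_zero (0 + a + (4 + a)) (Ctx0.M_ne (F := F)))
  obtain ⟨C', hC', h2⟩ := Vk_le_min (F := F)
  obtain ⟨B, hB⟩ := (Set.finite_range fun κ : Cl F => nf (rep κ)).bddAbove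
  have hB' : ∀ κ : Cl F, nf (rep κ) ≤ B := fun κ => hB ⟨κ, rfl⟩
  refine ⟨C' * C * B, mul_pos (mul_pos hC' hC) ((nf_pos _).trans_le (hB' 1)),
    fun k κ J ν hk hν t ht hs => ?_⟩
  have h3 := tilde_inU hk.ne_zero
  have h4 := h3.left_ne bs_three
  have h5 := Nin_pos h4
  obtain ⟨h6, h7⟩ := h1 _ _ (pv_scale hν h4) (fun z hz => by
    obtain ⟨k1, k2⟩ := (mem_dual_lat hk.coe_ne
      (mul_ne_zero (rep_ne κ) (pow_ne_zero 3 MF_ne))).1 hz.2
    have k3 : z ∈ Rr F (Ctx0.M F) := by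
      have := mul_mem (tw (k : F)).2 k1
      rwa [mul_left_comm, ← Subring.coe_mul, ← tilde, div_mul_cancel₀ _ h4] at this
    have k4 : Hi 4 (z / (tilde k : R F) * rep κ) := by
      have := Hi_of_Od k2
      rwa [Hi, pow_one, ← mul_assoc (z / _), mul_comm _ (MF F ^ 3), ← mul_assoc,
        ← pow_succ'] at this
    have k5 := ((Hi.of_mem 0 h3.mem).mul (ha (cls (k : F))).1).mul (k4.mul (ha κ).2)
    rw [div_mul_cancel₀ _ (rep_ne _), mul_inv_cancel_right₀ (rep_ne _), mul_div_cancel₀ _ h4] at k5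
    exact ⟨(div_ne_zero_iff.1 hz.1).1, int_of_Hi (c := ⟨z, k3⟩) k5⟩) _ (div_pos ht h5)
  have e : ∀ j, t / Nin ((tilde k : R F) : F) * Nin (((tilde k : R F) : F) * ν j) =
      t * Nin (ν j) := fun j => by rw [Nin_mul, ← mul_assoc, div_mul_cancel₀ _ h5.ne']
  simp only [e] at h6 h7
  refine (hs.tsum_le_tsum (fun j => h2 _ (mul_pos ht (Nin_pos ?_))) (h6.mul_left C')).trans ?_
  · simpa using (hν.1 j 1).1
  · rw [tsum_mul_left]
    refine (mul_le_mul_of_nonneg_left h7 hC'.le).trans ?_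
    rw [div_div_eq_mul_div, pv_tilde hk, ← mul_div_assoc]
    refine div_le_div_of_nonneg_right ?_ ht.le
    have := mul_le_mul_of_nonneg_left (hB' (cls (k : F)))
      (mul_nonneg (mul_pos hC' hC).le (N_nonneg k))
    linarith

theorem pv_one : ∃ C : ℝ, 0 < C ∧ ∀ (k : R F) (κ : Cl F), P0 k → k ≠ 1 → ∀ X : ℝ, 0 < X →
    ‖∑' c : R F, (if P1 c then clsI κ c * quad c k else 0) * (Vk F (N c / X) : ℂ)‖ ≤
      C * ab k := by
  obtain ⟨k0, -, hua⟩ := ua (unitGrp_Eu (F := F) bs_three)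
  obtain ⟨C, hC, hd⟩ := pv_dual (F := F)
  obtain ⟨B, hB⟩ := (Set.finite_range fun κ : Cl F => (nf (rep κ))⁻¹).bddAbove
  have hB' : ∀ κ : Cl F, (nf (rep κ))⁻¹ ≤ B := fun κ => hB ⟨κ, rfl⟩
  have hcov := cov_pos (isLat_latO (F := F))
  have hB0 := (inv_pos.2 (nf_pos _)).trans_le (hB' 1)
  set A : ℝ := 4 ^ rr F * Real.exp (1 / 2) with hA
  have hA0 : 0 < A := by positivity
  refine ⟨Real.exp (1 / 4) * C / (cov (latO F) * A) * B, by positivity,
    fun k κ hk hk1 X hX => ?_⟩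
  by_cases h0 : ∃ x0 : R F, P1 x0 ∧ cls (x0 : F) = κ
  swap
  · rw [tsum_congr (g := fun _ => 0) fun c => ?_, tsum_zero, norm_zero]
    · have := ab_nonneg k
      positivity
    · split_ifs with hc
      · rw [clsI, if_neg fun h => h0 ⟨c, hc, h⟩, zero_mul, zero_mul]
      · rw [zero_mul]
  obtain ⟨x0, h0, hκ⟩ := h0
  have hρ := rep_ne κ
  have hM : MF F ^ 3 ≠ 0 := pow_ne_zero 3 MF_ne
  have hy := mul_ne_zero hρ hM
  have hn := nf_pos (rep κ)
  obtain ⟨S0, hS0⟩ := exists_isTr (E := Eu F 3)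
    (S := {h | h ≠ 0 ∧ h ∈ dualL (lat (k : F) (rep κ * MF F ^ 3))}) (fun h => h.1 rfl)
    fun x hx u => by
      obtain ⟨y, -, h1, h2⟩ := (mem_Eu bs_three).1 u.2
      obtain ⟨h3, h4⟩ := (mem_dual_lat hk.1.coe_ne hy).1 hx.2
      refine ⟨mul_ne_zero (u : Fˣ).ne_zero hx.1, (mem_dual_lat hk.1.coe_ne hy).2 ?_⟩
      rw [← h2, mul_assoc, mul_assoc]
      exact ⟨mul_mem y.2 h3, Od_mul h1.mem h4⟩
  obtain ⟨-, s2, e⟩ := hua (lat 1 (rep κ)) (lat k (rep κ * MF F ^ 3)) (pvF k (rep κ)) _ _ _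
    (isLat_lat one_ne_zero hρ) (isLat_lat hk.1.coe_ne hy)
    (fun x hx => by
      obtain ⟨h1, h2⟩ := mem_lat.1 hx
      refine mem_lat.2 ⟨?_, Lo.mem (e := 3) (by rwa [Lo, div_div])⟩
      rw [div_one, ← div_mul_cancel₀ x hk.1.coe_ne]
      exact mul_mem h1 k.2)
    (fun u x hx => by
      obtain ⟨y, -, h1, h2⟩ := (mem_Eu bs_three).1 u.2
      rw [mem_lat, ← h2, mul_div_assoc, mul_div_assoc]
      exact ⟨mul_mem y.2 (mem_lat.1 hx).1, mul_mem h1.mem (mem_lat.1 hx).2⟩)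
    (fun x hx => mem_lat.2 ⟨(div_one x).symm ▸ (pvF_supp hx).1, (pvF_supp hx).2.mem⟩)
    (pvF_per hk.ne_zero) (pvF_unit k _) (isTr_tilde h0 hκ)
    (fun x hx => ⟨hx.2.left_ne bs_three, mem_lat.2 ⟨(div_one x).symm ▸ hx.1, hx.2.mem⟩⟩)
    (fun x _ hx => pvF_supp hx) hS0 _ (mul_pos hX hn)
  have e0 : pvF k (rep κ) 0 = 0 := by_contra fun h => (pvF_supp h).2.left_ne bs_three rfl
  have e1 : qsum (lat (k : F) (rep κ * MF F ^ 3)) (pvF k (rep κ)) = 0 := by
    have := pv_qsum hk hρ (zero_mem _)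
    simpa [hk1, eT_zero] using this
  have e2 : ∑' c : R F, (if P1 c then clsI κ c * quad c k else 0) * (Vk F (N c / X) : ℂ) =
      ∑' j : {x : R F // P1 x ∧ cls (x : F) = κ}, pvF k (rep κ) ((tilde j.1 : R F) : F) *
        (Vk F (Nin ((tilde j.1 : R F) : F) / (X * nf (rep κ))) : ℂ) := by
    rw [← (Subtype.val_injective (p := fun x : R F => P1 x ∧ cls (x : F) = κ)).tsum_eq]
    · refine tsum_congr fun ⟨c, hc, h⟩ => ?_
      dsimp only
      rw [if_pos hc, clsI, if_pos h, pvF, ext0_coe, if_pos (h ▸ tilde_inU hc.ne_zero),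
        pv_tilde hc, h, mul_div_mul_right _ _ hn.ne', tilde, quad_mul_left, quad_omg (tw_omg _),
        mul_one]
    · intro c hc
      have h1 := left_ne_zero_of_mul hc
      have h2 : P1 c := by_contra fun h => h1 (if_neg h)
      rw [if_pos h2] at h1
      exact ⟨⟨c, h2, by_contra fun h => left_ne_zero_of_mul h1 (if_neg h)⟩, rfl⟩
  rw [e0, e1, mul_zero, zero_add, zero_add, ← e2] at e
  have hN := N_pos hk.ne_zero
  have hm := nf_pos (MF F ^ 3)
  have ht : 0 < A * (X * nf (rep κ)) := by positivity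
  have e3 : cov (lat (k : F) (rep κ * MF F ^ 3)) =
      N k * (nf (rep κ) * nf (MF F ^ 3)) * cov (latO F) := by
    rw [cov_lat hk.1.coe_ne hy, nf_mul hρ hM, N]
  rw [e, norm_mul, Complex.norm_real, e3, Real.norm_of_nonneg (by positivity)]
  refine (mul_le_mul_of_nonneg_left ((tsum_of_norm_bounded
    (s2.mul_left (ab k * nf (MF F ^ 3))).hasSum fun j => ?_).trans
    (le_of_eq_of_le tsum_mul_left (mul_le_mul_of_nonneg_left (hd k κ _ hk.1 hS0 _ ht s2)
      (mul_nonneg (ab_nonneg k) hm.le)))) (by positivity)).trans ?_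
  · have h1 : (j : F) ≠ 0 ∧ (j : F) ∈ dualL (lat (k : F) (rep κ * MF F ^ 3)) := by
      simpa using hS0.1 j 1
    have h2 := pv_qsum hk hρ h1.2
    rw [if_neg fun h => h1.1 h.1] at h2
    rw [norm_mul, Complex.norm_real, Real.norm_of_nonneg (Vk_nonneg _)]
    exact mul_le_mul_of_nonneg_right h2 (Vk_nonneg _)
  · refine le_of_eq_of_le (b := Real.exp (1 / 4) * C / (cov (latO F) * A) *
      (nf (rep κ))⁻¹ * ab k) (by field_simp) ?_
    exact mul_le_mul_of_nonneg_right (mul_le_mul_of_nonneg_left (hB' κ) (by positivity))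
      (ab_nonneg k)

/-- Polya-Vinogradov type bound. -/
theorem pv : ∃ C : ℝ, 0 < C ∧ ∀ (k l : R F) (κ : Cl F), P0 k → k ≠ 1 → l ≠ 0 → ∀ X : ℝ, 0 < X →
    ‖∑' c : R F, (if P1 c then clsI κ c * cop l c * quad c k else 0) *
      (Vk F (N c / X) : ℂ)‖ ≤ C * (divs l).card * ab k := by
  obtain ⟨C, hC, h⟩ := pv_one (F := F)
  refine ⟨C, hC, fun k l κ hk hk1 hl X hX => ?_⟩
  have e : ∀ c : R F, (if P1 c then clsI κ c * cop l c * quad c k else 0) * (Vk F (N c / X) : ℂ) =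
      ∑ d ∈ divs l, (if P1 c ∧ d ∣ c then mu0 d * (clsI κ c * quad c k) else 0) *
        (Vk F (N c / X) : ℂ) := fun c => by
    rw [← Finset.sum_mul]
    congr 1
    split_ifs with hc
    · rw [cop_eq_sum hc.ne_zero hl, Finset.mul_sum, Finset.sum_mul]
      refine Finset.sum_congr rfl fun d _ => ?_
      by_cases hd : d ∣ c
      · rw [if_pos hd, if_pos ⟨hc, hd⟩]
        ring
      · rw [if_neg hd, if_neg fun h => hd h.2, mul_zero, zero_mul]
    · exact (Finset.sum_eq_zero fun d _ => if_neg fun h => hc h.1).symm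
  rw [tsum_congr e, Summable.tsum_finsetSum fun d _ => ?_]
  · refine (norm_sum_le _ _).trans ((Finset.sum_le_card_nsmul _ _ (C * ab k) fun d hd => ?_).trans_eq
      (by rw [nsmul_eq_mul]; ring))
    have h1 := ((mem_divs hl).1 hd).1.1
    rw [← (mul_right_injective₀ h1.ne_zero).tsum_eq fun c hc => ?_]
    · rw [tsum_congr (g := fun c => mu0 d * quad d k * ((if P1 c then
        clsI (κ / cls (d : F)) c * quad c k else 0) * (Vk F (N c / (X / N d)) : ℂ))) fun c => ?_,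
        tsum_mul_left, norm_mul, norm_mul]
      · refine (mul_le_of_le_one_left (norm_nonneg _)
          (mul_le_one₀ (norm_mu0_le d) (norm_nonneg _) (norm_quad_le _ _))).trans
          (h k _ hk hk1 _ (div_pos hX (N_pos h1.ne_zero)))
      · by_cases hc : P1 c
        · rw [if_pos ⟨h1.mul hc, dvd_mul_right _ _⟩, if_pos hc, quad_mul_left, N_mul,
            div_div_eq_mul_div, mul_comm (N c), clsI, clsI, Subring.coe_mul,
            cls_mul h1.coe_ne hc.coe_ne, if_congr (eq_div_iff_mul_eq'' (c := cls (d : F))) rfl rfl]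
          ring
        · rw [if_neg fun h => hc (h1.of_mul h.1), if_neg hc, zero_mul, zero_mul, mul_zero]
    · obtain ⟨c, rfl⟩ : d ∣ c := by_contra fun h2 => left_ne_zero_of_mul hc (if_neg fun h => h2 h.2)
      exact ⟨c, rfl⟩
  · refine Summable.of_norm_bounded (summable_Vk hX) fun c => ?_
    rw [norm_mul, Complex.norm_real, Real.norm_of_nonneg (Vk_nonneg _)]
    by_cases hc : P1 c
    · rw [if_pos hc]
      refine mul_le_of_le_one_left (Vk_nonneg _) ?_
      split_ifs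
      · rw [norm_mul, norm_mul]
        exact mul_le_one₀ (norm_mu0_le d) (by positivity)
          (mul_le_one₀ (norm_clsI_le _ _) (norm_nonneg _) (norm_quad_le _ _))
      · simp
    · rw [if_neg hc, if_neg fun h => hc h.1, norm_zero, zero_mul]

end Vale.Agent.P319B
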