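import Vale.Agent.P319B.LemP
import Vale.Agent.P319B.PV
import Vale.Agent.P319B.LSC

/-! Large sieve inequalities for the quadratic symbol. -/

namespace Vale.Agent.P319B

open Complex NumberField
open scoped Classical ComplexConjugate
open Vale.Agent.P026 (w kk fk)

variable {F : Type} [Field F] [NumberField F] [Ctx F]

theorem LS3 {e : ℝ} (he : 0 < e) : ∃ C : ℝ, 0 < C ∧ ∀ (β : R F → ℂ), (∀ k, β k ≠ 0 → P0 k) →
    ∀ K X : ℝ, 1 ≤ K → 0 < X →
      ∑ n ∈ ball F X, ‖∑ k ∈ ball F K, β k * quad n k‖ ^ 2 ≤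
        C * K ^ e * (X + √X * K + K ^ 3 / X) * ∑ k ∈ ball F K, ‖β k‖ ^ 2 := by
  have hδ : 0 < min (e / 6) 1 := lt_min (by positivity) one_pos
  obtain ⟨C, hC, H⟩ := lsC_class (F := F) hδ (min_le_right _ _)
  have hcard : (0 : ℝ) < (Finset.univ : Finset (Cl F)).card := by
    exact_mod_cast Finset.card_pos.2 Finset.univ_nonempty
  refine ⟨(Finset.univ : Finset (Cl F)).card * ((Finset.univ : Finset (Cl F)).card * C),
    by positivity, fun β hβ K X hK hX => ?_⟩
  have hK0 : 0 < K := by linarith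
  set G : ℝ := ∑ k ∈ ball F K, ‖β k‖ ^ 2 with hG
  have hG0 : 0 ≤ G := Finset.sum_nonneg fun _ _ => by positivity
  rcases lt_or_ge X 1 with hX1 | hX1
  · rw [ball_eq_empty hX1, Finset.sum_empty]
    positivity
  set a : Cl F → R F → ℂ := fun i k => if k ∈ ball F K then β k * clsI i k else 0 with ha
  have e1 : ∀ n, ∑ k ∈ ball F K, β k * quad n k =
      ∑ i : Cl F, ∑ k ∈ ball F K, a i k * quad n k := by
    intro n
    rw [Finset.sum_comm]
    refine Finset.sum_congr rfl fun k hk => ?_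
    simp only [ha, if_pos hk]
    rw [← Finset.sum_mul, ← Finset.mul_sum, sum_clsI, mul_one]
  have e2 : ∀ n, ‖∑ k ∈ ball F K, β k * quad n k‖ ^ 2 ≤
      (Finset.univ : Finset (Cl F)).card * ∑ i : Cl F, ‖∑ k ∈ ball F K, a i k * quad n k‖ ^ 2 := by
    intro n
    rw [e1]
    exact (pow_le_pow_left₀ (norm_nonneg _) (norm_sum_le _ _) 2).trans sq_sum_le_card_mul_sum_sq
  have e3 : (K ^ min (e / 6) 1) ^ 6 ≤ K ^ e := by
    rw [← Real.rpow_natCast, ← Real.rpow_mul hK0.le]
    refine Real.rpow_le_rpow_of_exponent_le hK ?_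
    have := min_le_left (e / 6) 1
    push_cast
    linarith
  have e4 : ∀ i ∈ (Finset.univ : Finset (Cl F)), ∑ n ∈ ball F X, ‖∑ k ∈ ball F K, a i k * quad n k‖ ^ 2 ≤
      C * K ^ e * (X + √X * K + K ^ 3 / X) * G := by
    intro i _
    refine (H (a i) i K X hK hX1 fun c hc => ?_).trans ?_
    · simp only [ha] at hc
      by_cases h : c ∈ ball F K
      · rw [if_pos h] at hc
        refine ⟨hβ c (left_ne_zero_of_mul hc), ?_, (mem_ball.1 h).2⟩
        by_contra h'
        exact right_ne_zero_of_mul hc (if_neg h')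
      · exact absurd (if_neg h) hc
    · have t : ∑ k ∈ ball F K, ‖a i k‖ ^ 2 ≤ G := by
        refine Finset.sum_le_sum fun k hk => pow_le_pow_left₀ (norm_nonneg _) ?_ 2
        simp only [ha, if_pos hk, norm_mul]
        exact mul_le_of_le_one_right (norm_nonneg _) (norm_clsI_le _ _)
      have t2 : 0 ≤ ∑ k ∈ ball F K, ‖a i k‖ ^ 2 := Finset.sum_nonneg fun _ _ => by positivity
      gcongr
  refine (Finset.sum_le_sum fun n _ => e2 n).trans ?_
  rw [← Finset.mul_sum, Finset.sum_comm]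
  refine (mul_le_mul_of_nonneg_left (Finset.sum_le_sum e4) hcard.le).trans (le_of_eq ?_)
  rw [Finset.sum_const, nsmul_eq_mul]
  ring

theorem lsD_dyadic : ∃ C : ℝ, 0 < C ∧ ∀ (f : R F → ℝ) (A T : ℝ), (∀ c, 0 ≤ f c) → 0 ≤ A → 0 < T →
    (∀ X, T ≤ X → ∑ c ∈ ball F X, f c ≤ A * (X / T)) → ∀ s : Finset (R F), (∀ c ∈ s, P1 c) →
      ∑ c ∈ s, w (N c / T) * f c ≤ C * A := by
  set E : ℝ := Real.exp ((-2) ^ 2 / 4) with hE
  have hE0 : 0 < E := Real.exp_pos _
  refine ⟨1 + 4 * E, by positivity, fun f A T hf hA hT H s hs => ?_⟩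
  have key : ∀ n : ℕ, ∑ c ∈ ball F (2 ^ n * T), w (N c / T) * f c ≤
      A * (1 + 4 * E * (1 - (2 ^ n)⁻¹)) := by
    intro n
    induction n with
    | zero =>
      have h1 := H T le_rfl
      rw [div_self hT.ne'] at h1
      simp only [pow_zero, one_mul, inv_one, sub_self, mul_zero, add_zero]
      refine le_trans (Finset.sum_le_sum fun c _ => ?_) h1
      exact mul_le_of_le_one_left (hf c) (P026.w_le_one _)
    | succ n ih =>
      have hp : (1 : ℝ) ≤ 2 ^ n := one_le_pow₀ (by norm_num)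
      have hsub : ball F (2 ^ n * T) ⊆ ball F (2 ^ (n + 1) * T) := by
        refine ball_mono ?_
        rw [pow_succ]
        nlinarith [mul_pos (lt_of_lt_of_le one_pos hp) hT]
      rw [← Finset.sum_sdiff hsub]
      have h1 : ∑ c ∈ ball F (2 ^ (n + 1) * T) \ ball F (2 ^ n * T), w (N c / T) * f c ≤
          E * ((2 ^ n) ^ 2)⁻¹ * ∑ c ∈ ball F (2 ^ (n + 1) * T), f c := by
        refine le_trans ?_ (mul_le_mul_of_nonneg_left (Finset.sum_le_sum_of_subset_of_nonneg
          (Finset.sdiff_subset (t := ball F (2 ^ n * T))) fun c _ _ => hf c) (by positivity))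
        rw [Finset.mul_sum]
        refine Finset.sum_le_sum fun c hc => mul_le_mul_of_nonneg_right ?_ (hf c)
        obtain ⟨h2, h3⟩ := Finset.mem_sdiff.1 hc
        have h4 : 2 ^ n ≤ N c / T := by
          rw [le_div_iff₀ hT]
          by_contra h5
          exact h3 (mem_ball.2 ⟨(mem_ball.1 h2).1, (not_le.1 h5).le⟩)
        have h6 : 0 < N c / T := by linarith
        refine (P026.w_le_rpow (-2) h6).trans (mul_le_mul_of_nonneg_left ?_ hE0.le)
        rw [Real.rpow_neg h6.le, Real.rpow_two]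
        exact inv_anti₀ (by positivity) (pow_le_pow_left₀ (by positivity) h4 2)
      have h2 := H (2 ^ (n + 1) * T) (by
        rw [pow_succ]
        nlinarith [mul_pos (lt_of_lt_of_le one_pos hp) hT])
      have h3 := h1.trans (mul_le_mul_of_nonneg_left h2 (by positivity))
      refine (add_le_add h3 ih).trans (le_of_eq ?_)
      field_simp
      ring
  obtain ⟨n, hn⟩ := pow_unbounded_of_one_lt ((∑ c ∈ s, N c) / T) (by norm_num : (1 : ℝ) < 2)
  have hsub : s ⊆ ball F (2 ^ n * T) := by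
    intro c hc
    refine mem_ball.2 ⟨hs c hc, ?_⟩
    exact (Finset.single_le_sum (f := N) (fun x _ => N_nonneg x) hc).trans
      ((div_lt_iff₀ hT).1 hn).le
  refine (Finset.sum_le_sum_of_subset_of_nonneg hsub
    fun c _ _ => mul_nonneg (P026.w_pos _).le (hf c)).trans ((key n).trans ?_)
  rw [mul_comm]
  refine mul_le_mul_of_nonneg_right ?_ hA
  have : (0 : ℝ) ≤ 4 * E * (2 ^ n)⁻¹ := by positivity
  nlinarith

theorem lsD_QK1 {e : ℝ} (he : 0 < e) : ∃ C : ℝ, 0 < C ∧ ∀ (b : R F → ℂ) (T K : ℝ),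
    0 < T → 1 ≤ K → (∀ c, b c ≠ 0 → P1 c) → (∀ c, ‖b c‖ ≤ w (N c / T)) →
      ∑ k ∈ (ball F K).filter P0, ‖∑' c, b c * quad c k‖ ^ 2 ≤
        C * K ^ e * T * (T + √T * K + K ^ 3 / T) := by
  obtain ⟨C1, hC1, H1⟩ := LS3 (F := F) he
  obtain ⟨C2, hC2, H2⟩ := lsD_dyadic (F := F)
  obtain ⟨C3, hC3, H3⟩ := card_ball_le (F := F)
  refine ⟨C2 * C1 * (C2 * C3), by positivity, fun b T K hT hK hb0 hb => ?_⟩
  have hK0 : 0 < K := by linarith
  have fin0 : ∀ s : Finset (R F), (∀ c ∈ s, P1 c) → ∑ k ∈ (ball F K).filter P0,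
      ‖∑ c ∈ s, b c * quad c k‖ ^ 2 ≤
        C2 * C1 * (C2 * C3) * K ^ e * T * (T + √T * K + K ^ 3 / T) := by
    intro s hs
    have t1 := lsA_dual ((ball F K).filter P0) s (fun k c => quad c k) (fun c => w (N c / T))
      (fun c => w (N c / T)) (fun _ _ => (P026.w_pos _).le) (fun _ _ => (P026.w_pos _).le)
      (Δ := C2 * (C1 * K ^ e * (T + √T * K + K ^ 3 / T))) (by positivity) (fun g => by
        set G : ℝ := ∑ k ∈ (ball F K).filter P0, ‖g k‖ ^ 2 with hG
        have hG0 : 0 ≤ G := Finset.sum_nonneg fun _ _ => by positivity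
        rw [mul_assoc]
        refine H2 (fun c => ‖∑ k ∈ (ball F K).filter P0, g k * quad c k‖ ^ 2) _ T
          (fun c => sq_nonneg _) (by positivity) hT (fun X hX => ?_) s hs
        have hX0 : 0 < X := by linarith
        have u1 := H1 (fun k => if P0 k then g k else 0) (fun k hk => by
          by_contra h
          exact hk (if_neg h)) K X hK hX0
        have u2 : ∀ n, ∑ k ∈ ball F K, (if P0 k then g k else 0) * quad n k =
            ∑ k ∈ (ball F K).filter P0, g k * quad n k := by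
          intro n
          rw [Finset.sum_filter]
          refine Finset.sum_congr rfl fun k _ => ?_
          split_ifs <;> simp
        have u3 : ∑ k ∈ ball F K, ‖(if P0 k then g k else 0)‖ ^ 2 = G := by
          rw [hG, Finset.sum_filter]
          refine Finset.sum_congr rfl fun k _ => ?_
          split_ifs <;> simp
        simp only [u2, u3] at u1
        refine u1.trans ?_
        have v0 : 1 ≤ X / T := (one_le_div hT).2 hX
        have v1 : √X ≤ √T * (X / T) := by
          rw [Real.sqrt_le_iff]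
          refine ⟨by positivity, ?_⟩
          rw [mul_pow, Real.sq_sqrt hT.le, sq, ← mul_assoc, mul_div_cancel₀ _ hT.ne']
          exact le_mul_of_one_le_right hX0.le v0
        have v2 : K ^ 3 / X ≤ K ^ 3 / T * (X / T) :=
          (div_le_div_of_nonneg_left (by positivity) hT hX).trans
            (le_mul_of_one_le_right (by positivity) v0)
        have v3 : X + √X * K + K ^ 3 / X ≤ (T + √T * K + K ^ 3 / T) * (X / T) := by
          have v4 : T * (X / T) = X := mul_div_cancel₀ _ hT.ne'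
          have v5 := mul_le_mul_of_nonneg_right v1 hK0.le
          nlinarith
        calc _ ≤ C1 * K ^ e * ((T + √T * K + K ^ 3 / T) * (X / T)) * G := by gcongr
          _ = _ := by ring) b (fun c _ => by
        rw [← sq]
        exact pow_le_pow_left₀ (norm_nonneg _) (hb c) 2)
    have t2 := H2 (fun _ => 1) (C3 * T) T (fun _ => zero_le_one) (by positivity) hT
      (fun X hX => by
        rw [Finset.sum_const, nsmul_eq_mul, mul_one, mul_assoc, mul_div_cancel₀ _ hT.ne']
        exact H3 X (by linarith)) s hs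
    simp only [mul_one] at t2
    refine t1.trans ((mul_le_mul_of_nonneg_left t2 (by positivity)).trans (le_of_eq ?_))
    ring
  have hsum : ∀ k, Summable (fun c => b c * quad c k) := by
    intro k
    refine Summable.of_norm_bounded (summable_w 0 hT) fun c => ?_
    by_cases h0 : b c = 0
    · rw [h0, zero_mul, norm_zero]
      split_ifs
      · exact mul_nonneg (Real.rpow_nonneg (N_nonneg c) _) (P026.w_pos _).le
      · exact le_rfl
    rw [norm_mul, Real.rpow_zero, one_mul, if_pos (hb0 c h0)]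
    exact (mul_le_of_le_one_right (norm_nonneg _) (norm_quad_le _ _)).trans (hb c)
  have lim : Filter.Tendsto (fun s : Finset (R F) => ∑ k ∈ (ball F K).filter P0,
      ‖∑ c ∈ s, b c * quad c k‖ ^ 2) Filter.atTop
      (nhds (∑ k ∈ (ball F K).filter P0, ‖∑' c, b c * quad c k‖ ^ 2)) := by
    refine tendsto_finsetSum _ fun k _ => Filter.Tendsto.pow (Filter.Tendsto.norm ?_) 2
    exact (hsum k).hasSum
  refine le_of_tendsto' lim fun s => ?_
  refine le_trans (le_of_eq ?_) (fin0 (s.filter P1) fun c hc => (Finset.mem_filter.1 hc).2)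
  refine Finset.sum_congr rfl fun k _ => ?_
  rw [Finset.sum_filter_of_ne fun c _ h => hb0 c (left_ne_zero_of_mul h)]

theorem lsD_QK0 {e : ℝ} (he : 0 < e) : ∃ C : ℝ, 0 < C ∧ ∀ (b : R F → ℂ) (T K : ℝ),
    0 < T → 1 ≤ K → (∀ c, b c ≠ 0 → P0 c) → (∀ c, ‖b c‖ ≤ w (N c / T)) →
      ∑ k ∈ (ball F K).filter P0, ‖∑' c, b c * quad k c‖ ^ 2 ≤
        C * K ^ e * T * (T + √T * K + K ^ 3 / T) := by
  obtain ⟨C, hC, H⟩ := lsD_QK1 (F := F) he
  have hcard : (0 : ℝ) < (Finset.univ : Finset (Cl F)).card := by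
    exact_mod_cast Finset.card_pos.2 Finset.univ_nonempty
  refine ⟨(Finset.univ : Finset (Cl F)).card * C, by positivity, fun b T K hT hK hP hb => ?_⟩
  have e1 : ∀ k ∈ (ball F K).filter P0, ‖∑' c, b c * quad k c‖ ^ 2 ≤
      ∑ i : Cl F, ‖∑' c, (b c * B2 (rep i) (c : F)) * quad c k‖ ^ 2 := by
    intro k hk
    have hk' := (Finset.mem_filter.1 hk).2
    refine le_trans (le_of_eq ?_) (Finset.single_le_sum
      (f := fun i : Cl F => ‖∑' c, (b c * B2 (rep i) (c : F)) * quad c k‖ ^ 2)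
      (fun _ _ => sq_nonneg _) (Finset.mem_univ (cls (k : F))))
    congr 2
    refine tsum_congr fun c => ?_
    by_cases h0 : b c = 0
    · simp [h0]
    · rw [quad_recip hk'.ne_zero (hP c h0).ne_zero,
        B2_cls_left hk'.1.coe_ne (rep_ne _) (cls_rep _).symm]
      ring
  refine (Finset.sum_le_sum e1).trans ?_
  rw [Finset.sum_comm]
  refine (Finset.sum_le_sum fun i _ => H (fun c => b c * B2 (rep i) (c : F)) T K hT hK
    (fun c hc => (hP c (left_ne_zero_of_mul hc)).1) fun c => ?_).trans (le_of_eq ?_)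
  · rw [norm_mul, norm_B2, mul_one]
    exact hb c
  · rw [Finset.sum_const, nsmul_eq_mul]
    ring

theorem QK {e : ℝ} (he : 0 < e) : ∃ C : ℝ, 0 < C ∧ ∀ (b : R F → ℂ) (X K K0 : ℝ),
    0 < X → 1 ≤ K → 0 < K0 → (∀ c, b c ≠ 0 → P0 c) → (∀ c, ‖b c‖ ≤ w (N c / X)) →
      ∑ l ∈ ball F K, ∑ k ∈ (ball F K).filter (fun k => P0 k ∧ K0 ≤ N k ∧ N k * N l ^ 2 ≤ K),
        ‖∑' c, b c * quad (k * l ^ 2) c‖ ^ 2 ≤
          C * K ^ e * X * (√(K / max 1 K0) * X + √X * K + K ^ 3 / X) := by
  obtain ⟨C1, hC1, H1⟩ := lsD_QK0 (F := F) (half_pos he)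
  obtain ⟨C2, hC2, H2⟩ := sum_ball_inv (F := F) (half_pos he)
  obtain ⟨C3, hC3, H3⟩ := card_ball_le (F := F)
  refine ⟨C1 * (C3 + C2), by positivity, fun b X K K0 hX hK hK0 hP hb => ?_⟩
  have hK' : 0 < K := by linarith
  have hm : 1 ≤ max 1 K0 := le_max_left _ _
  set Z : ℝ := √(K / max 1 K0) with hZ
  have hZ0 : 0 ≤ Z := Real.sqrt_nonneg _
  set P : ℝ := K ^ (e / 2) with hP'
  have hP1 : 1 ≤ P := Real.one_le_rpow hK (half_pos he).le
  have hPP : K ^ e = P * P := by
    rw [hP', ← Real.rpow_add hK', add_halves]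
  set Y : ℝ := √X * K + K ^ 3 / X with hY
  have hY0 : 0 ≤ Y := by positivity
  have key : ∀ l ∈ ball F K,
      ∑ k ∈ (ball F K).filter (fun k => P0 k ∧ K0 ≤ N k ∧ N k * N l ^ 2 ≤ K),
        ‖∑' c, b c * quad (k * l ^ 2) c‖ ^ 2 ≤
          C1 * P * X * ((if N l ≤ Z then X else 0) + (N l)⁻¹ * Y) := by
    intro l hl
    have hl0 := (mem_ball.1 hl).1
    have hN := one_le_N hl0.ne_zero
    have hN0 : 0 < N l := by linarith
    by_cases hlZ : N l ≤ Z
    · rw [if_pos hlZ]
      have hl2 : N l ^ 2 ≤ K := by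
        have := (Real.le_sqrt hN0.le (by positivity)).1 hlZ
        exact this.trans (div_le_self hK'.le hm)
      have hK1 : 1 ≤ K / N l ^ 2 := (one_le_div (by positivity)).2 hl2
      have t1 := H1 (fun c => b c * quad (l ^ 2) c) X (K / N l ^ 2) hX hK1
        (fun c hc => hP c (left_ne_zero_of_mul hc)) (fun c => by
          rw [norm_mul]
          exact (mul_le_of_le_one_right (norm_nonneg _) (norm_quad_le _ _)).trans (hb c))
      refine le_trans ?_ (t1.trans ?_)
      · refine le_trans (le_of_eq (Finset.sum_congr rfl fun k _ => ?_))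
          (Finset.sum_le_sum_of_subset_of_nonneg ?_ fun _ _ _ => sq_nonneg _)
        · congr 2
          refine tsum_congr fun c => ?_
          by_cases h0 : b c = 0
          · simp [h0]
          · rw [mul_assoc (b c), ← quad_mul_left, mul_comm k]
        · intro k hk
          obtain ⟨h1, h2, -, h3⟩ := Finset.mem_filter.1 hk
          exact Finset.mem_filter.2 ⟨mem_ball.2 ⟨h2.1,
            (le_div_iff₀ (by positivity)).2 h3⟩, h2⟩
      · have u0 : N l ≤ N l ^ 2 := by nlinarith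
        have u1 : K / N l ^ 2 ≤ (N l)⁻¹ * K := by
          rw [inv_mul_eq_div]
          exact div_le_div_of_nonneg_left hK'.le hN0 u0
        have u2 : K / N l ^ 2 ≤ K := div_le_self hK'.le (by nlinarith)
        have u3 : (K / N l ^ 2) ^ (e / 2) ≤ P :=
          Real.rpow_le_rpow (by positivity) u2 (half_pos he).le
        have u4 : (K / N l ^ 2) ^ 3 ≤ (N l)⁻¹ * K ^ 3 := by
          calc (K / N l ^ 2) ^ 3 = (K / N l ^ 2) * (K / N l ^ 2) ^ 2 := by ring
            _ ≤ ((N l)⁻¹ * K) * K ^ 2 := by gcongr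
            _ = _ := by ring
        calc _ ≤ C1 * P * X * (X + √X * ((N l)⁻¹ * K) + (N l)⁻¹ * K ^ 3 / X) := by gcongr
          _ = _ := by rw [hY]; ring
    · rw [if_neg hlZ, Finset.filter_eq_empty_iff.2, Finset.sum_empty]
      · positivity
      · rintro k hk ⟨h1, h2, h3⟩
        refine hlZ ((Real.le_sqrt hN0.le (by positivity)).2 ((le_div_iff₀ (by linarith)).2 ?_))
        have : max 1 K0 ≤ N k := max_le (one_le_N h1.ne_zero) h2
        calc N l ^ 2 * max 1 K0 ≤ N l ^ 2 * N k := by gcongr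
          _ ≤ K := by rw [mul_comm]; exact h3
  refine (Finset.sum_le_sum key).trans ?_
  rw [← Finset.mul_sum, Finset.sum_add_distrib, ← Finset.sum_mul, ← Finset.sum_filter,
    Finset.sum_const, nsmul_eq_mul]
  have c1 : (((ball F K).filter (fun l => N l ≤ Z)).card : ℝ) ≤ C3 * Z := by
    refine le_trans (Nat.cast_le.2 (Finset.card_le_card fun l hl => ?_)) (H3 Z hZ0)
    obtain ⟨h1, h2⟩ := Finset.mem_filter.1 hl
    exact mem_ball.2 ⟨(mem_ball.1 h1).1, h2⟩
  have c2 := H2 K hK'
  rw [← hP'] at c2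
  rw [hPP, add_assoc, ← hY]
  calc _ ≤ C1 * P * X * (C3 * Z * X + C2 * P * Y) := by gcongr
    _ ≤ C1 * P * X * ((C3 + C2) * P * (Z * X + Y)) := by
        refine mul_le_mul_of_nonneg_left ?_ (by positivity)
        have w1 : C3 * (Z * X) ≤ C3 * (P * (Z * X)) :=
          mul_le_mul_of_nonneg_left (le_mul_of_one_le_left (by positivity) hP1) hC3.le
        have w2 : 0 ≤ C2 * P * (Z * X) := by positivity
        have w3 : 0 ≤ C3 * P * Y := by positivity
        linear_combination w1 + w2 + w3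
    _ = _ := by ring

end Vale.Agent.P319B
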