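import Vale.Agent.P319B.IB
import Vale.Agent.P319B.LS

/-! The dual second moment in the quadratic family bound. -/

namespace Vale.Agent.P319B

open Complex NumberField
open scoped Classical ComplexConjugate
open Vale.Agent.P026 (w kk fk)

variable {F : Type} [Field F] [NumberField F] [Ctx F]

theorem cs_cover {α β : Type} (A : Finset β) (B : Finset α) (g : α → β) (f : β → ℝ)
    (hf : ∀ h, 0 ≤ f h) (hA : ∀ h ∈ A, ∃ x ∈ B, g x = h) :
    ∑ h ∈ A, f h ≤ ∑ x ∈ B, f (g x) := by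
  calc ∑ h ∈ A, f h ≤ ∑ h ∈ B.image g, f h :=
        Finset.sum_le_sum_of_subset_of_nonneg (fun h hh => Finset.mem_image.2 (hA h hh))
          fun h _ _ => hf h
    _ ≤ ∑ h ∈ B.image g, ∑ x ∈ B.filter (fun x => g x = h), f (g x) := by
        refine Finset.sum_le_sum fun h hh => ?_
        obtain ⟨x, hx, rfl⟩ := Finset.mem_image.1 hh
        exact Finset.single_le_sum (f := fun y => f (g y)) (fun y _ => hf _)
          (Finset.mem_filter.2 ⟨hx, rfl⟩)
    _ = _ := Finset.sum_fiberwise_of_maps_to (fun x hx => Finset.mem_image_of_mem g hx) _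

/-- Splitting according to the size of the squarefree kernel. -/
theorem cs_split (f : R F → ℝ) (hf : ∀ h, 0 ≤ f h) (K K0 : ℝ) :
    ∑ h ∈ ball F K, f h ≤
      ∑ l ∈ ball F K,
        ∑ k ∈ (ball F K).filter (fun k => P0 k ∧ K0 ≤ N k ∧ N k * N l ^ 2 ≤ K), f (k * l ^ 2) +
      ∑ k ∈ (ball F K0).filter P0, ∑ l ∈ ball F √(K / N k), f (k * l ^ 2) := by
  have hsz : ∀ k l : R F, k * l ^ 2 ∈ ball F K → N k * N l ^ 2 ≤ K := by
    intro k l h
    have h1 := (mem_ball.1 h).2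
    rwa [N_mul, N_pow] at h1
  rw [← Finset.sum_filter_add_sum_filter_not (ball F K)
    (fun h => ∃ k l : R F, P0 k ∧ P1 l ∧ h = k * l ^ 2 ∧ K0 ≤ N k)]
  simp only [Finset.sum_sigma']
  refine add_le_add (cs_cover _ _ (fun x : (_ : R F) × R F => x.2 * x.1 ^ 2) f hf fun h hh => ?_)
    (cs_cover _ _ (fun x : (_ : R F) × R F => x.1 * x.2 ^ 2) f hf fun h hh => ?_)
  · obtain ⟨hb, k, l, hk, hl, rfl, hK⟩ := Finset.mem_filter.1 hh
    have h1 := hsz k l hb
    have h2 := one_le_N hk.ne_zero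
    have h3 := one_le_N hl.ne_zero
    refine ⟨⟨l, k⟩, Finset.mem_sigma.2 ⟨mem_ball.2 ⟨hl, ?_⟩,
      Finset.mem_filter.2 ⟨mem_ball.2 ⟨hk.1, ?_⟩, hk, hK, h1⟩⟩, rfl⟩
    · show N l ≤ K
      nlinarith
    · exact (le_mul_of_one_le_right (N_nonneg k) (one_le_pow₀ h3)).trans h1
  · obtain ⟨hb, hn⟩ := Finset.mem_filter.1 hh
    obtain ⟨k, l, hk, hl, rfl⟩ := exists_kernel (mem_ball.1 hb).1
    have h1 := hsz k l hb
    have hK : N k ≤ K0 := by
      by_contra H
      exact hn ⟨k, l, hk, hl, rfl, (not_le.1 H).le⟩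
    refine ⟨⟨k, l⟩, Finset.mem_sigma.2
      ⟨Finset.mem_filter.2 ⟨mem_ball.2 ⟨hk.1, hK⟩, hk⟩, mem_ball.2 ⟨hl, ?_⟩⟩, rfl⟩
    show N l ≤ √(K / N k)
    refine Real.le_sqrt_of_sq_le ?_
    rw [le_div_iff₀ (N_pos hk.ne_zero), mul_comm]
    exact h1

/-- The periodic function attached to D and h. -/
noncomputable def csF (G : R F → ℂ) (D h c : R F) : ℂ :=
  cub D c * B3 (D : F) c * G (D * c) * quad (h * D ^ 2) c

theorem csF_bd {G : R F → ℂ} (hG : Bd1 G) (D h : R F) : Bd1 (csF G D h) := fun c => by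
  rw [csF, norm_mul, norm_mul, norm_mul, norm_B3, mul_one]
  exact mul_le_one₀ (mul_le_one₀ (norm_cub_le _ _) (norm_nonneg _) (hG _)) (norm_nonneg _)
    (norm_quad_le _ _)

theorem csF_eq (G : R F → ℂ) (D h c : R F) : csF G D h c = csF G D 1 c * quad h c := by
  rw [csF, csF, one_mul, quad_mul_left]
  ring

theorem csF_per {q : R F} {G : R F → ℂ} (hq : q ≠ 0) (hG : Per q G) {D k l : R F} (hD : D ≠ 0)
    (hk : k ≠ 0) (hl : l ≠ 0) : Per (k * l * D * q) (csF G D (k * l ^ 2)) := by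
  have hQ : k * l * D * q ≠ 0 := mul_ne_zero (mul_ne_zero (mul_ne_zero hk hl) hD) hq
  exact (((per_cub hQ (k := 1) ⟨k * l * q, by ring⟩).mul (per_B3_right _ _)).mul
    ((hG.comp_mul hD).of_dvd (dvd_mul_left _ _))).mul
    (per_quad hQ (k := 2) ⟨k * q ^ 2, by ring⟩)

theorem cs_norm (G : R F → ℂ) {D : R F} (hD : P0 D) (h : R F) (X t : ℝ) :
    ‖∑' c, alph false (D * c) * G (D * c) * W X t (D * c) * chi 0 (h * D ^ 2) c‖ ≤
      ‖Tsq false (csF G D h) (X / N D) t‖ := by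
  have e : ∀ c, alph false (D * c) * G (D * c) * W X t (D * c) * chi 0 (h * D ^ 2) c =
      (alph false D * nit t D) * (alph false c * csF G D h c * W (X / N D) t c) := by
    intro c
    rw [alph_mul false hD]
    by_cases hc : alph false c = 0
    · simp [hc]
    · have h0 := alph_ne_zero hc
      rw [W_mul X t h0.ne_zero hD.ne_zero, chi_zero_eq, csF]
      ring
  simp only [e]
  rw [tsum_mul_left, norm_mul, norm_mul, norm_nit, mul_one]
  exact mul_le_of_le_one_left (norm_nonneg _) (norm_alph_le _ _)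

/-- The sum over h for one D. -/
theorem cs_D (T : Theta F) {δ : ℝ} (hδ : 0 < δ) : ∃ (C : ℝ) (A : ℕ), 0 < C ∧
    ∀ (q : R F) (G : R F → ℂ), q ≠ 0 → Per q G → Bd1 G → ∀ D : R F, D ≠ 0 →
      ∀ Z K K0 t : ℝ, 0 < Z → 0 < K → 0 < K0 →
      ∑ h ∈ ball F K, ‖Tsq false (csF G D h) Z t‖ ^ 2 ≤ C * (1 + |t|) ^ A *
        (K ^ δ * (√(K / max 1 K0) * Z ^ 2 + √Z * Z * K + K ^ 3) +
          N q ^ 2 * N D ^ 2 * Z ^ (1 + 2 * δ) * (K * √K) * (K0 * √K0)) := by
  obtain ⟨C1, hC1, h1⟩ := QK (F := F) hδ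
  obtain ⟨C2, A, hC2, h2⟩ := IB T false hδ
  obtain ⟨C3, hC3, h3⟩ := card_ball_le (F := F)
  refine ⟨C1 + (C3 * C2) ^ 2, 2 * A, by positivity,
    fun q G hq hP hG D hD Z K K0 t hR hK hK0 => ?_⟩
  have ht : 1 ≤ (1 + |t|) ^ (2 * A) := one_le_pow₀ (by linarith [abs_nonneg t])
  have hq0 := N_nonneg q
  have hD0 := N_nonneg D
  set X := K ^ δ * (√(K / max 1 K0) * Z ^ 2 + √Z * Z * K + K ^ 3) with hX
  set Y := N q ^ 2 * N D ^ 2 * Z ^ (1 + 2 * δ) * (K * √K) * (K0 * √K0) with hY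
  have hX0 : 0 ≤ X := by positivity
  have hY0 : 0 ≤ Y := by positivity
  by_cases hK1 : K < 1
  · rw [ball_eq_empty hK1, Finset.sum_empty]
    positivity
  have p1 : ∑ l ∈ ball F K,
      ∑ k ∈ (ball F K).filter (fun k => P0 k ∧ K0 ≤ N k ∧ N k * N l ^ 2 ≤ K),
        ‖Tsq false (csF G D (k * l ^ 2)) Z t‖ ^ 2 ≤ C1 * X := by
    have k1 := h1 (fun c => alph false c * csF G D 1 c * W Z t c) Z K K0 hR (not_lt.1 hK1) hK0
      (fun c hc => alph_ne_zero (left_ne_zero_of_mul (left_ne_zero_of_mul hc))) (fun c => by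
        rw [norm_mul, norm_mul, norm_W]
        exact mul_le_of_le_one_left (Real.exp_pos _).le
          (mul_le_one₀ (norm_alph_le _ _) (norm_nonneg _) (csF_bd hG D 1 c)))
    have e : ∀ h, Tsq false (csF G D h) Z t =
        ∑' c, alph false c * csF G D 1 c * W Z t c * quad h c := fun h =>
      tsum_congr fun c => by rw [csF_eq]; ring
    simp only [e]
    refine k1.trans (le_of_eq ?_)
    rw [hX]
    field_simp
  have p2 : ∑ k ∈ (ball F K0).filter P0, ∑ l ∈ ball F √(K / N k),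
      ‖Tsq false (csF G D (k * l ^ 2)) Z t‖ ^ 2 ≤
        (C3 * C2) ^ 2 * (1 + |t|) ^ (2 * A) * Y := by
    set c := C2 * (1 + |t|) ^ A * N q * N D * Z ^ (1 / 2 + δ) with hc
    have hc0 : 0 ≤ c := by positivity
    have p3 : ∀ k ∈ (ball F K0).filter P0, ∑ l ∈ ball F √(K / N k),
        ‖Tsq false (csF G D (k * l ^ 2)) Z t‖ ^ 2 ≤ C3 * c ^ 2 * (K * √K) * √K0 := by
      intro k hk
      obtain ⟨hk1, hk2⟩ := mem_ball.1 (Finset.mem_filter.1 hk).1
      have hNk := N_pos hk1.ne_zero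
      have p4 : ∀ l ∈ ball F √(K / N k),
          ‖Tsq false (csF G D (k * l ^ 2)) Z t‖ ^ 2 ≤ c ^ 2 * (N k * K) := by
        intro l hl
        obtain ⟨hl1, hl2⟩ := mem_ball.1 hl
        have k2 := h2 _ _
          (mul_ne_zero (mul_ne_zero (mul_ne_zero hk1.ne_zero hl1.ne_zero) hD) hq)
          (csF_per hq hP hD hk1.ne_zero hl1.ne_zero) (csF_bd hG D _) Z t hR
        rw [N_mul, N_mul, N_mul] at k2
        have hl3 : N l ^ 2 ≤ K / N k :=
          (Real.le_sqrt (N_nonneg _) (by positivity)).1 hl2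
        rw [le_div_iff₀ hNk] at hl3
        calc _ ≤ (c * (N k * N l)) ^ 2 :=
              pow_le_pow_left₀ (norm_nonneg _) (k2.trans (le_of_eq (by rw [hc]; ring))) 2
          _ = c ^ 2 * (N k * (N l ^ 2 * N k)) := by ring
          _ ≤ _ := by gcongr
      refine (Finset.sum_le_card_nsmul _ _ _ p4).trans ?_
      rw [nsmul_eq_mul]
      refine (mul_le_mul_of_nonneg_right (h3 _ (Real.sqrt_nonneg _)) (by positivity)).trans ?_
      have e1 : √(K / N k) * N k = √K * √(N k) := by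
        rw [Real.sqrt_div hK.le, div_mul_eq_mul_div, mul_div_assoc, Real.div_sqrt]
      calc C3 * √(K / N k) * (c ^ 2 * (N k * K)) = C3 * c ^ 2 * K * (√(K / N k) * N k) := by ring
        _ = C3 * c ^ 2 * (K * √K) * √(N k) := by rw [e1]; ring
        _ ≤ _ := by gcongr
    refine (Finset.sum_le_card_nsmul _ _ _ p3).trans ?_
    rw [nsmul_eq_mul]
    have hcard : (((ball F K0).filter P0).card : ℝ) ≤ C3 * K0 :=
      le_trans (by exact_mod_cast Finset.card_filter_le _ _) (h3 _ hK0.le)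
    refine (mul_le_mul_of_nonneg_right hcard (by positivity)).trans (le_of_eq ?_)
    have e2 : Z ^ (1 + 2 * δ) = (Z ^ (1 / 2 + δ)) ^ 2 := by
      rw [← Real.rpow_natCast, ← Real.rpow_mul hR.le]
      refine congrArg _ ?_
      push_cast
      ring
    rw [hY, hc, e2]
    ring
  refine (cs_split (fun h => ‖Tsq false (csF G D h) Z t‖ ^ 2) (fun _ => sq_nonneg _) K K0).trans ?_
  refine (add_le_add p1 p2).trans ?_
  set u := (1 + |t|) ^ (2 * A)
  set c := (C3 * C2) ^ 2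
  have hc0 : 0 ≤ c := by positivity
  have q1 : C1 * X ≤ C1 * u * X := by
    rw [mul_assoc]
    exact mul_le_mul_of_nonneg_left (le_mul_of_one_le_left hX0 ht) hC1.le
  have q2 : 0 ≤ C1 * u * Y := by positivity
  have q3 : 0 ≤ c * u * X := by positivity
  nlinarith

/-- The dual second moment. -/
theorem cs_core (T : Theta F) {δ : ℝ} (hδ : 0 < δ) (hδ' : δ ≤ 1 / 2) : ∃ (C : ℝ) (A : ℕ), 0 < C ∧
    ∀ (q : R F) (G : R F → ℂ), q ≠ 0 → Per q G → Bd1 G → ∀ Z K K0 t : ℝ, 0 < Z → 0 < K → 0 < K0 →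
      QQ 0 (fun c => alph false c * G c * W Z t c) K ≤ C * (1 + |t|) ^ A *
        (K ^ δ * (√(K / max 1 K0) * Z ^ 2 + √Z * Z * K + K ^ 3) +
          N q ^ 2 * Z ^ (1 + 2 * δ) * (K * √K) * (K0 * √K0)) := by
  obtain ⟨C, A, hC, h⟩ := cs_D T hδ
  have hs := summable_N_rpow (F := F) (s := 1 + 2 * δ) (by linarith)
  have hnn : ∀ c : R F, 0 ≤ if P1 c then N c ^ (-(1 + 2 * δ)) else 0 := fun c => by
    split_ifs
    exacts [Real.rpow_nonneg (N_nonneg _) _, le_rfl]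
  have hZ : 0 ≤ ∑' c : R F, if P1 c then N c ^ (-(1 + 2 * δ)) else 0 := tsum_nonneg hnn
  refine ⟨C * ((∑' c : R F, if P1 c then N c ^ (-(1 + 2 * δ)) else 0) + 1), A, by positivity,
    fun q G hq hP hG Z K K0 t hR hK hK0 => ?_⟩
  have hq0 := N_nonneg q
  have hm : 0 < max 1 K0 := lt_max_of_lt_left one_pos
  set X := K ^ δ * (√(K / max 1 K0) * Z ^ 2 + √Z * Z * K + K ^ 3) with hX
  set Y := N q ^ 2 * Z ^ (1 + 2 * δ) * (K * √K) * (K0 * √K0) with hY
  have hX0 : 0 ≤ X := by positivity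
  have hY0 : 0 ≤ Y := by positivity
  have hM : 0 ≤ C * (1 + |t|) ^ A * (X + Y) := by positivity
  rw [QQ_eq]
  have p : ∀ D ∈ (ball F K).filter P0, ∑ h ∈ ball F (K / N D ^ 2), N D *
      ‖∑' c, alph false (D * c) * G (D * c) * W Z t (D * c) * chi 0 (h * D ^ 2) c‖ ^ 2 ≤
        C * (1 + |t|) ^ A * (X + Y) * if P1 D then N D ^ (-(1 + 2 * δ)) else 0 := by
    intro D hD
    have hD0 := (Finset.mem_filter.1 hD).2
    have h1 := one_le_N hD0.ne_zero
    have k := h q G hq hP hG D hD0.ne_zero (Z / N D) (K / N D ^ 2) K0 t (by positivity)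
      (by positivity) hK0
    rw [← Finset.mul_sum, if_pos hD0.1]
    refine (mul_le_mul_of_nonneg_left ((Finset.sum_le_sum fun h _ =>
      pow_le_pow_left₀ (norm_nonneg _) (cs_norm G hD0 h Z t) 2).trans k) (by positivity)).trans ?_
    generalize N D = n at h1 ⊢
    have hn : 0 < n := by linarith
    have e1 : √(K / n ^ 2 / max 1 K0) = √(K / max 1 K0) / n := by
      rw [div_right_comm, Real.sqrt_div' _ (sq_nonneg n), Real.sqrt_sq hn.le]
    have e2 : √(K / n ^ 2) = √K / n := by rw [Real.sqrt_div' _ (sq_nonneg n), Real.sqrt_sq hn.le]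
    have e3 : n ^ (-(1 + 2 * δ)) = 1 / n ^ (1 + 2 * δ) := by rw [Real.rpow_neg hn.le, one_div]
    have b1 : (K / n ^ 2) ^ δ ≤ K ^ δ :=
      Real.rpow_le_rpow (by positivity) (div_le_self hK.le (one_le_pow₀ h1)) hδ.le
    have b2 : √(Z / n) ≤ √Z := Real.sqrt_le_sqrt (div_le_self hR.le h1)
    have b3 : 1 / n ^ 2 ≤ n ^ (-(1 + 2 * δ)) := by
      rw [one_div, ← Real.rpow_natCast, ← Real.rpow_neg hn.le]
      exact Real.rpow_le_rpow_of_exponent_le h1 (by push_cast; linarith)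
    have b4 : (K / n ^ 2) ^ 3 ≤ K ^ 3 / n ^ 3 := by
      rw [div_pow, ← pow_mul]
      exact div_le_div_of_nonneg_left (by positivity) (by positivity)
        (pow_le_pow_right₀ h1 (by norm_num))
    have b5 : n * ((K / n ^ 2) ^ δ * (√(K / n ^ 2 / max 1 K0) * (Z / n) ^ 2 +
        √(Z / n) * (Z / n) * (K / n ^ 2) + (K / n ^ 2) ^ 3)) ≤ X * n ^ (-(1 + 2 * δ)) := by
      rw [e1]
      calc _ ≤ n * (K ^ δ * (√(K / max 1 K0) / n * (Z / n) ^ 2 +
            √Z * (Z / n) * (K / n ^ 2) + K ^ 3 / n ^ 3)) := by gcongr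
        _ = X * (1 / n ^ 2) := by rw [hX]; field_simp
        _ ≤ _ := mul_le_mul_of_nonneg_left b3 hX0
    have b6 : n * (N q ^ 2 * n ^ 2 * (Z / n) ^ (1 + 2 * δ) * (K / n ^ 2 * √(K / n ^ 2)) *
        (K0 * √K0)) = Y * n ^ (-(1 + 2 * δ)) := by
      rw [e2, e3, Real.div_rpow hR.le hn.le, hY]
      field_simp
    rw [mul_left_comm, mul_add, b6, mul_assoc _ (X + Y), add_mul]
    gcongr
  refine (Finset.sum_le_sum p).trans ?_
  rw [← Finset.mul_sum]
  have := mul_le_mul_of_nonneg_left (hs.sum_le_tsum ((ball F K).filter P0) fun c _ => hnn c) hM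
  nlinarith

end Vale.Agent.P319B
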