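import Vale.Agent.P319B.Norm
import Vale.Agent.P319B.Lat

/-! Valuations at the primes dividing M and counting lemmas. -/

namespace Vale.Agent.P319B

open Complex NumberField IsDedekindDomain
open scoped Classical ComplexConjugate

variable {F : Type} [Field F] [NumberField F] [Ctx0 F]

variable (F) in
/-- The primes dividing M. -/
def claS : Type := {p : HeightOneSpectrum (𝓞 F) // ((Ctx0.M F : ℕ) : 𝓞 F) ∈ p.asIdeal}

instance : Finite (claS F) := by
  have h : (Ideal.span {((Ctx0.M F : ℕ) : 𝓞 F)} : Ideal (𝓞 F)) ≠ 0 := by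
    rw [Ne, Ideal.zero_eq_bot, Ideal.span_singleton_eq_bot]
    exact_mod_cast Ctx0.M_ne
  have h1 := Ideal.finite_factors h
  simp only [Ideal.dvd_span_singleton] at h1
  exact h1.to_subtype

noncomputable instance : Fintype (claS F) := Fintype.ofFinite _

theorem cla_int {x : F} :
    IsIntegral ℤ x ↔ ∀ p : HeightOneSpectrum (𝓞 F), p.valuation F x ≤ 1 := by
  constructor
  · intro h p
    exact p.valuation_le_one (K := F) (⟨x, h⟩ : 𝓞 F)
  · intro h
    obtain ⟨y, rfl⟩ := HeightOneSpectrum.mem_integers_of_valuation_le_one F x h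
    exact y.isIntegral_coe

theorem cla_nat {p : HeightOneSpectrum (𝓞 F)} {m : ℕ} (h : ((m : ℕ) : 𝓞 F) ∉ p.asIdeal) :
    p.valuation F (m : F) = 1 := by
  have := (p.valuation_eq_one_iff_notMem (K := F)).2 h
  simpa using this

theorem cla_cop (p : claS F) {m : ℕ} (h : m.Coprime (Ctx0.M F)) :
    p.1.valuation F (m : F) = 1 := by
  refine cla_nat fun hm => p.1.isPrime.ne_top ?_
  rw [Ideal.eq_top_iff_one]
  obtain ⟨a, b, hab⟩ := (Nat.isCoprime_iff_coprime.2 h).map (Int.castRingHom (𝓞 F))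
  rw [← hab]
  exact add_mem (Ideal.mul_mem_left _ _ (by simpa using hm))
    (Ideal.mul_mem_left _ _ (by simpa using p.2))

theorem cla_Ol {x : F} : x ∈ Ol F ↔ ∀ p : claS F, p.1.valuation F x ≤ 1 := by
  constructor
  · intro h p
    obtain ⟨m, hm, hx⟩ := mem_Ol.1 h
    have := cla_int.1 hx p.1
    rwa [map_mul, cla_cop p hm, one_mul] at this
  · intro h
    obtain ⟨m, k, hm, hx⟩ := ring_key x
    refine mem_Ol.2 ⟨m, hm, cla_int.2 fun p => ?_⟩
    by_cases hp : ((Ctx0.M F : ℕ) : 𝓞 F) ∈ p.asIdeal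
    · rw [map_mul, cla_cop ⟨p, hp⟩ hm, one_mul]; exact h ⟨p, hp⟩
    · have := cla_int.1 hx p
      rw [map_mul, map_mul, map_pow, MF, cla_nat hp, one_pow, one_mul] at this
      rwa [map_mul]

theorem cla_R {x : F} (h : ∀ p : HeightOneSpectrum (𝓞 F),
    ((Ctx0.M F : ℕ) : 𝓞 F) ∉ p.asIdeal → p.valuation F x ≤ 1) : x ∈ Rr F (Ctx0.M F) := by
  obtain ⟨a, ha⟩ := exists_Hi x
  refine mem_Rr.2 ⟨a, cla_int.2 fun p => ?_⟩
  by_cases hp : ((Ctx0.M F : ℕ) : 𝓞 F) ∈ p.asIdeal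
  · exact cla_Ol.1 ha ⟨p, hp⟩
  · rw [map_mul, map_pow, MF, cla_nat hp, one_pow, one_mul]; exact h p hp

theorem cla_gen (p : HeightOneSpectrum (𝓞 F)) : ∃ π : F, π ≠ 0 ∧ p.valuation F π < 1 ∧
    ∀ q : HeightOneSpectrum (𝓞 F), q ≠ p → q.valuation F π = 1 := by
  have h0 : p.asIdeal ∈ nonZeroDivisors (Ideal (𝓞 F)) :=
    mem_nonZeroDivisors_of_ne_zero p.ne_bot
  have hc : 0 < Fintype.card (ClassGroup (𝓞 F)) := Fintype.card_pos
  have h1 : ClassGroup.mk0 ⟨p.asIdeal ^ Fintype.card (ClassGroup (𝓞 F)), pow_mem h0 _⟩ = 1 := by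
    rw [← pow_card_eq_one (x := ClassGroup.mk0 ⟨p.asIdeal, h0⟩), ← map_pow]; rfl
  obtain ⟨π, hπ⟩ := (ClassGroup.mk0_eq_one_iff _).1 h1
  have hπ' : p.asIdeal ^ Fintype.card (ClassGroup (𝓞 F)) = Ideal.span {π} := hπ
  refine ⟨π, ?_, ?_, fun q hq => ?_⟩
  · intro h
    have : π = 0 := by exact_mod_cast h
    rw [this, Ideal.span_singleton_zero] at hπ'
    exact pow_ne_zero _ p.ne_bot hπ'
  · rw [HeightOneSpectrum.valuation_lt_one_iff_mem]
    refine Ideal.pow_le_self hc.ne' ?_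
    rw [hπ']; exact Ideal.mem_span_singleton_self π
  · rw [HeightOneSpectrum.valuation_eq_one_iff_notMem]
    intro h
    have h2 : p.asIdeal ^ Fintype.card (ClassGroup (𝓞 F)) ≤ q.asIdeal := by
      rw [hπ', Ideal.span_singleton_le_iff_mem]; exact h
    have h3 := (q.isPrime.pow_le_iff hc.ne').1 h2
    exact hq (HeightOneSpectrum.ext (p.isMaximal.eq_of_le q.isPrime.ne_top h3)).symm

theorem cla_nf {x : F} (h0 : x ≠ 0) (h : x ∈ Ol F) (h' : x⁻¹ ∉ Ol F) : 1 < nf x := by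
  refine lt_of_le_of_ne (one_le_nf h) fun h1 => h' ?_
  have h2 := relIndex_locL (one_ne_zero (α := F)) h0 (by simpa using h)
  rw [← h1, nf_one, div_one] at h2
  have h3 : (locL x).relIndex (locL (1 : F)) = 1 := by exact_mod_cast h2
  have h4 : (1 : F) ∈ locL (1 : F) := by simp [locL]
  have h5 := AddSubgroup.relIndex_eq_one.1 h3 h4
  simpa [locL] using h5

theorem cla_near {Γ : Type} [LinearOrderedCommGroupWithZero Γ] [MulArchimedean Γ] {α β : Γ}
    (hα : α < 1) (hβ : β ≠ 0) (hβ1 : β ≤ 1) : ∃ k : ℕ, β ≤ α ^ k ∧ α ^ k * α ≤ β := by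
  have h : ∃ k : ℕ, α ^ k < β := exists_pow_lt₀ hα (Units.mk0 β hβ)
  have h1 := Nat.find_spec h
  obtain h2 | ⟨k, h2⟩ := Nat.eq_zero_or_eq_succ_pred (Nat.find h) |>.imp id fun h3 => (⟨_, h3⟩ :
    ∃ k, Nat.find h = k + 1)
  · rw [h2, pow_zero] at h1; exact absurd hβ1 (not_le.2 h1)
  · refine ⟨k, not_lt.1 (Nat.find_min h (by omega)), ?_⟩
    rw [h2, pow_succ] at h1; exact h1.le

/-- Decomposition of the elements of Ol. -/
theorem cla_dec : ∃ (ρ : claS F → R F) (H : ℕ), (∀ i, IsUnit (ρ i) ∧ 1 < nf (ρ i : F)) ∧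
    ∀ y ∈ Ol F, y ≠ 0 → ∃ k : claS F → ℕ, y / ((∏ i, ρ i ^ k i : R F) : F) ^ 6 ∈ Ol F ∧
      MF F ^ H / (y / ((∏ i, ρ i ^ k i : R F) : F) ^ 6) ∈ Ol F := by
  choose π h0 h1 h2 using fun p : claS F => cla_gen p.1
  have hR : ∀ p : claS F, π p ∈ Rr F (Ctx0.M F) := fun p =>
    cla_R fun q hq => (h2 p q (by rintro rfl; exact hq p.2)).le
  have hR' : ∀ p : claS F, (π p)⁻¹ ∈ Rr F (Ctx0.M F) := fun p =>
    cla_R fun q hq => by rw [map_inv₀, h2 p q (by rintro rfl; exact hq p.2), inv_one]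
  have hv : ∀ (k : claS F → ℕ) (p : claS F),
      p.1.valuation F (∏ i, π i ^ k i) = p.1.valuation F (π p) ^ k p := fun k p => by
    rw [map_prod, Finset.prod_eq_single p, map_pow]
    · intro q _ hq
      rw [map_pow, h2 q p.1 (fun h => hq (Subtype.ext h.symm)), one_pow]
    · simp
  have hv0 : ∀ p : claS F, p.1.valuation F (π p) ≠ 0 := fun p => (map_ne_zero _).2 (h0 p)
  obtain ⟨H, hH⟩ := exists_Hi (∏ i, π i ^ 6)⁻¹
  refine ⟨fun p => ⟨π p, hR p⟩, H, fun p => ⟨isUnit_iff_inv.2 ⟨h0 p, hR' p⟩, ?_⟩, fun y hy hy0 => ?_⟩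
  · refine cla_nf (h0 p) (cla_Ol.2 fun q => ?_) fun h => ?_
    · by_cases hq : q = p
      · rw [hq]; exact (h1 p).le
      · exact (h2 p q.1 fun h => hq (Subtype.ext h)).le
    · have := cla_Ol.1 h p
      rw [map_inv₀, inv_le_one₀ (zero_lt_iff.2 (hv0 p))] at this
      exact absurd (h1 p) (not_lt.2 this)
  · have hy1 : ∀ p : claS F, p.1.valuation F y ≠ 0 := fun p => (map_ne_zero _).2 hy0
    choose k hk1 hk2 using fun p : claS F => cla_near (α := p.1.valuation F (π p) ^ 6)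
      (pow_lt_one₀ zero_le (h1 p) (by norm_num)) (hy1 p) (cla_Ol.1 hy p)
    have hc : ((∏ i, (⟨π i, hR i⟩ : R F) ^ k i : R F) : F) = ∏ i, π i ^ k i := by
      push_cast; rfl
    have hw : ∀ p : claS F, p.1.valuation F ((∏ i, π i ^ k i) ^ 6) =
        (p.1.valuation F (π p) ^ 6) ^ k p := fun p => by
      rw [map_pow, hv, ← pow_mul, ← pow_mul, mul_comm]
    have hw0 : ∀ p : claS F, 0 < (p.1.valuation F (π p) ^ 6) ^ k p := fun p =>
      zero_lt_iff.2 (pow_ne_zero _ (pow_ne_zero _ (hv0 p)))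
    refine ⟨k, ?_, ?_⟩
    · rw [hc, cla_Ol]
      intro p
      rw [map_div₀, hw, div_le_one₀ (hw0 p)]
      exact hk1 p
    · rw [hc, cla_Ol]
      intro p
      have h3 := cla_Ol.1 hH p
      rw [map_mul, map_inv₀, hv (fun _ => 6), ← div_eq_mul_inv,
        div_le_one₀ (zero_lt_iff.2 (pow_ne_zero _ (hv0 p)))] at h3
      rw [map_div₀, map_div₀, hw, div_le_one₀ (div_pos (zero_lt_iff.2 (hy1 p)) (hw0 p)),
        le_div_iff₀ (hw0 p), mul_comm]
      exact (mul_le_mul_right h3 _).trans (hk2 p)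

theorem cla_card (e a : ℕ) : ∃ n : ℕ, ∀ {ι : Type} (t : Finset ι) (g : ι → F),
    (∀ i ∈ t, g i ≠ 0 ∧ Hi a (g i) ∧ Hi a (g i)⁻¹) →
    (∀ i ∈ t, ∀ j ∈ t, InU e (g i / g j) → i = j) → t.card ≤ n := by
  have hM : MF F ^ (a + (a + e)) ≠ 0 := pow_ne_zero _ MF_ne
  have h1 := relIndex_locL (one_ne_zero (α := F)) hM
    (by rw [div_one]; exact pow_mem MF_mem_Ol _)
  have h2 : (locL (MF F ^ (a + (a + e)))).relIndex (locL (1 : F)) ≠ 0 := by
    intro h
    rw [h, Nat.cast_zero] at h1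
    exact (div_pos (nf_pos _) (nf_pos _)).ne h1
  obtain ⟨s, -, -, -, hs⟩ := exists_reps h2
  refine ⟨s.card, fun t g hg hinj => ?_⟩
  have h3 : ∀ i, ∃ y, i ∈ t → y ∈ s ∧ Lo (a + (a + e)) (MF F ^ a * g i - y) := fun i => by
    by_cases hi : i ∈ t
    · obtain ⟨y, hy, hy'⟩ := hs (MF F ^ a * g i) (by simpa [locL, Hi] using (hg i hi).2.1)
      exact ⟨y, fun _ => ⟨hy, by simpa [locL, Lo, div_eq_mul_inv] using hy'⟩⟩
    · exact ⟨0, fun h => absurd h hi⟩
  choose y hy using h3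
  refine Finset.card_le_card_of_injOn y (fun i hi => (hy i hi).1) fun i hi j hj hij => ?_
  refine hinj i hi j hj ?_
  have h4 := ((hy i hi).2).sub (hy j hj).2
  have h5 := mul_mem (hg j hj).2.2 h4
  have h6 := (hg j hj).1
  have h7 := MF_ne (F := F)
  have h8 : MF F ^ a * (g j)⁻¹ *
      ((MF F ^ a * g i - y i - (MF F ^ a * g j - y j)) / MF F ^ (a + (a + e))) =
      (g i / g j - 1) / MF F ^ e := by
    rw [hij, pow_add, pow_add]; field_simp; ring
  rw [h8] at h5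
  exact h5

theorem cla_geo {ι : Type} [Fintype ι] (r : ι → ℝ) (h0 : ∀ i, 0 ≤ r i) (h1 : ∀ i, r i < 1)
    (T : Finset (ι → ℕ)) : ∑ k ∈ T, ∏ i, r i ^ k i ≤ ∏ i, (1 - r i)⁻¹ := by
  let n : ℕ := T.sup (fun k => ∑ i, k i) + 1
  have h2 : T ⊆ Fintype.piFinset fun _ : ι => Finset.range n := fun k hk => by
    rw [Fintype.mem_piFinset]
    intro i
    have h3 : k i ≤ ∑ i, k i := Finset.single_le_sum (fun i _ => Nat.zero_le (k i))
      (Finset.mem_univ i)
    have h4 : ∑ i, k i ≤ T.sup (fun k => ∑ i, k i) := Finset.le_sup (f := fun k => ∑ i, k i) hk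
    rw [Finset.mem_range]; omega
  refine (Finset.sum_le_sum_of_subset_of_nonneg h2 fun k _ _ =>
    Finset.prod_nonneg fun i _ => pow_nonneg (h0 i) _).trans ?_
  rw [← Finset.prod_univ_sum (fun _ : ι => Finset.range n) (fun i j => r i ^ j)]
  refine Finset.prod_le_prod (fun i _ => Finset.sum_nonneg fun j _ => pow_nonneg (h0 i) _)
    fun i _ => ?_
  rw [← tsum_geometric_of_lt_one (h0 i) (h1 i)]
  exact (summable_geometric_of_lt_one (h0 i) (h1 i)).sum_le_tsum _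
    fun j _ => pow_nonneg (h0 i) _

theorem cla_su {e : ℕ} (he : 1 ≤ e) {s s' : R F} (hs : s ∈ SU F e) (hs' : s' ∈ SU F e)
    (h : InU e ((s : F) / s')) : s = s' := by
  have hu := SU_unit hs
  exact (SU_ex he hu).unique ⟨hs, InU.div_self (isUnit_iff_inv.1 hu).1⟩ ⟨hs', h⟩

end Vale.Agent.P319B
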