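import Vale.Agent.P319B.Kp
import Vale.Agent.P319B.Units
import Vale.Agent.P319B.Loc
import Vale.Agent.P319B.TDef

/-! Series with the product kernel. -/

namespace Vale.Agent.P319B

open Complex NumberField MeasureTheory
open scoped Classical ComplexConjugate
open Vale.Agent.P026 (w kk fk)

variable {F : Type} [Field F] [NumberField F] [Ctx0 F]

theorem kpv_bd (m : ℕ) : ∃ C : ℝ, 0 < C ∧ ∀ y : ℝ, 0 ≤ y →
    y ^ m * kp y ≤ C * ((1 + y ^ 2) ^ 2)⁻¹ := by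
  obtain ⟨C, hC, h⟩ := kp_le' (m + 4)
  refine ⟨C, hC, fun y hy => ?_⟩
  have h1 : y ^ m * (1 + y ^ 2) ^ 2 ≤ (1 + y) ^ (m + 4) := by
    rw [pow_add, show (1 + y) ^ 4 = ((1 + y) ^ 2) ^ 2 by ring]
    gcongr
    · linarith
    · nlinarith
  rw [← div_eq_mul_inv, le_div_iff₀ (by positivity)]
  calc y ^ m * kp y * (1 + y ^ 2) ^ 2 = kp y * (y ^ m * (1 + y ^ 2) ^ 2) := by ring
    _ ≤ kp y * (1 + y) ^ (m + 4) := mul_le_mul_of_nonneg_left h1 (kp_nonneg hy)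
    _ ≤ C := (le_div_iff₀ (by positivity)).1 (h y hy)

omit [Ctx0 F] in
theorem kpv_ceA [Om F] (ξ : Io F → ℂ) : Continuous (fun z => eA ξ z) := by
  unfold eA; fun_prop

theorem kpv_zero (x : Io F → ℝ) : ∏ v : Io F, kp (‖v.1 ((0 : R F) : F)‖ * x v) = 0 := by
  obtain ⟨v⟩ : Nonempty (Io F) := Fintype.card_pos_iff.1 (rr_pos (F := F))
  exact Finset.prod_eq_zero (Finset.mem_univ v) (by simp [kp])

theorem kpv_nonneg (r : F) {x : Io F → ℝ} (hx : ∀ v, 0 < x v) :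
    0 ≤ ∏ v : Io F, kp (‖v.1 r‖ * x v) :=
  Finset.prod_nonneg fun v _ => kp_nonneg (mul_nonneg (norm_nonneg _) (hx v).le)

theorem kpv_box (A : ℕ) : ∃ C : ℝ, 0 < C ∧ ∀ t : Io F → ℝ, (∀ v, 0 < t v) →
    ∃ u : R F → ℝ, Summable u ∧ ∑' r, u r ≤ C / ∏ v, t v ∧ (∀ r, 0 ≤ u r) ∧
      ∀ r : R F, r ≠ 0 → Hi A (r : F) → u r = ∏ v, ((1 + t v * sqv (r : F) v) ^ 2)⁻¹ := by
  obtain ⟨C, hC, h⟩ := box_sum (F := F) (pow_ne_zero A (Ctx0.M_ne (F := F)))
  refine ⟨C, hC, fun t ht => ?_⟩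
  obtain ⟨h1, h2⟩ := h t ht
  have h0 : ∀ x : F, 0 ≤ (if x ≠ 0 ∧ IsIntegral ℤ (((Ctx0.M F ^ A : ℕ) : F) * x) then
      ∏ v, ((1 + t v * sqv x v) ^ 2)⁻¹ else 0) := fun x => by
    split_ifs
    · exact Finset.prod_nonneg fun v _ => by positivity
    · exact le_rfl
  refine ⟨_, h1.comp_injective Subtype.val_injective,
    (tsum_comp_le_tsum_of_inj h1 h0 Subtype.val_injective).trans h2, fun r => h0 _,
    fun r hr hA => if_pos ⟨fun h => hr (Subtype.ext h), int_of_Hi hA⟩⟩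

theorem kpv_term (m : ℕ) : ∃ C : ℝ, 0 < C ∧ ∀ (r : F) (x0 x : Io F → ℝ), (∀ v, 0 < x0 v) →
    (∀ v, x0 v ≤ x v) → √(Nin r) ^ m * ∏ v, kp (‖v.1 r‖ * x v) ≤
      C / (∏ v, x0 v) ^ m * ∏ v, ((1 + x0 v ^ 2 * sqv r v) ^ 2)⁻¹ := by
  obtain ⟨C, hC, h⟩ := kpv_bd m
  refine ⟨∏ _v : Io F, C, Finset.prod_pos fun _ _ => hC, fun r x0 x h0 hx => ?_⟩
  rw [sqrt_Nin, ← Finset.prod_pow, ← Finset.prod_pow, ← Finset.prod_div_distrib,
    ← Finset.prod_mul_distrib, ← Finset.prod_mul_distrib]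
  have hx0 : ∀ v, 0 < x v := fun v => (h0 v).trans_le (hx v)
  refine Finset.prod_le_prod (fun v _ => mul_nonneg (by positivity)
    (kp_nonneg (mul_nonneg (norm_nonneg _) (hx0 v).le))) fun v _ => ?_
  have h1 := h0 v
  have h2 := hx v
  have h3 := hx0 v
  have h4 := kp_nonneg (mul_nonneg (norm_nonneg (v.1 r)) h3.le)
  rw [div_mul_eq_mul_div, le_div_iff₀ (by positivity), sqv_eq]
  calc _ = (‖v.1 r‖ * x0 v) ^ m * kp (‖v.1 r‖ * x v) := by ring
    _ ≤ (‖v.1 r‖ * x v) ^ m * kp (‖v.1 r‖ * x v) := by gcongr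
    _ ≤ C * ((1 + (‖v.1 r‖ * x v) ^ 2) ^ 2)⁻¹ := h _ (by positivity)
    _ ≤ C * ((1 + (‖v.1 r‖ * x0 v) ^ 2) ^ 2)⁻¹ := by gcongr
    _ = _ := by ring

theorem kpv_low (A : ℕ) : ∃ K : ℝ, 0 < K ∧ ∀ r : R F, r ≠ 0 → Hi A (r : F) →
    1 ≤ K * √(Nin (r : F)) := by
  have hM : (0 : ℝ) < Ctx0.M F := by exact_mod_cast Nat.pos_of_ne_zero (Ctx0.M_ne (F := F))
  refine ⟨√(((Ctx0.M F : ℝ) ^ dg F) ^ A), by positivity, fun r hr hA => ?_⟩
  rw [← Real.sqrt_mul (by positivity)]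
  exact Real.one_le_sqrt.2 (Nin_ge_of_Hi hr hA)

theorem summable_kpV (A k : ℕ) {x0 : Io F → ℝ} (h0 : ∀ v, 0 < x0 v) : ∃ u : R F → ℝ, Summable u ∧
    (∀ r, 0 ≤ u r) ∧ ∀ (r : R F) (x : Io F → ℝ), Hi A (r : F) → (∀ v, x0 v ≤ x v) →
      √(Nin (r : F)) ^ k * ∏ v, kp (‖v.1 (r : F)‖ * x v) ≤ u r := by
  obtain ⟨C, -, h⟩ := kpv_box (F := F) A
  obtain ⟨u, hu, -, hu0, hu1⟩ := h (fun v => x0 v ^ 2) fun v => pow_pos (h0 v) 2
  obtain ⟨C', hC', h'⟩ := kpv_term (F := F) k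
  have hp : 0 < C' / (∏ v, x0 v) ^ k := div_pos hC' (pow_pos (Finset.prod_pos fun v _ => h0 v) _)
  refine ⟨fun r => C' / (∏ v, x0 v) ^ k * u r, hu.mul_left _,
    fun r => mul_nonneg hp.le (hu0 r), fun r x hA hx => ?_⟩
  by_cases hr : r = 0
  · rw [hr, kpv_zero, mul_zero]; exact mul_nonneg hp.le (hu0 0)
  · beta_reduce
    rw [hu1 r hr hA]; exact h' _ x0 x h0 hx

theorem kpv_dom {a : R F → ℂ} (ha : Gr a) {x0 : Io F → ℝ} (h0 : ∀ v, 0 < x0 v) :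
    ∃ u : R F → ℝ, Summable u ∧ ∀ (r : R F) (x : Io F → ℝ), (∀ v, x0 v ≤ x v) →
      ‖a r * ((∏ v, kp (‖v.1 (r : F)‖ * x v) : ℝ) : ℂ)‖ ≤ u r := by
  obtain ⟨-, ⟨A, hA⟩, B, hB⟩ := ha
  obtain ⟨u, hu, hu0, h⟩ := summable_kpV A 1 h0
  refine ⟨fun r => |B| * u r, hu.mul_left _, fun r x hx => ?_⟩
  by_cases hr : a r = 0
  · rw [hr, zero_mul, norm_zero]; exact mul_nonneg (abs_nonneg _) (hu0 r)
  · have h1 := kpv_nonneg (r : F) fun v => (h0 v).trans_le (hx v)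
    have h2 := h r x (hA r hr) hx
    rw [norm_mul, norm_real, Real.norm_of_nonneg h1]
    rw [pow_one] at h2
    calc _ ≤ |B| * √(Nin (r : F)) * ∏ v, kp (‖v.1 (r : F)‖ * x v) :=
          mul_le_mul_of_nonneg_right ((hB r).trans
            (mul_le_mul_of_nonneg_right (le_abs_self B) (Real.sqrt_nonneg _))) h1
      _ ≤ _ := by rw [mul_assoc]; exact mul_le_mul_of_nonneg_left h2 (abs_nonneg _)

theorem kpv_cont {X : Type} [TopologicalSpace X] {a : R F → ℂ} (ha : Gr a) {g : R F → X → ℂ}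
    (hg : ∀ r, Continuous (g r)) (hg1 : ∀ r p, ‖g r p‖ ≤ 1) :
    ContinuousOn (fun p : X × (Io F → ℝ) =>
      ∑' r : R F, a r * ((∏ v, kp (‖v.1 (r : F)‖ * p.2 v) : ℝ) : ℂ) * g r p.1)
      {p | ∀ v, 0 < p.2 v} := by
  intro p hp
  obtain ⟨u, hu, h⟩ := kpv_dom ha (x0 := fun v => p.2 v / 2) fun v => half_pos (hp v)
  have hU : IsOpen {q : X × (Io F → ℝ) | ∀ v, p.2 v / 2 < q.2 v} := by
    rw [Set.ofPred_forall]
    exact isOpen_iInter_of_finite fun v => isOpen_lt continuous_const (by fun_prop)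
  have hk := continuous_kp
  refine ((continuousOn_tsum (s := {q : X × (Io F → ℝ) | ∀ v, p.2 v / 2 < q.2 v})
    (fun r => Continuous.continuousOn ?_) hu fun r q hq => ?_).continuousAt
      (hU.mem_nhds fun v => half_lt_self (hp v))).continuousWithinAt
  · exact (continuous_const.mul (continuous_ofReal.comp (continuous_finsetProd _ fun v _ =>
      hk.comp (by fun_prop)))).mul ((hg r).comp continuous_fst)
  · rw [norm_mul]
    exact (mul_le_of_le_one_right (norm_nonneg _) (hg1 r _)).trans (h r _ fun v => (hq v).le)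

theorem kpv_div {τ : R F → ℂ} (hτ : Gr τ) : Gr (fun r => τ r / (√(Nin (r : F)) : ℝ)) := by
  obtain ⟨h0, ⟨A, hA⟩, B, hB⟩ := hτ
  obtain ⟨K, hK, h⟩ := kpv_low (F := F) A
  refine ⟨by simp [h0], ⟨A, fun r hr => hA r fun h => hr (by simp [h])⟩, |B| * K, fun r => ?_⟩
  beta_reduce
  by_cases hr : τ r = 0
  · rw [hr, zero_div, norm_zero]; positivity
  · have hr0 : r ≠ 0 := fun h => hr (h ▸ h0)
    have h1 : 0 < √(Nin (r : F)) := Real.sqrt_pos.2 (Nin_pos fun h => hr0 (Subtype.ext h))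
    rw [norm_div, norm_real, Real.norm_of_nonneg h1.le, div_le_iff₀ h1, mul_assoc |B|]
    refine (hB r).trans (mul_le_mul_of_nonneg_right ((le_abs_self B).trans ?_) h1.le)
    exact le_mul_of_one_le_right (abs_nonneg _) (h r hr0 (hA r hr))

theorem summable_PhiV {a : R F → ℂ} (ha : Gr a) {x : Io F → ℝ} (hx : ∀ v, 0 < x v) :
    Summable (fun r : R F => a r * ((∏ v, kp (‖v.1 (r : F)‖ * x v) : ℝ) : ℂ)) := by
  obtain ⟨u, hu, h⟩ := kpv_dom ha hx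
  exact Summable.of_norm_bounded hu fun r => h r x fun _ => le_rfl
theorem tsum_kpV_le {a : R F → ℂ} (ha : Gr a) (n : ℕ) (hn : 3 ≤ n) : ∃ C : ℝ, 0 < C ∧
    ∀ x : Io F → ℝ, (∀ v, 0 < x v) →
      ∑' r : R F, ‖a r‖ * ∏ v, kp (‖v.1 (r : F)‖ * x v) ≤ C / (∏ v, x v) ^ n := by
  obtain ⟨m, rfl⟩ := Nat.exists_eq_add_of_le' hn
  obtain ⟨h0, ⟨A, hA⟩, B, hB⟩ := ha
  obtain ⟨K, hK, hl⟩ := kpv_low (F := F) A
  obtain ⟨C, hC, h⟩ := kpv_box (F := F) A
  obtain ⟨C', hC', h'⟩ := kpv_term (F := F) (m + 1)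
  refine ⟨(|B| + 1) * K ^ m * C' * C, by positivity, fun x hx => ?_⟩
  obtain ⟨u, hu, hs, hu0, hu1⟩ := h (fun v => x v ^ 2) fun v => pow_pos (hx v) 2
  have hp : 0 < ∏ v, x v := Finset.prod_pos fun v _ => hx v
  have h1 : ∀ r : R F, ‖a r‖ * ∏ v, kp (‖v.1 (r : F)‖ * x v) ≤
      (|B| + 1) * K ^ m * (C' / (∏ v, x v) ^ (m + 1)) * u r := fun r => by
    by_cases hr : a r = 0
    · rw [hr, norm_zero, zero_mul]; exact mul_nonneg (by positivity) (hu0 r)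
    · have hr0 : r ≠ 0 := fun h => hr (h ▸ h0)
      have h2 : ‖a r‖ ≤ (|B| + 1) * K ^ m * √(Nin (r : F)) ^ (m + 1) :=
        calc ‖a r‖ ≤ (|B| + 1) * √(Nin (r : F)) := (hB r).trans
              (mul_le_mul_of_nonneg_right (by linarith [le_abs_self B]) (Real.sqrt_nonneg _))
          _ ≤ (|B| + 1) * √(Nin (r : F)) * (K * √(Nin (r : F))) ^ m :=
              le_mul_of_one_le_right (by positivity) (one_le_pow₀ (hl r hr0 (hA r hr)))
          _ = _ := by ring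
      refine (mul_le_mul_of_nonneg_right h2 (kpv_nonneg _ hx)).trans ?_
      rw [hu1 r hr0 (hA r hr), mul_assoc _ (√(Nin (r : F)) ^ (m + 1)), mul_assoc _ (C' / _)]
      exact mul_le_mul_of_nonneg_left (h' _ x x hx fun _ => le_rfl) (by positivity)
  have h3 := hu.mul_left ((|B| + 1) * K ^ m * (C' / (∏ v, x v) ^ (m + 1)))
  refine ((Summable.of_nonneg_of_le (fun r => mul_nonneg (norm_nonneg _) (kpv_nonneg _ hx))
    h1 h3).tsum_le_tsum h1 h3).trans ?_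
  rw [tsum_mul_left]
  refine (mul_le_mul_of_nonneg_left hs (by positivity)).trans_eq ?_
  rw [Finset.prod_pow]; field_simp; ring
theorem continuousOn_PhiV {a : R F → ℂ} (ha : Gr a) :
    ContinuousOn (PhiV a) {x | ∀ v, 0 < x v} := by
  have h := (kpv_cont (X := Unit) ha (g := fun _ _ => 1) (fun _ => continuous_const)
    (fun _ _ => norm_one.le)).comp (f := fun x : Io F → ℝ => ((), x))
      (s := {x | ∀ v, 0 < x v}) (Continuous.continuousOn (by fun_prop)) fun x hx => hx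
  simp only [mul_one, Function.comp_def] at h
  exact (Continuous.continuousOn (by fun_prop)).mul h
theorem Gr.mul {a χ : R F → ℂ} (ha : Gr a) {B : ℝ} (hχ : ∀ r, ‖χ r‖ ≤ B) :
    Gr (fun r => a r * χ r) := by
  obtain ⟨h0, ⟨A, hA⟩, B', hB⟩ := ha
  refine ⟨by simp [h0], ⟨A, fun r hr => hA r (left_ne_zero_of_mul hr)⟩, B' * B, fun r => ?_⟩
  rw [norm_mul, mul_right_comm]
  exact mul_le_mul (hB r) (hχ r) (norm_nonneg _) ((norm_nonneg _).trans (hB r))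
theorem Gr.of_sixth {a : R F → ℂ} (h0 : a 0 = 0) {A : ℕ} (hA : ∀ r, a r ≠ 0 → Hi A (r : F)) {B : ℝ}
    (hB : ∀ r, ‖a r‖ ≤ B * Nin (r : F) ^ (1 / 6 : ℝ)) : Gr a := by
  obtain ⟨K, hK, h⟩ := kpv_low (F := F) A
  refine ⟨h0, ⟨A, hA⟩, |B| * K ^ (2 / 3 : ℝ), fun r => ?_⟩
  by_cases hr : a r = 0
  · rw [hr, norm_zero]; positivity
  · have hr0 : r ≠ 0 := fun h => hr (h ▸ h0)
    have h1 : 0 < Nin (r : F) := Nin_pos fun h => hr0 (Subtype.ext h)
    have h2 : 1 ≤ (K * √(Nin (r : F))) ^ (2 / 3 : ℝ) :=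
      Real.one_le_rpow (h r hr0 (hA r hr)) (by norm_num)
    calc ‖a r‖ ≤ |B| * Nin (r : F) ^ (1 / 6 : ℝ) :=
          (hB r).trans (mul_le_mul_of_nonneg_right (le_abs_self B) (by positivity))
      _ ≤ |B| * Nin (r : F) ^ (1 / 6 : ℝ) * (K * √(Nin (r : F))) ^ (2 / 3 : ℝ) :=
          le_mul_of_one_le_right (by positivity) h2
      _ = |B| * K ^ (2 / 3 : ℝ) *
          (Nin (r : F) ^ (1 / 6 : ℝ) * (Nin (r : F) ^ (1 / 2 : ℝ)) ^ (2 / 3 : ℝ)) := by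
          rw [Real.mul_rpow hK.le (Real.sqrt_nonneg _), Real.sqrt_eq_rpow]; ring
      _ = _ := by
          rw [← Real.rpow_mul h1.le, ← Real.rpow_add h1, Real.sqrt_eq_rpow]; norm_num
theorem VorV.congr {a a' b b' : R F → ℂ} {q : F} {e : ℂ} (h : VorV a b q e) (ha : ∀ r, a r = a' r)
    (hb : ∀ r, b r = b' r) : VorV a' b' q e := by
  rw [← funext ha, ← funext hb]; exact h

theorem kpv_smul (z : ℂ) (a : R F → ℂ) (x : Io F → ℝ) :
    PhiV (fun r => z * a r) x = z * PhiV a x := by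
  simp only [PhiV, mul_assoc, tsum_mul_left]; ring

theorem kpv_sum {ι : Type} (s : Finset ι) {a : ι → R F → ℂ} (h : ∀ i ∈ s, Gr (a i))
    {x : Io F → ℝ} (hx : ∀ v, 0 < x v) :
    PhiV (fun r => ∑ i ∈ s, a i r) x = ∑ i ∈ s, PhiV (a i) x := by
  simp only [PhiV, Finset.sum_mul, ← Finset.mul_sum]
  rw [Summable.tsum_finsetSum fun i hi => summable_PhiV (h i hi) hx]

theorem VorV.move {a b : R F → ℂ} {q : F} {e e' : ℂ} :
    VorV a b q (e * e') ↔ VorV a (fun r => e' * b r) q e := by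
  simp only [VorV, kpv_smul, mul_assoc]
theorem VorV.smul {a b : R F → ℂ} {q : F} {e : ℂ} (h : VorV a b q e) (z : ℂ) :
    VorV (fun r => z * a r) b q (z * e) := fun x hx => by
  rw [kpv_smul, h x hx, mul_assoc]
theorem VorV.sum {ι : Type} (s : Finset ι) {a b : ι → R F → ℂ} {q : F} {e : ℂ}
    (h : ∀ i ∈ s, Gr (a i) ∧ Gr (b i) ∧ VorV (a i) (b i) q e) :
    VorV (fun r => ∑ i ∈ s, a i r) (fun r => ∑ i ∈ s, b i r) q e := by
  intro x hx
  rw [kpv_sum s (fun i hi => (h i hi).1) hx, Finset.sum_congr rfl fun i hi => (h i hi).2.2 x hx,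
    ← Finset.mul_sum]
  by_cases hq : q = 0
  · obtain ⟨v⟩ : Nonempty (Io F) := Fintype.card_pos_iff.1 (rr_pos (F := F))
    have h0 : ∏ v, 1 / (sqv q v * x v) = 0 :=
      Finset.prod_eq_zero (Finset.mem_univ v) (by simp [hq, sqv])
    simp only [PhiV, h0, ofReal_zero, zero_mul, Finset.sum_const_zero]
  · rw [kpv_sum s (fun i hi => (h i hi).2.1) fun v => one_div_pos.2 (mul_pos (sqv_pos hq v) (hx v))]

theorem measurable_Ser (τ : R F → ℂ) :
    Measurable (fun p : (Io F → ℂ) × (Io F → ℝ) × (Io F → ℝ) => Ser τ p.1 p.2.1 p.2.2) := by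
  have hk := continuous_kp.measurable
  refine Measurable.tsum fun r => (measurable_const.mul (measurable_ofReal.comp
    (Finset.measurable_prod _ fun v _ => Measurable.mul (by fun_prop)
      (hk.comp (by fun_prop))))).mul ?_
  exact (kpv_ceA _).measurable.comp measurable_fst

theorem kpv_Ser (τ : R F → ℂ) (z : Io F → ℂ) (D E : Io F → ℝ) : Ser τ z D E =
    ((∏ v, E v ^ (-(2 / 3) : ℝ) : ℝ) : ℂ) * ∑' r : R F, τ r / (√(Nin (r : F)) : ℝ) *
      ((∏ v, kp (‖v.1 (r : F)‖ * (√(E v) / D v)) : ℝ) : ℂ) * eA (emb (r : F)) z := by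
  rw [Ser, ← tsum_mul_left]
  refine tsum_congr fun r => ?_
  rw [Finset.prod_mul_distrib, ofReal_mul]; ring

theorem continuousOn_Ser {τ : R F → ℂ} (hτ : Gr τ) :
    ContinuousOn (fun p : (Io F → ℂ) × (Io F → ℝ) × (Io F → ℝ) => Ser τ p.1 p.2.1 p.2.2)
      {p | (∀ v, 0 < p.2.1 v) ∧ ∀ v, 0 < p.2.2 v} := by
  simp only [kpv_Ser]
  refine ContinuousOn.mul (continuous_ofReal.comp_continuousOn
    (continuousOn_finsetProd _ fun v _ => ContinuousOn.rpow_const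
      (Continuous.continuousOn (by fun_prop)) fun p hp => Or.inl (hp.2 v).ne')) ?_
  have h := kpv_cont (kpv_div hτ) (g := fun (r : R F) (z : Io F → ℂ) => eA (emb (r : F)) z)
    (fun r => kpv_ceA _)
    fun r z => (norm_eA _ _).le
  have h2 : ContinuousOn (fun p : (Io F → ℂ) × (Io F → ℝ) × (Io F → ℝ) =>
      (p.1, fun v => √(p.2.2 v) / p.2.1 v)) {p | (∀ v, 0 < p.2.1 v) ∧ ∀ v, 0 < p.2.2 v} :=
    continuousOn_fst.prodMk (continuousOn_pi.2 fun v => ContinuousOn.div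
      (Continuous.continuousOn (by fun_prop)) (Continuous.continuousOn (by fun_prop))
      fun p hp => (hp.1 v).ne')
  have h3 := h.comp h2 fun p hp v => div_pos (Real.sqrt_pos.2 (hp.2 v)) (hp.1 v)
  simp only [Function.comp_def] at h3
  exact h3
theorem Ser_per {τ : R F → ℂ} {L : AddSubgroup F} (hs : ∀ r, τ r ≠ 0 → (r : F) ∈ dualL L) {y : F}
    (hy : y ∈ L) (z : Io F → ℂ) (D E : Io F → ℝ) : Ser τ (z + emb y) D E = Ser τ z D E := by
  refine tsum_congr fun r => ?_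
  by_cases hr : τ r = 0
  · simp [hr]
  · rw [eA_add, ← eT_eq_eA, mem_dualL.1 (hs r hr) y hy, mul_one]
theorem Ser_coef {τ : R F → ℂ} (hτ : Gr τ) {L : AddSubgroup F} (hL : IsLat L)
    (hs : ∀ r, τ r ≠ 0 → (r : F) ∈ dualL L) {r : R F} (hr : (r : F) ∈ dualL L) {D E : Io F → ℝ}
    (hD : ∀ v, 0 < D v) (hE : ∀ v, 0 < E v) :
    ∫ z in FD L, Ser τ z D E * conj (eA (emb (r : F)) z) =
      (cov L : ℂ) * (τ r / (√(Nin (r : F)) : ℝ) *
        ((∏ v, E v ^ (-(2 / 3) : ℝ) * kp (‖v.1 (r : F)‖ * (√(E v) / D v)) : ℝ) : ℂ)) := by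
  have : IsFiniteMeasure (volume.restrict (FD L)) :=
    isFiniteMeasure_restrict.2 (isBounded_FD L).measure_lt_top.ne
  have hs0 := summable_PhiV (kpv_div hτ) (x := fun v => √(E v) / D v)
    fun v => div_pos (Real.sqrt_pos.2 (hE v)) (hD v)
  obtain ⟨c, hc⟩ : ∃ c : R F → ℂ, ∀ r' : R F, c r' = τ r' / (√(Nin (r' : F)) : ℝ) *
      ((∏ v, E v ^ (-(2 / 3) : ℝ) * kp (‖v.1 (r' : F)‖ * (√(E v) / D v)) : ℝ) : ℂ) :=
    ⟨_, fun _ => rfl⟩
  have hsc : Summable c := by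
    refine (hs0.mul_left ((∏ v, E v ^ (-(2 / 3) : ℝ) : ℝ) : ℂ)).congr fun r' => ?_
    rw [hc, Finset.prod_mul_distrib, ofReal_mul]; ring
  have h1 : ∀ z, Ser τ z D E * conj (eA (emb (r : F)) z) =
      ∑' r' : R F, c r' * eA (emb ((r' : F) - r)) z := fun z => by
    rw [Ser, ← tsum_mul_right]
    refine tsum_congr fun r' => ?_
    rw [hc, sub_eq_add_neg, emb_add, eA_add_left, emb_neg, eA_comm (-_), eA_neg, eA_comm z,
      mul_assoc]
  simp only [h1]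
  rw [← hc, ← integral_tsum_of_summable_integral_norm, tsum_eq_single r]
  · rw [integral_const_mul, integral_eA hL (sub_mem hr hr), if_pos (sub_self _), mul_comm]
  · intro r' hr'
    rw [integral_const_mul]
    by_cases h0 : τ r' = 0
    · rw [hc, h0, zero_div, zero_mul, zero_mul]
    · rw [integral_eA hL (sub_mem (hs r' h0) hr),
        if_neg fun h => hr' (Subtype.ext (sub_eq_zero.1 h)), mul_zero]
  · intro r'
    exact (Integrable.of_bound (kpv_ceA _).aestronglyMeasurable 1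
      (Filter.Eventually.of_forall fun z => (norm_eA _ _).le)).const_mul _
  · simp only [norm_mul, norm_eA, mul_one, integral_const, smul_eq_mul]
    exact hsc.norm.mul_left _

end Vale.Agent.P319B
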