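import Vale.Agent.P319B.Res1
import Vale.Agent.P319B.KpV

/-! From the residues to the Fourier expansion. -/

namespace Vale.Agent.P319B

open Complex NumberField MeasureTheory Filter Topology
open scoped Classical ComplexConjugate
open Vale.Agent.P026 (w kk fk)

section Aux

variable {F : Type} [Field F] [NumberField F] [Ctx0 F]

theorem cf_ae_ae {P : (Io F → ℂ) × (Io F → ℝ) × (Io F → ℝ) → Prop}
    (h : ∀ᵐ x ∂(volume.restrict (Set.univ ×ˢ DE F)), P x) :
    ∀ᵐ p ∂(volume.restrict (DE F)), ∀ᵐ z : Io F → ℂ, P (z, p) := by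
  rw [prod_DE] at h
  exact Measure.ae_ae_of_ae_prod (Measure.measurePreserving_swap.quasiMeasurePreserving.ae h)

theorem cf_of_ae_ae {u : (Io F → ℂ) × (Io F → ℝ) × (Io F → ℝ) → ℂ} (hu : Measurable u)
    (h : ∀ᵐ p ∂(volume.restrict (DE F)), ∀ᵐ z : Io F → ℂ, u (z, p) = 0) :
    ∀ᵐ x ∂(volume.restrict (Set.univ ×ˢ DE F)), u x = 0 := by
  have hm : MeasurableSet {x | u x = 0} := measurableSet_eq_fun hu measurable_const
  rw [prod_DE, Measure.ae_prod_iff_ae_ae hm, Measure.ae_ae_comm hm]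
  exact h

theorem cf_fib {L : AddSubgroup F} (hL : IsLat L) (hR : ∀ r ∈ dualL L, r ∈ Rr F (Ctx0.M F))
    {g : (Io F → ℂ) → ℂ} (hg : MemLp g 2 (volume.restrict (FD L))) {τ : R F → ℂ} (hτ : Gr τ)
    (hs : ∀ r, τ r ≠ 0 → (r : F) ∈ dualL L) {D E : Io F → ℝ} (hD : ∀ v, 0 < D v)
    (hE : ∀ v, 0 < E v) (h : ∀ r : R F, r ≠ 0 → (r : F) ∈ dualL L →
      ∫ z in FD L, g z * conj (eA (emb (r : F)) z) = (cov L : ℂ) * (τ r / (√(Nin (r : F)) : ℝ) *
        ((∏ v, E v ^ (-(2 / 3) : ℝ) * kp (‖v.1 (r : F)‖ * (√(E v) / D v)) : ℝ) : ℂ))) :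
    ∀ᵐ z ∂(volume.restrict (FD L)),
      g z - ((cov L : ℂ)⁻¹ * (∫ z in FD L, g z) + Ser τ z D E) = 0 := by
  have : IsFiniteMeasure (volume.restrict (FD L)) :=
    isFiniteMeasure_restrict.2 (isBounded_FD L).measure_lt_top.ne
  obtain ⟨c, hc⟩ : ∃ c, c = (cov L : ℂ)⁻¹ * ∫ z in FD L, g z := ⟨_, rfl⟩
  rw [← hc]
  have hs0 := summable_PhiV (kpv_div hτ) (x := fun v => √(E v) / D v)
    fun v => div_pos (Real.sqrt_pos.2 (hE v)) (hD v)
  have hm : Measurable fun z => Ser τ z D E := by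
    have := (measurable_Ser τ).comp (measurable_id.prodMk (measurable_const (a := (D, E))))
    simpa only [Function.comp_def, id] using this
  have hT : MemLp (fun z => Ser τ z D E) 2 (volume.restrict (FD L)) := by
    exact MemLp.of_bound hm.aestronglyMeasurable _ (Eventually.of_forall fun z =>
      ((congrArg norm (kpv_Ser τ z D E)).trans (norm_mul _ _)).trans_le
        (mul_le_mul_of_nonneg_left (tsum_of_norm_bounded hs0.norm.hasSum
          fun r => by rw [norm_mul, norm_eA, mul_one]) (norm_nonneg _)))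
  refine fourier_unique hL (hg.sub ((memLp_const c).add hT)) fun r hr => ?_
  have he : AEStronglyMeasurable (fun z => conj (eA (emb r) z)) (volume.restrict (FD L)) :=
    (continuous_conj.comp (kpv_ceA _)).aestronglyMeasurable
  have he' : ∀ᵐ z ∂(volume.restrict (FD L)), ‖conj (eA (emb r) z)‖ ≤ 1 :=
    Eventually.of_forall fun z => by rw [RCLike.norm_conj, norm_eA]
  have i1 := (hg.integrable one_le_two).mul_bdd he he'
  have i2 := (integrable_const (μ := volume.restrict (FD L)) c).mul_bdd he he'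
  have i3 := (hT.integrable one_le_two).mul_bdd he he'
  simp only [sub_mul, ← sub_sub]
  have e0 := Ser_coef hτ hL hs (r := ⟨r, hR r hr⟩) hr hD hE
  rw [integral_sub (i1.sub' i2) i3, integral_sub i1 i2, integral_const_mul, e0]
  have hV : (cov L : ℂ) ≠ 0 := ofReal_ne_zero.2 (cov_pos hL).ne'
  have e1 : ∫ z in FD L, conj (eA (emb r) z) = if r = 0 then (cov L : ℂ) else 0 := by
    have h1 : ∀ z, conj (eA (emb r) z) = eA (emb (-r)) z := fun z => by
      rw [emb_neg, eA_comm (-_), eA_neg, eA_comm]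
    simp only [h1, integral_eA hL (neg_mem hr), neg_eq_zero]
  rw [e1]
  by_cases hr0 : r = 0
  · subst hr0
    have h2 : τ ⟨0, hR 0 hr⟩ = 0 := hτ.1
    simp only [if_pos, h2, emb_zero, eA_comm 0, eA_zero, map_one, mul_one, zero_div, zero_mul,
      mul_zero, hc]
    field_simp
    ring
  · rw [if_neg hr0, h ⟨r, hR r hr⟩ (fun h => hr0 (congrArg Subtype.val h)) hr]
    ring

theorem cf_shape {r : F} (hr : r ≠ 0) {D E : Io F → ℝ} (hD : ∀ v, 0 < D v) (hE : ∀ v, 0 < E v) :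
    ∏ v : Io F, D v ^ (-(2 / 3) : ℝ) * E v ^ (-(1 / 3) : ℝ) *
        kk (2 * Real.pi * ‖v.1 r‖ * (√(E v) / D v)) =
      Nin r ^ (1 / 6 : ℝ) / √(Nin r) *
        ∏ v : Io F, E v ^ (-(2 / 3) : ℝ) * kp (‖v.1 r‖ * (√(E v) / D v)) := by
  have h0 := Nin_pos hr
  rw [Finset.prod_congr rfl fun v _ =>
    kk_eq_kp (norm_pos_iff.2 ((map_ne_zero v.1).2 hr)) (hD v) (hE v), Finset.prod_mul_distrib,
    Real.finsetProd_rpow _ _ fun v _ => norm_nonneg _, ← sqrt_Nin, Real.sqrt_eq_rpow,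
    ← Real.rpow_mul h0.le, ← Real.rpow_sub h0]
  norm_num

end Aux

variable {F : Type} [Field F] [NumberField F] [Ctx F]

theorem isExp {k : R F → R F → ℂ} {b : ℕ} (hk : Adm k b) {f : HF F → ℂ} (hm : Measurable f)
    (hc : Conv k f) {τ : R F → ℂ} (hτ : Gr τ) (hs : ∀ r, τ r ≠ 0 → (r : F) ∈ dualL (Lb F b))
    (hl : ∀ r : R F, r ≠ 0 → (r : F) ∈ dualL (Lb F b) → Tendsto (Rsum (aK k b r) phi0) (Fz F)
      (𝓝 (τ r * ((cov (Lb F b) / (mm F * Nin (r : F) ^ (1 / 6 : ℝ)) : ℝ) : ℂ)))) :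
    IsExp f τ := by
  have hL := isLat_Lb (F := F) b
  have hcL : Countable (Lb F b) := IsLat.countable
  have hmp := hm.comp measurable_pt
  obtain ⟨c, hcd⟩ : ∃ c : (Io F → ℝ) × (Io F → ℝ) → ℂ,
      c = fun p => (cov (Lb F b) : ℂ)⁻¹ * ∫ z in FD (Lb F b), f (pt z p.1 p.2) := ⟨_, rfl⟩
  have hcm : Measurable c := by
    rw [hcd]
    exact measurable_const.mul (hmp.stronglyMeasurable.integral_prod_left'
      (μ := volume.restrict (FD (Lb F b)))).measurable
  obtain ⟨u, hu⟩ : ∃ u : (Io F → ℂ) × (Io F → ℝ) × (Io F → ℝ) → ℂ,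
      u = fun x => f (pt x.1 x.2.1 x.2.2) - (c x.2 + Ser τ x.1 x.2.1 x.2.2) := ⟨_, rfl⟩
  have hum : Measurable u := by
    rw [hu]
    exact hmp.sub ((hcm.comp measurable_snd).add (measurable_Ser τ))
  have hper : ∀ᵐ p ∂(volume.restrict (DE F)), ∀ y : Lb F b, ∀ᵐ z : Io F → ℂ,
      u (z + emb (y : F), p) = u (z, p) := by
    rw [ae_all_iff]
    intro y
    obtain ⟨hy1, hy2⟩ := mem_Lb.1 y.2
    have h1 := hc.trl hm (g := tr ⟨y, hy1⟩) Nin_one
    rw [hk.trl_tr hy2] at h1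
    have h2 := Conv.unique (hm.comp (continuous_act _).measurable) hm h1 hc
    filter_upwards [cf_ae_ae (ae_pt h2)] with p hp
    filter_upwards [hp] with z hz
    simp only [Function.comp_apply, act_tr_pt] at hz
    simp only [hu, Ser_per hs y.2]
    rw [hz]
  have hsh : ∀ᵐ p ∂(volume.restrict (DE F)), ∀ r : R F, r ≠ 0 → (r : F) ∈ dualL (Lb F b) →
      ∫ z in FD (Lb F b), f (pt z p.1 p.2) * conj (eA (emb (r : F)) z) =
        (cov (Lb F b) : ℂ) * (τ r / (√(Nin (r : F)) : ℝ) *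
          ((∏ v, p.2 v ^ (-(2 / 3) : ℝ) * kp (‖v.1 (r : F)‖ * (√(p.2 v) / p.1 v)) : ℝ) : ℂ)) := by
    refine ae_all_iff.2 fun r => eventually_imp_distrib_left.2 fun hr0 =>
      eventually_imp_distrib_left.2 fun hr => ?_
    obtain ⟨ρ, h1, h2⟩ := res_shape hk hm hc hr
    have h3 := tendsto_nhds_unique (h1 hr0) (hl r hr0 hr)
    have hr1 : (r : F) ≠ 0 := fun h => hr0 (Subtype.ext h)
    have h4 : (mm F : ℂ) ≠ 0 := ofReal_ne_zero.2 mm_pos.ne'
    have h5 : ((Nin (r : F) ^ (1 / 6 : ℝ) : ℝ) : ℂ) ≠ 0 :=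
      ofReal_ne_zero.2 (Real.rpow_pos_of_pos (Nin_pos hr1) _).ne'
    filter_upwards [h2, ae_restrict_mem measurableSet_DE] with p hp hp'
    rw [hp, h3, cf_shape hr1 hp'.1 hp'.2.1]
    simp only [ofReal_mul, ofReal_div]
    field_simp
  refine ⟨c, ?_⟩
  have key : ∀ᵐ x ∂(volume.restrict (Set.univ ×ˢ DE F)), u x = 0 := by
    refine cf_of_ae_ae hum ?_
    filter_upwards [hper, hsh, hc.memLp hk.1 hm (Lb F b), ae_restrict_mem measurableSet_DE]
      with p h1 h2 h3 h4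
    have hump : Measurable fun z => u (z, p) := hum.comp (measurable_id.prodMk measurable_const)
    have h5 : ∀ᵐ z ∂(volume.restrict (FD (Lb F b))), u (z, p) = 0 := by
      simp only [hu, hcd]
      exact cf_fib hL (fun r hr => (mem_dual_Lb.1 hr).1) h3 hτ hs h4.1 h4.2.1 h2
    have h6 : ∫⁻ z, ‖u (z, p)‖ₑ = 0 := by
      rw [lintegral_FD hL hump.enorm, ENNReal.tsum_eq_zero]
      intro y
      refine lintegral_eq_zero_of_ae_eq_zero ?_
      filter_upwards [ae_restrict_of_ae (h1 y), h5] with z e1 e2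
      simp only [e1, e2, enorm_zero, Pi.zero_apply]
    filter_upwards [(lintegral_eq_zero_iff hump.enorm).1 h6] with z hz
    simpa using hz
  filter_upwards [key] with x h1
  rw [hu] at h1
  exact sub_eq_zero.1 h1

end Vale.Agent.P319B
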