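import Vale.Agent.P319B.DSymA

/-! The determinant symbol of commuting endomorphisms. -/

namespace Vale.Agent.P319B

open scoped Classical

variable {A : Type} [CommRing A] {ω : A} {W W' : Type} [AddCommGroup W] [Module A W]
  [AddCommGroup W'] [Module A W']

theorem ds_map_range (α β : W →ₗ[A] W) :
    (LinearMap.range β).map α = LinearMap.range (α * β) := (LinearMap.range_comp β α).symm

theorem Ok.mul {α β : W →ₗ[A] W} (hα : Ok α) (hβ : Ok β) : Ok (α * β) :=
  ⟨hα.1.comp hβ.1, hα.2.trans (dsA_fi hα.1 hβ.2 (Submodule.map_top α) (ds_map_range α β))⟩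
theorem symE_swap {α β : W →ₗ[A] W} (h : α * β = β * α) : symE ω β α = -symE ω α β := by
  unfold symE
  rw [← h]
  ring
theorem symE_mul_left (hω : Cb ω) {α α' β : W →ₗ[A] W} (hα : Ok α) (hα' : Ok α') (hβ : Ok β)
    (h : α * β = β * α) (h' : α' * β = β * α') :
    symE ω (α * α') β = symE ω α β + symE ω α' β := by
  have ta := Submodule.map_top α
  have ta' := Submodule.map_top α'
  have tb := Submodule.map_top β
  have m1 := ds_map_range α α'
  have m2 := ds_map_range α β
  have m3 := ds_map_range α' β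
  have m4 : (LinearMap.range (α' * β)).map α = LinearMap.range (α * α' * β) := by
    rw [ds_map_range, mul_assoc]
  have n1 : (LinearMap.range α).map β = LinearMap.range (α * β) := by rw [ds_map_range, h]
  have n2 : (LinearMap.range α').map β = LinearMap.range (α' * β) := by rw [ds_map_range, h']
  have n3 : (LinearMap.range (α * α')).map β = LinearMap.range (α * α' * β) := by
    rw [ds_map_range, ← mul_assoc, ← h, mul_assoc, ← h', mul_assoc]
  have f1 := dsA_fi hα'.1 hβ.2 ta' m3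
  have f2 := dsA_fi hβ.1 hα'.2 tb n2
  have f3 := dsA_fi hα.1 hα'.2 ta m1
  have f4 := dsA_fi hα.1 f1 m1 m4
  have f5 := dsA_fi hα.1 hβ.2 ta m2
  have f6 := dsA_fi hα.1 f2 m2 m4
  have f7 := dsA_fi hβ.1 hα.2 tb n1
  have C0 := dsA_comp hω hα'.1 hα.1 hβ.2 ta' m3 m1 m4
  have A1 := dsA_chain hω hα.1 hα'.2 f1 ta m1 m4
  have A2 := dsA_chain hω hα.1 hβ.2 f2 ta m2 m4
  have A3 := dsA_chain hω hβ.1 hα.2 f3 tb n1 n3
  have C1 := dsA_comp hω hβ.1 hα.1 hα'.2 tb n2 m2 m4
  have C2 := dsA_comp hω hα.1 hβ.1 hα'.2 ta m1 n1 n3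
  have e : β ∘ₗ α = α ∘ₗ β := h.symm
  have e' : α ∘ₗ α' = α * α' := rfl
  rw [e] at C2
  rw [e'] at C0
  have D1 := cc_cocycle hω hα.2 f3 f4
  have D2 := cc_cocycle hω hα.2 f5 f6
  have D3 := cc_cocycle hω hβ.2 f7 f6
  unfold symE
  linear_combination C0 - A1 + A2 - A3 - C1 + C2 - D1 + D2 - D3
theorem symE_mul_right (hω : Cb ω) {α β β' : W →ₗ[A] W} (hα : Ok α) (hβ : Ok β) (hβ' : Ok β')
    (h : α * β = β * α) (h' : α * β' = β' * α) :
    symE ω α (β * β') = symE ω α β + symE ω α β' := by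
  have h2 : β * β' * α = α * (β * β') := by rw [mul_assoc, ← h', ← mul_assoc, ← h, mul_assoc]
  rw [symE_swap h2, symE_mul_left hω hβ hβ' hα h.symm h'.symm, symE_swap h, symE_swap h']
  ring
theorem symE_coprime (hω : Cb ω) {α β : W →ₗ[A] W} (hα : Ok α) (hβ : Ok β) (h : α * β = β * α)
    (hc : LinearMap.range α ⊔ LinearMap.range β = ⊤) :
    symE ω α β = trO ω α ⊤ (LinearMap.range β) ⊤ (LinearMap.range β)
      - trO ω β ⊤ (LinearMap.range α) ⊤ (LinearMap.range α) := by
  have m2 := ds_map_range α β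
  have n1 : (LinearMap.range α).map β = LinearMap.range (α * β) := by rw [ds_map_range, h]
  have f5 := dsA_fi hα.1 hβ.2 (Submodule.map_top α) m2
  have f7 := dsA_fi hβ.1 hα.2 (Submodule.map_top β) n1
  have hi : LinearMap.range α ⊓ LinearMap.range β = LinearMap.range (α * β) := by
    refine le_antisymm ?_ (le_inf f5.1 f7.1)
    have hle : LinearMap.range β ≤ (LinearMap.range β).comap α :=
      Submodule.map_le_iff_le_comap.1 (m2 ▸ f7.1)
    have := fi_top_iff.1 hβ.2
    have hs : Function.Surjective ((LinearMap.range β).mapQ (LinearMap.range β) α hle) := by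
      intro q
      obtain ⟨x, rfl⟩ := Submodule.Quotient.mk_surjective _ q
      obtain ⟨_, ⟨u, rfl⟩, v, hv, rfl⟩ := Submodule.mem_sup.1 (hc ▸ Submodule.mem_top (x := x))
      refine ⟨Submodule.Quotient.mk u, ?_⟩
      rw [Submodule.mapQ_apply, Submodule.Quotient.mk_add, (Submodule.Quotient.mk_eq_zero _).2 hv,
        add_zero]
    have hj := Finite.injective_iff_surjective.2 hs
    rintro _ ⟨⟨u, rfl⟩, hu⟩
    rw [← m2]
    refine Submodule.mem_map_of_mem ((Submodule.Quotient.mk_eq_zero _).1 (hj ?_))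
    rw [Submodule.mapQ_apply, map_zero]
    exact (Submodule.Quotient.mk_eq_zero _).2 hu
  have S := cc_sup hω (Λ1 := LinearMap.range α) (Λ2 := LinearMap.range β)
    (by rw [hc, hi]; exact (hα.mul hβ).2)
  have i1 := orB_iso_sup (LinearMap.range α) (LinearMap.range β)
  have i2 := orB_iso_sup' (LinearMap.range α) (LinearMap.range β)
  rw [hc, hi] at S i1 i2
  have C1 := trO_comp hω (dsA_iso hα.1 (Submodule.map_top α) m2) i2 hβ.2 f5.1 le_top
  have C2 := trO_comp hω (dsA_iso hβ.1 (Submodule.map_top β) n1) i1 hα.2 f7.1 le_top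
  rw [LinearMap.id_comp] at C1 C2
  unfold symE
  linear_combination S - C1 + C2
/-- Transport along a map that induces bijections on the three cokernels. -/
theorem symE_transport (hω : Cb ω) {α β : W →ₗ[A] W} {α' β' : W' →ₗ[A] W'} (hα : Ok α) (hβ : Ok β)
    (hα' : Ok α') (hβ' : Ok β') (h : α * β = β * α) (h' : α' * β' = β' * α') (π : W →ₗ[A] W')
    (ia : π ∘ₗ α = α' ∘ₗ π) (ib : π ∘ₗ β = β' ∘ₗ π)
    (h1 : Iso π ⊤ (LinearMap.range α) ⊤ (LinearMap.range α'))
    (h2 : Iso π ⊤ (LinearMap.range β) ⊤ (LinearMap.range β')) :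
    symE ω α β = symE ω α' β' := by
  rw [← dsA_sq_top, ← dsA_sq_top]
  refine dsA_transport hω hα.1 hβ.1 hα'.1 hβ'.1 h h' ia ib ?_ ?_ le_top le_top ?_ ?_ <;>
    simp only [Submodule.map_top]
  exacts [hα.2, hβ.2, h1, h2]
/-- Independence of the lattice. -/
theorem symE_sub (hω : Cb ω) {α β : W →ₗ[A] W} {α' β' : W' →ₗ[A] W'} (hα : Ok α) (hβ : Ok β)
    (hα' : Ok α') (hβ' : Ok β') (h : α * β = β * α) (h' : α' * β' = β' * α') (j : W →ₗ[A] W')
    (hj : Ok j) (ia : j ∘ₗ α = α' ∘ₗ j) (ib : j ∘ₗ β = β' ∘ₗ j) :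
    symE ω α β = symE ω α' β' := by
  have ma : ((⊤ : Submodule A W).map α).map j = (LinearMap.range j).map α' := by
    rw [← Submodule.map_comp, ia, Submodule.map_comp, Submodule.map_top]
  have mb : ((⊤ : Submodule A W).map β).map j = (LinearMap.range j).map β' := by
    rw [← Submodule.map_comp, ib, Submodule.map_comp, Submodule.map_top]
  have la : (LinearMap.range j).map α' ≤ LinearMap.range j := ma ▸ LinearMap.map_le_range
  have lb : (LinearMap.range j).map β' ≤ LinearMap.range j := mb ▸ LinearMap.map_le_range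
  rw [← dsA_sq_top, ← dsA_sq_top, dsA_cube hω hα'.1 hβ'.1 h' hj.2
    (by rw [Submodule.map_top]; exact hα'.2) (by rw [Submodule.map_top]; exact hβ'.2) la lb]
  exact dsA_transport hω hα.1 hβ.1 hα'.1 hβ'.1 h h' ia ib
    (by rw [Submodule.map_top]; exact hα.2) (by rw [Submodule.map_top]; exact hβ.2) la lb
    (dsA_iso hj.1 (Submodule.map_top j) ma) (dsA_iso hj.1 (Submodule.map_top j) mb)

end Vale.Agent.P319B
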