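import Vale.Agent.P319B.Or

/-! The determinant symbol relative to a stable submodule. -/

namespace Vale.Agent.P319B

open scoped Classical

noncomputable section

variable {A : Type} [CommRing A] {ω : A} {W W' W'' : Type} [AddCommGroup W] [Module A W]
  [AddCommGroup W'] [Module A W'] [AddCommGroup W''] [Module A W'']

theorem dsA_iso {g : W →ₗ[A] W'} (hg : Function.Injective g) {Λ Λ' : Submodule A W}
    {N N' : Submodule A W'} (m : Λ.map g = N) (m' : Λ'.map g = N') : Iso g Λ Λ' N N' := by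
  subst m m'
  refine ⟨fun x hx => Submodule.mem_map_of_mem hx, fun x _ => ⟨fun ⟨y, hy, e⟩ => ?_,
    fun h => Submodule.mem_map_of_mem h⟩, fun y ⟨x, hx, e⟩ => ⟨x, hx, ?_⟩⟩
  · rw [← hg e]
    exact hy
  · rw [e, sub_self]
    exact Submodule.zero_mem _

theorem dsA_fi {g : W →ₗ[A] W'} (hg : Function.Injective g) {Λ Λ' : Submodule A W}
    {N N' : Submodule A W'} (f : Fi Λ Λ') (m : Λ.map g = N) (m' : Λ'.map g = N') : Fi N N' :=
  (Fi.of_iso (dsA_iso hg m m') f.1 (by rw [← m, ← m']; exact Submodule.map_mono f.1)).1 f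

theorem dsA_chain (hω : Cb ω) {g : W →ₗ[A] W'} (hg : Function.Injective g)
    {Λ1 Λ2 Λ3 : Submodule A W} {N1 N2 N3 : Submodule A W'} (h12 : Fi Λ1 Λ2) (h23 : Fi Λ2 Λ3)
    (m1 : Λ1.map g = N1) (m2 : Λ2.map g = N2) (m3 : Λ3.map g = N3) :
    trO ω g Λ1 Λ3 N1 N3 + cc ω Λ1 Λ2 Λ3 =
      trO ω g Λ1 Λ2 N1 N2 + trO ω g Λ2 Λ3 N2 N3 + cc ω N1 N2 N3 :=
  trO_chain hω h12 h23 (dsA_fi hg h12 m1 m2).1 (dsA_fi hg h23 m2 m3).1 (dsA_iso hg m1 m2)
    (dsA_iso hg m2 m3)

theorem dsA_comp (hω : Cb ω) {g : W →ₗ[A] W'} {h : W' →ₗ[A] W''} (hg : Function.Injective g)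
    (hh : Function.Injective h) {Λ Λ' : Submodule A W} {N N' : Submodule A W'}
    {P P' : Submodule A W''} (f : Fi Λ Λ') (m : Λ.map g = N) (m' : Λ'.map g = N')
    (n : N.map h = P) (n' : N'.map h = P') :
    trO ω (h ∘ₗ g) Λ Λ' P P' = trO ω g Λ Λ' N N' + trO ω h N N' P P' :=
  trO_comp hω (dsA_iso hg m m') (dsA_iso hh n n') f (dsA_fi hg f m m').1
    (dsA_fi hh (dsA_fi hg f m m') n n').1

theorem dsA_map_mul (α β : W →ₗ[A] W) (Λ : Submodule A W) :
    (Λ.map β).map α = Λ.map (α * β) := (Submodule.map_comp β α Λ).symm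

theorem dsA_iso_conj {π : W →ₗ[A] W'} {α : W →ₗ[A] W} {α' : W' →ₗ[A] W'}
    (hα : Function.Injective α) (hα' : Function.Injective α') (ia : π ∘ₗ α = α' ∘ₗ π)
    {Λ Λ' : Submodule A W} {N N' : Submodule A W'} (h : Iso π Λ Λ' N N') :
    Iso π (Λ.map α) (Λ'.map α) (N.map α') (N'.map α') := by
  have e : ∀ x, π (α x) = α' (π x) := fun x => LinearMap.congr_fun ia x
  refine ⟨?_, ?_, ?_⟩
  · rintro _ ⟨u, hu, rfl⟩
    rw [e]
    exact Submodule.mem_map_of_mem (h.1 u hu)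
  · rintro _ ⟨u, hu, rfl⟩
    rw [e]
    constructor
    · rintro ⟨v, hv, e'⟩
      rw [hα' e'] at hv
      exact Submodule.mem_map_of_mem ((h.2.1 u hu).1 hv)
    · rintro ⟨v, hv, e'⟩
      rw [hα e'] at hv
      exact Submodule.mem_map_of_mem ((h.2.1 u hu).2 hv)
  · rintro _ ⟨w, hw, rfl⟩
    obtain ⟨u, hu, h'⟩ := h.2.2 w hw
    refine ⟨α u, Submodule.mem_map_of_mem hu, ?_⟩
    rw [e, ← map_sub]
    exact Submodule.mem_map_of_mem h'

/-- The symbol computed on a stable submodule. -/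
def dsSq (ω : A) (α β : W →ₗ[A] W) (Λ : Submodule A W) : ZMod 3 :=
  trO ω α Λ (Λ.map β) (Λ.map α) (Λ.map (α * β)) + cc ω Λ (Λ.map α) (Λ.map (α * β))
    - trO ω β Λ (Λ.map α) (Λ.map β) (Λ.map (α * β)) - cc ω Λ (Λ.map β) (Λ.map (α * β))

theorem dsA_sq_top (α β : W →ₗ[A] W) : dsSq ω α β ⊤ = symE ω α β := by
  simp only [dsSq, symE, Submodule.map_top]

theorem dsA_transport (hω : Cb ω) {α β : W →ₗ[A] W} {α' β' : W' →ₗ[A] W'}
    (hα : Function.Injective α) (hβ : Function.Injective β) (hα' : Function.Injective α')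
    (hβ' : Function.Injective β') (h : α * β = β * α) (h' : α' * β' = β' * α') {π : W →ₗ[A] W'}
    (ia : π ∘ₗ α = α' ∘ₗ π) (ib : π ∘ₗ β = β' ∘ₗ π) {Λ : Submodule A W} {N : Submodule A W'}
    (fa : Fi Λ (Λ.map α)) (fb : Fi Λ (Λ.map β)) (la : N.map α' ≤ N) (lb : N.map β' ≤ N)
    (h1 : Iso π Λ (Λ.map α) N (N.map α')) (h2 : Iso π Λ (Λ.map β) N (N.map β')) :
    dsSq ω α β Λ = dsSq ω α' β' N := by
  have mab := dsA_map_mul α β Λ
  have mba : (Λ.map α).map β = Λ.map (α * β) := by rw [dsA_map_mul, h]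
  have nab := dsA_map_mul α' β' N
  have nba : (N.map α').map β' = N.map (α' * β') := by rw [dsA_map_mul, h']
  have fa' := dsA_fi hα fb rfl mab
  have fb' := dsA_fi hβ fa rfl mba
  have la' : N.map (α' * β') ≤ N.map α' := nab ▸ Submodule.map_mono lb
  have lb' : N.map (α' * β') ≤ N.map β' := nba ▸ Submodule.map_mono la
  have h3 := dsA_iso_conj hα hα' ia h2
  have h4 := dsA_iso_conj hβ hβ' ib h1
  rw [mab, nab] at h3
  rw [mba, nba] at h4
  have c1 := trO_comp hω (dsA_iso hα rfl mab) h3 fb fa'.1 la'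
  have c2 := trO_comp hω h2 (dsA_iso hα' rfl nab) fb lb la'
  have c3 := trO_comp hω (dsA_iso hβ rfl mba) h4 fa fb'.1 lb'
  have c4 := trO_comp hω h1 (dsA_iso hβ' rfl nba) fa la lb'
  have d1 := trO_chain hω fa fa' la la' h1 h3
  have d2 := trO_chain hω fb fb' lb lb' h2 h4
  rw [ia] at c1
  rw [ib] at c3
  unfold dsSq
  linear_combination c2 - c1 + c3 - c4 + d1 - d2

theorem dsA_cube (hω : Cb ω) {α β : W →ₗ[A] W} (hα : Function.Injective α)
    (hβ : Function.Injective β) (h : α * β = β * α) {T J : Submodule A W} (f : Fi T J)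
    (fa : Fi T (T.map α)) (fb : Fi T (T.map β)) (la : J.map α ≤ J) (lb : J.map β ≤ J) :
    dsSq ω α β T = dsSq ω α β J := by
  have mab := dsA_map_mul α β
  have mba : ∀ Λ : Submodule A W, (Λ.map α).map β = Λ.map (α * β) := fun Λ => by
    rw [dsA_map_mul, h]
  have ga := dsA_fi hα f rfl rfl
  have gb := dsA_fi hβ f rfl rfl
  have ja := (fa.trans ga).right f.1 la
  have jb := (fb.trans gb).right f.1 lb
  have fa' := dsA_fi hα fb rfl (mab T)
  have fb' := dsA_fi hβ fa rfl (mba T)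
  have ja' := dsA_fi hα jb rfl (mab J)
  have jb' := dsA_fi hβ ja rfl (mba J)
  have gab := dsA_fi hα gb (mab T) (mab J)
  have A1 := dsA_chain hω hα f jb rfl rfl (mab J)
  have A2 := dsA_chain hω hα fb gb rfl (mab T) (mab J)
  have B1 := dsA_chain hω hβ f ja rfl rfl (mba J)
  have B2 := dsA_chain hω hβ fa ga rfl (mba T) (mba J)
  have C1 := dsA_comp hω hβ hα f rfl rfl (mab T) (mab J)
  have C2 := dsA_comp hω hα hβ f rfl rfl (mba T) (mba J)
  have e : β ∘ₗ α = α ∘ₗ β := h.symm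
  rw [e] at C2
  have D1 := cc_cocycle hω f ja ja'
  have D2 := cc_cocycle hω fa ga ja'
  have D3 := cc_cocycle hω fa fa' gab
  have E1 := cc_cocycle hω f jb jb'
  have E2 := cc_cocycle hω fb gb jb'
  have E3 := cc_cocycle hω fb fb' gab
  unfold dsSq
  linear_combination A1 - A2 - B1 + B2 + C1 - C2 - D1 + D2 - D3 + E1 - E2 + E3

end

end Vale.Agent.P319B
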