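import Vale.Agent.P026.Kap

/-! Definitions shared by all files of the P319B development (quasi-RH for Hecke characters). -/

namespace Vale.Agent.P319B

open Complex NumberField
open scoped Classical ComplexConjugate
open Vale.Agent.P026 (w kk fk)

noncomputable section

/-- Elements that become integral after multiplication by a power of M. -/
def Rr (F : Type) [Field F] (M : ℕ) : Subring F where
  carrier := {x | ∃ k : ℕ, IsIntegral ℤ ((M : F) ^ k * x)}
  zero_mem' := ⟨0, by simpa using isIntegral_zero⟩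
  one_mem' := ⟨0, by simpa using isIntegral_one⟩
  add_mem' := by
    rintro x y ⟨k, hk⟩ ⟨l, hl⟩
    have hM : IsIntegral ℤ (M : F) := by exact_mod_cast isIntegral_algebraMap (R := ℤ) (x := (M : ℤ))
    refine ⟨k + l, ?_⟩
    have : (M : F) ^ (k + l) * (x + y) = (M : F) ^ l * ((M : F) ^ k * x)
      + (M : F) ^ k * ((M : F) ^ l * y) := by ring
    rw [this]
    exact ((hM.pow l).mul hk).add ((hM.pow k).mul hl)
  neg_mem' := by
    rintro x ⟨k, hk⟩
    exact ⟨k, by simpa using hk.neg⟩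
  mul_mem' := by
    rintro x y ⟨k, hk⟩ ⟨l, hl⟩
    refine ⟨k + l, ?_⟩
    have : (M : F) ^ (k + l) * (x * y) = ((M : F) ^ k * x) * ((M : F) ^ l * y) := by ring
    rw [this]
    exact hk.mul hl

/-- Elements that become integral after multiplication by an integer coprime to M. -/
def Oo (F : Type) [Field F] (M : ℕ) : Subring F where
  carrier := {x | ∃ m : ℕ, m.Coprime M ∧ IsIntegral ℤ ((m : F) * x)}
  zero_mem' := ⟨1, by simp, by simpa using isIntegral_zero⟩
  one_mem' := ⟨1, by simp, by simpa using isIntegral_one⟩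
  add_mem' := by
    rintro x y ⟨k, hk0, hk⟩ ⟨l, hl0, hl⟩
    have hM : ∀ m : ℕ, IsIntegral ℤ (m : F) := fun m => by
      exact_mod_cast isIntegral_algebraMap (R := ℤ) (x := (m : ℤ))
    refine ⟨k * l, Nat.Coprime.mul_left hk0 hl0, ?_⟩
    have : ((k * l : ℕ) : F) * (x + y) = (l : F) * ((k : F) * x) + (k : F) * ((l : F) * y) := by
      push_cast; ring
    rw [this]
    exact ((hM l).mul hk).add ((hM k).mul hl)
  neg_mem' := by
    rintro x ⟨k, hk0, hk⟩
    exact ⟨k, hk0, by simpa using hk.neg⟩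
  mul_mem' := by
    rintro x y ⟨k, hk0, hk⟩ ⟨l, hl0, hl⟩
    refine ⟨k * l, Nat.Coprime.mul_left hk0 hl0, ?_⟩
    have : ((k * l : ℕ) : F) * (x * y) = ((k : F) * x) * ((l : F) * y) := by push_cast; ring
    rw [this]
    exact hk.mul hl

/-- A field with a chosen primitive cube root of unity. -/
class Om (F : Type) [Field F] where
  om : F
  om_eq : om ^ 2 + om + 1 = 0

/-- The complex cube root of unity. -/
def om0 : ℂ := P026.Eis.toC P026.Eis.om

/-- The arithmetic data: the integer M. -/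
class Ctx0 (F : Type) [Field F] [NumberField F] extends Om F where
  M : ℕ
  M_ne : M ≠ 0
  six : 6 ∣ M
  disc : (NumberField.discr F).natAbs ∣ M
  pid : IsPrincipalIdealRing (Rr F M)

/-! ### Archimedean objects -/

section Arch

variable (F : Type) [Field F] [NumberField F] [Om F]

/-- The embeddings that send om to om0 (one for each complex place). -/
def Io : Type := {φ : F →+* ℂ // φ Om.om = om0}
instance : Fintype (Io F) := by unfold Io; infer_instance
/-- The number of places. -/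
def rr : ℕ := Fintype.card (Io F)
/-- The degree. -/
abbrev dg (F : Type) [Field F] [NumberField F] : ℕ := Module.finrank ℚ F

variable {F}

/-- The Minkowski embedding. -/
def emb (z : F) : Io F → ℂ := fun v => v.1 z
/-- The squared absolute values. -/
def sqv (z : F) : Io F → ℝ := fun v => normSq (v.1 z)
/-- The absolute norm. -/
def Nin (z : F) : ℝ := ∏ v, sqv z v
/-- The logarithmic embedding. -/
def lg (z : F) : Io F → ℝ := fun v => Real.log (sqv z v)
/-- The archimedean character. -/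
def eA (ξ x : Io F → ℂ) : ℂ :=
  cexp (2 * Real.pi * I * ((∑ v, 2 * (ξ v * x v).re : ℝ) : ℂ))
/-- Fourier transform. -/
def FT (f : (Io F → ℂ) → ℂ) (ξ : Io F → ℂ) : ℂ := ∫ x, f x * conj (eA ξ x)
/-- Archimedean angular factor. -/
def angI (o : Bool) (z : F) : ℂ := ∏ v : Io F, (if o then v.1 z else conj (v.1 z)) / (‖v.1 z‖ : ℂ)

/-- exp (2 π i Tr z). -/
def eT {F : Type} [Field F] [NumberField F] (z : F) : ℂ :=
  cexp (2 * Real.pi * I * ((Algebra.trace ℚ F z : ℚ) : ℂ))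
/-- Full lattices. -/
def IsLat {F : Type} [Field F] [NumberField F] (L : AddSubgroup F) : Prop :=
  ∃ b : Module.Basis (Fin (dg F)) ℚ F, ∀ x, x ∈ L ↔ x ∈ Submodule.span ℤ (Set.range b)
/-- The dual lattice for the trace form. -/
def dualL {F : Type} [Field F] [NumberField F] (L : AddSubgroup F) : AddSubgroup F where
  carrier := {h | ∀ x ∈ L, ∃ k : ℤ, Algebra.trace ℚ F (h * x) = k}
  zero_mem' := fun x _ => ⟨0, by simp⟩
  add_mem' := by
    intro a b ha hb x hx
    obtain ⟨k, hk⟩ := ha x hx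
    obtain ⟨l, hl⟩ := hb x hx
    exact ⟨k + l, by rw [add_mul, map_add, hk, hl]; push_cast; ring⟩
  neg_mem' := by
    intro a ha x hx
    obtain ⟨k, hk⟩ := ha x hx
    exact ⟨-k, by rw [neg_mul, map_neg, hk]; push_cast; ring⟩
/-- The ring of integers as an additive subgroup. -/
def latO (F : Type) [Field F] : AddSubgroup F := (integralClosure ℤ F).toSubring.toAddSubgroup
/-- Sum over the cosets of L. -/
def qsum {F : Type} [Field F] (L : AddSubgroup F) (f : F → ℂ) : ℂ := ∑' z : F ⧸ L, f z.out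
/-- A fundamental parallelepiped. -/
def FD (L : AddSubgroup F) : Set (Io F → ℂ) :=
  if h : IsLat L then
    {z | ∃ a : Fin (dg F) → ℝ, (∀ i, a i ∈ Set.Ico (0 : ℝ) 1) ∧ z = ∑ i, a i • emb (h.choose i)}
  else ∅
/-- Covolume. -/
def cov (L : AddSubgroup F) : ℝ := (MeasureTheory.volume (FD L)).toReal

/-- A group of integral units of finite index. -/
def UnitGrp {F : Type} [Field F] (E : Subgroup Fˣ) : Prop :=
  (∀ u ∈ E, IsIntegral ℤ ((u : Fˣ) : F)) ∧ ∃ k : ℕ, 0 < k ∧ ∀ u : Fˣ,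
    IsIntegral ℤ ((u : Fˣ) : F) → IsIntegral ℤ ((u⁻¹ : Fˣ) : F) → u ^ k ∈ E
/-- Partition of unity for the translation action of E in logarithmic coordinates. -/
structure IsUP (E : Subgroup Fˣ) (β : (Io F → ℝ) → ℝ) : Prop where
  meas : Measurable β
  nonneg : ∀ x, 0 ≤ β x
  le_one : ∀ x, β x ≤ 1
  supp : ∃ T : ℝ, ∀ x, β x ≠ 0 → ∀ v v', |x v - x v'| ≤ T
  diag : ∀ x (c : ℝ), β (fun v => x v + c) = β x
  fin : ∀ x, (Function.support fun u : E => β (x + lg ((u : Fˣ) : F))).Finite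
  sum : ∀ x, ∑' u : E, β (x + lg ((u : Fˣ) : F)) = 1
/-- ν is a transversal for the action of E on S. -/
def IsTr {F : Type} [Field F] {J : Type} (E : Subgroup Fˣ) (S : Set F) (ν : J → F) : Prop :=
  (∀ (j : J) (u : E), ((u : Fˣ) : F) * ν j ∈ S) ∧
    ∀ x ∈ S, ∃! p : J × E, x = ((p.2 : Fˣ) : F) * ν p.1

variable (F) in
/-- The kernel produced by averaging Gaussians over the units. -/
def Vk (t : ℝ) : ℝ :=
  ∫ x : Io F → ℝ, w (Real.exp (∑ v, x v) / t) * Real.exp (-(Real.pi * ∑ v, Real.exp (x v)))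

end Arch

/-- The kernel of the Voronoi identity at one place. -/
def kp (y : ℝ) : ℝ := y ^ (2 / 3 : ℝ) * kk (2 * Real.pi * y)
/-- Its Mellin transform at 2 u. -/
def GG (u : ℂ) : ℂ :=
  ((2 * Real.pi : ℝ) : ℂ) ^ (-(2 * u) - 2 / 3) / 2 * Gamma (u + 1 / 3) * Gamma (u + 2 / 3)
/-- The weight w (x / Y) x ^ (i t). -/
def Wt (Y t x : ℝ) : ℂ := (w (x / Y) : ℂ) * cexp (I * ((t * Real.log x : ℝ) : ℂ))
/-- A Dirichlet series over an arbitrary index type. -/
def DS {J : Type} (a : J → ℂ) (n : J → ℝ) (u : ℂ) : ℂ := ∑' j, a j * ((n j : ℝ) : ℂ) ^ (-u)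
/-- Size condition for a Dirichlet series. -/
def Sz {J : Type} (a : J → ℂ) (n : J → ℝ) (B : ℝ) : Prop :=
  (∀ j, a j ≠ 0 → 1 ≤ n j) ∧ Summable (fun j => ‖a j‖ / n j ^ 2) ∧ ∑' j, ‖a j‖ / n j ^ 2 ≤ B
/-- Functional equation between two Dirichlet series. -/
def FE (r : ℕ) {J J' : Type} (a : J → ℂ) (na : J → ℝ) (b : J' → ℂ) (nb : J' → ℝ) (Q : ℝ)
    (e : ℂ) : Prop :=
  ∃ Λ : ℂ → ℂ, Differentiable ℂ Λ ∧
    (∀ s1 s2 : ℝ, ∃ C : ℝ, ∀ u : ℂ, s1 ≤ u.re → u.re ≤ s2 → ‖Λ u‖ ≤ C) ∧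
    (∀ u : ℂ, 2 ≤ u.re → Λ u = GG u ^ r * DS a na u) ∧
    (∀ u : ℂ, u.re ≤ -1 → Λ u = e * (Q : ℂ) ^ (1 - 2 * u) * GG (1 - u) ^ r * DS b nb (1 - u))
/-- The prime to M part of the character exp (2 π i q) of the rationals. -/
def ep (M : ℕ) (q : ℚ) : ℂ :=
  if h : ∃ q' : ℚ, q' ∈ Oo ℚ M ∧ q - q' ∈ Rr ℚ M then cexp (2 * Real.pi * I * (h.choose : ℂ)) else 1
/-- The M part of the absolute value of a rational number. -/
def partM (M : ℕ) (q : ℚ) : ℝ := ∏ l ∈ M.primeFactors, (l : ℝ) ^ (padicValRat l q)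

/-! ### Arithmetic objects -/

section Arith

variable (F : Type) [Field F] [NumberField F] [Ctx0 F]

/-- The integer M as an element of F. -/
def MF : F := ((Ctx0.M F : ℕ) : F)
/-- The ring of M integers. -/
abbrev R : Type := Rr F (Ctx0.M F)
/-- The semilocal ring at M. -/
abbrev Ol : Subring F := Oo F (Ctx0.M F)
instance : IsPrincipalIdealRing (R F) := Ctx0.pid
instance : Countable (R F) := by
  have : Countable F := (Module.finBasis ℚ F).equivFun.injective.countable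
  infer_instance
/-- The local dual of Ol. -/
def Od : AddSubgroup F where
  carrier := {z | ∀ x ∈ Ol F, Algebra.trace ℚ F (z * x) ∈ Oo ℚ (Ctx0.M F)}
  zero_mem' := fun x _ => by simp
  add_mem' := by
    intro a b ha hb x hx
    rw [add_mul, map_add]
    exact add_mem (ha x hx) (hb x hx)
  neg_mem' := by
    intro a ha x hx
    rw [neg_mul, map_neg]
    exact neg_mem (ha x hx)
/-- om as an element of R. -/
def omR : R F := ⟨Om.om, 0, by
  refine ⟨Polynomial.X ^ 2 + Polynomial.X + 1, by monicity!, ?_⟩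
  simpa using (Om.om_eq (F := F))⟩

variable {F}

/-- z lies in M ^ e Ol. -/
def Lo (e : ℕ) (z : F) : Prop := z / MF F ^ e ∈ Ol F
/-- M ^ a z lies in Ol. -/
def Hi (a : ℕ) (z : F) : Prop := MF F ^ a * z ∈ Ol F
/-- z is congruent to 1 modulo M ^ e locally. -/
def InU (e : ℕ) (z : F) : Prop := Lo e (z - 1)
/-- z is a unit of Ol. -/
def OlU (z : F) : Prop := z ≠ 0 ∧ z ∈ Ol F ∧ z⁻¹ ∈ Ol F
/-- z is a local sixth power in the strong sense. -/
def S6 (z : F) : Prop := ∃ t : F, t ≠ 0 ∧ InU 3 (z / t ^ 6)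
/-- Units of R that are local sixth powers. -/
def Omg (u : R F) : Prop := IsUnit u ∧ S6 (u : F)
/-- The M part of the norm. -/
def nf (z : F) : ℝ := partM (Ctx0.M F) (Algebra.norm ℚ z)
/-- The prime to M part of the norm. -/
def NF (z : F) : ℝ := Nin z / nf z
/-- The norm on R. -/
def N (c : R F) : ℝ := NF (c : F)
/-- Its square root. -/
def ab (c : R F) : ℝ := √(N c)
/-- The cardinality of the residue ring. -/
def Nn (c : R F) : ℕ := Nat.card (R F ⧸ Ideal.span {c})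
/-- The prime to M part of eT. -/
def psiP (z : F) : ℂ := ep (Ctx0.M F) (Algebra.trace ℚ F z)
/-- The M part of eT. -/
def psiL (z : F) : ℂ := eT z * conj (psiP z)
/-- Additive character modulo c. -/
def psi (c x : R F) : ℂ := psiP ((x : F) / (c : F))
/-- The local lattice y Ol. -/
def locL (y : F) : AddSubgroup F :=
  (Ol F).toAddSubgroup.comap (AddMonoidHom.mulRight y⁻¹)
/-- The lattice c R ∩ y Ol. -/
def lat (c y : F) : AddSubgroup F :=
  (Rr F (Ctx0.M F)).toAddSubgroup.comap (AddMonoidHom.mulRight c⁻¹) ⊓ locL y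
/-- The lattice M ^ b O. -/
def Lb (F : Type) [Field F] [NumberField F] [Ctx0 F] (b : ℕ) : AddSubgroup F := lat 1 (MF F ^ b)
/-- Extension by zero from R to F. -/
def ext0 (f : R F → ℂ) (z : F) : ℂ := if h : z ∈ Rr F (Ctx0.M F) then f ⟨z, h⟩ else 0

variable (F) in
/-- Units of R congruent to 1 modulo M ^ e. -/
def Eu (e : ℕ) : Subgroup Fˣ :=
  Subgroup.closure {u | ∃ x : R F, IsUnit x ∧ InU e (x : F) ∧ (x : F) = (u : F)}
variable (F) in
/-- Representatives of the units of R modulo Eu e. -/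
def SU (e : ℕ) : Set (R F) :=
  Set.range fun q : (R F)ˣ ⧸ (Eu F e).comap (Units.map (Rr F (Ctx0.M F)).subtype.toMonoidHom) =>
    ((q.out : (R F)ˣ) : R F)
variable (F) in
/-- The finite class group. -/
def Cl : Type := Fˣ ⧸ Subgroup.closure {z : Fˣ | ∃ u : R F, Omg u ∧ InU 3 ((z : F) / u)}
instance : CommGroup (Cl F) := by unfold Cl; infer_instance
/-- The class of an element. -/
def cls (z : F) : Cl F := if h : z = 0 then 1 else QuotientGroup.mk (Units.mk0 z h)
/-- A representative of a class. -/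
def rep (κ : Cl F) : F := ((Quotient.out κ : Fˣ) : F)
/-- The unit that moves z into the coset of the representative of its class. -/
def tw (z : F) : R F :=
  if h : ∃ u : R F, Omg u ∧ InU 3 ((u : F) * z / rep (cls z)) then h.choose else 1
/-- The normalised associate. -/
def tilde (c : R F) : R F := tw (c : F) * c
/-- Same class modulo units of R and of Ol. -/
def SameO (z z' : F) : Prop := ∃ s : R F, IsUnit s ∧ OlU ((s : F) * z / z')

/-- A complete system of residues modulo c (for c ≠ 0). -/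
def res (c : R F) : Finset (R F) :=
  if h : (Set.range fun q : R F ⧸ Ideal.span {c} => Quotient.out q).Finite then h.toFinset else ∅
/-- Plain periodicity. -/
def Pe (q : R F) (G : R F → ℂ) : Prop := ∀ x y : R F, q ∣ x - y → G x = G y
/-- Periodicity on local classes. -/
def Per (q : R F) (G : R F → ℂ) : Prop :=
  (∀ x y : R F, InU 3 ((x : F) / y) → q ∣ x - y → G x = G y) ∧
    ∀ u x : R F, Omg u → G (u * x) = G x
/-- Bounded by 1. -/
def Bd1 (G : R F → ℂ) : Prop := ∀ x, ‖G x‖ ≤ 1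
/-- Indicator of coprimality. -/
def cop (D c : R F) : ℂ := if IsCoprime c D then 1 else 0
/-- Indicator of a class. -/
def clsI (κ : Cl F) (c : R F) : ℂ := if cls (c : F) = κ then 1 else 0
/-- Cubic residue symbol at a prime p. -/
def cubP (p a : R F) : ℂ :=
  if p ∣ a then 0
  else if p ∣ a ^ ((Nn p - 1) / 3) - 1 then 1
  else if p ∣ a ^ ((Nn p - 1) / 3) - omR F then om0
  else om0 ^ 2
/-- Quadratic residue symbol at a prime p. -/
def quadP (p a : R F) : ℂ :=
  if p ∣ a then 0 else if p ∣ a ^ ((Nn p - 1) / 2) - 1 then 1 else -1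
/-- Cubic symbol. -/
def cub (a c : R F) : ℂ := ((UniqueFactorizationMonoid.factors c).map (fun p => cubP p a)).prod
/-- Quadratic symbol. -/
def quad (a c : R F) : ℂ := ((UniqueFactorizationMonoid.factors c).map (fun p => quadP p a)).prod
/-- chi 0 is the quadratic symbol, chi 1 and chi 2 are the two sextic symbols. -/
def chi (j : ℕ) (a c : R F) : ℂ := cub a c ^ j * quad a c
/-- The reciprocity factor of a symbol, a function of local classes. -/
def Bs (s : R F → R F → ℂ) (x y : F) : ℂ :=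
  if h : ∃ p : R F × R F, InU 3 ((p.1 : F) / x) ∧ InU 3 ((p.2 : F) / y) ∧ IsCoprime p.1 p.2 then
    s h.choose.1 h.choose.2 * conj (s h.choose.2 h.choose.1) else 1
/-- Cubic reciprocity factor. -/
def B3 (x y : F) : ℂ := Bs cub x y
/-- Quadratic reciprocity factor. -/
def B2 (x y : F) : ℂ := Bs quad x y
/-- Reciprocity factor of chi j. -/
def Bc (j : ℕ) (x y : F) : ℂ := B3 x y ^ j * B2 x y

/-- Gauss sum of f modulo c at frequency h. -/
def gauss (f : R F → ℂ) (c h : R F) : ℂ := ∑ x ∈ res c, f x * psi c (h * x)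
/-- Normalised cubic Gauss sum. -/
def g3 (c : R F) : ℂ := gauss (fun x => cub x c) c 1 / (ab c : ℂ)
/-- Normalised Gauss sum of chi j. -/
def Gt (j : ℕ) (c : R F) : ℂ := gauss (fun x => chi j x c) c 1 / (ab c : ℂ)
/-- Quadratic Gauss sum. -/
def Gq (a c : R F) : ℂ := ∑ x ∈ res c, psi c (a * x ^ 2)
/-- Its sign. -/
def Gam (c : R F) : ℂ := Gq 1 c / (ab c : ℂ)
/-- Arithmetic angular factor. -/
def ang (o : Bool) (x : R F) : ℂ :=
  ((UniqueFactorizationMonoid.factors x).map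
    (fun p => if o then -g3 p ^ 3 else conj (-g3 p ^ 3))).prod
/-- N c ^ (i t). -/
def nit (t : ℝ) (c : R F) : ℂ := cexp (I * ((t * Real.log (N c) : ℝ) : ℂ))
/-- The weight w (N c / Y) N c ^ (i t). -/
def W (Y t : ℝ) (c : R F) : ℂ := (w (N c / Y) : ℂ) * nit t c
/-- Kernel on the primal side of the Poisson identity. -/
def Ph1 (z : F) (y : ℝ) : ℝ :=
  ∑' s : R F, if s ∈ SU F 3 ∧ (s : F) * z ∈ Ol F then Vk F (y * nf ((s : F) * z)) else 0
/-- Kernel on the dual side of the Poisson identity. -/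
def Ph2 (z : F) (y : ℝ) : ℝ :=
  ∑' s : R F, if s ∈ SU F 3 ∧ (s : F) * z ∈ Od F then
    Real.exp (1 / 4) * Vk F (4 ^ rr F * Real.exp (1 / 2) * y * nf ((s : F) * z)) else 0

/-! ### The theta function -/

variable (F) in
/-- Invertible matrices over R. -/
@[ext] structure GM where
  a : R F
  b : R F
  c : R F
  d : R F
  u : (R F)ˣ
  det : a * d - b * c = u

instance : One (GM F) := ⟨⟨1, 0, 0, 1, 1, by simp⟩⟩
instance : Mul (GM F) := ⟨fun g h => ⟨g.a * h.a + g.b * h.c, g.a * h.b + g.b * h.d,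
  g.c * h.a + g.d * h.c, g.c * h.b + g.d * h.d, g.u * h.u, by
    rw [Units.val_mul, ← g.det, ← h.det]; ring⟩⟩
instance : Inv (GM F) := ⟨fun g => ⟨↑g.u⁻¹ * g.d, -(↑g.u⁻¹ * g.b), -(↑g.u⁻¹ * g.c), ↑g.u⁻¹ * g.a,
  g.u⁻¹, by
    have h1 := g.det
    have h2 := g.u.inv_mul
    linear_combination (↑g.u⁻¹ * ↑g.u⁻¹ : R F) * h1 + (↑g.u⁻¹ : R F) * h2⟩⟩

@[simp] theorem GM.one_a : (1 : GM F).a = 1 := rfl
@[simp] theorem GM.one_b : (1 : GM F).b = 0 := rfl
@[simp] theorem GM.one_c : (1 : GM F).c = 0 := rfl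
@[simp] theorem GM.one_d : (1 : GM F).d = 1 := rfl
@[simp] theorem GM.one_u : (1 : GM F).u = 1 := rfl
@[simp] theorem GM.mul_a (g h : GM F) : (g * h).a = g.a * h.a + g.b * h.c := rfl
@[simp] theorem GM.mul_b (g h : GM F) : (g * h).b = g.a * h.b + g.b * h.d := rfl
@[simp] theorem GM.mul_c (g h : GM F) : (g * h).c = g.c * h.a + g.d * h.c := rfl
@[simp] theorem GM.mul_d (g h : GM F) : (g * h).d = g.c * h.b + g.d * h.d := rfl
@[simp] theorem GM.mul_u (g h : GM F) : (g * h).u = g.u * h.u := rfl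
@[simp] theorem GM.inv_a (g : GM F) : (g⁻¹).a = ↑g.u⁻¹ * g.d := rfl
@[simp] theorem GM.inv_b (g : GM F) : (g⁻¹).b = -(↑g.u⁻¹ * g.b) := rfl
@[simp] theorem GM.inv_c (g : GM F) : (g⁻¹).c = -(↑g.u⁻¹ * g.c) := rfl
@[simp] theorem GM.inv_d (g : GM F) : (g⁻¹).d = ↑g.u⁻¹ * g.a := rfl
@[simp] theorem GM.inv_u (g : GM F) : (g⁻¹).u = g.u⁻¹ := rfl

instance : Group (GM F) where
  mul_assoc g h k := by
    refine GM.ext ?_ ?_ ?_ ?_ ?_ <;>
      simp only [GM.mul_a, GM.mul_b, GM.mul_c, GM.mul_d, GM.mul_u]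
    · ring
    · ring
    · ring
    · ring
    · exact mul_assoc _ _ _
  one_mul g := by refine GM.ext ?_ ?_ ?_ ?_ ?_ <;> simp
  mul_one g := by refine GM.ext ?_ ?_ ?_ ?_ ?_ <;> simp
  inv_mul_cancel g := by
    have h1 := g.det
    have h2 := g.u.inv_mul
    refine GM.ext ?_ ?_ ?_ ?_ ?_ <;> simp only [GM.mul_a, GM.mul_b, GM.mul_c, GM.mul_d, GM.mul_u,
      GM.inv_a, GM.inv_b, GM.inv_c, GM.inv_d, GM.inv_u, GM.one_a, GM.one_b, GM.one_c, GM.one_d,
      GM.one_u]
    · linear_combination (↑g.u⁻¹ : R F) * h1 + h2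
    · ring
    · ring
    · linear_combination (↑g.u⁻¹ : R F) * h1 + h2
    · exact inv_mul_cancel _

instance : Countable (GM F) :=
  (show Function.Injective (fun g : GM F => (g.a, g.b, g.c, g.d, (g.u : R F))) from
    fun x y h => by
      simp only [Prod.mk.injEq] at h
      exact GM.ext h.1 h.2.1 h.2.2.1 h.2.2.2.1 (Units.ext h.2.2.2.2)).countable

/-- The congruence conditions of level e. -/
def CG (e : ℕ) (g : GM F) : Prop :=
  InU e (g.a : F) ∧ Lo e (g.b : F) ∧ Lo e (g.c : F) ∧ InU e (g.d : F)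
variable (F) in
/-- The principal congruence subgroup of level M ^ e. -/
def Ge (e : ℕ) : Subgroup (GM F) := Subgroup.closure {g | CG e g}
/-- Right action on rows. -/
def row (x : R F × R F) (g : GM F) : R F × R F := (x.1 * g.a + x.2 * g.c, x.1 * g.b + x.2 * g.d)
/-- Translation matrix. -/
def tr (y : R F) : GM F := ⟨1, y, 0, 1, 1, by simp⟩
variable (F) in
/-- The Weyl element. -/
def wey : GM F := ⟨0, -1, 1, 0, 1, by simp⟩
/-- Translate of a function on rows. -/
def trl (k : R F → R F → ℂ) (g : GM F) (c d : R F) : ℂ :=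
  k (row (c, d) g⁻¹).1 (row (c, d) g⁻¹).2
/-- Kubota's symbol of level e. -/
def k0 (e : ℕ) (c d : R F) : ℂ := if Lo e (c : F) ∧ InU e (d : F) then cub c d else 0
/-- Functions of type I. -/
def kI (y : F) (φ : F → ℂ) (c d : R F) : ℂ := if InU 3 ((d : F) / y) then cub c d * φ c else 0
/-- Functions of type II. -/
def kII (y : F) (φ : F → ℂ) (c d : R F) : ℂ := if InU 3 ((c : F) / y) then cub d c * φ d else 0
/-- Bounded, locally constant at M, with bounded denominators. -/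
def LocF (φ : F → ℂ) : Prop :=
  (∃ B : ℝ, ∀ x, ‖φ x‖ ≤ B) ∧ (∃ a : ℕ, ∀ x, φ x ≠ 0 → Hi a x) ∧
    ∃ b : ℕ, ∀ x x', Lo b (x - x') → φ x = φ x'
/-- Invariance under local units congruent to 1. -/
def UInv (φ : F → ℂ) : Prop := ∀ x u, InU 3 u → φ (u * x) = φ x
/-- Restriction of k to first coordinates not divisible by p. -/
def off (p : R F) (k : R F → R F → ℂ) (c d : R F) : ℂ := if p ∣ c then 0 else k c d
/-- Restriction of k to the line of l modulo p. -/
def lin (p : R F) (l : R F × R F) (k : R F → R F → ℂ) (c d : R F) : ℂ :=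
  if p ∣ c * l.2 - d * l.1 then k c d else 0
/-- Bounded with bounded denominators. -/
def Bdd (k : R F → R F → ℂ) : Prop :=
  (∃ B : ℝ, ∀ c d, ‖k c d‖ ≤ B) ∧ ∃ a : ℕ, ∀ c d, k c d ≠ 0 → Hi a (c : F) ∧ Hi a (d : F)
/-- Bounded with bounded denominators, periodic along d ↦ d + c y for y in M ^ b O. -/
def Adm (k : R F → R F → ℂ) (b : ℕ) : Prop :=
  Bdd k ∧ ∀ c d y : R F, Lo b (y : F) → k c (d + c * y) = k c d
/-- Kubota Gauss sum. -/
def gK (k : R F → R F → ℂ) (b : ℕ) (r c : R F) : ℂ :=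
  qsum (lat (c : F) ((c : F) * MF F ^ b)) (fun d => ext0 (k c) d * eT ((r : F) * d / c))
/-- Normalised Kubota Gauss sum. -/
def aK (k : R F → R F → ℂ) (b : ℕ) (r c : R F) : ℂ :=
  if c = 0 then 0 else gK k b r c / (Nin (c : F) : ℂ)
/-- The coefficients whose residue is rho. -/
def aII (y : F) (r c : R F) : ℂ :=
  if InU 3 ((c : F) / y) then gauss (fun x => cub x c) c r / (N c : ℂ) else 0

variable (F) in
/-- Tuples of binary Hermitian forms. -/
abbrev HF : Type := Io F → P026.HF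
/-- Determinant of one form. -/
def dlt (q : P026.HF) : ℝ := q.1 * q.2.2 - normSq q.2.1
/-- Left action on tuples of forms. -/
def act (g : GM F) (Q : HF F) : HF F := fun v =>
  P026.actC (v.1 (g.a : F)) (v.1 (g.b : F)) (v.1 (g.c : F)) (v.1 (g.d : F)) (Q v)
/-- Value at a row. -/
def hv (Q : HF F) (x : R F × R F) : ℝ := ∑ v, P026.hq (Q v) (v.1 (x.1 : F)) (v.1 (x.2 : F))
variable (F) in
/-- Positive tuples with product of determinants between 1 and 2. -/
def slab : Set (HF F) :=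
  {Q | (∀ v, 0 < (Q v).2.2 ∧ 0 < dlt (Q v)) ∧ 1 ≤ ∏ v, dlt (Q v) ∧ ∏ v, dlt (Q v) ≤ 2}
variable (F) in
/-- Lebesgue measure on the slab. -/
def nu : MeasureTheory.Measure (HF F) := MeasureTheory.volume.restrict (slab F)
/-- The tuple with coordinates (z, D, Δ). -/
def pt (z : Io F → ℂ) (D E : Io F → ℝ) : HF F := fun v => P026.pt (z v) (D v) (E v)
variable (F) in
/-- The parameter domain for (D, Δ). -/
def DE : Set ((Io F → ℝ) × (Io F → ℝ)) :=
  {p | (∀ v, 0 < p.1 v) ∧ (∀ v, 0 < p.2 v) ∧ 1 ≤ ∏ v, p.2 v ∧ ∏ v, p.2 v ≤ 2}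
/-- Scaling by a vector. -/
def sc (t : Io F → ℝ) (Q : HF F) : HF F := fun v => t v • Q v
/-- The smoothed Eisenstein series. -/
def Es (k : R F → R F → ℂ) (Q : HF F) : ℂ :=
  ∑' x : R F × R F, k x.1 x.2 * (Real.exp (-hv Q x) : ℂ)
/-- Its normalisation. -/
def nEs (k : R F → R F → ℂ) (t : Io F → ℝ) (Q : HF F) : ℂ :=
  (((∏ v, t v) ^ (4 / 3 : ℝ) : ℝ) : ℂ) * Es k (sc t Q)
variable (F) in
/-- Positive vectors whose product tends to zero. -/
def Fz : Filter (Io F → ℝ) :=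
  Filter.comap (fun t => ∏ v, t v) (nhdsWithin 0 (Set.Ioi 0)) ⊓ Filter.principal {t | ∀ v, 0 < t v}
/-- The sum whose limit along Fz is a residue. -/
def Rsum (a : R F → ℂ) (f : (Io F → ℝ) → ℂ) (t : Io F → ℝ) : ℂ :=
  (((∏ v, t v) ^ (1 / 3 : ℝ) : ℝ) : ℂ) * ∑' c : R F, a c * f (fun v => t v * sqv (c : F) v)
/-- The test function produced by a Fourier coefficient. -/
def fkV (r : F) (D E y : Io F → ℝ) : ℂ := ∏ v, fk (2 * Real.pi * ‖v.1 r‖) (D v) (E v) (y v)
/-- A fixed averaged test function. -/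
def phi0 (y : Io F → ℝ) : ℂ :=
  ∏ v, ∫ p in Set.Icc (1 : ℝ) 2 ×ˢ Set.Icc (1 : ℝ) (2 ^ ((rr F : ℝ)⁻¹)),
    (p.1 : ℂ) * fk 1 p.1 p.2 (y v)
variable (F) in
/-- The normalising constant of the shape theorem. -/
def mm : ℝ := Real.pi ^ rr F /
  (∫ y in {y : Io F → ℝ | ∀ v, 0 < y v}, (∏ v, y v) ^ (-(2 / 3) : ℝ) * (phi0 y).re)
/-- The basic residue. -/
def rho (y : F) (r : R F) : ℂ := Filter.limUnder (Fz F) (Rsum (aII y r) phi0)
/-- Its normalisation at r = 1. -/
def Pt (z : F) : ℂ := ((nf z ^ (1 / 3 : ℝ) : ℝ) : ℂ) * rho z 1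
/-- Partition of unity for the action of Ge e on the slab. -/
structure IsBeta (e : ℕ) (β : HF F → ENNReal) : Prop where
  meas : Measurable β
  le_one : ∀ Q, β Q ≤ 1
  low : ∀ K, IsCompact K → K ⊆ slab F → ∃ c : ℝ, 0 < c ∧ ∀ Q ∈ K, ENNReal.ofReal c ≤ β Q
  sum : ∀ Q ∈ slab F, ∑' g : Ge F e, β (act g Q) = 1
/-- Convergence of the normalised series to f in mean square on compact sets. -/
def Conv (k : R F → R F → ℂ) (f : HF F → ℂ) : Prop :=
  ∀ K, IsCompact K → K ⊆ slab F →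
    Filter.Tendsto (fun t => ∫⁻ Q in K, ‖nEs k t Q - f Q‖ₑ ^ 2) (Fz F) (nhds 0)
/-- f is the theta function of k, with equidistribution on lines. -/
structure IsLim (k : R F → R F → ℂ) (f : HF F → ℂ) : Prop where
  meas : Measurable f
  conv : Conv k f
  line : ∀ (p : R F) (l : R F × R F), Prime p → ¬ (p ∣ l.1 ∧ p ∣ l.2) →
    Conv (lin p l k) (fun Q => (((N p + 1)⁻¹ : ℝ) : ℂ) * f Q)
/-- k has a theta function. -/
def Good (k : R F → R F → ℂ) : Prop := ∃ f, IsLim k f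
/-- Growth condition for coefficient sequences. -/
def Gr (a : R F → ℂ) : Prop :=
  a 0 = 0 ∧ (∃ A : ℕ, ∀ r, a r ≠ 0 → Hi A (r : F)) ∧ ∃ B : ℝ, ∀ r, ‖a r‖ ≤ B * √(Nin (r : F))
/-- The nonconstant part of a Fourier expansion. -/
def Ser (τ : R F → ℂ) (z : Io F → ℂ) (D E : Io F → ℝ) : ℂ :=
  ∑' r : R F, τ r / (√(Nin (r : F)) : ℝ) *
    ((∏ v, E v ^ (-(2 / 3) : ℝ) * kp (‖v.1 (r : F)‖ * (√(E v) / D v)) : ℝ) : ℂ) * eA (emb (r : F)) z
/-- θ has the Fourier expansion with coefficients τ. -/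
def IsExp (θ : HF F → ℂ) (τ : R F → ℂ) : Prop :=
  ∃ c : (Io F → ℝ) × (Io F → ℝ) → ℂ,
    ∀ᵐ p : (Io F → ℂ) × (Io F → ℝ) × (Io F → ℝ)
      ∂(MeasureTheory.volume.restrict (Set.univ ×ˢ DE F)),
      θ (pt p.1 p.2.1 p.2.2) = c p.2 + Ser τ p.1 p.2.1 p.2.2
/-- The series attached to a coefficient sequence. -/
def PhiV (a : R F → ℂ) (x : Io F → ℝ) : ℂ :=
  ((∏ v, x v : ℝ) : ℂ) * ∑' r : R F, a r * ((∏ v, kp (‖v.1 (r : F)‖ * x v) : ℝ) : ℂ)
/-- The Voronoi identity between the sequences a and b. -/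
def VorV (a b : R F → ℂ) (q : F) (e : ℂ) : Prop :=
  ∀ x : Io F → ℝ, (∀ v, 0 < x v) → PhiV a x = e * PhiV b (fun v => 1 / (sqv q v * x v))
/-- Indicator of the coset of the representative of κ. -/
def inC (κ : Cl F) (r : R F) : ℂ := if InU 3 ((r : F) / rep κ) then 1 else 0

end Arith

/-- The arithmetic data together with a monoid of normalised generators. -/
class Ctx (F : Type) [Field F] [NumberField F] extends Ctx0 F where
  P : Submonoid (R F)
  P_ne : (0 : R F) ∉ P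
  P_ex : ∀ x : R F, x ≠ 0 → ∃! p, p ∈ P ∧ Associated x p
  P_ax : ∀ x ∈ P, ∀ y ∈ P, ∀ u : R F, IsUnit u → S6 ((u : F) * x / y) → S6 (u : F)

section Norm

variable {F : Type} [Field F] [NumberField F] [Ctx F]

/-- Normalised generators. -/
def P1 (c : R F) : Prop := c ∈ Ctx.P (F := F)
/-- Squarefree normalised generators. -/
def P0 (c : R F) : Prop := P1 c ∧ Squarefree c
variable (F) in
/-- Normalised generators of norm at most K. -/
def ball (K : ℝ) : Finset (R F) :=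
  if h : {c : R F | P1 c ∧ N c ≤ K}.Finite then h.toFinset else ∅
/-- Moebius function on normalised generators. -/
def mu0 (c : R F) : ℂ :=
  if P0 c then (-1) ^ Multiset.card (UniqueFactorizationMonoid.factors c) else 0
/-- Squarefree normalised divisors. -/
def divs (n : R F) : Finset (R F) := (ball F (N n)).filter (fun d => P0 d ∧ d ∣ n)
/-- All normalised divisors. -/
def dvs (n : R F) : Finset (R F) := (ball F (N n)).filter (fun d => d ∣ n)


/-- Squarefree part of the theta coefficients. -/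
def alph (o : Bool) (e : R F) : ℂ := if P0 e then conj (g3 e) * ang o e else 0
/-- Cube part of the theta coefficients. -/
def bet (o : Bool) (d : R F) : ℂ := if P1 d then (ab d : ℂ) * ang o d ^ 3 else 0
/-- The canonical theta coefficient. -/
def tau0 (r : R F) : ℂ :=
  if h : ∃ p : R F × R F × R F, IsUnit p.1 ∧ P0 p.2.1 ∧ P1 p.2.2 ∧ r = p.1 * p.2.1 * p.2.2 ^ 3
  then conj (g3 (h.choose.1 * h.choose.2.1)) * (ab h.choose.2.2 : ℂ) else 0

/-- Sum of the squarefree theta coefficients. -/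
def Tsq (o : Bool) (G : R F → ℂ) (Y t : ℝ) : ℂ := ∑' e : R F, alph o e * G e * W Y t e
/-- Sum of all theta coefficients. -/
def Tth (o : Bool) (G : R F → ℂ) (Y t : ℝ) : ℂ :=
  ∑' p : R F × R F, alph o p.1 * bet o p.2 * G (p.1 * p.2 ^ 3) * W Y t (p.1 * p.2 ^ 3)
/-- The self-dual second moment. -/
def QQ (j : ℕ) (a : R F → ℂ) (K : ℝ) : ℝ :=
  ∑ h ∈ ball F K, ∑ D ∈ (divs h).filter (fun D => D ^ 2 ∣ h),
    N D * ‖∑' c : R F, a (D * c) * chi j h c‖ ^ 2
/-- Moebius side of the bootstrap. -/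
def AA (Xi : R F → ℂ) (D0 : R F) (Y M t : ℝ) : ℝ :=
  QQ 2 (fun c => mu0 c * Xi c * cop D0 c * W Y t c) M
/-- Theta side of the bootstrap. -/
def BB (Xi : R F → ℂ) (D0 : R F) (Y K t : ℝ) : ℝ :=
  ∑ h ∈ ball F K, ‖Tsq true (fun c => Xi c * cop D0 c * chi 1 h c) Y t‖ ^ 2
variable (F) in
/-- The bootstrap hypothesis with exponent f. -/
def HH (f : ℝ) : Prop :=
  ∃ (C : ℝ) (A : ℕ), ∀ Xi : R F → ℂ, Per 1 Xi → Bd1 Xi → ∀ Y M t : ℝ, 0 < Y → 0 < M →
    AA Xi 1 Y M t ≤ C * (1 + |t|) ^ A * (M + Y ^ (19 / 16 : ℝ)) * Y ^ (1 + f)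

variable (F) in
/-- What the analytic part uses about the cubic theta functions. -/
structure Theta where
  a : ℕ
  C : ℝ
  T : Cl F → Cl F → F → ℂ
  T_U : ∀ κ l, UInv (T κ l)
  T_supp : ∀ κ l z, T κ l z ≠ 0 → Hi a z
  T_bd : ∀ κ l z, ‖T κ l z‖ ≤ C * nf z ^ (1 / 6 : ℝ)
  vor : ∀ (o : Bool) (κ l : Cl F) (A q d : R F), InU 3 ((q : F) / rep l) → q ∣ A * d - 1 →
    VorV (fun r => inC κ r * tau0 r * angI o (r : F) * psi q (r * A))
      (fun r => T κ l r * tau0 r * angI (!o) (r : F) * psi q (-(r * d))) (q : F)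
      (cub A q * angI o (q : F) ^ 2)

end Norm

/-- A nontrivial ray class character of a number field with rational modulus m. -/
structure IsHC {F : Type} [Field F] [NumberField F] (m : ℕ) (χ : Ideal (𝓞 F) → ℂ) : Prop where
  m_pos : 0 < m
  map_one : χ ⊤ = 1
  map_bot : χ ⊥ = 0
  map_mul : ∀ I J, χ (I * J) = χ I * χ J
  norm_eq : ∀ I, I ≠ ⊥ → IsCoprime I (Ideal.span {(m : 𝓞 F)}) → ‖χ I‖ = 1
  eq_zero : ∀ I, ¬ IsCoprime I (Ideal.span {(m : 𝓞 F)}) → χ I = 0
  triv : ∀ x : 𝓞 F, x ≠ 0 → (m : 𝓞 F) ∣ x - 1 → χ (Ideal.span {x}) = 1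
  nontriv : ∃ x : 𝓞 F, χ (Ideal.span {x}) ≠ 0 ∧ χ (Ideal.span {x}) ≠ 1

end

end Vale.Agent.P319B
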