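import Vale.Agent.P319B.Norm
import Vale.Agent.P026.SymB

/-! The relative norm to the Eisenstein integers; binomial coefficients. -/

namespace Vale.Agent.P319B

open Complex NumberField
open scoped Classical ComplexConjugate
open Vale.Agent.P026 (Eis toC_inj)
open Vale.Agent.P026.Eis (toC om cj nrm)

theorem jc_lucas {l : ℕ} (hl : l.Prime) (h3 : l % 3 = 1) (f : ℕ) :
    ∀ k, l ^ f = 3 * k + 1 → ¬ l ∣ (2 * k).choose k := by
  have := Fact.mk hl
  obtain ⟨a, ha⟩ : ∃ a, l = 3 * a + 1 := ⟨l / 3, by omega⟩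
  induction f with
  | zero =>
    intro k hk
    obtain rfl : k = 0 := by rw [pow_zero] at hk; omega
    simpa using hl.ne_one
  | succ f ih =>
    intro k hk
    obtain ⟨b, hb⟩ : ∃ b, l ^ f = 3 * b + 1 := ⟨l ^ f / 3, by
      have : l ^ f % 3 = 1 := by rw [Nat.pow_mod, h3, one_pow]; rfl
      omega⟩
    obtain rfl : k = a + l * b := by
      rw [pow_succ, hb] at hk
      nlinarith
    have h1 := Choose.choose_modEq_choose_mod_mul_choose_div_nat (p := l) (n := 2 * a + l * (2 * b))
      (k := a + l * b)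
    rw [Nat.add_mul_mod_self_left, Nat.add_mul_mod_self_left, Nat.add_mul_div_left _ _ hl.pos,
      Nat.add_mul_div_left _ _ hl.pos, Nat.mod_eq_of_lt (by omega), Nat.mod_eq_of_lt (by omega),
      Nat.div_eq_of_lt (by omega), Nat.div_eq_of_lt (by omega), zero_add, zero_add] at h1
    rw [show 2 * (a + l * b) = 2 * a + l * (2 * b) by ring, h1.dvd_iff dvd_rfl]
    exact hl.not_dvd_mul (hl.coprime_iff_not_dvd.1 (hl.coprime_choose_of_lt (by omega) (by omega)))
      (ih b hb)

theorem jc_sum {K : Type} [Field K] [Fintype K] {k : ℕ} (hk : Fintype.card K = 3 * k + 1)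
    (k0 : 0 < k) :
    ∑ x : K, x ^ (2 * k) * (1 - x) ^ (2 * k) = -((-1) ^ k * ((2 * k).choose k : K)) := by
  simp only [sub_eq_neg_add, add_pow, one_pow, mul_one, Finset.mul_sum]
  have h5 : ∀ j (x : K), x ^ (2 * k) * ((-x) ^ j * ((2 * k).choose j : K)) =
      ((-1) ^ j * ((2 * k).choose j : K)) * x ^ (2 * k + j) := fun j x => by rw [neg_pow x j]; ring
  rw [Finset.sum_comm, Finset.sum_eq_single_of_mem k (Finset.mem_range.2 (by omega))
    fun j hj hne => ?_]
  · have : ∀ x : K, x ^ (2 * k + k) = 1 - if x = 0 then 1 else 0 := fun x => by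
      split_ifs with hx
      · rw [hx, zero_pow (by omega), sub_self]
      · rw [sub_zero, ← FiniteField.pow_card_sub_one_eq_one x hx, hk]
        congr 1
        omega
    simp only [h5, this, ← Finset.mul_sum]
    simp
  · simp only [h5, ← Finset.mul_sum]
    have := Finset.mem_range.1 hj
    rcases hne.lt_or_gt with h | h
    · rw [FiniteField.sum_pow_lt_card_sub_one K _ (by omega), mul_zero]
    · have e : ∀ x : K, x ^ (2 * k + j) = x ^ (j - k) := fun x => by
        rw [show 2 * k + j = j - k - 1 + Fintype.card K by omega, pow_add, FiniteField.pow_card,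
          ← pow_succ, show j - k - 1 + 1 = j - k by omega]
      simp only [e]
      rw [FiniteField.sum_pow_lt_card_sub_one K _ (by omega), mul_zero]

theorem jc_eis (e : Eis) : e = e.a + e.b * om := by ext <;> simp

theorem jc_ext {S : Type} [Ring S] {f g : Eis →+* S} (h : f om = g om) : f = g :=
  RingHom.ext fun e => by rw [jc_eis e]; simp only [map_add, map_mul, map_intCast, h]

theorem jc_int {z : FractionRing Eis} (h : IsIntegral ℤ (IsFractionRing.lift toC_inj z)) :
    ∃ y : Eis, algebraMap Eis _ y = z := by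
  obtain ⟨p, hp, h⟩ := h
  refine IsIntegrallyClosed.isIntegral_iff.1 ⟨p.map (Int.castRingHom _), hp.map _,
    (IsFractionRing.lift toC_inj).injective ?_⟩
  rw [map_zero, Polynomial.eval₂_map, Polynomial.hom_eval₂, ← h]
  congr 1
  exact RingHom.ext_int _ _

theorem jc_dvd {e y : Eis} (he : e ≠ 0) {γ : ℂ} (hγ : IsIntegral ℤ γ) (h : toC y = toC e * γ) :
    e ∣ y := by
  have e0 : toC e ≠ 0 := (map_ne_zero_iff _ toC_inj).2 he
  have e1 : IsFractionRing.lift toC_inj
      (algebraMap Eis (FractionRing Eis) y / algebraMap Eis _ e) = γ := by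
    rw [map_div₀, IsFractionRing.lift_algebraMap, IsFractionRing.lift_algebraMap, h,
      mul_div_cancel_left₀ _ e0]
  obtain ⟨z, hz⟩ := jc_int (e1 ▸ hγ)
  rw [← hz, IsFractionRing.lift_algebraMap] at e1
  exact ⟨z, toC_inj (by rw [map_mul, e1, h])⟩

theorem jc_prod {ι : Type} (s : Finset ι) {a b : ι → ℂ} {c : ℂ} (hc : IsIntegral ℤ c)
    (ha : ∀ i, IsIntegral ℤ (a i)) (hb : ∀ i, IsIntegral ℤ (b i)) :
    ∃ γ, IsIntegral ℤ γ ∧ ∏ i ∈ s, (a i + c * b i) = ∏ i ∈ s, a i + c * γ := by
  induction s using Finset.induction_on with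
  | empty => exact ⟨0, isIntegral_zero, by simp⟩
  | insert i s hi ih =>
    obtain ⟨γ, h1, h2⟩ := ih
    refine ⟨a i * γ + b i * (∏ i ∈ s, a i + c * γ), ((ha i).mul h1).add ((hb i).mul
      ((IsIntegral.prod _ fun j _ => ha j).add (hc.mul h1))), ?_⟩
    rw [Finset.prod_insert hi, Finset.prod_insert hi, h2]
    ring

theorem jc_toC_int (e : Eis) : IsIntegral ℤ (toC e) := by
  have h : IsIntegral ℤ (toC om) :=
    ⟨Polynomial.X ^ 2 + Polynomial.X + 1, by monicity!, by simpa [om0] using om0_eq⟩
  rw [jc_eis e, map_add, map_mul, map_intCast, map_intCast]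
  exact isIntegral_algebraMap.add (isIntegral_algebraMap.mul h)

variable {F : Type} [Field F] [NumberField F] [Ctx0 F]

variable (F) in
/-- The Eisenstein integers inside R. -/
noncomputable def jcE : Eis →+* R F where
  toFun e := e.a + e.b * omR F
  map_one' := by simp
  map_zero' := by simp
  map_add' x y := by simp; ring
  map_mul' x y := by
    simp only [P026.Eis.mul_a, P026.Eis.mul_b]
    push_cast
    linear_combination (-(x.b : R F) * y.b) * omR_eq (F := F)

theorem jc_om : jcE F om = omR F := by simp [jcE]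

theorem jc_emb (v : Io F) (e : Eis) : v.1 (jcE F e) = toC e :=
  congrArg (fun f : Eis →+* ℂ => f e) (jc_ext (f := v.1.comp ((Subring.subtype _).comp (jcE F)))
    ((congrArg (fun x : R F => v.1 x) jc_om).trans v.2))

theorem jc_E_int (e : Eis) : IsIntegral ℤ (jcE F e : F) :=
  (isIntegral_algHom_iff (Classical.arbitrary (Io F)).1.toIntAlgHom
    (Classical.arbitrary (Io F)).1.injective).1
      ((jc_emb (Classical.arbitrary (Io F)) e).symm ▸ jc_toC_int e :)

theorem jc_Nin (e : Eis) : Nin (jcE F e : F) = P026.N e ^ rr F := by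
  simp only [Nin, sqv, jc_emb, P026.normSq_toC, Finset.prod_const, Finset.card_univ, rr]

theorem jc_norm {x : F} (hx : IsIntegral ℤ x) : ∃ y : Eis, toC y = ∏ v : Io F, v.1 x := by
  have hi : Function.Injective ((Subring.subtype _).comp (jcE F)) := fun a b h => toC_inj (by
    rw [← jc_emb (Classical.arbitrary (Io F)), ← jc_emb (Classical.arbitrary (Io F))]
    exact congrArg _ h)
  let _ : Algebra (FractionRing Eis) F := (IsFractionRing.lift hi).toAlgebra
  let _ : Algebra (FractionRing Eis) ℂ := (IsFractionRing.lift toC_inj).toAlgebra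
  have : CharZero (FractionRing Eis) := RingHom.charZero (IsFractionRing.lift toC_inj)
  have : IsScalarTower ℚ (FractionRing Eis) F :=
    IsScalarTower.of_algebraMap_eq' (Subsingleton.elim _ _)
  have : Module.Finite (FractionRing Eis) F := Module.Finite.of_restrictScalars_finite ℚ _ _
  have h := Algebra.norm_eq_prod_embeddings (FractionRing Eis) ℂ x
  have h1 : ∏ σ : F →ₐ[FractionRing Eis] ℂ, σ x = ∏ v : Io F, v.1 x := by
    have h0 : ∀ σ : F →ₐ[FractionRing Eis] ℂ, σ.toRingHom Om.om = om0 := fun σ => by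
      have := σ.commutes (algebraMap Eis _ om)
      simp only [RingHom.algebraMap_toAlgebra, IsFractionRing.lift_algebraMap, RingHom.comp_apply,
        jc_om] at this
      exact this
    refine Fintype.prod_bijective (fun σ => ⟨σ.toRingHom, h0 σ⟩) ⟨fun σ τ h => ?_, fun v => ?_⟩ _ _
      fun σ => rfl
    · exact AlgHom.coe_ringHom_injective (congrArg Subtype.val h)
    · refine ⟨⟨v.1, fun r => congrArg (fun f : FractionRing Eis →+* ℂ => f r)
        (IsFractionRing.ringHom_ext (A := Eis) (f1 := v.1.comp (algebraMap _ F))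
          (f2 := algebraMap _ ℂ) fun e => ?_)⟩, rfl⟩
      simp only [RingHom.algebraMap_toAlgebra, IsFractionRing.lift_algebraMap, RingHom.comp_apply]
      exact jc_emb v e
  rw [h1, RingHom.algebraMap_toAlgebra] at h
  obtain ⟨y, hy⟩ := jc_int (h ▸ IsIntegral.prod _ fun (v : Io F) _ => map_isIntegral_int v.1 hx)
  exact ⟨y, by rw [← h, ← hy, IsFractionRing.lift_algebraMap]⟩

theorem jc_cong {y y' e : Eis} (he : e ≠ 0) {u β : F} (hu : IsIntegral ℤ u) (hβ : IsIntegral ℤ β)
    (h : toC y = ∏ v : Io F, v.1 (u + jcE F e * β)) (h' : toC y' = ∏ v : Io F, v.1 u) :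
    e ∣ y - y' := by
  obtain ⟨γ, h1, h2⟩ := jc_prod Finset.univ (jc_toC_int e)
    (fun v : Io F => map_isIntegral_int v.1 hu) fun v : Io F => map_isIntegral_int v.1 hβ
  refine jc_dvd he h1 ?_
  simp only [map_add, map_mul, jc_emb] at h
  rw [map_sub, h, h', h2, add_sub_cancel_left]

theorem jc_N_eq {x y : R F} (h : Nin (x : F) = Nin (y : F)) : N x = N y := by
  have h1 : nf (x : F) = nf (y : F) := by
    rw [Nin_eq, Nin_eq, ← Rat.cast_abs, ← Rat.cast_abs, Rat.cast_inj, abs_eq_abs] at h
    rcases h with h | h <;> simp only [nf, partM, h, padicValRat.neg]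
  rw [N, N, NF, NF, h, h1]

end Vale.Agent.P319B
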