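import Vale.Agent.P319B.Gauss
import Vale.Agent.P319B.JacA

/-! The Jacobi sum character is the norm to the Eisenstein field. -/

namespace Vale.Agent.P319B

open Complex NumberField
open scoped Classical ComplexConjugate
open Vale.Agent.P026 (w kk fk)
open Vale.Agent.P026 (Eis toC_inj Prim)
open Vale.Agent.P026.Eis (toC om cj nrm)

variable {F : Type} [Field F] [NumberField F] [Ctx F]

theorem jc_jac {p : R F} (hp : Prime p) : ∃ j : Eis, ang true p = toC j / ab p ∧ Prim j ∧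
    P026.N j = N p ∧ ∀ q, Prime q → q ∣ j → p ∣ jcE F q := by
  have p0 := hp.ne_zero
  have := finite_quot p0
  have := PrincipalIdealRing.isMaximal_of_irreducible hp.irreducible
  let _ := Fintype.ofFinite (R F ⧸ Ideal.span {p})
  let _ := Ideal.Quotient.field (Ideal.span {p})
  obtain ⟨χ, hχ, h3⟩ := exists_mulChar_cub hp
  obtain ⟨k, hk⟩ : ∃ k, Nn p = 3 * k + 1 := ⟨Nn p / 3, by have := Nn_mod_six p0; omega⟩
  have hcard : Fintype.card (R F ⧸ Ideal.span {p}) = 3 * k + 1 := by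
    rw [← hk, Nn, Nat.card_eq_fintype_card]
  have k0 : 0 < k := by have := Fintype.one_lt_card (α := R F ⧸ Ideal.span {p}); omega
  let ψ := (Ideal.Quotient.mk (Ideal.span {p})).comp (jcE F)
  have hψ : ∀ e, ψ e = 0 ↔ p ∣ jcE F e := fun e => Ideal.Quotient.eq_zero_iff_dvd _ _
  have hc : ∀ x, ∃ e : Eis, toC e = χ x ∧ ψ (cj e) = x ^ (2 * k) := fun x => by
    obtain ⟨a, rfl⟩ := Ideal.Quotient.mk_surjective x
    by_cases ha : p ∣ a
    · exact ⟨0, by rw [(Ideal.Quotient.eq_zero_iff_dvd _ _).2 ha, χ.map_zero, map_zero], by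
        rw [(Ideal.Quotient.eq_zero_iff_dvd _ _).2 ha, zero_pow (by omega)]; exact map_zero ψ⟩
    · obtain ⟨i, h1, h2⟩ := cub_spec hp ha
      rw [hk, show (3 * k + 1 - 1) / 3 = k by omega, ← Ideal.Quotient.eq_zero_iff_dvd, map_sub,
        sub_eq_zero, map_pow, map_pow] at h2
      refine ⟨om ^ i, by rw [hχ, h1, map_pow, om0], ?_⟩
      rw [show cj (om ^ i) = cj om ^ i from map_pow P026.cjH om i, P026.sym_cj_om, mul_comm,
        pow_mul, h2, ← pow_mul, ← pow_mul, mul_comm, map_pow, RingHom.comp_apply, jc_om]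
  choose c hc hc' using hc
  have hJ : toC (∑ x, c x * c (1 - x)) = jacobiSum χ χ := by
    simp only [map_sum, map_mul, hc, jacobiSum]
  have hJ' : ψ (cj (∑ x, c x * c (1 - x))) = -((-1) ^ k * ((2 * k).choose k : ℕ)) := by
    rw [← jc_sum hcard k0, show cj _ = _ from map_sum P026.cjH _ _, map_sum]
    exact Finset.sum_congr rfl fun x _ => by
      rw [show P026.cjH _ = _ from P026.cj_mul _ _, map_mul, hc', hc']
  generalize ∑ x, c x * c (1 - x) = j at hJ hJ'
  have a0 := ofReal_ne_zero.2 (ab_pos p0).ne'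
  have hg : ang true p = toC (-j) / ab p := by
    rw [ang_prime hp, g3, div_pow, gauss_cub_cube hp, map_neg, hJ, jacobiSum, ← sum_res_quot p0,
      ← ab_sq]
    simp only [← map_one (Ideal.Quotient.mk (Ideal.span {p})), ← map_sub, hχ]
    push_cast
    field_simp
  have hN : P026.N (-j) = N p := by
    have := norm_ang true p
    rw [hg, norm_div, norm_real, Real.norm_of_nonneg (ab_nonneg p),
      div_eq_one_iff_eq (ab_pos p0).ne'] at this
    rw [← P026.normSq_toC, normSq_eq_norm_sq, this, ab_sq]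
  refine ⟨-j, hg, ?_, hN, fun q hq hqj => ?_⟩
  · have h4 : χ ^ 3 = 1 := h3 ▸ pow_orderOf_eq_one χ
    obtain ⟨z, hz, hz'⟩ := exists_jacobiSum_eq_neg_one_add (n := 3) (by norm_num) h4 h4
      (by rw [hcard]; omega) (P026.sym_prim_root.map_of_injective toC_inj)
    obtain ⟨z, rfl⟩ := Algebra.adjoin_le (S := toC.toIntAlgHom.range)
      (by rintro _ rfl; exact ⟨om, rfl⟩) hz
    have : j = -1 + z * (om - 1) ^ 2 := toC_inj (by simpa [hJ] using hz')
    exact ⟨z * om, by rw [this]; linear_combination (-z) * P026.om_sq_add⟩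
  obtain ⟨l, hl⟩ := CharP.exists (R F ⧸ Ideal.span {p})
  obtain ⟨f, lp, hf⟩ := FiniteField.card (R F ⧸ Ideal.span {p}) l
  have hn : nrm j = l ^ (f : ℕ) := by
    rw [P026.N_neg, N_eq_Nn p0, hk, ← hcard, hf, P026.N] at hN
    exact_mod_cast hN
  rw [dvd_neg] at hqj
  obtain ⟨t, ht⟩ : q ∣ (l : Eis) := hq.dvd_of_dvd_pow (n := f) (by
    have := hqj.mul_right (cj j)
    rwa [P026.Eis.mul_cj, hn, Int.cast_pow, Int.cast_natCast] at this)
  have hl0 : ∀ a b : Eis, (l : Eis) = a * b → ψ a = 0 ∨ ψ b = 0 := fun a b h => by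
    rw [← mul_eq_zero, ← map_mul, ← h, map_natCast, CharP.cast_eq_zero]
  rw [← hψ]
  by_cases hu : IsUnit t
  · exact (hl0 _ _ ht).resolve_right (hu.map ψ).ne_zero
  have h1 : (nrm q).natAbs * (nrm t).natAbs = l ^ 2 := by
    rw [← Int.natAbs_mul, ← P026.Eis.nrm_mul, ← ht]
    simp [nrm, Int.natAbs_pow]
  have h2 : ∀ {x : Eis}, ¬ IsUnit x → (nrm x).natAbs ≠ 1 := fun h h' => h
    (P026.isUnit_iff_nrm.2 (by have := P026.Eis.nrm_nonneg ‹Eis›; omega))
  have h4 := ((lp.mul_eq_prime_sq_iff (h2 hq.not_isUnit) (h2 hu)).1 h1).1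
  have h5 : nrm q = l := by have := P026.Eis.nrm_nonneg q; omega
  refine (hl0 q (cj q) (by rw [P026.Eis.mul_cj, h5, Int.cast_natCast])).resolve_right fun h6 => ?_
  obtain ⟨s, rfl⟩ := hqj
  rw [P026.cj_mul, map_mul, h6, zero_mul, eq_comm, neg_eq_zero, mul_eq_zero,
    CharP.cast_eq_zero_iff _ l] at hJ'
  refine jc_lucas lp ?_ f k (hf ▸ hcard) (hJ'.resolve_left (pow_ne_zero _ (by simp)))
  refine h4 ▸ P026.sym_nrm_three fun h => ?_
  have h7 : 3 ∣ l := by exact_mod_cast (h5 ▸ (by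
    obtain ⟨u, rfl⟩ := h
    exact ⟨nrm u, P026.Eis.nrm_mul _ _⟩) : (3 : ℤ) ∣ l)
  have := dvd_pow h7 f.ne_zero
  omega

theorem jc_clear (x : R F) : ∃ (a : ℕ) (y : Eis), IsIntegral ℤ (MF F ^ a * x) ∧
    toC y = ∏ v : Io F, v.1 (MF F ^ a * x) ∧
    toC y = (∏ v : Io F, v.1 x) * toC ((Ctx0.M F : Eis) ^ (a * rr F)) := by
  obtain ⟨a, ha⟩ := mem_Rr.1 x.2
  obtain ⟨y, hy⟩ := jc_norm ha
  refine ⟨a, y, ha, hy, ?_⟩
  simp only [hy, MF, map_mul, map_pow, map_natCast, Finset.prod_mul_distrib, Finset.prod_const,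
    Finset.card_univ, rr, pow_mul, mul_comm]

theorem jc_N {y : Eis} {x : F} (h : toC y = ∏ v : Io F, v.1 x) : P026.N y = Nin x := by
  simp only [← P026.normSq_toC, h, map_prod, Nin, sqv]

theorem jc_cop {j : Eis} {x : R F} (hx : x ≠ 0) (h : P026.N j = N x) :
    IsCoprime j (Ctx0.M F : Eis) ∧ OlU (jcE F j : F) := by
  rw [N_eq_Nn hx, P026.N] at h
  have h1 : j * cj j = (Nn x : Eis) := by
    rw [P026.Eis.mul_cj, show nrm j = Nn x by exact_mod_cast h, Int.cast_natCast]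
  have h2 : (jcE F j : F) * jcE F (cj j) = Nn x := by
    rw [← MulMemClass.coe_mul, ← map_mul, h1, map_natCast, SubringClass.coe_natCast]
  have h3 : (Nn x : F) ≠ 0 := by
    have := N_pos hx
    rw [N_eq_Nn hx, Nat.cast_pos] at this
    exact Nat.cast_ne_zero.2 this.ne'
  have h4 := left_ne_zero_of_mul (h2 ▸ h3)
  refine ⟨IsCoprime.of_mul_left_left (h1 ▸ (Nn_coprime hx).cast), h4, int_mem_Ol (jc_E_int j), ?_⟩
  rw [show (jcE F j : F)⁻¹ = jcE F (cj j) * (Nn x : F)⁻¹ by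
    rw [← h2, mul_inv, mul_left_comm, mul_inv_cancel₀ (right_ne_zero_of_mul (h2 ▸ h3)), mul_one]]
  exact mul_mem (int_mem_Ol (jc_E_int _)) (nat_inv_mem_Ol (Nn_coprime hx))

theorem jc_smooth {s m : Eis} (hs : s ≠ 0) (h : ∀ q, Prime q → q ∣ s → q ∣ m) :
    ∃ k, s ∣ m ^ k := by
  induction s using UniqueFactorizationMonoid.induction_on_prime with
  | h₁ => exact absurd rfl hs
  | h₂ u hu => exact ⟨0, hu.dvd⟩
  | h₃ a q ha hq ih =>
    obtain ⟨k, hk⟩ := ih ha fun r hr h' => h r hr (h'.mul_left q)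
    exact ⟨k + 1, by rw [pow_succ']; exact mul_dvd_mul (h q hq (dvd_mul_right _ _)) hk⟩

/-- j is the prime to M part of the relative norm of x. -/
def JRel (j : Eis) (x : R F) : Prop :=
  ∃ s s' : Eis, (∃ k, s ∣ (Ctx0.M F : Eis) ^ k) ∧ (∃ k, s' ∣ (Ctx0.M F : Eis) ^ k) ∧
    toC (j * s) = (∏ v : Io F, v.1 x) * toC s'

theorem jc_prime {p : R F} (hp : Prime p) {j : Eis} (hN : P026.N j = N p)
    (hj : ∀ q, Prime q → q ∣ j → p ∣ jcE F q) : JRel j p := by
  have p0 := hp.ne_zero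
  have h7 := seven_le_N p0 hp.not_isUnit
  have j0 : j ≠ 0 := fun h => by rw [h, P026.N_zero] at hN; linarith
  obtain ⟨q, hq, hqj⟩ := WfDvdMonoid.exists_irreducible_factor (a := j) (fun h => by
    rw [P026.N, P026.isUnit_iff_nrm.1 h, Int.cast_one] at hN; linarith) j0
  have hpq := hj q hq.prime hqj
  have uq : ∀ r, Prime r → p ∣ jcE F r → q ∣ r := fun r hr h => by_contra fun h' =>
    hp.not_isUnit (((hq.coprime_iff_not_dvd.2 h').map (jcE F)).isUnit_of_dvd' hpq h)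
  obtain ⟨a, y, ha, hy, hy'⟩ := jc_clear p
  have m0 : MF F ^ a * p ≠ 0 := mul_ne_zero (pow_ne_zero _ MF_ne) (r2_coe_ne p0)
  have y0 : y ≠ 0 := fun h => by
    have := jc_N hy
    rw [h, P026.N_zero] at this
    exact (Nin_pos m0).ne this
  obtain ⟨m, u, hu, rfl⟩ := WfDvdMonoid.max_power_factor j0 hq
  obtain ⟨m', s, hs, rfl⟩ := WfDvdMonoid.max_power_factor y0 hq
  have hu' : IsUnit u := by_contra fun h => by
    obtain ⟨r, hr, h'⟩ := WfDvdMonoid.exists_irreducible_factor h (right_ne_zero_of_mul j0)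
    exact hu ((uq r hr.prime (hj r hr.prime (h'.mul_left _))).trans h')
  obtain ⟨k, hk⟩ := jc_smooth (m := Ctx0.M F) (right_ne_zero_of_mul y0) fun r hr h => by
    obtain ⟨α, β, h1⟩ := hp.coprime_iff_not_dvd.2 fun h' => hs ((uq r hr h').trans h)
    obtain ⟨b, y', hb, hy2, -⟩ := jc_clear α
    obtain ⟨c, hc⟩ := mem_Rr.1 (-β).2
    have hM : IsIntegral ℤ (MF F) := isIntegral_natCast _
    have h2 := jc_cong (F := F) (y := q ^ m' * s * y' * (Ctx0.M F : Eis) ^ (c * rr F))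
      (y' := (Ctx0.M F : Eis) ^ ((a + b + c) * rr F)) hr.ne_zero (hM.pow (a + b + c))
      ((hM.pow (a + b)).mul hc) (by
        have : ∀ v : Io F, v.1 (MF F ^ (a + b + c) + jcE F r * (MF F ^ (a + b) *
            (MF F ^ c * (-β : R F)))) = v.1 (MF F ^ a * p) * v.1 (MF F ^ b * α) * Ctx0.M F ^ c :=
          fun v => by
            rw [← map_mul, ← map_natCast v.1, ← map_pow, ← map_mul, ← MF]
            have := congrArg Subtype.val h1
            push_cast at this ⊢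
            congr 1
            linear_combination -MF F ^ (a + b + c) * this
        simp only [this, Finset.prod_mul_distrib, ← hy, ← hy2, Finset.prod_const, Finset.card_univ]
        simp only [map_mul, map_pow, map_natCast, rr, pow_mul])
      (by simp only [MF, map_pow, map_natCast, Finset.prod_const, Finset.card_univ, rr, pow_mul])
    exact hr.dvd_of_dvd_pow ((dvd_sub_right (((h.mul_left _).mul_right _).mul_right _)).1 h2)
  have e1 : N (jcE F (q ^ m * u)) = N p ^ rr F := by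
    rw [← hN, ← jc_Nin (F := F), Nin_eq_N_mul, nf_olU (jc_cop p0 hN).2, mul_one]
  have e2 : N (jcE F (q ^ m' * s)) = N p ^ rr F := by
    rw [jc_N_eq (y := ((Ctx0.M F : R F) ^ a * p) ^ rr F) (by
      rw [jc_Nin, jc_N hy, ← Nin_pow, ← coe_M]; rfl), N_pow, N_mul, N_unit (isUnit_M.pow a), one_mul]
  have hs' : IsUnit (jcE F s) := isUnit_of_dvd_unit (map_dvd (jcE F) hk) (by
    rw [map_pow, map_natCast]; exact isUnit_M.pow k)
  rw [← e1, map_mul, map_mul, N_mul, N_mul, N_unit hs', N_unit (hu'.map _), map_pow, map_pow, N_pow,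
    N_pow, mul_one, mul_one] at e2
  have q0 : jcE F q ≠ 0 := fun h => hq.ne_zero (toC_inj (by
    rw [← jc_emb (Classical.arbitrary (Io F)), h, map_zero]; exact map_zero _))
  have := N_le_of_dvd q0 hpq
  obtain rfl := pow_right_injective₀ (by linarith) (by linarith) e2
  refine ⟨s, (Ctx0.M F : Eis) ^ (a * rr F) * u, ⟨k, hk⟩, ⟨_, hu'.mul_right_dvd.2 dvd_rfl⟩, ?_⟩
  rw [map_mul _ _ u, ← mul_assoc, ← hy', ← map_mul, mul_right_comm]

theorem jc_all {x : R F} (hx : x ≠ 0) : ∃ j : Eis, ang true x = toC j / ab x ∧ Prim j ∧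
    P026.N j = N x ∧ JRel j x := by
  induction x using UniqueFactorizationMonoid.induction_on_prime with
  | h₁ => exact absurd rfl hx
  | h₂ u hu =>
    obtain ⟨u, rfl⟩ := hu
    obtain ⟨a, y, -, -, hy⟩ := jc_clear (u : R F)
    obtain ⟨b, y', -, -, hy'⟩ := jc_clear ((u⁻¹ : (R F)ˣ) : R F)
    refine ⟨1, by simp [ang_unit true u.isUnit, ab_unit u.isUnit], Prim.one,
      by rw [P026.N_one, N_unit u.isUnit], y, _, ⟨a * rr F + b * rr F, y', toC_inj ?_⟩,
      ⟨_, dvd_rfl⟩, by rw [one_mul, hy]⟩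
    rw [map_mul, hy, hy', mul_mul_mul_comm, ← Finset.prod_mul_distrib, pow_add, map_mul]
    simp only [← map_mul, ← MulMemClass.coe_mul, Units.mul_inv, OneMemClass.coe_one, map_one,
      Finset.prod_const_one, one_mul]
  | h₃ a p ha hp ih =>
    obtain ⟨j, h1, h2, h3, s, s', ⟨k, hk⟩, ⟨k', hk'⟩, h4⟩ := ih ha
    obtain ⟨i, g1, g2, g3, g4⟩ := jc_jac hp
    obtain ⟨t, t', ⟨l, hl⟩, ⟨l', hl'⟩, g5⟩ := jc_prime hp g3 g4
    refine ⟨i * j, by rw [ang_mul true hp.ne_zero ha, h1, g1, map_mul, ab_mul, ofReal_mul,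
      div_mul_div_comm], g2.mul h2, by rw [P026.N_mul, N_mul, h3, g3], t * s, t' * s',
      ⟨l + k, pow_add (Ctx0.M F : Eis) l k ▸ mul_dvd_mul hl hk⟩,
      ⟨l' + k', pow_add (Ctx0.M F : Eis) l' k' ▸ mul_dvd_mul hl' hk'⟩, ?_⟩
    rw [mul_mul_mul_comm, map_mul, g5, h4]
    simp only [MulMemClass.coe_mul, map_mul, Finset.prod_mul_distrib]
    ring

theorem ang_eq_angI {x : R F} (hx : InU 3 (x : F)) : ang true x = angI true (x : F) := by
  have x0 := r2_ne (hx.ne_zero bs_three)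
  obtain ⟨j, h1, h2, h3, s, s', ⟨k, hk⟩, ⟨k', hk'⟩, h4⟩ := jc_all x0
  obtain ⟨y, hy⟩ := jc_norm (int_of_mem x.2 hx.mem)
  have e : Nin (x : F) = N x := by rw [Nin_eq_N_mul, nf_olU (hx.olU bs_three), mul_one]
  obtain ⟨m, hm⟩ := Ctx0.six (F := F)
  have h5 : Prim y := jc_cong (F := F) (y' := 1) (u := 1)
    (β := (72 * m ^ 3 : ℕ) * ((x - 1) / MF F ^ 3)) (by decide) isIntegral_one
    ((isIntegral_natCast _).mul (int_of_mem (by
      rw [div_eq_mul_inv, ← inv_pow]
      exact mul_mem (sub_mem x.2 (one_mem _)) (pow_mem MF_inv_mem_R 3)) hx)) (by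
      have : (3 : F) * (72 * m ^ 3 : ℕ) = MF F ^ 3 := by
        rw [MF, hm]
        push_cast
        ring
      rw [hy, map_ofNat, show ((3 : R F) : F) = 3 from rfl, ← mul_assoc, this,
        mul_div_cancel₀ _ (pow_ne_zero _ MF_ne), add_sub_cancel]) (by simp)
  rw [← hy, ← map_mul] at h4
  have h6 := toC_inj h4
  obtain rfl : j = y := h2.eq_of_associated h5 (associated_of_dvd_dvd
    (((jc_cop x0 h3).1.pow_right.of_isCoprime_of_dvd_right hk').dvd_of_dvd_mul_right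
      (h6 ▸ dvd_mul_right j s))
    (((jc_cop x0 ((jc_N hy).trans e)).1.pow_right.of_isCoprime_of_dvd_right hk).dvd_of_dvd_mul_right
      (h6 ▸ dvd_mul_right y s')))
  rw [h1, hy, ab, ← e, sqrt_Nin, angI, Finset.prod_div_distrib, ofReal_prod]
  rfl

theorem angI_of_unit (o : Bool) {u : R F} (hu : IsUnit u) (h : InU 3 (u : F)) :
    angI o (u : F) = 1 := by
  have := (ang_eq_angI h).symm.trans (ang_unit true hu)
  cases o
  · rw [show false = !true from rfl, angI_not, this, map_one]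
  · exact this

theorem exists_ang_const (o : Bool) {y : F} (hy : y ≠ 0) : ∃ C : ℂ, ‖C‖ = 1 ∧
    ∀ r : R F, InU 3 ((r : F) / y) → angI o (r : F) = C * ang o r := by
  obtain ⟨t, -, ht⟩ := exists_inU_coprime one_ne_zero (inv_ne_zero hy) 3
  have t0 := ht.left_ne bs_three
  refine ⟨ang o t * conj (angI o (t : F)),
    by rw [norm_mul, norm_conj, norm_ang, norm_angI o t0, one_mul], fun r hr => ?_⟩
  have h1 := ang_eq_angI (x := t * r) (by
    simpa only [inv_mul_cancel₀ hy, div_one, MulMemClass.coe_mul] using ht.mul_div hr)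
  have h2 : ang o (t * r) = angI o ((t * r : R F) : F) := by
    cases o
    · rw [show false = !true from rfl, angI_not, ang_not, h1]
    · exact h1
  rw [ang_mul o (r2_ne t0) (r2_ne (hr.left_ne bs_three)), MulMemClass.coe_mul, angI_mul] at h2
  linear_combination -conj (angI o (t : F)) * h2 - angI o (r : F) * bs_conj (norm_angI o t0)

end Vale.Agent.P319B
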