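import Vale.Agent.P319B.Coef
import Vale.Agent.P319B.Heck

/-! The expansion of the theta function on the dual side. -/

namespace Vale.Agent.P319B

open Complex NumberField MeasureTheory Filter Topology
open scoped Classical ComplexConjugate
open Vale.Agent.P026 (w kk fk)

variable {F : Type} [Field F] [NumberField F] [Ctx F]

theorem gr_dual {T : F → ℂ} {a : ℕ} {C : ℝ} (hs : ∀ z, T z ≠ 0 → Hi a z)
    (hb : ∀ z, ‖T z‖ ≤ C * nf z ^ (1 / 6 : ℝ)) : Gr (fun r : R F => T r * tau0 r) := by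
  refine Gr.of_sixth (A := a) (B := C) (by rw [tau0_zero, mul_zero])
    (fun r h => hs _ (left_ne_zero_of_mul h)) fun r => ?_
  have h0 : 0 ≤ C * nf (r : F) ^ (1 / 6 : ℝ) := (norm_nonneg _).trans (hb r)
  rw [norm_mul, Nin_eq_N_mul, Real.mul_rpow (N_nonneg r) (nf_pos _).le]
  calc _ ≤ C * nf (r : F) ^ (1 / 6 : ℝ) * N r ^ (1 / 6 : ℝ) :=
        mul_le_mul (hb r) (norm_tau0_le r) (norm_nonneg _) h0
    _ = _ := by ring

/-- The coefficient of the coset of s rep κ. -/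
noncomputable def thdCo (y : F) (φ : F → ℂ) (z : F) (κ : Cl F) (s : R F) : ℂ :=
  if s ∈ SU F 3 ∧ Omg s then
    B3 ((s : F) * rep κ) y * φ ((s : F) * rep κ) * PsiD y (z / ((s : F) * rep κ)) else 0

/-- The contribution of the coset of s rep κ. -/
noncomputable def thdTm (y : F) (φ : F → ℂ) (z : F) (κ : Cl F) (s : R F) : ℂ :=
  thdCo y φ z κ s * (((nf ((s : F) * rep κ) ^ (-(1 / 3) : ℝ) : ℝ) : ℂ) *
    B3 z ((s : F) * rep κ) * Pt ((s : F) * rep κ * z))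

/-- The local factor of the dual coefficients. -/
noncomputable def thdT (y : F) (φ : F → ℂ) (z : F) : ℂ :=
  if z = 0 then 0 else ((mm F / cov (latO F) * nf z ^ (1 / 6 : ℝ) : ℝ) : ℂ) *
    ∑ κ : Cl F, ∑' s : R F, thdTm y φ z κ s

theorem thd_co_ne {y : F} {φ : F → ℂ} {z : F} {κ : Cl F} {s : R F} (h : thdCo y φ z κ s ≠ 0) :
    s ∈ SU F 3 ∧ Omg s ∧ φ ((s : F) * rep κ) ≠ 0 ∧ PsiD y (z / ((s : F) * rep κ)) ≠ 0 := by
  unfold thdCo at h
  split_ifs at h with h1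
  · exact ⟨h1.1, h1.2, right_ne_zero_of_mul (left_ne_zero_of_mul h), right_ne_zero_of_mul h⟩
  · exact absurd rfl h

theorem thd_w_ne {s : R F} (hs : Omg s) (κ : Cl F) : (s : F) * rep κ ≠ 0 :=
  mul_ne_zero hs.coe_ne (rep_ne κ)

theorem thd_fin {y : F} (hy : y ≠ 0) {φ : F → ℂ} (hφ : LocF φ) {z : F} (hz : z ≠ 0) :
    ∃ S : Finset (R F), ∀ κ s, thdCo y φ z κ s ≠ 0 → s ∈ S := by
  obtain ⟨-, ⟨a1, h1⟩, -⟩ := hφ
  obtain ⟨a2, h2⟩ := PsiD_supp hy
  obtain ⟨a3, h3⟩ := exists_Hi z⁻¹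
  have hf := Set.finite_iUnion fun κ : Cl F =>
    SU_finite (e := 3) (by norm_num) (a1 + (a2 + a3)) (rep_ne κ)
  refine ⟨hf.toFinset, fun κ s h => ?_⟩
  obtain ⟨k1, k2, k3, k4⟩ := thd_co_ne h
  rw [Set.Finite.mem_toFinset, Set.mem_iUnion]
  refine ⟨κ, k1, (h1 _ k3).mono (by omega), ?_⟩
  have k5 := (h2 _ k4).mul h3
  rw [show z / ((s : F) * rep κ) * z⁻¹ = ((s : F) * rep κ)⁻¹ by field_simp] at k5
  exact k5.mono (by omega)

theorem thd_uInv (y : F) (φ : F → ℂ) : UInv (thdT y φ) := by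
  intro z u hu
  have hu0 := hu.ne_zero (by norm_num)
  by_cases hz : z = 0
  · rw [hz, mul_zero]
  have h1 : InU 3 (u * z / z) := by rwa [mul_div_cancel_right₀ _ hz]
  rw [thdT, thdT, if_neg hz, if_neg (mul_ne_zero hu0 hz), nf_eq_of_inU (by norm_num) h1]
  congr 1
  refine Finset.sum_congr rfl fun κ _ => tsum_congr fun s => ?_
  have e : thdCo y φ (u * z) κ s = thdCo y φ z κ s := by
    rw [thdCo, thdCo, mul_div_assoc, uInv_PsiD y _ u hu]
  rw [thdTm, thdTm, e]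
  by_cases h : thdCo y φ z κ s = 0
  · rw [h, zero_mul, zero_mul]
  · have hw := thd_w_ne (thd_co_ne h).2.1 κ
    have h2 : InU 3 ((s : F) * rep κ * (u * z) / ((s : F) * rep κ * z)) := by
      rwa [mul_div_mul_left _ _ hw]
    rw [B3_inU_left h1, Pt_cls (mul_ne_zero hw (mul_ne_zero hu0 hz)) (mul_ne_zero hw hz)
      (cls_of_inU h2)]

theorem thd_supp {y : F} (hy : y ≠ 0) {φ : F → ℂ} (hφ : LocF φ) :
    ∃ a : ℕ, ∀ z, thdT y φ z ≠ 0 → Hi a z := by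
  obtain ⟨-, ⟨a1, h1⟩, -⟩ := hφ
  obtain ⟨a2, h2⟩ := PsiD_supp hy
  refine ⟨a1 + a2, fun z h => ?_⟩
  unfold thdT at h
  split_ifs at h with hz
  · exact absurd rfl h
  obtain ⟨κ, -, hκ⟩ := Finset.exists_ne_zero_of_sum_ne_zero (right_ne_zero_of_mul h)
  obtain ⟨s, hs⟩ : ∃ s, thdTm y φ z κ s ≠ 0 := by
    by_contra h'
    simp only [not_exists, not_not] at h'
    exact hκ (by simp [h'])
  obtain ⟨-, k2, k3, k4⟩ := thd_co_ne (left_ne_zero_of_mul hs)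
  have k5 := (h1 _ k3).mul (h2 _ k4)
  rwa [mul_div_cancel₀ _ (thd_w_ne k2 κ)] at k5

theorem thd_bd (y : F) {φ : F → ℂ} (hφ : LocF φ) :
    ∃ C : ℝ, ∀ z, ‖thdT y φ z‖ ≤ C * nf z ^ (1 / 6 : ℝ) := by
  obtain ⟨⟨B, hB⟩, ⟨a1, h1⟩, -⟩ := hφ
  obtain ⟨C1, hC1⟩ := Pt_bd (F := F)
  obtain ⟨C2, hC2, h2⟩ := SU_sum (F := F) (e := 3) (by norm_num) a1 (σ := 1 / 3) (by norm_num)
  have hB0 : 0 ≤ B := (norm_nonneg _).trans (hB 0)
  have hC10 : 0 ≤ C1 := (norm_nonneg _).trans (hC1 1 one_ne_zero)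
  have hP := nf_pos (y * MF F ^ 3)
  have hm := mm_pos (F := F)
  have hc : 0 < cov (latO F) := lat_one_one (F := F) ▸ cov_pos (isLat_lat one_ne_zero one_ne_zero)
  refine ⟨mm F / cov (latO F) * (Fintype.card (Cl F) * (B * (nf (y * MF F ^ 3))⁻¹ * C1 * C2)),
    fun z => ?_⟩
  have hz0 := nf_pos z
  unfold thdT
  split_ifs with hz
  · rw [norm_zero]
    positivity
  have h3 : ∀ κ : Cl F, ‖∑' s : R F, thdTm y φ z κ s‖ ≤ B * (nf (y * MF F ^ 3))⁻¹ * C1 * C2 := by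
    intro κ
    obtain ⟨k1, k2⟩ := h2 _ (rep_ne κ)
    refine (tsum_of_norm_bounded (k1.hasSum.mul_left (B * (nf (y * MF F ^ 3))⁻¹ * C1))
      fun s => ?_).trans (mul_le_mul_of_nonneg_left k2 (by positivity))
    have hw0 := nf_pos ((s : F) * rep κ)
    by_cases h : thdCo y φ z κ s = 0
    · rw [thdTm, h, zero_mul, norm_zero]
      split_ifs <;> positivity
    · obtain ⟨k3, k4, k5, -⟩ := thd_co_ne h
      rw [if_pos ⟨k3, h1 _ k5⟩, thdTm, thdCo, if_pos ⟨k3, k4⟩]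
      simp only [norm_mul, norm_B3, one_mul, mul_one, Complex.norm_real]
      rw [Real.norm_of_nonneg (by positivity)]
      calc _ ≤ B * (nf (y * MF F ^ 3))⁻¹ * (nf ((s : F) * rep κ) ^ (-(1 / 3) : ℝ) * C1) := by
            gcongr
            · exact hB _
            · exact norm_PsiD_le _ _
            · exact hC1 _ (mul_ne_zero (thd_w_ne k4 κ) hz)
        _ = _ := by ring
  rw [norm_mul, Complex.norm_real, Real.norm_of_nonneg (by positivity)]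
  have h4 := norm_sum_le_of_le (Finset.univ : Finset (Cl F)) fun κ _ => h3 κ
  rw [Finset.sum_const, Finset.card_univ, nsmul_eq_mul] at h4
  exact (mul_le_mul_of_nonneg_left h4 (by positivity)).trans (le_of_eq (by ring))

theorem thd_bdA (z : ℂ) {a : R F → ℂ} (ha : BdA a) : BdA fun c => z * a c := by
  obtain ⟨h0, ⟨A, hA⟩, B, hB⟩ := ha
  refine ⟨by simp [h0], ⟨A, fun c h => hA c (right_ne_zero_of_mul h)⟩, ‖z‖ * B, fun c => ?_⟩
  rw [norm_mul]
  exact mul_le_mul_of_nonneg_left (hB c) (norm_nonneg _)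

/-- Decomposition into cosets. -/
theorem thd_split {y : F} {φ : F → ℂ} (hU : UInv φ) {r : R F} {S : Finset (R F)}
    (hS : ∀ κ s, thdCo y φ r κ s ≠ 0 → s ∈ S) {c : R F} (hc : c ≠ 0) :
    gauss (fun x => cub x c) c r / (N c : ℂ) * (B3 (c : F) y * φ c * PsiD y ((r : F) / c)) =
      ∑ p ∈ (Finset.univ : Finset (Cl F)) ×ˢ S,
        thdCo y φ r p.1 p.2 * aII ((p.2 : F) * rep p.1) r c := by
  have hc' : (c : F) ≠ 0 := fun h => hc (Subtype.ext h)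
  obtain ⟨⟨s, κ⟩, k1, k2, -, k3⟩ := exists_coset hc'
  have hw := thd_w_ne k2 κ
  have e : thdCo y φ r κ s = B3 (c : F) y * φ c * PsiD y ((r : F) / c) := by
    have e1 := hU ((s : F) * rep κ) _ k3
    have e2 := uInv_PsiD y ((r : F) / c) _ k3
    rw [div_mul_cancel₀ _ hw] at e1
    rw [show (c : F) / ((s : F) * rep κ) * ((r : F) / c) = r / ((s : F) * rep κ) by field_simp] at e2
    rw [thdCo, if_pos ⟨k1, k2⟩, B3_inU_left k3, e1, e2]
  rw [Finset.sum_eq_single (κ, s)]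
  · rw [e, aII, if_pos k3, mul_comm]
  · rintro ⟨κ', s'⟩ - hne
    by_cases h : thdCo y φ r κ' s' = 0
    · rw [h, zero_mul]
    · obtain ⟨j1, j2, -⟩ := thd_co_ne h
      rw [aII, if_neg, mul_zero]
      intro j3
      obtain ⟨rfl, rfl⟩ := coset_unique j1 k1 j2 k2 ((j3.symm (by norm_num)).trans (by norm_num) k3)
      exact hne rfl
  · intro h
    have h0 : thdCo y φ r κ s = 0 := by_contra fun h' =>
      h (Finset.mem_product.2 ⟨Finset.mem_univ _, hS κ s h'⟩)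
    rw [h0, zero_mul]

theorem exp_kI {y : F} (hy : y ≠ 0) {φ : F → ℂ} (hφ : LocF φ) (hU : UInv φ) :
    ∃ (T : F → ℂ) (a : ℕ) (C : ℝ), UInv T ∧ (∀ z, T z ≠ 0 → Hi a z) ∧
      (∀ z, ‖T z‖ ≤ C * nf z ^ (1 / 6 : ℝ)) ∧ ((∀ z : F, z ≠ 0 → Pt z = 0) → ∀ z, T z = 0) ∧
      ∀ f, IsLim (kI y φ) f → IsExp f (fun r => T r * tau0 r) := by
  obtain ⟨a, ha⟩ := thd_supp hy hφ
  obtain ⟨C, hC⟩ := thd_bd y hφ
  refine ⟨thdT y φ, a, C, thd_uInv y φ, ha, hC, fun h z => ?_, fun f hf => ?_⟩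
  · unfold thdT
    split_ifs with hz
    · rfl
    have : ∀ κ s, thdTm y φ z κ s = 0 := fun κ s => by
      by_cases h0 : thdCo y φ z κ s = 0
      · rw [thdTm, h0, zero_mul]
      · rw [thdTm, h _ (mul_ne_zero (thd_w_ne (thd_co_ne h0).2.1 κ) hz), mul_zero, mul_zero]
    simp [this]
  obtain ⟨b1, h1⟩ := adm_kI hy hφ
  obtain ⟨b2, h2⟩ := aK_kI hy hφ
  refine isExp (b := a + b1 + b2) (h1.mono (by omega)) hf.meas hf.conv (gr_dual ha hC)
    (fun r hr => mem_dual_Lb.2 ⟨r.2, Ol_le_Od ?_⟩) fun r hr hd => ?_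
  · rw [mul_comm]
    exact (ha _ (left_ne_zero_of_mul hr)).mono (by omega)
  have hr' : (r : F) ≠ 0 := fun h => hr (Subtype.ext h)
  obtain ⟨S, hS⟩ := thd_fin hy hφ hr'
  set b := a + b1 + b2 with hb
  have hM : MF F ^ b ≠ 0 := pow_ne_zero _ MF_ne
  have e1 : aK (kI y φ) b r = fun c => ∑ p ∈ (Finset.univ : Finset (Cl F)) ×ˢ S,
      (nf (MF F ^ b) : ℂ) * thdCo y φ r p.1 p.2 * aII ((p.2 : F) * rep p.1) r c := by
    funext c
    by_cases hc : c = 0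
    · rw [hc, aK, if_pos rfl]
      refine (Finset.sum_eq_zero fun p _ => ?_).symm
      rw [aII, if_neg fun h => h.left_ne (by norm_num) rfl, mul_zero]
    · rw [h2 b (by omega) r hd c hc]
      simp only [mul_assoc ((nf (MF F ^ b) : ℝ) : ℂ)]
      rw [← Finset.mul_sum, ← thd_split hU hS hc]
      ring
  have t1 : ∀ p ∈ (Finset.univ : Finset (Cl F)) ×ˢ S, Tendsto (Rsum (fun c =>
      (nf (MF F ^ b) : ℂ) * thdCo y φ r p.1 p.2 * aII ((p.2 : F) * rep p.1) r c) phi0) (Fz F)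
      (𝓝 ((nf (MF F ^ b) : ℂ) * ((N r ^ (-(1 / 6) : ℝ) : ℝ) : ℂ) * tau0 r *
        thdTm y φ r p.1 p.2)) := by
    intro p _
    by_cases h0 : thdCo y φ r p.1 p.2 = 0
    · simp only [thdTm, h0, mul_zero, zero_mul]
      refine tendsto_const_nhds.congr fun t => ?_
      simp [Rsum]
    · have hw := thd_w_ne (thd_co_ne h0).2.1 p.1
      have k := (rho_tendsto hw hr).const_mul ((nf (MF F ^ b) : ℂ) * thdCo y φ r p.1 p.2)
      rw [rho_formula hw hr] at k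
      have e2 : (nf (MF F ^ b) : ℂ) * ((N r ^ (-(1 / 6) : ℝ) : ℝ) : ℂ) * tau0 r *
          thdTm y φ r p.1 p.2 = (nf (MF F ^ b) : ℂ) * thdCo y φ r p.1 p.2 *
          (((nf ((p.2 : F) * rep p.1) ^ (-(1 / 3) : ℝ) * N r ^ (-(1 / 6) : ℝ) : ℝ) : ℂ) *
            B3 (r : F) ((p.2 : F) * rep p.1) * Pt ((p.2 : F) * rep p.1 * r) * tau0 r) := by
        rw [thdTm, Complex.ofReal_mul]
        ring
      rw [e2]
      exact k.congr fun t => (Rsum_const_mul _ _ _ t).symm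
  have t2 := tendsto_finsetSum _ t1
  have e3 : thdT y φ r * tau0 r *
      ((cov (Lb F b) / (mm F * Nin (r : F) ^ (1 / 6 : ℝ)) : ℝ) : ℂ) =
      ∑ p ∈ (Finset.univ : Finset (Cl F)) ×ˢ S, (nf (MF F ^ b) : ℂ) *
        ((N r ^ (-(1 / 6) : ℝ) : ℝ) : ℂ) * tau0 r * thdTm y φ r p.1 p.2 := by
    have e4 : ∀ κ, ∑' s : R F, thdTm y φ r κ s = ∑ s ∈ S, thdTm y φ r κ s := fun κ =>
      tsum_eq_sum fun s hs => by
        rw [thdTm, show thdCo y φ r κ s = 0 from by_contra fun h => hs (hS κ s h), zero_mul]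
    have hm := mm_pos (F := F)
    have hc : 0 < cov (latO F) :=
      lat_one_one (F := F) ▸ cov_pos (isLat_lat one_ne_zero one_ne_zero)
    have hN := N_pos hr
    have hn := nf_pos (r : F)
    have e5 : mm F / cov (latO F) * nf (r : F) ^ (1 / 6 : ℝ) *
        (cov (Lb F b) / (mm F * Nin (r : F) ^ (1 / 6 : ℝ))) =
        nf (MF F ^ b) * N r ^ (-(1 / 6) : ℝ) := by
      rw [Lb, cov_lat one_ne_zero hM, NF_one, Nin_eq_N_mul, Real.mul_rpow hN.le hn.le,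
        Real.rpow_neg hN.le]
      have := Real.rpow_pos_of_pos hN (1 / 6)
      have := Real.rpow_pos_of_pos hn (1 / 6)
      field_simp
    rw [← Finset.mul_sum, Finset.sum_product, thdT, if_neg hr', ← Complex.ofReal_mul, ← e5,
      Complex.ofReal_mul _ (_ / _)]
    simp only [e4]
    ring
  rw [e3, e1]
  refine t2.congr' ?_
  filter_upwards [eventually_Fz_pos] with t ht
  refine (Rsum_sum _ (fun p _ => ?_) testF_phi0 ht).symm
  by_cases h0 : thdCo y φ r p.1 p.2 = 0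
  · simp only [h0, mul_zero, zero_mul]
    exact ⟨rfl, ⟨0, fun c h => absurd rfl h⟩, 0, fun c => by simp⟩
  · exact thd_bdA _ (bdA_aII (thd_w_ne (thd_co_ne h0).2.1 p.1) r)

end Vale.Agent.P319B
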