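import Vale.Agent.P319B.KpV
import Vale.Agent.P319B.Jac
import Vale.Agent.P319B.ThP
import Vale.Agent.P319B.ThD

/-! Auxiliary lemmas for the twisted Voronoi identity. -/

namespace Vale.Agent.P319B

open Complex NumberField
open scoped Classical ComplexConjugate
open Vale.Agent.P026 (w kk fk)

variable {F : Type} [Field F] [NumberField F] [Ctx F]

theorem du_gr_smul {a : R F → ℂ} (ha : Gr a) (z : ℂ) : Gr (fun r => z * a r) := by
  have := ha.mul (χ := fun _ => z) (B := ‖z‖) fun _ => le_rfl
  simpa only [mul_comm z] using this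

theorem du_Vor_sum {ι : Type} (S : Finset ι) (c e : ι → ℂ) (a b : ι → R F → ℂ)
    (ha : ∀ j, Gr (a j)) (hb : ∀ j, Gr (b j)) {q : F}
    (h : ∀ j ∈ S, c j ≠ 0 → VorV (a j) (b j) q (e j)) {a' b' : R F → ℂ} {e' : ℂ}
    (h1 : ∀ r, a' r = ∑ j ∈ S, c j * a j r) (h2 : ∀ r, ∑ j ∈ S, c j * e j * b j r = e' * b' r) :
    VorV a' b' q e' := by
  have k := VorV.sum S (a := fun j r => c j * a j r) (b := fun j r => c j * e j * b j r) (q := q)
    (e := 1) fun j hj => ⟨du_gr_smul (ha j) _, du_gr_smul (hb j) _, by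
      by_cases hc : c j = 0
      · intro x _
        simp [hc, PhiV]
      · exact VorV.move.1 (by rw [one_mul]; exact (h j hj hc).smul (c j))⟩
  have k2 := VorV.move.2 (k.congr (fun r => (h1 r).symm) h2)
  rwa [one_mul] at k2

theorem du_psi_split {h k : R F} (hh : h ≠ 0) (hk : k ≠ 0) (x y : R F) :
    psi (h * k) (k * x + h * y) = psi h x * psi k y := by
  rw [psi_add, psi_mul_left hk, mul_comm h k, psi_mul_left hh]

theorem du_exists_inv {a c : R F} (h : IsCoprime a c) : ∃ b, c ∣ a * b - 1 := by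
  obtain ⟨u, v, h⟩ := h
  exact ⟨u, -v, by linear_combination h⟩

theorem du_cop_of_inv {a b c : R F} (h : c ∣ a * b - 1) : IsCoprime b c := by
  obtain ⟨v, h⟩ := h
  exact ⟨a, -v, by linear_combination h⟩

theorem du_cop_congr {a b h : R F} (hab : h ∣ a - b) (ha : IsCoprime a h) : IsCoprime b h := by
  obtain ⟨c, hc⟩ := hab
  have := ha.add_mul_left_left (-c)
  rwa [show a + h * -c = b by linear_combination hc] at this

/-- An inverse modulo `c`. -/
noncomputable def duInv (c a : R F) : R F := if h : ∃ b, c ∣ a * b - 1 then h.choose else a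

theorem duInv_spec {c a : R F} (h : IsCoprime a c) : c ∣ a * duInv c a - 1 := by
  rw [duInv, dif_pos (du_exists_inv h)]
  exact (du_exists_inv h).choose_spec

theorem duInv_not {c a : R F} (h : ¬ IsCoprime a c) : duInv c a = a :=
  dif_neg fun ⟨b, hb⟩ => h (du_cop_of_inv (a := b) (by rwa [mul_comm]))

/-- Inversion modulo `h`, and the resulting quadratic Gauss sum. -/
theorem du_inv {h : R F} (hh : Squarefree h) (x m : R F) (hm : IsCoprime m h) :
    ∑ a ∈ res h, chi 2 a h * cub a h * psi h (-(x * (duInv h a * m ^ 2))) =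
      quad (-1) h * quad x h * (ab h : ℂ) * Gt 0 h := by
  have hinj : ∀ a b, h ∣ duInv h a - duInv h b → h ∣ a - b := by
    intro a b hab
    by_cases ha : IsCoprime a h <;> by_cases hb : IsCoprime b h
    · have := dvd_sub (dvd_sub ((duInv_spec ha).mul_left b) ((duInv_spec hb).mul_left a))
        (hab.mul_left (a * b))
      rwa [show b * (a * duInv h a - 1) - a * (b * duInv h b - 1) -
        a * b * (duInv h a - duInv h b) = a - b by ring] at this
    · rw [duInv_not hb] at hab
      exact absurd (du_cop_congr hab (du_cop_of_inv (duInv_spec ha))) hb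
    · rw [duInv_not ha, ← dvd_neg, neg_sub] at hab
      exact absurd (du_cop_congr hab (du_cop_of_inv (duInv_spec hb))) ha
    · rwa [duInv_not ha, duInv_not hb] at hab
  have hper : Pe h (fun b => chi 0 b h * psi h (-(x * m ^ 2) * b)) :=
    Pe.mul (fun _ _ hab => chi_congr 0 hab) (pe_psi h _)
  have h3 := sum_res_reindex hh.ne_zero hper (duInv h) hinj
  have h4 := gauss_chi (j := 0) (j' := 0) (by norm_num) hh (-(x * m ^ 2))
  unfold gauss at h4
  rw [h4, chi_zero_eq, ← neg_one_mul, quad_mul_left, quad_mul_left, quad_pow_left, quad_sq hm,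
    mul_one] at h3
  rw [← h3]
  refine Finset.sum_congr rfl fun a _ => ?_
  rw [chi_zero_eq, show -1 * (x * m ^ 2) * duInv h a = -(x * (duInv h a * m ^ 2)) by ring]
  congr 1
  by_cases ha : IsCoprime a h
  · have h5 : quad a h * quad (duInv h a) h = 1 := by
      rw [← quad_mul_left, quad_congr (duInv_spec ha), quad_one_left]
    have h6 := quad_sq ha
    have h7 := cub_cube ha
    unfold chi
    linear_combination quad a h * h7 + quad (duInv h a) h * h6 - quad a h * h5
  · rw [duInv_not ha, (quad_eq_zero hh.ne_zero).2 ha, (cub_eq_zero hh.ne_zero).2 ha, mul_zero]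

/-- The dual additive character. -/
noncomputable def duPhi (i x a : R F) : ℂ := cub a i * psi i (-(x * duInv i a))

theorem duPhi_mul {i x x' s a a' : R F} (hi : i ≠ 0) (hs : IsCoprime s i) (hx : i ∣ x' * s - x)
    (ha : i ∣ a' - s * a) : duPhi i x a' = cub s i * duPhi i x' a := by
  rw [duPhi, duPhi, cub_congr ha, cub_mul_left, mul_assoc]
  by_cases h : IsCoprime a i
  · have h1 := duInv_spec h
    have h2 := duInv_spec (du_cop_congr (dvd_sub_comm.1 ha) (hs.mul_left h))
    rw [psi_congr (y := -(x' * duInv i a))]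
    have := dvd_add (dvd_add (dvd_sub (hx.mul_left (duInv i a')) (h2.mul_left (x' * duInv i a)))
      (ha.mul_left (x' * duInv i a * duInv i a'))) (h1.mul_left (x' * s * duInv i a'))
    rwa [show duInv i a' * (x' * s - x) - x' * duInv i a * (a' * duInv i a' - 1) +
      x' * duInv i a * duInv i a' * (a' - s * a) + x' * s * duInv i a' * (a * duInv i a - 1) =
      -(x * duInv i a') - -(x' * duInv i a) by ring] at this
  · rw [(cub_eq_zero hi).2 h, zero_mul, zero_mul]

theorem duPhi_congr {i x x' : R F} (hx : i ∣ x - x') (a : R F) : duPhi i x a = duPhi i x' a := by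
  rw [duPhi, duPhi, psi_congr (y := -(x' * duInv i a))]
  have := (hx.mul_right (duInv i a)).neg_right
  rwa [show -((x - x') * duInv i a) = -(x * duInv i a) - -(x' * duInv i a) by ring] at this

theorem duPhi_pe {i : R F} (hi : i ≠ 0) (x : R F) : Pe i (duPhi i x) := fun a a' h => by
  rw [duPhi_mul (x' := x) (s := 1) (a := a') hi isCoprime_one_left (by simp) (by rwa [one_mul]),
    cub_one_left, one_mul]

theorem duPhi_norm (i x a : R F) : ‖duPhi i x a‖ ≤ 1 := by
  rw [duPhi, norm_mul, norm_psi, mul_one]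
  exact norm_cub_le _ _

/-- The identity for one twist, with the inverse of the twist in the dual function. -/
theorem du_one (T : Theta F) (o : Bool) (κ l : Cl F) {S : Finset (R F)} {c : R F → ℂ}
    {A : R F → R F} {q h n : R F} (hq : q ≠ 0) (hS : ∀ y ∈ S, IsCoprime (A y) q)
    (hh : Squarefree h) (hhq : IsCoprime h q) (hn : q ∣ h * n - 1)
    (hl : InU 3 (((h * q : R F) : F) / rep l)) : ∃ e : ℂ, ‖e‖ ≤ 1 ∧
      VorV (fun r => inC κ r * tau0 r *
          (angI o (r : F) * (∑ y ∈ S, c y * psi q (r * A y)) * chi 1 r h))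
        (fun r => T.T κ l r * tau0 r *
          (angI (!o) (r : F) * (∑ y ∈ S, c y * duPhi q (r * n ^ 2) (A y)) * quad r h))
        ((h * q : R F) : F) e := by
  have h0 := hh.ne_zero
  obtain ⟨m, hm⟩ := du_exists_inv hhq.symm
  have hab : (ab h : ℂ) ≠ 0 := by exact_mod_cast (ab_pos h0).ne'
  have hG : Gt 2 h ≠ 0 := by
    rw [← norm_ne_zero_iff, norm_Gt 2 hh]
    exact one_ne_zero
  refine ⟨(Gt 2 h)⁻¹ * angI o ((h * q : R F) : F) ^ 2 * cub q h * cub h q * quad (-1) h * Gt 0 h,
    ?_, ?_⟩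
  · simp only [norm_mul, norm_inv, norm_pow, norm_Gt _ hh,
      norm_angI o (hl.left_ne (by norm_num)), norm_cub hhq, norm_cub hhq.symm, inv_one, one_pow,
      one_mul, mul_one]
    exact norm_quad_le _ _
  have g1 : ∀ x : R F → R F, Gr fun r => inC κ r * tau0 r * angI o (r : F) * psi (h * q) (x r) :=
    fun x => ((gr_primal κ).mul fun r => norm_angI_le o _).mul fun r => (norm_psi _ _).le
  have g2 : ∀ x : R F → R F,
      Gr fun r => T.T κ l r * tau0 r * angI (!o) (r : F) * psi (h * q) (x r) :=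
    fun x => ((gr_dual (T.T_supp κ l) (T.T_bd κ l)).mul fun r => norm_angI_le (!o) _).mul
      fun r => (norm_psi _ _).le
  refine du_Vor_sum (S ×ˢ res h) (fun p => c p.1 * chi 2 p.2 h / (ab h * Gt 2 h))
    (fun p => cub p.2 h * cub q h * (cub (A p.1) q * cub h q) * angI o ((h * q : R F) : F) ^ 2)
    (fun p r => inC κ r * tau0 r * angI o (r : F) * psi (h * q) (r * (p.2 * q + A p.1 * h)))
    (fun p r => T.T κ l r * tau0 r * angI (!o) (r : F) *
      psi (h * q) (-(r * (q * (duInv h p.2 * m ^ 2) + h * (duInv q (A p.1) * n ^ 2)))))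
    (fun p => g1 _) (fun p => g2 _) (fun p hp' hc => ?_) (fun r => ?_) (fun r => ?_)
  · have h1 := duInv_spec (hS p.1 (Finset.mem_product.1 hp').1)
    have ha : IsCoprime p.2 h := by
      by_contra ha
      exact hc (by rw [(chi_eq_zero 2 h0).2 ha, mul_zero, zero_div])
    have h2 := duInv_spec ha
    have k7 := T.vor o κ l (p.2 * q + A p.1 * h) (h * q)
      (q * (duInv h p.2 * m ^ 2) + h * (duInv q (A p.1) * n ^ 2)) hl (by
        generalize duInv h p.2 = b at h2 ⊢
        generalize duInv q (A p.1) = d at h1 ⊢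
        obtain ⟨c1, h1⟩ := h1
        obtain ⟨c2, h2⟩ := h2
        obtain ⟨c3, h3⟩ := hm
        obtain ⟨c4, h4⟩ := hn
        refine hhq.mul_dvd
          ⟨(q * m) ^ 2 * c2 + (q * m + 1) * c3 + q * (b * m ^ 2) * A p.1 +
            d * n ^ 2 * (p.2 * q + A p.1 * h), ?_⟩
          ⟨(h * n) ^ 2 * c1 + (h * n + 1) * c4 + h * (d * n ^ 2) * p.2 +
            b * m ^ 2 * (p.2 * q + A p.1 * h), ?_⟩
        · linear_combination (q * m) ^ 2 * h2 + (q * m + 1) * h3
        · linear_combination (h * n) ^ 2 * h1 + (h * n + 1) * h4)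
    rwa [cub_mul_right _ h0 hq, cub_congr (c := h) (b := p.2 * q) ⟨A p.1, by ring⟩,
      cub_congr (c := q) (b := A p.1 * h) ⟨p.2, by ring⟩, cub_mul_left, cub_mul_left] at k7
  · have k1 := gauss_chi (j := 2) (j' := 1) (by norm_num) hh r
    have k2 : chi 1 r h = ∑ a ∈ res h, chi 2 a h * psi h (r * a) / (ab h * Gt 2 h) := by
      unfold gauss at k1
      rw [← Finset.sum_div, k1]
      field_simp
    rw [k2, Finset.sum_product, mul_assoc (angI o _), Finset.sum_mul_sum, Finset.mul_sum,
      Finset.mul_sum]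
    refine Finset.sum_congr rfl fun y _ => ?_
    rw [Finset.mul_sum, Finset.mul_sum]
    refine Finset.sum_congr rfl fun a _ => ?_
    rw [show r * (a * q + A y * h) = q * (r * a) + h * (r * A y) by ring, du_psi_split h0 hq]
    ring
  · have k1 := du_inv hh r m (du_cop_of_inv hm)
    have k2 : ∀ y a, c y * chi 2 a h / (ab h * Gt 2 h) *
        (cub a h * cub q h * (cub (A y) q * cub h q) * angI o ((h * q : R F) : F) ^ 2) *
        (T.T κ l r * tau0 r * angI (!o) (r : F) *
          psi (h * q) (-(r * (q * (duInv h a * m ^ 2) + h * (duInv q (A y) * n ^ 2))))) =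
        (cub q h * cub h q * angI o ((h * q : R F) : F) ^ 2 * T.T κ l r * tau0 r *
          angI (!o) (r : F) / (ab h * Gt 2 h)) *
          ((c y * duPhi q (r * n ^ 2) (A y)) *
            (chi 2 a h * cub a h * psi h (-(r * (duInv h a * m ^ 2))))) := by
      intro y a
      rw [show -(r * (q * (duInv h a * m ^ 2) + h * (duInv q (A y) * n ^ 2))) =
          q * (-(r * (duInv h a * m ^ 2))) + h * (-(r * n ^ 2 * duInv q (A y))) by ring,
        du_psi_split h0 hq, duPhi]
      ring
    rw [Finset.sum_product]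
    simp only [k2, ← Finset.mul_sum, ← Finset.sum_mul]
    rw [k1]
    field_simp

/-- Covariance of the Fourier coefficients. -/
theorem du_gauss_cov {q0 s : R F} (hq0 : q0 ≠ 0) {G : R F → ℂ} (hP : Pe q0 G)
    (hs : IsCoprime s q0) {ξ : ℂ} (h : ∀ r, G (r * s) = ξ * G r) (y : R F) :
    gauss G q0 (-y) = ξ * gauss G q0 (-(s * y + 0)) := by
  unfold gauss
  rw [← sum_res_affine hq0 (hP.mul (pe_psi q0 (-y))) hs 0, Finset.mul_sum]
  refine Finset.sum_congr rfl fun x _ => ?_
  rw [add_zero, add_zero, mul_comm s x, h, mul_assoc]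
  congr 3
  ring

theorem du_per_gauss (q0 : R F) (G : R F → ℂ) {y y' : R F} (h : q0 ∣ y - y') :
    gauss G q0 (-y) = gauss G q0 (-y') := by
  unfold gauss
  refine Finset.sum_congr rfl fun x _ => ?_
  rw [psi_congr (y := -y' * x)]
  have := (h.mul_right x).neg_right
  rwa [show -((y - y') * x) = -y * x - -y' * x by ring] at this

theorem du_psi_pair {q0 y A q : R F} (hq0 : q0 ≠ 0) (hq : q ∣ q0) (h : y * q = A * q0)
    (r : R F) : psi q0 (r * y) = psi q (r * A) := by
  obtain ⟨k, rfl⟩ := hq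
  have hq := left_ne_zero_of_mul hq0
  have hk := right_ne_zero_of_mul hq0
  have h1 : y = A * k := mul_right_cancel₀ hq (by rw [h]; ring)
  rw [← psi_mul_left hk q, h1]
  congr 1
  ring

/-- Decomposition of a periodic function according to the reduced denominators. -/
theorem du_decomp {q0 : R F} (hq : q0 ≠ 0) {G : R F → ℂ} (hP : Pe q0 G) (hB : Bd1 G) :
    ∃ (S : R F → Finset (R F)) (c : R F → ℂ) (A : R F → R F),
      (∀ x, G x = ∑ i ∈ dvs q0, ∑ y ∈ S i, c y * psi i (x * A y)) ∧
      (∀ i, ∀ y ∈ S i, IsCoprime (A y) i) ∧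
      (∀ i (φ : R F → ℂ), Bd1 φ → ‖∑ y ∈ S i, c y * φ (A y)‖ ≤ ab q0) ∧
      ∀ i s (ξ : ℂ) (φ : R F → ℂ), IsCoprime s q0 → (∀ r, G (r * s) = ξ * G r) → Pe i φ →
        ∑ y ∈ S i, c y * φ (s * A y) = ξ * ∑ y ∈ S i, c y * φ (A y) := by
  choose p hp hu using exists_lowest hq
  have trans : ∀ s y y', IsCoprime s q0 → q0 ∣ y' - s * y →
      (p y').2 = (p y).2 ∧ (p y).2 ∣ (p y').1 - s * (p y).1 := by
    rintro s y y' k2 ⟨z, hz⟩
    obtain ⟨a1, a2, a3, a4⟩ := hp y
    have k := hu y' (s * (p y).1 + z * (p y).2, (p y).2) ⟨a1, a2,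
      ((k2.of_isCoprime_of_dvd_right a2).mul_left a3).add_mul_right_left _,
      by linear_combination s * a4 + (p y).2 * hz⟩
    rw [← k]
    exact ⟨rfl, z, by ring⟩
  refine ⟨fun i => (res q0).filter fun y => (p y).2 = i, fun y => gauss G q0 (-y) / (N q0 : ℂ),
    fun y => (p y).1, fun x => ?_, fun i y hy => ?_, fun i φ hφ => ?_,
    fun i s ξ φ hs hξ hφ => ?_⟩
  · rw [fourier_inv hq hP x, ← Finset.sum_fiberwise_of_maps_to (g := fun y => (p y).2)
      fun y _ => (mem_dvs hq).2 ⟨(hp y).1, (hp y).2.1⟩]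
    refine Finset.sum_congr rfl fun i _ => Finset.sum_congr rfl fun y hy' => ?_
    rw [← (Finset.mem_filter.1 hy').2, du_psi_pair hq (hp y).2.1 (hp y).2.2.2]
  · rw [← (Finset.mem_filter.1 hy).2]
    exact (hp y).2.2.1
  · refine ((norm_sum_le _ _).trans (Finset.sum_le_sum fun y _ => ?_)).trans
      ((Finset.sum_le_sum_of_subset_of_nonneg (Finset.filter_subset _ _)
        fun _ _ _ => norm_nonneg _).trans (fourier_l1 hq hB))
    rw [norm_mul]
    exact mul_le_of_le_one_right (norm_nonneg _) (hφ _)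
  · have hper : Pe q0 fun y => if (p y).2 = i then
        gauss G q0 (-y) / (N q0 : ℂ) * φ (p y).1 else 0 := by
      intro y' y hyy
      obtain ⟨t1, t2⟩ := trans 1 y y' isCoprime_one_left (by rwa [one_mul])
      beta_reduce
      rw [t1]
      split_ifs with t4
      · rw [du_per_gauss q0 G hyy, hφ _ (p y).1 (by rwa [t4, one_mul] at t2)]
      · rfl
    rw [Finset.sum_filter, Finset.sum_filter, ← sum_res_affine hq hper hs 0, Finset.mul_sum]
    refine Finset.sum_congr rfl fun y _ => ?_
    obtain ⟨t1, t2⟩ := trans s y (s * y + 0) hs (by simp)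
    rw [t1]
    split_ifs with t4
    · rw [t4] at t2
      beta_reduce
      rw [hφ _ _ t2, du_gauss_cov hq hP hs hξ y]
      ring
    · rw [mul_zero]

end Vale.Agent.P319B
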