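import Vale.Agent.P319B.KpV
import Vale.Agent.P319B.Jac
import Vale.Agent.P319B.ThP
import Vale.Agent.P319B.ThD
import Vale.Agent.P319B.DualA

/-! The twisted Voronoi identity. -/

namespace Vale.Agent.P319B

open Complex NumberField
open scoped Classical ComplexConjugate
open Vale.Agent.P026 (w kk fk)

variable {F : Type} [Field F] [NumberField F] [Ctx F]

theorem dual (T : Theta F) (o : Bool) {q0 : R F} (hq : q0 ≠ 0) (κ : Cl F) (H : Set (R F))
    {G : R F → ℂ} (hG : Per q0 G) (hB : Bd1 G) (hH : ∀ h ∈ H, P0 h ∧ IsCoprime h q0)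
    (hc : ∀ h ∈ H, ∀ h' ∈ H, cls (h : F) = cls (h' : F))
    (hcov : H.Subsingleton ∨ ∀ s : R F, InU 3 (s : F) → IsCoprime s q0 →
      ∃ ξ : ℂ, ‖ξ‖ = 1 ∧ ∀ r, r ≠ 0 → G (r * s) = ξ * G r) :
    ∃ (Fp Fs : R F → R F → ℂ) (l : R F → Cl F),
      (∀ x : R F, InU 3 ((x : F) / rep κ) → G x = ∑ i ∈ dvs q0, Fp i x) ∧
      ∀ i ∈ dvs q0, (∀ x, ‖Fp i x‖ ≤ ab q0) ∧ (∀ x, ‖Fs i x‖ ≤ ab q0) ∧ EInv (Fp i) ∧
        EInv (Fs i) ∧ Pe q0 (Fs i) ∧
        ∀ h ∈ H, ∃ (q : R F) (e : ℂ), InU 3 ((q : F) / rep (l i)) ∧ N q = N h * N i ∧ ‖e‖ ≤ 1 ∧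
          VorV (fun r => inC κ r * tau0 r * (angI o (r : F) * Fp i r * chi 1 r h))
            (fun r => T.T κ (l i) r * tau0 r * (angI (!o) (r : F) * Fs i r * quad r h))
            (q : F) e := by
  choose g hg1 hg2 using fun x => exists_inU_cong hq x (rep_ne κ) 3
  have hGf : ∀ x z : R F, q0 ∣ z - x → InU 3 ((z : F) / rep κ) → G (g x) = G z :=
    fun x z h1 h2 => hG.congr ((hg2 x).trans (by norm_num) (h2.symm (by norm_num)))
      (by simpa using dvd_sub (hg1 x) h1)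
  have hP : Pe q0 fun x => G (g x) := fun x y h =>
    hGf x (g y) (by simpa using dvd_sub (hg1 y) h) (hg2 y)
  have hcv : ∀ (s : R F) (ξ : ℂ), InU 3 (s : F) → (∀ r, r ≠ 0 → G (r * s) = ξ * G r) →
      ∀ r, G (g (r * s)) = ξ * G (g r) := by
    intro s ξ h1 h2 r
    rw [hGf (r * s) (g r * s) (by rw [← sub_mul]; exact (hg1 r).mul_right s)
      (by rw [Subring.coe_mul, mul_div_right_comm]; exact (hg2 r).mul h1),
      h2 _ (r2_ne ((hg2 r).left_ne (by norm_num)))]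
  have hun : ∀ u : R F, IsUnit u → InU 3 (u : F) → ∀ r, G (g (r * u)) = 1 * G (g r) :=
    fun u h1 h2 => hcv u 1 h2 fun r _ => by rw [mul_comm, hG.2 u r (Omg.of_inU h1 h2), one_mul]
  have hcu : ∀ u : R F, IsUnit u → ∀ z, IsCoprime u z := fun u h z => by
    obtain ⟨v, hv⟩ := h.exists_left_inv
    exact ⟨v, 0, by rw [hv, zero_mul, add_zero]⟩
  obtain ⟨S, c, A, h1, h2, h3, h4⟩ := du_decomp hq hP fun x => hB _
  have h5 : ∀ i, i ≠ 0 → i ∣ q0 → ∀ (s : R F) (ξ : ℂ), IsCoprime s q0 →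
      (∀ r, G (g (r * s)) = ξ * G (g r)) → ∀ x x', i ∣ x' * s - x →
      ξ * ∑ y ∈ S i, c y * duPhi i x (A y) = cub s i * ∑ y ∈ S i, c y * duPhi i x' (A y) := by
    intro i hi hiq s ξ hs hξ x x' hx
    rw [← h4 i s ξ _ hs hξ (duPhi_pe hi x), Finset.mul_sum]
    refine Finset.sum_congr rfl fun y _ => ?_
    rw [duPhi_mul hi (hs.of_isCoprime_of_dvd_right hiq) hx (a := A y) (by simp)]
    ring
  obtain ⟨h0, k0, k1⟩ : ∃ h0 : R F, IsCoprime h0 q0 ∧ ∀ h ∈ H, h0 ∈ H := by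
    rcases H.eq_empty_or_nonempty with rfl | ⟨h0, hh⟩
    · exact ⟨1, isCoprime_one_left, fun h hh => hh⟩
    · exact ⟨h0, (hH h0 hh).2, fun _ _ => hh⟩
  have hinv : ∀ h i : R F, IsCoprime h q0 →
      q0 ∣ tw ((h * i : R F) : F) * h * duInv q0 (tw ((h * i : R F) : F) * h) - 1 :=
    fun h i hh => duInv_spec ((hcu _ (tw_omg _).1 _).mul_left hh)
  refine ⟨fun i r => ∑ y ∈ S i, c y * psi i (r * A y),
    fun i r => ∑ y ∈ S i, c y *
      duPhi i (r * duInv q0 (tw ((h0 * i : R F) : F) * h0) ^ 2) (A y),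
    fun i => cls ((h0 * i : R F) : F), fun x hx => ?_, fun i hi => ?_⟩
  · rw [← h1, hGf x x (by simp) hx]
  obtain ⟨hi1, hi2⟩ := (mem_dvs hq).1 hi
  have hi0 := hi1.ne_zero
  refine ⟨fun x => h3 i (fun a => psi i (x * a)) fun a => (norm_psi _ _).le,
    fun x => h3 i _ (duPhi_norm _ _), fun u r hu hU => ?_, fun u r hu hU => ?_,
    fun x y hxy => Finset.sum_congr rfl fun z _ => ?_, fun h hh => ?_⟩
  · have := h4 i u 1 (fun a => psi i (r * a)) (hcu u hu _) (hun u hu hU) (pe_psi i r)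
    simp only [one_mul, ← mul_assoc, mul_comm r u] at this
    exact this
  · have := h5 i hi0 hi2 u 1 (hcu u hu _) (hun u hu hU)
      (u * r * duInv q0 (tw ((h0 * i : R F) : F) * h0) ^ 2)
      (r * duInv q0 (tw ((h0 * i : R F) : F) * h0) ^ 2) ⟨0, by ring⟩
    rwa [one_mul, cub_omg (Omg.of_inU hu hU), one_mul] at this
  · rw [duPhi_congr (x' := y * duInv q0 (tw ((h0 * i : R F) : F) * h0) ^ 2)]
    rw [← sub_mul]
    exact (hi2.trans hxy).mul_right _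
  obtain ⟨a1, a2⟩ := hH h hh
  have a3 := tw_omg ((h * i : R F) : F)
  have a4 := tilde_inU (mul_ne_zero a1.ne_zero hi0)
  have a5 : cls ((h * i : R F) : F) = cls ((h0 * i : R F) : F) := by
    rw [Subring.coe_mul, Subring.coe_mul, cls_mul a1.1.coe_ne hi1.coe_ne,
      cls_mul (hH h0 (k1 h hh)).1.1.coe_ne hi1.coe_ne, hc h hh h0 (k1 h hh)]
  rw [a5, tilde, ← mul_assoc] at a4
  have a6 := hinv h i a2
  have a7 := hinv h0 i k0
  obtain ⟨s, ξ, b1, b2, b3, b4⟩ : ∃ (s : R F) (ξ : ℂ), IsCoprime s q0 ∧ ‖ξ‖ = 1 ∧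
      (∀ r, G (g (r * s)) = ξ * G (g r)) ∧
      q0 ∣ duInv q0 (tw ((h0 * i : R F) : F) * h0) ^ 2 * s -
        duInv q0 (tw ((h * i : R F) : F) * h) ^ 2 := by
    rcases hcov with hs | hs
    · refine ⟨1, 1, isCoprime_one_left, norm_one, fun r => by rw [mul_one, one_mul], ?_⟩
      rw [hs (k1 h hh) hh, mul_one, sub_self]
      exact dvd_zero _
    · have c1 := du_cop_of_inv a6
      have c2 := (hcu _ (tw_omg ((h0 * i : R F) : F)).1 q0).mul_left k0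
      generalize duInv q0 (tw ((h * i : R F) : F) * h) = n at c1 ⊢
      generalize duInv q0 (tw ((h0 * i : R F) : F) * h0) = n0 at a7 ⊢
      generalize tw ((h0 * i : R F) : F) * h0 = z at a7 c2
      obtain ⟨s, c3, c4⟩ := exists_inU_cong hq ((n * z) ^ 2) (one_ne_zero (α := F)) 3
      rw [div_one] at c4
      have c5 := du_cop_congr (dvd_sub_comm.1 c3) (c1.mul_left c2).pow_left
      obtain ⟨ξ, c6, c7⟩ := hs s c4 c5
      refine ⟨s, ξ, c5, c6, hcv s ξ c4 c7, ?_⟩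
      have := dvd_add (c3.mul_left (n0 ^ 2)) (a7.mul_left (n ^ 2 * (z * n0 + 1)))
      rwa [show n0 ^ 2 * (s - (n * z) ^ 2) + n ^ 2 * (z * n0 + 1) * (z * n0 - 1) =
        n0 ^ 2 * s - n ^ 2 by ring] at this
  obtain ⟨e, he, hV⟩ := du_one T o κ (cls ((h0 * i : R F) : F)) (S := S i) (c := c) (A := A) hi0
    (h2 i) (a1.2.squarefree_of_dvd (a3.1.mul_left_dvd.2 dvd_rfl))
    (((hcu _ a3.1 _).mul_left a2).of_isCoprime_of_dvd_right hi2) (hi2.trans a6) a4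
  have hξ : ξ ≠ 0 := by
    rw [← norm_ne_zero_iff, b2]
    exact one_ne_zero
  refine ⟨_, e * (cub s i / ξ), a4, ?_, ?_, VorV.move.2 (hV.congr (fun r => ?_) fun r => ?_)⟩
  · rw [N_mul, N_mul, N_unit a3.1, one_mul]
  · rw [norm_mul, norm_div, b2, div_one]
    exact mul_le_one₀ he (norm_nonneg _) (norm_cub_le _ _)
  · rw [chi_unit_mul_right 1 r a3.1]
  · have := h5 i hi0 hi2 s ξ b1 b3 (r * duInv q0 (tw ((h * i : R F) : F) * h) ^ 2)
      (r * duInv q0 (tw ((h0 * i : R F) : F) * h0) ^ 2)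
      (by rw [mul_assoc, ← mul_sub]; exact (hi2.trans b4).mul_left r)
    rw [quad_unit_mul_right r a3.1, (eq_div_iff hξ).2 ((mul_comm _ _).trans this)]
    ring

end Vale.Agent.P319B
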