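import Vale.Agent.P319B.Defs

/-! Definitions for the power residue character and its L-function. -/

namespace Vale.Agent.P319B

open Complex NumberField
open scoped Classical ComplexConjugate
open Vale.Agent.P026 (w kk fk)

noncomputable section

variable {F : Type} [Field F] [NumberField F]

/-- q is an odd prime and ζ is a primitive q-th root of unity. -/
def PR (q : ℕ) (ζ : 𝓞 F) : Prop := q.Prime ∧ 2 < q ∧ IsPrimitiveRoot ζ q
/-- A nonzero prime that does not contain q. -/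
def GoodP (q : ℕ) (P : Ideal (𝓞 F)) : Prop := P.IsPrime ∧ P ≠ ⊥ ∧ (q : 𝓞 F) ∉ P
/-- The prime is unramified over the rationals. -/
def Unram (P : Ideal (𝓞 F)) : Prop :=
  ∀ l : ℕ, l.Prime → (l : 𝓞 F) ∈ P → ¬ P ^ 2 ∣ Ideal.span {(l : 𝓞 F)}
/-- The power residue symbol at a prime. -/
def prs (q : ℕ) (ζ : 𝓞 F) (P : Ideal (𝓞 F)) (x : 𝓞 F) : 𝓞 F :=
  if h : x ∉ P ∧ ∃ j : ℕ, x ^ ((Ideal.absNorm P - 1) / q) - ζ ^ j ∈ P then ζ ^ h.2.choose else 0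
/-- The power residue symbol at an ideal. -/
def psym (q : ℕ) (ζ : 𝓞 F) (x : 𝓞 F) (J : Ideal (𝓞 F)) : 𝓞 F :=
  ((UniqueFactorizationMonoid.normalizedFactors J).map fun P => prs q ζ P x).prod
/-- The exponent by which an automorphism acts on ζ. -/
def ea (q : ℕ) (ζ : 𝓞 F) (τ : F ≃ₐ[ℚ] F) : ℕ :=
  if h : ∃ a : ℕ, a < q ∧ τ • ζ = ζ ^ a then h.choose else 0
/-- Φ is the q-th power of the Gauss sum of the inverse symbol. -/
def IsPhi (q : ℕ) (ζ : 𝓞 F) (P : Ideal (𝓞 F)) (Φ : 𝓞 F) : Prop :=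
  ∀ (S : Type) [CommRing S] [IsDomain S] (φ : 𝓞 F →+* S) (ψ : AddChar (𝓞 F ⧸ P) S),
    (q : S) ≠ 0 → ψ.IsPrimitive →
      (∑ᶠ x : 𝓞 F ⧸ P, φ (prs q ζ P x.out ^ (q - 1)) * ψ x) ^ q = φ Φ

/-- The Dirichlet series over ideals. -/
def LI (χ : Ideal (𝓞 F) → ℂ) (s : ℂ) : ℂ := ∑' J, χ J * (Ideal.absNorm J : ℂ) ^ (-s)
variable (F) in
/-- Prime powers. -/
abbrev PP : Type := IsDedekindDomain.HeightOneSpectrum (𝓞 F) × ℕ
/-- The norm of the prime. -/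
def nP (x : PP F) : ℕ := Ideal.absNorm x.1.asIdeal
/-- The norm of the prime power. -/
def nPP (x : PP F) : ℕ := nP x ^ (x.2 + 1)
/-- Minus the logarithmic derivative. -/
def ZI (χ : Ideal (𝓞 F) → ℂ) (s : ℂ) : ℂ :=
  ∑' x : PP F, (Real.log (nP x) : ℂ) * χ x.1.asIdeal ^ (x.2 + 1) * (nPP x : ℂ) ^ (-s)
/-- The smoothed prime sum. -/
def SI (χ : Ideal (𝓞 F) → ℂ) (y : ℝ) : ℂ :=
  ∑' x : PP F, (Real.log (nP x) : ℂ) * χ x.1.asIdeal ^ (x.2 + 1) * (w (nPP x / y) : ℂ)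
variable (F) in
/-- The size of the data. -/
def Hc (m : ℕ) : ℝ := dg F + Real.log (m * (NumberField.discr F).natAbs)
/-- Power saving for the smoothed prime sums, uniformly in the field and the character. -/
def PSB : Prop :=
  ∃ C δ : ℝ, 0 < C ∧ 0 < δ ∧ ∀ (F : Type) [Field F] [NumberField F] (ω : F), ω ^ 2 + ω + 1 = 0 →
    ∀ (m : ℕ) (χ : Ideal (𝓞 F) → ℂ), IsHC m χ → ∀ y : ℝ, 1 ≤ y →
      ‖SI χ y‖ ≤ C * Hc F m ^ 5 * y ^ (1 - δ)

end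

end Vale.Agent.P319B
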