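import Vale.Agent.P319B.IdS
import Vale.Agent.P026.MelA
import Vale.Agent.Lib.PrimeSumGRHB

/-! The smoothed explicit formula. -/

namespace Vale.Agent.P319B

open Complex NumberField
open scoped Classical ComplexConjugate
open Vale.Agent.P026 (w kk fk)
open Vale.Agent.Lib.PS (wt)

theorem expl_ld {C0 H n : ℝ} (h0 : 0 < C0) (hn0 : 0 ≤ n) (hn : n ≤ H) (hH : 2 ≤ H) {L : ℂ → ℂ}
    (hd : ∀ s : ℂ, 0 < s.re → DifferentiableAt ℂ L s)
    (hl : ∀ s : ℂ, s.re = 3 + 3 * n → 1 / 2 ≤ ‖L s‖)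
    (hu : ∀ s : ℂ, 1 / 2 ≤ s.re → ‖L s‖ ≤ Real.exp (C0 * H ^ 2 * (1 + |s.im|) ^ 2))
    (hz : ∀ s : ℂ, 383 / 384 < s.re → L s ≠ 0) {s : ℂ} (h1 : 767 / 768 ≤ s.re) (h2 : s.re ≤ 3) :
    ‖deriv L s / L s‖ ≤ 40 * 768 ^ 2 * (25 * C0 + 1) * H ^ 5 * (1 + |s.im|) ^ 2 := by
  set c : ℂ := ⟨3 + 3 * n, s.im⟩ with hc
  have ht := abs_nonneg s.im
  have hb : ∀ z ∈ Metric.ball c (3 + 3 * n - 383 / 384), 383 / 384 < z.re ∧
      1 + |z.im| ≤ 5 * H * (1 + |s.im|) := fun z hz => by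
    rw [mem_ball_iff_norm] at hz
    have h3 := (abs_re_le_norm (z - c)).trans_lt hz
    have h4 := (abs_im_le_norm (z - c)).trans_lt hz
    simp only [sub_re, sub_im, hc] at h3 h4
    have h5 := abs_sub_abs_le_abs_sub z.im s.im
    exact ⟨by linarith [(abs_lt.1 h3).1], by nlinarith⟩
  have hT : 1 ≤ H ^ 4 * (1 + |s.im|) ^ 2 :=
    one_le_mul_of_one_le_of_one_le (one_le_pow₀ (by linarith)) (one_le_pow₀ (by linarith))
  refine (Lib.PS.logDeriv_bound (c := c) (R := 3 + 3 * n - 383 / 384) (r := 3 + 3 * n - 767 / 768)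
    (M := (25 * C0 + 1) * (H ^ 4 * (1 + |s.im|) ^ 2)) (by linarith) (by linarith) (by positivity)
    (fun z h => (hd z (by linarith [(hb z h).1])).differentiableWithinAt)
    (fun z h => hz z (hb z h).1) (fun z h => ?_) ?_).trans ?_
  · refine (hu z (by linarith [(hb z h).1])).trans ?_
    have h3 : C0 * H ^ 2 * (1 + |z.im|) ^ 2 ≤ C0 * H ^ 2 * (5 * H * (1 + |s.im|)) ^ 2 := by
      gcongr
      exact (hb z h).2
    have h4 : Real.exp (C0 * H ^ 2 * (1 + |z.im|) ^ 2 + 1) ≤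
        Real.exp ((25 * C0 + 1) * (H ^ 4 * (1 + |s.im|) ^ 2)) := Real.exp_le_exp.2 (by nlinarith)
    refine le_trans ?_ (mul_le_mul h4 (hl c rfl) (by norm_num) (Real.exp_pos _).le)
    rw [Real.exp_add]
    have := Real.add_one_le_exp (1 : ℝ)
    have := Real.exp_pos (C0 * H ^ 2 * (1 + |z.im|) ^ 2)
    nlinarith
  · have : s - c = ((s.re - (3 + 3 * n) : ℝ) : ℂ) := Complex.ext (by simp [hc]) (by simp [hc])
    rw [this, norm_real, Real.norm_eq_abs, abs_le]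
    constructor <;> linarith
  · have e : (3 + 3 * n - 383 / 384 - (3 + 3 * n - 767 / 768)) = 1 / 768 := by ring
    rw [e]
    calc _ ≤ 8 * (5 * H) / (1 / 768) ^ 2 * ((25 * C0 + 1) * (H ^ 4 * (1 + |s.im|) ^ 2)) := by
          gcongr
          linarith
      _ = _ := by ring

theorem expl_wt (t : ℝ) : (1 + |t|) ^ 2 * Real.exp (-(t ^ 2 / 4)) ≤ 256 * wt t := by
  have h0 := abs_nonneg t
  have h1 : ((1 + |t|) ^ 2)⁻¹ ≤ wt t := by
    rw [← Real.rpow_two, ← Real.rpow_neg (by positivity)]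
    exact Real.rpow_le_rpow_of_exponent_le (by linarith) (by norm_num)
  have h2 : (1 + |t|) ^ 2 ≤ 16 * Real.exp (t ^ 2 / 8) := by
    have := Real.add_one_le_exp (t ^ 2 / 8)
    nlinarith [sq_abs t, sq_nonneg (|t| - 1)]
  have h3 : ((1 + |t|) ^ 2) ^ 2 ≤ 256 * Real.exp (t ^ 2 / 4) := by
    refine (pow_le_pow_left₀ (by positivity) h2 2).trans_eq ?_
    rw [mul_pow, ← Real.exp_nat_mul]
    congr 2 <;> norm_num
    ring
  refine le_trans ?_ (mul_le_mul_of_nonneg_left h1 (by norm_num))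
  rw [Real.exp_neg, ← div_eq_mul_inv, ← div_eq_mul_inv,
    div_le_div_iff₀ (Real.exp_pos _) (by positivity)]
  linarith

theorem expl_norm (s : ℂ) (u : ℝ) : ‖cexp (s ^ 2 / 4 + s * u)‖ =
    Real.exp (s.re ^ 2 / 4) * Real.exp (s.re * u) * Real.exp (-(s.im ^ 2 / 4)) := by
  rw [norm_exp, ← Real.exp_add, ← Real.exp_add]
  congr 1
  simp [sq]
  ring

theorem expl_int {F : Type} [Field F] [NumberField F] {m : ℕ} {χ : Ideal (𝓞 F) → ℂ}
    (h : IsHC m χ) {y : ℝ} (hy : 0 < y) :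
    ∫ t : ℝ, ZI χ ((3 : ℝ) + t * I) * cexp (((3 : ℝ) + t * I) ^ 2 / 4 +
      ((3 : ℝ) + t * I) * Real.log y) = 2 * (√Real.pi : ℝ) * SI χ y := by
  have hs := (tsum_pp_le (F := F) (g := fun n : ℕ => 1 / (n : ℝ) ^ 2) (fun n => by positivity)
    (Real.summable_one_div_nat_pow.2 one_lt_two)).1
  have hp : ∀ x : PP F, (0 : ℝ) < nPP x := fun x => Nat.cast_pos.2 (isPrimePow_nPP x).pos
  haveI : Countable (PP F) := Set.countable_univ_iff.1 (hs.countable_support.mono fun x _ =>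
    (one_div_pos.2 (pow_pos (hp x) 2)).ne')
  set c : PP F → ℂ := fun x => (Real.log (nP x) : ℂ) * χ x.1.asIdeal ^ (x.2 + 1) with hc
  have hc1 : ∀ x, ‖c x‖ ≤ nPP x := fun x => by
    rw [hc, norm_mul, norm_pow, norm_real, Real.norm_of_nonneg (Real.log_natCast_nonneg _)]
    refine (mul_le_of_le_one_right (Real.log_natCast_nonneg _)
      (pow_le_one₀ (norm_nonneg _) (h.norm_le _))).trans ((log_nP_le x).trans ?_)
    exact (Real.log_le_sub_one_of_pos (hp x)).trans (by linarith)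
  set G : PP F → ℝ → ℂ := fun x t => c x * cexp (((3 : ℝ) + t * I) ^ 2 / 4 +
    ((3 : ℝ) + t * I) * (-Real.log (nPP x / y) : ℝ)) with hG
  have hn : ∀ x t, ‖G x t‖ = ‖c x‖ * Real.exp (3 ^ 2 / 4) * (y / nPP x) ^ 3 *
      Real.exp (-(1 / 4) * t ^ 2) := fun x t => by
    rw [hG, norm_mul, expl_norm, ← Real.log_inv, inv_div]
    have e1 : (((3 : ℝ) : ℂ) + t * I).re = (3 : ℕ) := by simp
    have e2 : (((3 : ℝ) : ℂ) + t * I).im = t := by simp
    rw [e1, e2, Real.exp_nat_mul, Real.exp_log (div_pos hy (hp x)),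
      show -(t ^ 2 / 4) = -(1 / 4) * t ^ 2 by ring]
    push_cast
    ring
  have hi := integrable_exp_neg_mul_sq (by norm_num : (0 : ℝ) < 1 / 4)
  have hGi : ∀ x, MeasureTheory.Integrable (G x) := fun x =>
    (hi.const_mul _).mono' (Continuous.aestronglyMeasurable (by fun_prop))
      (Filter.Eventually.of_forall fun t => (hn x t).le)
  have hsum : Summable fun x => ∫ t, ‖G x t‖ := by
    simp only [hn, MeasureTheory.integral_const_mul]
    refine Summable.mul_right _ (Summable.of_nonneg_of_le (fun x => by have := hp x; positivity)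
      (fun x => ?_) (hs.mul_left (Real.exp (3 ^ 2 / 4) * y ^ 3)))
    have := hp x
    calc _ ≤ (nPP x : ℝ) * Real.exp (3 ^ 2 / 4) * (y / nPP x) ^ 3 := by gcongr; exact hc1 x
      _ = _ := by field_simp
  have h1 := (MeasureTheory.hasSum_integral_of_summable_integral_norm hGi hsum).tsum_eq
  rw [SI, ← tsum_mul_left]
  refine Eq.trans ?_ (h1.symm.trans (tsum_congr fun x => ?_))
  · refine MeasureTheory.integral_congr_ae (Filter.Eventually.of_forall fun t => ?_)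
    simp only [ZI, ← tsum_mul_right]
    refine tsum_congr fun x => ?_
    simp only [hG]
    rw [mul_assoc, cpow_def_of_ne_zero (Nat.cast_ne_zero.2 (isPrimePow_nPP x).pos.ne'),
      ← Complex.exp_add, Real.log_div (hp x).ne' hy.ne', ← natCast_log]
    congr 2
    push_cast
    ring
  · have h2 := P026.melA_gauss 3 0 (Real.log (nPP x / y))
    simp only [ofReal_zero, zero_mul, add_zero] at h2
    simp only [hG, MeasureTheory.integral_const_mul, ofReal_neg, mul_neg, ← sub_eq_add_neg, h2, w,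
      hc]
    ring

theorem explicit {C0 : ℝ} (h0 : 0 < C0) : ∃ C δ : ℝ, 0 < C ∧ 0 < δ ∧
    ∀ (F : Type) [Field F] [NumberField F], 2 ≤ dg F → ∀ (m : ℕ) (χ : Ideal (𝓞 F) → ℂ),
      IsHC m χ → ∀ L : ℂ → ℂ, (∀ s : ℂ, 0 < s.re → DifferentiableAt ℂ L s) →
      (∀ s : ℂ, 2 < s.re → L s = LI χ s) →
      (∀ s : ℂ, 1 / 2 ≤ s.re → ‖L s‖ ≤ Real.exp (C0 * Hc F m ^ 2 * (1 + |s.im|) ^ 2)) →
      (∀ s : ℂ, 383 / 384 < s.re → L s ≠ 0) →
      ∀ y : ℝ, 1 ≤ y → ‖SI χ y‖ ≤ C * Hc F m ^ 5 * y ^ (1 - δ) := by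
  set K : ℝ := 40 * 768 ^ 2 * (25 * C0 + 1) * Real.exp (3 ^ 2 / 4) * 256 with hK
  have hK0 : 0 < K := by positivity
  have hw : 0 ≤ ∫ t, wt t := MeasureTheory.integral_nonneg fun t => (Lib.PS.wt_pos t).le
  refine ⟨K * (∫ t, wt t) + 1, 1 / 768, by positivity, by norm_num,
    fun F _ _ h2 m χ h L hd hL hu hz y hy => ?_⟩
  obtain ⟨hn, hH⟩ := two_le_Hc h.m_pos h2
  have hy0 : 0 < y := by linarith
  have hn0 : (0 : ℝ) ≤ dg F := Nat.cast_nonneg _
  set G : ℂ → ℂ := fun s => -(deriv L s / L s) * cexp (s ^ 2 / 4 + s * Real.log y) with hG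
  have hb : ∀ s : ℂ, 767 / 768 ≤ s.re → s.re ≤ 3 →
      ‖G s‖ ≤ K * Hc F m ^ 5 * y ^ s.re * wt s.im := fun s h1 h3 => by
    have h4 := expl_ld h0 hn0 hn hH hd (fun s hs => by
      rw [hL s (by linarith)]
      exact LI_lower h hs.ge) hu hz h1 h3
    have h5 : Real.exp (s.re ^ 2 / 4) ≤ Real.exp (3 ^ 2 / 4) := by gcongr
    rw [hG, norm_mul, norm_neg, expl_norm, mul_comm s.re, ← Real.rpow_def_of_pos hy0]
    calc _ ≤ 40 * 768 ^ 2 * (25 * C0 + 1) * Hc F m ^ 5 * (1 + |s.im|) ^ 2 *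
          (Real.exp (3 ^ 2 / 4) * y ^ s.re * Real.exp (-(s.im ^ 2 / 4))) := by gcongr
      _ = 40 * 768 ^ 2 * (25 * C0 + 1) * Real.exp (3 ^ 2 / 4) * Hc F m ^ 5 * y ^ s.re *
          ((1 + |s.im|) ^ 2 * Real.exp (-(s.im ^ 2 / 4))) := by ring
      _ ≤ 40 * 768 ^ 2 * (25 * C0 + 1) * Real.exp (3 ^ 2 / 4) * Hc F m ^ 5 * y ^ s.re *
          (256 * wt s.im) := mul_le_mul_of_nonneg_left (expl_wt _) (by positivity)
      _ = _ := by rw [hK]; ring
  have ho : IsOpen {s : ℂ | 0 < s.re} := isOpen_lt continuous_const continuous_re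
  have hd' : DifferentiableOn ℂ (deriv L) {s : ℂ | 0 < s.re} :=
    DifferentiableOn.deriv (fun s hs => (hd s hs).differentiableWithinAt) ho
  have h3 := Lib.PS.vertical_shift (F := G) (a := 767 / 768) (b := 3)
    (B := K * Hc F m ^ 5 * y ^ (3 : ℝ)) (by norm_num) (fun s h1 _ => by
      have h3 : 0 < s.re := by linarith
      exact ((hd'.differentiableAt (ho.mem_nhds h3)).div (hd s h3)
        (hz s (by linarith))).neg.mul (by fun_prop)) fun s h1 h3 => (hb s h1 h3).trans (by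
      have := Lib.PS.wt_pos s.im
      gcongr)
  have h4 : ∀ t : ℝ, G ((3 : ℝ) + t * I) = ZI χ ((3 : ℝ) + t * I) *
      cexp (((3 : ℝ) + t * I) ^ 2 / 4 + ((3 : ℝ) + t * I) * Real.log y) := fun t => by
    have h5 : 2 < (((3 : ℝ) : ℂ) + t * I).re := by norm_num
    have h6 : L =ᶠ[nhds _] LI χ :=
      Filter.eventually_of_mem ((isOpen_lt continuous_const continuous_re).mem_nhds h5) hL
    simp only [hG]
    rw [h6.deriv_eq, (hasDerivAt_LI h h5).deriv, ← hL _ h5, neg_div, neg_neg,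
      mul_div_cancel_right₀ _ (hz _ (by linarith))]
  simp only [h4, expl_int h hy0] at h3
  have h5 := MeasureTheory.norm_integral_le_of_norm_le
    (Lib.PS.wt_int.const_mul (K * Hc F m ^ 5 * y ^ (767 / 768 : ℝ)))
    (f := fun t : ℝ => G ((767 / 768 : ℝ) + t * I)) (Filter.Eventually.of_forall fun t => by
      have := hb ((767 / 768 : ℝ) + t * I) (by simp) (by simp; norm_num)
      simpa using this)
  rw [← h3, MeasureTheory.integral_const_mul, norm_mul, norm_mul, norm_real, Complex.norm_two,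
    Real.norm_of_nonneg (Real.sqrt_nonneg _)] at h5
  have h6 : 1 ≤ √Real.pi := Real.one_le_sqrt.2 (by linarith [Real.pi_gt_three])
  have h7 : 0 < Hc F m ^ 5 * y ^ (767 / 768 : ℝ) := by positivity
  rw [show (1 - 1 / 768 : ℝ) = 767 / 768 by norm_num]
  nlinarith [norm_nonneg (SI χ y)]

end Vale.Agent.P319B
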