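import Vale.Agent.P319B.Arch
import Vale.Agent.P026.MelA

/-! The kernel Vk. -/

namespace Vale.Agent.P319B

open Complex NumberField MeasureTheory
open scoped Classical ComplexConjugate
open Vale.Agent.P026 (w kk fk)

variable {F : Type} [Field F] [NumberField F] [Om F]

theorem vk_mel (f : ℝ → ℂ) (s m : ℂ) : HasMellin f s m ↔
    Integrable (fun x : ℝ => cexp (s * x) * f (Real.exp x)) ∧
      ∫ x : ℝ, cexp (s * x) * f (Real.exp x) = m := by
  have h1 := integral_image_eq_integral_abs_deriv_smul (s := Set.univ) MeasurableSet.univ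
    (fun x _ => (Real.hasDerivAt_exp x).hasDerivWithinAt) Real.exp_injective.injOn
    (fun t : ℝ => (t : ℂ) ^ (s - 1) • f t)
  have h2 := integrableOn_image_iff_integrableOn_abs_deriv_smul (s := Set.univ) MeasurableSet.univ
    (fun x _ => (Real.hasDerivAt_exp x).hasDerivWithinAt) Real.exp_injective.injOn
    (fun t : ℝ => (t : ℂ) ^ (s - 1) • f t)
  have h3 : ∀ x : ℝ, |Real.exp x| • ((Real.exp x : ℝ) : ℂ) ^ (s - 1) • f (Real.exp x) =
      cexp (s * x) * f (Real.exp x) := fun x => by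
    rw [abs_of_pos (Real.exp_pos x), real_smul, smul_eq_mul, ← mul_assoc, ofReal_exp,
      cpow_def_of_ne_zero (Complex.exp_ne_zero _), Complex.log_exp (by simp [Real.pi_pos])
      (by simp [Real.pi_pos.le]), ← Complex.exp_add]
    congr 2
    ring
  rw [Set.image_univ, Real.range_exp] at h1 h2
  simp only [h3, Measure.restrict_univ, integrableOn_univ] at h1 h2
  rw [HasMellin, MellinConvergent, mellin, h1, h2]
theorem vk_one {s : ℂ} (hs : 0 < s.re) :
    Integrable (fun x : ℝ => cexp (s * x) * (Real.exp (-(Real.pi * Real.exp x)) : ℝ)) ∧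
      ∫ x : ℝ, cexp (s * x) * (Real.exp (-(Real.pi * Real.exp x)) : ℝ) =
        (Real.pi : ℂ) ^ (-s) * Gamma s := by
  refine (vk_mel (fun t => (Real.exp (-(Real.pi * t)) : ℝ)) s _).1 ?_
  have h := integral_cpow_mul_exp_neg_mul_Ioi hs Real.pi_pos
  rw [one_div, inv_cpow _ _ (by rw [arg_ofReal_of_nonneg Real.pi_pos.le]; exact Real.pi_pos.ne),
    ← cpow_neg] at h
  have h2 : mellin (fun t => ((Real.exp (-(Real.pi * t)) : ℝ) : ℂ)) s =
      (Real.pi : ℂ) ^ (-s) * Gamma s := by simpa [mellin] using h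
  refine ⟨Integrable.of_integral_ne_zero ?_, h2⟩
  rw [mellin] at h2
  rw [h2]
  exact mul_ne_zero (by simp [Real.pi_pos.ne']) (Gamma_ne_zero_of_re_pos hs)
theorem vk_prod {s : ℂ} (hs : 0 < s.re) :
    Integrable (fun x : Io F → ℝ => cexp (s * (∑ v, x v : ℝ)) *
      (Real.exp (-(Real.pi * ∑ v, Real.exp (x v))) : ℝ)) ∧
    ∫ x : Io F → ℝ, cexp (s * (∑ v, x v : ℝ)) * (Real.exp (-(Real.pi * ∑ v, Real.exp (x v))) : ℝ) =
      ((Real.pi : ℂ) ^ (-s) * Gamma s) ^ rr F := by
  have h : ∀ x : Io F → ℝ, cexp (s * (∑ v, x v : ℝ)) *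
      (Real.exp (-(Real.pi * ∑ v, Real.exp (x v))) : ℝ) =
      ∏ v, cexp (s * x v) * (Real.exp (-(Real.pi * Real.exp (x v))) : ℝ) := fun x => by
    rw [Finset.prod_mul_distrib, ← Complex.exp_sum, ← ofReal_prod, ← Real.exp_sum,
      Finset.sum_neg_distrib, ← Finset.mul_sum, ← Finset.mul_sum, ofReal_sum]
  simp only [h]
  exact ⟨Integrable.fintype_prod (f := fun _ x => _) fun _ => (vk_one hs).1,
    (integral_fintype_prod_volume_eq_pow _).trans (congrArg (· ^ rr F) (vk_one hs).2)⟩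
theorem vk_real {σ : ℝ} (hσ : 0 < σ) :
    Integrable (fun x : Io F → ℝ => Real.exp (σ * ∑ v, x v) *
      Real.exp (-(Real.pi * ∑ v, Real.exp (x v)))) ∧
    ∫ x : Io F → ℝ, Real.exp (σ * ∑ v, x v) * Real.exp (-(Real.pi * ∑ v, Real.exp (x v))) =
      (Real.pi ^ (-σ) * Real.Gamma σ) ^ rr F := by
  obtain ⟨h1, h2⟩ := vk_prod (F := F) (s := σ) hσ
  simp only [← ofReal_mul, ← ofReal_exp] at h1 h2
  refine ⟨h1.re, ofReal_injective ?_⟩
  rw [← integral_complex_ofReal, h2, Gamma_ofReal, ofReal_pow, ofReal_mul,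
    ofReal_cpow Real.pi_pos.le, ofReal_neg]
theorem vk_w (a : ℝ) {t : ℝ} (ht : 0 < t) : w (Real.exp a / t) = Real.exp (-(a - Real.log t) ^ 2) := by
  rw [w, Real.log_div (Real.exp_pos a).ne' ht.ne', Real.log_exp]
theorem vk_bd (σ a L : ℝ) :
    Real.exp (-(a - L) ^ 2) ≤ Real.exp (σ ^ 2 / 4) * Real.exp (-(σ * L)) * Real.exp (σ * a) := by
  rw [← Real.exp_add, ← Real.exp_add]
  exact Real.exp_le_exp.2 (by nlinarith [sq_nonneg (a - L + σ / 2)])
theorem vk_int (L : ℝ) : Integrable (fun x : Io F → ℝ =>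
    Real.exp (-(∑ v, x v - L) ^ 2) * Real.exp (-(Real.pi * ∑ v, Real.exp (x v)))) := by
  refine ((vk_real one_pos).1.const_mul (Real.exp (1 ^ 2 / 4) * Real.exp (-(1 * L)))).mono'
    (by fun_prop) (Filter.Eventually.of_forall fun x => ?_)
  rw [Real.norm_of_nonneg (by positivity), ← mul_assoc]
  exact mul_le_mul_of_nonneg_right (vk_bd 1 _ L) (Real.exp_pos _).le
theorem vk_eq {t : ℝ} (ht : 0 < t) : Vk F t = ∫ x : Io F → ℝ,
    Real.exp (-(∑ v, x v - Real.log t) ^ 2) * Real.exp (-(Real.pi * ∑ v, Real.exp (x v))) := by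
  simp only [Vk, vk_w _ ht]

theorem Vk_shift {y : Io F → ℝ} (hy : ∀ v, 0 < y v) {X : ℝ} (hX : 0 < X) :
    Integrable (fun x : Io F → ℝ =>
      w (X * Real.exp (∑ v, x v)) * Real.exp (-(Real.pi * ∑ v, Real.exp (x v) * y v))) ∧
    ∫ x : Io F → ℝ, w (X * Real.exp (∑ v, x v)) *
      Real.exp (-(Real.pi * ∑ v, Real.exp (x v) * y v)) = Vk F ((∏ v, y v) / X) := by
  have hp : 0 < ∏ v, y v := Finset.prod_pos fun v _ => hy v
  have h : ∀ x : Io F → ℝ, w (X * Real.exp (∑ v, x v)) *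
      Real.exp (-(Real.pi * ∑ v, Real.exp (x v) * y v)) = (fun x : Io F → ℝ =>
        Real.exp (-(∑ v, x v - Real.log ((∏ v, y v) / X)) ^ 2) *
          Real.exp (-(Real.pi * ∑ v, Real.exp (x v)))) (x + fun v => Real.log (y v)) := fun x => by
    simp only [Pi.add_apply, Real.exp_add, Real.exp_log (hy _), Finset.sum_add_distrib]
    rw [w, Real.log_div hp.ne' hX.ne', Real.log_prod fun v _ => (hy v).ne',
      Real.log_mul hX.ne' (Real.exp_pos _).ne', Real.log_exp]
    congr 4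
    ring
  simp only [h]
  exact ⟨(vk_int _).comp_add_right _,
    (integral_add_right_eq_self _ _).trans (vk_eq (div_pos hp hX)).symm⟩
theorem Vk_pos {t : ℝ} (ht : 0 < t) : 0 < Vk F t := by
  rw [vk_eq ht]
  exact integral_pos_of_integrable_nonneg_nonzero (x := 0) (by fun_prop) (vk_int _)
    (fun x => by positivity) (by positivity)
theorem Vk_nonneg (t : ℝ) : 0 ≤ Vk F t :=
  integral_nonneg fun _ => mul_nonneg (P026.w_pos _).le (Real.exp_pos _).le
theorem Vk_antitoneOn : AntitoneOn (Vk F) (Set.Ioi 0) := by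
  intro s hs t ht hst
  have hs' : 0 < s := hs
  have ht' : 0 < t := ht
  have h : ∀ a : ℝ, 0 < a → (∏ _v : Io F, a ^ ((rr F : ℝ)⁻¹)) / 1 = a := fun a ha => by
    rw [div_one, Finset.prod_const, Finset.card_univ]
    exact Real.rpow_inv_natCast_pow ha.le rr_pos.ne'
  have h1 := Vk_shift (F := F) (y := fun _ => s ^ ((rr F : ℝ)⁻¹)) (fun _ => by positivity) one_pos
  have h2 := Vk_shift (F := F) (y := fun _ => t ^ ((rr F : ℝ)⁻¹)) (fun _ => by positivity) one_pos
  rw [h s hs'] at h1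
  rw [h t ht'] at h2
  rw [← h1.2, ← h2.2]
  refine integral_mono h2.1 h1.1 fun x => ?_
  have := (P026.w_pos (1 * Real.exp (∑ v, x v))).le
  beta_reduce
  gcongr
theorem continuousOn_Vk : ContinuousOn (Vk F) (Set.Ioi 0) := by
  have h : Continuous fun L : ℝ => ∫ x : Io F → ℝ,
      Real.exp (-(∑ v, x v - L) ^ 2) * Real.exp (-(Real.pi * ∑ v, Real.exp (x v))) := by
    refine continuous_iff_continuousAt.2 fun L => continuousAt_of_dominated
      (Filter.Eventually.of_forall fun L => (vk_int L).1) ?_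
      ((vk_real one_pos).1.const_mul (Real.exp (1 ^ 2 / 4) * Real.exp (-(1 * (L - 1)))))
      (Filter.Eventually.of_forall fun x => by fun_prop)
    filter_upwards [Ioi_mem_nhds (sub_one_lt L)] with L' hL
    refine Filter.Eventually.of_forall fun x => ?_
    rw [Real.norm_of_nonneg (by positivity), ← mul_assoc]
    refine mul_le_mul_of_nonneg_right ((vk_bd 1 _ L').trans ?_) (Real.exp_pos _).le
    have : L - 1 ≤ L' := le_of_lt hL
    gcongr
  exact (h.comp_continuousOn (Real.continuousOn_log.mono fun t ht => ne_of_gt ht)).congr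
    fun t ht => vk_eq ht
theorem measurable_Vk : Measurable (Vk F) := by
  have h : Measurable fun p : ℝ × (Io F → ℝ) => w (Real.exp (∑ v, p.2 v) / p.1) *
      Real.exp (-(Real.pi * ∑ v, Real.exp (p.2 v))) := by
    unfold w
    fun_prop
  exact h.stronglyMeasurable.integral_prod_right'.measurable
theorem Vk_le {σ : ℝ} (hσ : 0 < σ) {t : ℝ} (ht : 0 < t) :
    Vk F t ≤ Real.exp (σ ^ 2 / 4) * (Real.pi ^ (-σ) * Real.Gamma σ) ^ rr F * t ^ (-σ) := by
  rw [vk_eq ht, mul_right_comm, ← (vk_real hσ).2, ← integral_const_mul, Real.rpow_def_of_pos ht,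
    mul_neg, mul_comm (Real.log t)]
  refine integral_mono (vk_int _) ((vk_real hσ).1.const_mul _) fun x => ?_
  beta_reduce
  rw [← mul_assoc]
  exact mul_le_mul_of_nonneg_right (vk_bd σ _ _) (Real.exp_pos _).le
theorem Vk_le_min : ∃ C : ℝ, 0 < C ∧ ∀ t : ℝ, 0 < t →
    Vk F t ≤ C * min (t ^ (-(1 / 2) : ℝ)) (t ^ (-(3 / 2) : ℝ)) := by
  have h : ∀ σ : ℝ, 0 < σ → 0 < Real.exp (σ ^ 2 / 4) * (Real.pi ^ (-σ) * Real.Gamma σ) ^ rr F :=
    fun σ hσ => by
      have := Real.Gamma_pos_of_pos hσ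
      positivity
  have h1 := h (1 / 2) (by norm_num)
  have h2 := h (3 / 2) (by norm_num)
  refine ⟨_, add_pos h1 h2, fun t ht => ?_⟩
  rw [mul_min_of_nonneg _ _ (add_pos h1 h2).le]
  refine le_min ((Vk_le (σ := 1 / 2) (by norm_num) ht).trans ?_)
    ((Vk_le (σ := 3 / 2) (by norm_num) ht).trans ?_) <;> gcongr <;> linarith
theorem mellin_Vk {s : ℂ} (hs : 0 < s.re) : HasMellin (fun t : ℝ => (Vk F t : ℂ)) s
    (((Real.pi : ℂ) ^ (-s) * Gamma s) ^ rr F * ((√Real.pi : ℝ) * cexp (s ^ 2 / 4))) := by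
  have a1 := integrable_cexp_quadratic' (b := -1) (by simp) s 0
  have a2 := integral_cexp_quadratic (b := -1) (by simp) s 0
  have a3 : ((Real.pi : ℂ) / - -1) ^ (1 / 2 : ℂ) * cexp (0 - s ^ 2 / (4 * -1)) =
      (√Real.pi : ℝ) * cexp (s ^ 2 / 4) := by
    rw [Real.sqrt_eq_rpow, ofReal_cpow Real.pi_pos.le]
    congr 2
    · simp
    · simp
    · ring
  obtain ⟨b1, b2⟩ := vk_prod (F := F) hs
  have hT : MeasurePreserving (fun p : (Io F → ℝ) × ℝ => (id p.1, p.2 - ∑ v, p.1 v))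
      (volume.prod volume) (volume.prod volume) :=
    (MeasurePreserving.id volume).skew_product (g := fun (x : Io F → ℝ) (L : ℝ) => L - ∑ v, x v)
      (by fun_prop)
      (Filter.Eventually.of_forall fun x => map_sub_right_eq_self _ _)
  have c1 := hT.integrable_comp_of_integrable (b1.mul_prod a1)
  have c2 : ∀ L : ℝ, cexp (s * L) * (Vk F (Real.exp L) : ℂ) = ∫ x : Io F → ℝ,
      cexp (s * (∑ v, x v : ℝ)) * (Real.exp (-(Real.pi * ∑ v, Real.exp (x v))) : ℝ) *
        cexp (-1 * ((L - ∑ v, x v : ℝ) : ℂ) ^ 2 + s * ((L - ∑ v, x v : ℝ) : ℂ) + 0) := fun L => by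
    rw [vk_eq (Real.exp_pos L), Real.log_exp, ← integral_complex_ofReal, ← integral_const_mul]
    refine integral_congr_ae (Filter.Eventually.of_forall fun x => ?_)
    beta_reduce
    rw [mul_right_comm, ofReal_mul, ← mul_assoc, ofReal_exp, ← Complex.exp_add, ← Complex.exp_add]
    congr 2
    push_cast
    ring
  rw [vk_mel]
  simp only [c2]
  refine ⟨c1.integral_prod_right, ?_⟩
  refine ((integral_prod_symm _ c1).symm.trans (integral_prod _ c1)).trans ?_
  rw [← b2, ← integral_mul_const]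
  refine integral_congr_ae (Filter.Eventually.of_forall fun x => ?_)
  simp only [Function.comp, id]
  rw [integral_const_mul, ← a3, ← a2,
    integral_sub_right_eq_self (fun L : ℝ => cexp (-1 * (L : ℂ) ^ 2 + s * L + 0))]
theorem Vk_inv {σ : ℝ} (hσ : 0 < σ) {t : ℝ} (ht : 0 < t) :
    (Vk F t : ℂ) = (1 / (2 * Real.pi) : ℂ) * ∫ u : ℝ,
      ((Real.pi : ℂ) ^ (-(σ + u * I)) * Gamma (σ + u * I)) ^ rr F *
        ((√Real.pi : ℝ) * cexp ((σ + u * I) ^ 2 / 4)) * (t : ℂ) ^ (-(σ + u * I)) := by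
  have hs : ∀ u : ℝ, 0 < (σ + u * I : ℂ).re := fun u => by simpa using hσ
  have h1 := fun u : ℝ => (mellin_Vk (F := F) (hs u)).2
  have h2 : VerticalIntegrable (mellin fun t : ℝ => (Vk F t : ℂ)) σ := by
    simp only [VerticalIntegrable, h1]
    refine ((integrable_exp_neg_mul_sq (b := 1 / 4) (by norm_num)).const_mul
      ((Real.pi ^ (-σ) * Real.Gamma σ) ^ rr F * (√Real.pi * Real.exp (σ ^ 2 / 4)))).mono' ?_
      (Filter.Eventually.of_forall fun u => ?_)
    · have : Continuous fun u : ℝ => Gamma (σ + u * I) := continuous_iff_continuousAt.2 fun u =>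
        ContinuousAt.comp (f := fun u : ℝ => (σ + u * I : ℂ)) (continuousAt_Gamma _ fun m hm => by
          have := hs u
          rw [hm] at this
          simp at this
          linarith [(Nat.cast_nonneg m : (0 : ℝ) ≤ m)]) (by fun_prop)
      have h3 : Continuous fun u : ℝ => (Real.pi : ℂ) ^ (-(σ + u * I : ℂ)) :=
        Continuous.const_cpow (by fun_prop) (Or.inl (by simp [Real.pi_pos.ne']))
      fun_prop
    · have h3 := P026.melA_norm_Gamma_le (hs u)
      have h4 : (σ + u * I : ℂ).re = σ := by simp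
      have h5 : ((σ + u * I : ℂ) ^ 2 / 4).re = σ ^ 2 / 4 + -(1 / 4) * u ^ 2 := by
        simp [sq]
        ring
      rw [h4] at h3
      rw [norm_mul, norm_mul, norm_pow, norm_mul, norm_cpow_eq_rpow_re_of_pos Real.pi_pos, neg_re,
        h4, Complex.norm_exp, h5, Real.exp_add, norm_real, Real.norm_of_nonneg (Real.sqrt_nonneg _),
        ← mul_assoc (√Real.pi), ← mul_assoc]
      gcongr
  have h := mellinInv_mellin_eq σ (fun t : ℝ => (Vk F t : ℂ)) ht (mellin_Vk (s := σ) hσ).1 h2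
    (continuous_ofReal.continuousAt.comp (continuousOn_Vk.continuousAt (Ioi_mem_nhds ht)))
  rw [← h, mellinInv]
  simp only [h1, real_smul, smul_eq_mul]
  push_cast
  exact congrArg _ (integral_congr_ae (Filter.Eventually.of_forall fun u => mul_comm _ _))

end Vale.Agent.P319B
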