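import Vale.Agent.P319B.KpV
import Vale.Agent.P319B.Vk

/-! Unfolding the series attached to a coefficient sequence. -/

namespace Vale.Agent.P319B

open Complex NumberField MeasureTheory
open scoped Classical ComplexConjugate
open Vale.Agent.P026 (w kk fk)

theorem fe_int : Integrable fun s : ℝ => Real.exp (-(|s| / 2)) := by
  rw [← integrableOn_univ, ← Set.Iic_union_Ioi (a := (0 : ℝ))]
  refine IntegrableOn.union
    ((integrableOn_exp_mul_Iic (a := 1 / 2) (by norm_num) 0).congr_fun (fun s hs => ?_)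
      measurableSet_Iic)
    ((integrableOn_exp_mul_Ioi (a := -(1 / 2)) (by norm_num) 0).congr_fun (fun s hs => ?_)
      measurableSet_Ioi)
  · rw [abs_of_nonpos hs]
    ring_nf
  · rw [abs_of_pos hs]
    ring_nf

theorem fe_entire {X : Type} [MeasurableSpace X] {μ : Measure X} {f : X → ℂ} {s : X → ℝ}
    (hf : Measurable f) (hs : Measurable s)
    (hK : ∀ K : ℝ, Integrable (fun x => ‖f x‖ * Real.exp (K * |s x|)) μ) :
    Differentiable ℂ (fun u : ℂ => ∫ x, f x * cexp (u * s x) ∂μ) ∧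
      ∀ s1 s2 : ℝ, ∃ C : ℝ, ∀ u : ℂ, s1 ≤ u.re → u.re ≤ s2 → ‖∫ x, f x * cexp (u * s x) ∂μ‖ ≤ C := by
  have hm : ∀ u : ℂ, Measurable fun x => f x * cexp (u * s x) := fun u => by fun_prop
  have hb : ∀ (u : ℂ) (K : ℝ), |u.re| ≤ K → ∀ x,
      ‖f x * cexp (u * s x)‖ ≤ ‖f x‖ * Real.exp (K * |s x|) := fun u K h x => by
    rw [norm_mul, Complex.norm_exp, re_mul_ofReal]
    refine mul_le_mul_of_nonneg_left (Real.exp_le_exp.2 ((le_abs_self _).trans ?_)) (norm_nonneg _)
    rw [abs_mul]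
    exact mul_le_mul_of_nonneg_right h (abs_nonneg _)
  refine ⟨fun u0 => (hasDerivAt_integral_of_dominated_loc_of_deriv_le
    (F' := fun u x => f x * cexp (u * s x) * s x) (Metric.ball_mem_nhds u0 one_pos)
    (Filter.Eventually.of_forall fun u => (hm u).aestronglyMeasurable)
    ((hK _).mono' (hm u0).aestronglyMeasurable (ae_of_all _ (hb u0 _ le_rfl)))
    ((hm u0).mul (measurable_ofReal.comp hs)).aestronglyMeasurable
    (ae_of_all _ fun x u hu => ?_) (hK (‖u0‖ + 1 + 1))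
    (ae_of_all _ fun x u _ => ?_)).2.differentiableAt, fun s1 s2 =>
    ⟨∫ x, ‖f x‖ * Real.exp ((|s1| + |s2|) * |s x|) ∂μ, fun u h1 h2 =>
      norm_integral_le_of_norm_le (hK _) (ae_of_all _ (hb u _ ?_))⟩⟩
  · have h1 : |u.re| ≤ ‖u0‖ + 1 := by
      have := norm_sub_norm_le u u0
      rw [mem_ball_iff_norm] at hu
      linarith [abs_re_le_norm u]
    rw [norm_mul, add_mul _ 1, Real.exp_add, ← mul_assoc, one_mul, norm_real, Real.norm_eq_abs]
    exact mul_le_mul (hb u _ h1 x) (by linarith [Real.add_one_le_exp |s x|]) (abs_nonneg _)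
      (by positivity)
  · have := (((hasDerivAt_id u).mul_const (s x : ℂ)).cexp).const_mul (f x)
    simpa only [id, one_mul, mul_assoc] using this
  · rw [abs_le]
    constructor <;> linarith [neg_abs_le s1, le_abs_self s2, abs_nonneg s1, abs_nonneg s2]

theorem fe_swap {ι X : Type} [Countable ι] [MeasurableSpace X] {μ : Measure X} {H : ι → X → ℂ}
    (hm : ∀ i, Measurable (H i)) {b : X → ℝ} (hb : Integrable b μ)
    (hs : ∀ x, Summable fun i => H i x) (hle : ∀ x, ∑' i, ‖H i x‖ ≤ b x) :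
    HasSum (fun i => ∫ x, H i x ∂μ) (∫ x, ∑' i, H i x ∂μ) :=
  hasSum_integral_of_dominated_convergence (fun i x => ‖H i x‖)
    (fun i => (hm i).aestronglyMeasurable) (fun _ => ae_of_all _ fun _ => le_rfl)
    (ae_of_all _ fun x => (hs x).norm)
    (hb.mono' (Measurable.tsum fun i => (hm i).norm).aestronglyMeasurable
      (ae_of_all _ fun x => by
        rw [Real.norm_of_nonneg (tsum_nonneg fun _ => norm_nonneg _)]
        exact hle x))
    (ae_of_all _ fun x => (hs x).hasSum)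

theorem fe_one {u : ℂ} (hu : 0 < u.re) :
    Integrable (fun x : ℝ => cexp (u * x) * (kp (Real.exp (x / 2)) : ℝ)) ∧
      ∫ x : ℝ, cexp (u * x) * (kp (Real.exp (x / 2)) : ℝ) = 2 * GG u := by
  obtain ⟨h1, h2⟩ := (vk_mel _ _ _).1 (mellin_kp hu)
  have e : ∀ x : ℝ, cexp (u * x) * (kp (Real.exp (x / 2)) : ℝ) =
      (fun y : ℝ => cexp (2 * u * y) * (kp (Real.exp y) : ℝ)) (x / 2) := fun x => by
    beta_reduce
    congr 2
    push_cast
    ring
  simp only [e]
  refine ⟨h1.comp_div two_ne_zero, ?_⟩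
  rw [Measure.integral_comp_div (fun y : ℝ => cexp (2 * u * y) * (kp (Real.exp y) : ℝ)), h2]
  simp

section Om

variable {F : Type} [Field F] [NumberField F] [Om F]

/-- The basic kernel in logarithmic coordinates. -/
noncomputable def feG (u : ℂ) (x : Io F → ℝ) : ℂ :=
  cexp (u * (∑ v, x v : ℝ)) * ((∏ v, kp (Real.exp (x v / 2)) : ℝ) : ℂ)

theorem feG_meas (u : ℂ) : Measurable (feG (F := F) u) := by
  have := continuous_kp
  refine Continuous.measurable ?_
  unfold feG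
  fun_prop

theorem feG_int {u : ℂ} (hu : 0 < u.re) :
    Integrable (feG (F := F) u) ∧ ∫ x, feG (F := F) u x = (2 * GG u) ^ rr F := by
  have h : feG (F := F) u = fun x => ∏ v, cexp (u * x v) * (kp (Real.exp (x v / 2)) : ℝ) := by
    funext x
    rw [feG, Finset.prod_mul_distrib, ← Complex.exp_sum, ← ofReal_prod, ← Finset.mul_sum,
      ofReal_sum]
  rw [h]
  exact ⟨Integrable.fintype_prod (f := fun _ x => _) fun _ => (fe_one hu).1,
    (integral_fintype_prod_volume_eq_pow _).trans (congrArg (· ^ rr F) (fe_one hu).2)⟩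

theorem fe_up {E : Subgroup Fˣ} {β : (Io F → ℝ) → ℝ} (hβ : IsUP E β)
    {g : (Io F → ℝ) → ℂ} (hm : Measurable g) (hg : Integrable g) :
    ∑' u : E, ∫ x, (β x : ℂ) * g (x + lg ((u : Fˣ) : F)) = ∫ x, g x := by
  have := un_countable E
  have h0 := lintegral_up hβ hm.enorm
  have m1 : ∀ u : E, Measurable fun x => (β x : ℂ) * g (x + lg ((u : Fˣ) : F)) := fun u =>
    (measurable_ofReal.comp hβ.meas).mul (hm.comp (measurable_add_const _))
  have e1 : ∀ x z, ‖(β x : ℂ) * z‖ₑ = ENNReal.ofReal (β x) * ‖z‖ₑ := fun x z => by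
    rw [enorm_mul, ← ofReal_norm (β x : ℂ), norm_real, Real.norm_of_nonneg (hβ.nonneg x)]
  have h1 : ∑' u : E, ∫⁻ x, ‖(β x : ℂ) * g (x + lg ((u : Fˣ) : F))‖ₑ ≠ ⊤ := by
    rw [← lintegral_tsum fun u => (m1 u).enorm.aemeasurable]
    simp only [e1, ENNReal.tsum_mul_left]
    exact h0 ▸ hg.2.ne
  rw [← integral_tsum (fun u => (m1 u).aestronglyMeasurable) h1, ← (integral_up hβ hm hg).2]
  simp only [tsum_mul_left]

theorem fe_flip {E : Subgroup Fˣ} {β : (Io F → ℝ) → ℝ} (hβ : IsUP E β) (c : Io F → ℝ) :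
    IsUP E fun y => β (c - y) where
  meas := hβ.meas.comp (measurable_const.sub measurable_id)
  nonneg y := hβ.nonneg _
  le_one y := hβ.le_one _
  supp := by
    obtain ⟨T, hT⟩ := hβ.supp
    refine ⟨T + 2 * ‖c‖, fun y hy v v' => ?_⟩
    have h1 := abs_le.1 (hT _ hy v v')
    have h2 := abs_le.1 (norm_le_pi_norm c v)
    have h3 := abs_le.1 (norm_le_pi_norm c v')
    simp only [Pi.sub_apply] at h1
    rw [abs_le]
    constructor <;> linarith [h1.1, h1.2, h2.1, h2.2, h3.1, h3.2]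
  diag y t := by
    rw [← hβ.diag (c - y) (-t)]
    congr 1
    funext v
    simp only [Pi.sub_apply]
    ring
  fin y := by
    refine ((hβ.fin (c - y)).preimage (f := fun u : E => u⁻¹) inv_injective.injOn).subset
      fun u hu => ?_
    simp only [Set.mem_preimage, Function.mem_support, un_lg_inv] at hu ⊢
    rwa [← sub_eq_add_neg, sub_sub]
  sum y := by
    rw [← (un_inv hβ (c - y)).tsum_eq]
    refine tsum_congr fun u => ?_
    rw [un_lg_inv, ← sub_eq_add_neg, sub_sub]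

theorem fe_norm_exp {r : F} (hr : r ≠ 0) (x : Io F → ℝ) (v : Io F) :
    ‖v.1 r‖ * Real.exp (x v / 2) = Real.exp ((x + lg r) v / 2) := by
  rw [Pi.add_apply, add_div, Real.exp_add, mul_comm, Real.exp_half (lg r v), exp_lg hr, sqv_eq,
    Real.sqrt_sq (norm_nonneg _)]

theorem fe_term {r : F} (hr : r ≠ 0) (u : ℂ) (x : Io F → ℝ) :
    ((∏ v, kp (‖v.1 r‖ * Real.exp (x v / 2)) : ℝ) : ℂ) * cexp (u * (∑ v, x v : ℝ)) =
      ((Nin r : ℝ) : ℂ) ^ (-u) * feG u (x + lg r) := by
  simp only [fe_norm_exp hr]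
  rw [feG, cpow_def_of_ne_zero (ofReal_ne_zero.2 (Nin_pos hr).ne'), ← ofReal_log (Nin_nonneg r),
    ← sum_lg hr, ← mul_assoc, ← Complex.exp_add, mul_comm]
  congr 2
  simp only [Pi.add_apply, Finset.sum_add_distrib]
  push_cast
  ring

end Om

variable {F : Type} [Field F] [NumberField F] [Ctx0 F]

/-- The series in logarithmic coordinates. -/
noncomputable def feS (a : R F → ℂ) (x : Io F → ℝ) : ℂ :=
  ∑' r : R F, a r * ((∏ v, kp (‖v.1 (r : F)‖ * Real.exp (x v / 2)) : ℝ) : ℂ)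

theorem fe_prod (x : Io F → ℝ) : ∏ v, Real.exp (x v / 2) = Real.exp ((∑ v, x v) / 2) := by
  rw [← Real.exp_sum, Finset.sum_div]

theorem feS_eq (a : R F → ℂ) (x : Io F → ℝ) :
    PhiV a (fun v => Real.exp (x v / 2)) = (Real.exp ((∑ v, x v) / 2) : ℝ) * feS a x := by
  rw [PhiV, fe_prod, feS]

theorem feS_meas (a : R F → ℂ) : Measurable (feS a) := by
  have := continuous_kp
  refine Measurable.tsum fun r => Continuous.measurable ?_
  fun_prop

theorem fe_bd {a : R F → ℂ} (ha : Gr a) (n : ℕ) (hn : 3 ≤ n) : ∃ C : ℝ, 0 < C ∧ ∀ x : Io F → ℝ,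
    ∑' r : R F, ‖a r * ((∏ v, kp (‖v.1 (r : F)‖ * Real.exp (x v / 2)) : ℝ) : ℂ)‖ ≤
      C * Real.exp (-(n / 2 * ∑ v, x v)) := by
  obtain ⟨C, hC, h⟩ := tsum_kpV_le ha n hn
  refine ⟨C, hC, fun x => le_trans (le_of_eq (tsum_congr fun r => ?_))
    ((h _ fun v => Real.exp_pos (x v / 2)).trans (le_of_eq ?_))⟩
  · rw [norm_mul, norm_real, Real.norm_of_nonneg (Finset.prod_nonneg fun v _ =>
      kp_nonneg (by positivity))]
  · rw [fe_prod, ← Real.exp_nat_mul, Real.exp_neg, div_eq_mul_inv]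
    congr 3
    ring

theorem feS_bd {a : R F → ℂ} (ha : Gr a) (n : ℕ) (hn : 3 ≤ n) : ∃ C : ℝ, 0 < C ∧ ∀ x : Io F → ℝ,
    ‖feS a x‖ ≤ C * Real.exp (-(n / 2 * ∑ v, x v)) := by
  obtain ⟨C, hC, h⟩ := fe_bd ha n hn
  exact ⟨C, hC, fun x => (norm_tsum_le_tsum_norm
    (summable_PhiV ha fun v => Real.exp_pos (x v / 2)).norm).trans (h x)⟩

/-- Unfolding. -/
theorem fe_unfold {a : R F → ℂ} (ha : Gr a) (ia : EInv a) {J : Type} {S : Set F} {ν : J → R F}
    (hν : IsTr (Eu F 3) S (fun j => (ν j : F))) (h0 : (0 : F) ∉ S)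
    (hS : ∀ r, a r ≠ 0 → (r : F) ∈ S) {β : (Io F → ℝ) → ℝ} (hβ : IsUP (Eu F 3) β) {u : ℂ}
    (hu : 2 ≤ u.re) : ∫ x, (β x : ℂ) * feS a x * cexp (u * (∑ v, x v : ℝ)) =
      (2 * GG u) ^ rr F * DS (fun j => a (ν j)) (fun j => Nin (ν j : F)) u := by
  obtain ⟨n, hn⟩ := exists_nat_ge (2 * u.re + 1)
  obtain ⟨C1, hC1, h1⟩ := fe_bd ha 3 le_rfl
  obtain ⟨C2, hC2, h2⟩ := fe_bd ha n (by exact_mod_cast (show (3 : ℝ) ≤ n by linarith))
  obtain ⟨k0, -, hk⟩ := integral_up_diag hβ
  have hkp := continuous_kp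
  have hm := hβ.meas
  have key := fe_swap (μ := volume) (H := fun (r : R F) (x : Io F → ℝ) => (β x : ℂ) *
      (a r * ((∏ v, kp (‖v.1 (r : F)‖ * Real.exp (x v / 2)) : ℝ) : ℂ)) * cexp (u * (∑ v, x v : ℝ)))
    (fun r => by
      refine ((measurable_ofReal.comp hm).mul (Continuous.measurable ?_)).mul (by fun_prop)
      fun_prop)
    (hk (fun s => (C1 + C2) * Real.exp (-(|s| / 2))) (by fun_prop) (fe_int.const_mul _)).1
    (fun x => ((summable_PhiV ha fun v => Real.exp_pos (x v / 2)).mul_left _).mul_right _)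
    fun x => by
      simp only [norm_mul (_ * _), norm_mul (β x : ℂ), tsum_mul_right, tsum_mul_left]
      rw [norm_real, Real.norm_of_nonneg (hβ.nonneg x), mul_assoc, Complex.norm_exp, re_mul_ofReal]
      refine mul_le_mul_of_nonneg_left ?_ (hβ.nonneg x)
      rcases le_total (∑ v, x v) 0 with h | h
      · refine (mul_le_mul_of_nonneg_right (h1 x) (Real.exp_pos _).le).trans ?_
        rw [mul_assoc, ← Real.exp_add, abs_of_nonpos h]
        refine mul_le_mul (by linarith) (Real.exp_le_exp.2 ?_) (Real.exp_pos _).le (by positivity)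
        push_cast
        nlinarith
      · refine (mul_le_mul_of_nonneg_right (h2 x) (Real.exp_pos _).le).trans ?_
        rw [mul_assoc, ← Real.exp_add, abs_of_nonneg h]
        refine mul_le_mul (by linarith) (Real.exp_le_exp.2 ?_) (Real.exp_pos _).le (by positivity)
        nlinarith
  simp only [tsum_mul_right, tsum_mul_left] at key
  have hx : ∀ ε : Eu F 3, ∃ x : R F, IsUnit x ∧ InU 3 (x : F) ∧ (x : F) = ((ε : Fˣ) : F) :=
    fun ε => (mem_Eu (by norm_num)).1 ε.2
  choose g g1 g2 g3 using hx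
  have hne : ∀ j, (ν j : F) ≠ 0 := fun j h => h0 (by simpa [h] using hν.1 j 1)
  have hinj : Function.Injective fun p : J × Eu F 3 => g p.2 * ν p.1 := fun p p' h => by
    have h' := congrArg Subtype.val h
    simp only [Subring.coe_mul, g3] at h'
    exact (hν.2 _ (hν.1 p.1 p.2)).unique rfl h'
  have k2 := (hinj.hasSum_iff fun r hr => by
    have : a r = 0 := by
      by_contra h
      obtain ⟨p, hp, -⟩ := hν.2 _ (hS r h)
      exact hr ⟨p, Subtype.ext (by rw [hp, Subring.coe_mul, g3])⟩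
    simp [this]).2 key
  obtain ⟨i1, i2⟩ := feG_int (F := F) (u := u) (by linarith)
  unfold feS
  rw [← k2.tsum_eq, k2.summable.tsum_prod, DS, ← tsum_mul_left]
  refine tsum_congr fun j => ?_
  rw [← i2, ← integral_add_right_eq_self _ (lg (ν j : F)), ← fe_up hβ
    (g := fun x => feG u (x + lg (ν j : F))) ((feG_meas u).comp (measurable_add_const _))
    (i1.comp_add_right _), ← tsum_mul_right]
  refine tsum_congr fun ε => ?_
  rw [← integral_mul_const]
  refine integral_congr_ae (ae_of_all _ fun x => ?_)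
  have h3 := (g2 ε).ne_zero (by norm_num)
  beta_reduce
  rw [ia _ _ (g1 ε) (g2 ε), mul_assoc, mul_assoc, fe_term (by
    rw [Subring.coe_mul]; exact mul_ne_zero h3 (hne j)), Subring.coe_mul, Nin_mul,
    Nin_of_inU (g1 ε) (by norm_num) (g2 ε), one_mul, lg_mul h3 (hne j), g3, add_assoc x]
  ring

end Vale.Agent.P319B
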