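import Vale.Agent.P319B.KpV
import Vale.Agent.P319B.Jac
import Vale.Agent.P319B.FEqA

/-! From the Voronoi identity to the functional equation. -/

namespace Vale.Agent.P319B

open Complex NumberField MeasureTheory
open scoped Classical ComplexConjugate
open Vale.Agent.P026 (w kk fk)

variable {F : Type} [Field F] [NumberField F] [Ctx F]

theorem fe_sum {q : F} (hq : q ≠ 0) (x : Io F → ℝ) :
    ∑ v, ((fun v => -(2 * lg q v)) - x) v = -(2 * Real.log (Nin q)) - ∑ v, x v := by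
  simp only [Pi.sub_apply, Finset.sum_sub_distrib, Finset.sum_neg_distrib, ← Finset.mul_sum,
    sum_lg hq]

theorem fe_vor {a b : R F → ℂ} {q : F} (hq : q ≠ 0) {e : ℂ} (h : VorV a b q e) (x : Io F → ℝ) :
    feS a x = e * (Real.exp (-Real.log (Nin q) - ∑ v, x v) : ℝ) *
      feS b ((fun v => -(2 * lg q v)) - x) := by
  have h1 := h _ fun v => Real.exp_pos (x v / 2)
  have h2 : (fun v => 1 / (sqv q v * Real.exp (x v / 2))) =
      fun v => Real.exp (((fun v => -(2 * lg q v)) - x) v / 2) := by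
    funext v
    rw [← exp_lg hq, ← Real.exp_add, one_div, ← Real.exp_neg, Pi.sub_apply]
    congr 1
    ring
  rw [h2, feS_eq, feS_eq, fe_sum hq] at h1
  have h3 : Real.exp ((-(2 * Real.log (Nin q)) - ∑ v, x v) / 2) =
      Real.exp ((∑ v, x v) / 2) * Real.exp (-Real.log (Nin q) - ∑ v, x v) := by
    rw [← Real.exp_add]
    congr 1
    ring
  refine mul_left_cancel₀ (ofReal_ne_zero.2 (Real.exp_pos ((∑ v, x v) / 2)).ne') ?_
  rw [h1, h3, ofReal_mul]
  ring

theorem fe_decay {a b : R F → ℂ} (ha : Gr a) (hb : Gr b) {q : F} (hq : q ≠ 0) {e : ℂ}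
    (h : VorV a b q e) (K : ℝ) : ∃ C : ℝ, ∀ x : Io F → ℝ,
      ‖feS a x‖ * Real.exp (K * |∑ v, x v|) ≤ C * Real.exp (-(|∑ v, x v| / 2)) := by
  obtain ⟨n, hn⟩ := exists_nat_ge (2 * |K| + 3)
  have h3 : 3 ≤ n := by exact_mod_cast (show (3 : ℝ) ≤ n by linarith [abs_nonneg K])
  obtain ⟨C1, hC1, h1⟩ := feS_bd ha n h3
  obtain ⟨C2, hC2, h2⟩ := feS_bd hb n h3
  have hK := le_abs_self K
  refine ⟨C1 + ‖e‖ * C2 * Real.exp ((n - 1) * Real.log (Nin q)), fun x => ?_⟩
  rcases le_total (∑ v, x v) 0 with h0 | h0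
  · have h4 := h2 ((fun v => -(2 * lg q v)) - x)
    rw [fe_sum hq] at h4
    rw [fe_vor hq h, norm_mul, norm_mul, norm_real, Real.norm_of_nonneg (Real.exp_pos _).le,
      abs_of_nonpos h0]
    generalize ∑ v, x v = s at h0 h4 ⊢
    generalize Real.log (Nin q) = L at h4 ⊢
    calc _ ≤ ‖e‖ * Real.exp (-L - s) * (C2 * Real.exp (-(n / 2 * (-(2 * L) - s)))) *
          Real.exp (K * -s) := by gcongr
      _ = ‖e‖ * C2 * Real.exp (-L - s + -(n / 2 * (-(2 * L) - s)) + K * -s) := by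
          rw [Real.exp_add, Real.exp_add]
          ring
      _ ≤ ‖e‖ * C2 * Real.exp ((n - 1) * L + -(-s / 2)) := by
          refine mul_le_mul_of_nonneg_left (Real.exp_le_exp.2 ?_) (by positivity)
          nlinarith
      _ ≤ _ := by
          rw [Real.exp_add, ← mul_assoc]
          exact mul_le_mul_of_nonneg_right (le_add_of_nonneg_left hC1.le) (Real.exp_pos _).le
  · refine (mul_le_mul_of_nonneg_right (h1 x) (Real.exp_pos _).le).trans ?_
    rw [mul_assoc, ← Real.exp_add, abs_of_nonneg h0]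
    refine mul_le_mul (le_add_of_nonneg_right (by positivity)) (Real.exp_le_exp.2 ?_)
      (Real.exp_pos _).le (by positivity)
    nlinarith

theorem fe_cpow {x : ℝ} (hx : 0 < x) (z : ℂ) : (x : ℂ) ^ z = cexp (Real.log x * z) := by
  rw [cpow_def_of_ne_zero (ofReal_ne_zero.2 hx.ne'), ofReal_log hx.le]

theorem FE_of_VorV {a b : R F → ℂ} (ha : Gr a) (hb : Gr b) (ia : EInv a) (ib : EInv b) {q : F}
    (hq : q ≠ 0) {e : ℂ} (h : VorV a b q e) {J J' : Type} {S S' : Set F} {ν : J → R F}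
    {ν' : J' → R F} (hν : IsTr (Eu F 3) S (fun j => (ν j : F)))
    (hν' : IsTr (Eu F 3) S' (fun j => (ν' j : F))) (h0 : (0 : F) ∉ S) (h0' : (0 : F) ∉ S')
    (hS : ∀ r, a r ≠ 0 → (r : F) ∈ S) (hS' : ∀ r, b r ≠ 0 → (r : F) ∈ S') :
    FE (rr F) (fun j => a (ν j)) (fun j => Nin (ν j : F)) (fun j => b (ν' j))
      (fun j => Nin (ν' j : F)) (Nin q) e := by
  obtain ⟨β, hβ⟩ := exists_isUP (unitGrp_Eu (F := F) (e := 3) (by norm_num))
  obtain ⟨k0, -, hk⟩ := integral_up_diag hβ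
  have hm : Measurable fun x => (β x : ℂ) * feS a x :=
    (measurable_ofReal.comp hβ.meas).mul (feS_meas a)
  obtain ⟨d1, d2⟩ := fe_entire (μ := volume) (s := fun x : Io F → ℝ => ∑ v, x v) hm (by fun_prop)
    fun K => by
      obtain ⟨C, hC⟩ := fe_decay ha hb hq h K
      refine (hk (fun s => C * Real.exp (-(|s| / 2))) (by fun_prop) (fe_int.const_mul _)).1.mono'
        (hm.norm.mul (by fun_prop)).aestronglyMeasurable (ae_of_all _ fun x => ?_)
      rw [Real.norm_of_nonneg (by positivity), norm_mul, norm_real,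
        Real.norm_of_nonneg (hβ.nonneg x), mul_assoc]
      exact mul_le_mul_of_nonneg_left (hC x) (hβ.nonneg x)
  have h2 : (2 : ℂ) ^ rr F ≠ 0 := pow_ne_zero _ two_ne_zero
  refine ⟨fun u => ((2 : ℂ) ^ rr F)⁻¹ * ∫ x, (β x : ℂ) * feS a x * cexp (u * (∑ v, x v : ℝ)),
    d1.const_mul _, fun s1 s2 => ?_, fun u hu => ?_, fun u hu => ?_⟩
  · obtain ⟨C, hC⟩ := d2 s1 s2
    refine ⟨‖((2 : ℂ) ^ rr F)⁻¹‖ * C, fun u h1 h2 => ?_⟩
    rw [norm_mul]
    exact mul_le_mul_of_nonneg_left (hC u h1 h2) (norm_nonneg _)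
  · beta_reduce
    rw [fe_unfold ha ia hν h0 hS hβ hu, mul_pow]
    field_simp
  · have k := fe_unfold hb ib hν' h0' hS' (fe_flip hβ fun v => -(2 * lg q v)) (u := 1 - u)
      (by rw [sub_re, one_re]; linarith)
    have k2 : ∫ x, (β x : ℂ) * feS a x * cexp (u * (∑ v, x v : ℝ)) =
        e * ((Nin q : ℝ) : ℂ) ^ (1 - 2 * u) * ∫ y, (β ((fun v => -(2 * lg q v)) - y) : ℂ) *
          feS b y * cexp ((1 - u) * (∑ v, y v : ℝ)) := by
      rw [← integral_sub_left_eq_self _ volume (fun v => -(2 * lg q v)), ← integral_const_mul]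
      refine integral_congr_ae (ae_of_all _ fun y => ?_)
      beta_reduce
      rw [fe_vor hq h, sub_sub_cancel, fe_sum hq,
        cpow_def_of_ne_zero (ofReal_ne_zero.2 (Nin_pos hq).ne'), ← ofReal_log (Nin_nonneg q),
        ofReal_exp]
      have k3 : cexp ((-Real.log (Nin q) - (-(2 * Real.log (Nin q)) - ∑ v, y v) : ℝ) : ℂ) *
          cexp (u * ((-(2 * Real.log (Nin q)) - ∑ v, y v : ℝ) : ℂ)) =
          cexp ((Real.log (Nin q) : ℂ) * (1 - 2 * u)) * cexp ((1 - u) * (∑ v, y v : ℝ)) := by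
        rw [← Complex.exp_add, ← Complex.exp_add]
        congr 1
        simp only [ofReal_sub, ofReal_neg, ofReal_mul, ofReal_ofNat]
        ring
      linear_combination (β ((fun v => -(2 * lg q v)) - y) : ℂ) * e * feS b y * k3
    beta_reduce
    rw [k2, k, mul_pow]
    field_simp

omit [Field F] [NumberField F] [Ctx F] in
/-- Rescaling and reindexing. -/
theorem FE.rescale {r : ℕ} {J J' K K' : Type} {a : J → ℂ} {na : J → ℝ} {b : J' → ℂ} {nb : J' → ℝ}
    {Q : ℝ} {e : ℂ} (h : FE r a na b nb Q e) (hQ : 0 < Q) {a' : K → ℂ} {na' : K → ℝ} {b' : K' → ℂ}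
    {nb' : K' → ℝ} {A B : ℝ} (hA : 0 < A) (hB : 0 < B) {c : ℂ} (hc : c ≠ 0)
    (h1 : ∀ u : ℂ, 2 ≤ u.re → DS a na u = c * (A : ℂ) ^ (-u) * DS a' na' u)
    (h2 : ∀ u : ℂ, 2 ≤ u.re → ((√(A / B) : ℝ) : ℂ) * DS b nb u = (B : ℂ) ^ (-u) * DS b' nb' u) :
    FE r a' na' b' nb' (Q / √(A * B)) (e / c) := by
  obtain ⟨Λ, d1, d2, d3, d4⟩ := h
  refine ⟨fun u => c⁻¹ * cexp (Real.log A * u) * Λ u, by fun_prop, fun s1 s2 => ?_,
    fun u hu => ?_, fun u hu => ?_⟩
  · obtain ⟨C, hC⟩ := d2 s1 s2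
    refine ⟨‖c⁻¹‖ * Real.exp (|Real.log A| * (|s1| + |s2|)) * C, fun u k1 k2 => ?_⟩
    rw [norm_mul, norm_mul, Complex.norm_exp, re_ofReal_mul]
    refine mul_le_mul (mul_le_mul_of_nonneg_left (Real.exp_le_exp.2 ((le_abs_self _).trans ?_))
      (norm_nonneg _)) (hC u k1 k2) (norm_nonneg _) (by positivity)
    rw [abs_mul]
    refine mul_le_mul_of_nonneg_left (abs_le.2 ?_) (abs_nonneg _)
    constructor <;> linarith [neg_abs_le s1, le_abs_self s2, abs_nonneg s1, abs_nonneg s2]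
  · beta_reduce
    rw [d3 u hu, h1 u hu, fe_cpow hA, mul_neg, Complex.exp_neg]
    field_simp
  · have k := h2 (1 - u) (by rw [sub_re, one_re]; linarith)
    have k1 : 0 < √(A / B) := by positivity
    have k2 : ((√(A / B) : ℝ) : ℂ) = cexp ((Real.log A - Real.log B) / 2) := by
      rw [← Real.exp_log k1, ofReal_exp, Real.log_sqrt (by positivity), Real.log_div hA.ne' hB.ne']
      push_cast
      rfl
    rw [k2, fe_cpow hB] at k
    beta_reduce
    rw [d4 u hu, fe_cpow hQ, fe_cpow (by positivity), Real.log_div hQ.ne' (by positivity),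
      Real.log_sqrt (by positivity), Real.log_mul hA.ne' hB.ne',
      (eq_inv_mul_iff_mul_eq₀ (Complex.exp_ne_zero _)).2 k, ← Complex.exp_neg]
    have k3 : cexp (Real.log A * u) * cexp (Real.log Q * (1 - 2 * u)) *
        cexp (-((Real.log A - Real.log B) / 2)) * cexp (Real.log B * -(1 - u)) =
        cexp (((Real.log Q - (Real.log A + Real.log B) / 2 : ℝ) : ℂ) * (1 - 2 * u)) := by
      rw [← Complex.exp_add, ← Complex.exp_add, ← Complex.exp_add]
      congr 1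
      push_cast
      ring
    linear_combination c⁻¹ * e * GG (1 - u) ^ r * DS b' nb' (1 - u) * k3
omit [Field F] [NumberField F] [Ctx F] in
theorem FE.zero (r : ℕ) {J J' : Type} {a : J → ℂ} (na : J → ℝ) {b : J' → ℂ} (nb : J' → ℝ)
    (ha : ∀ j, a j = 0) (hb : ∀ j, b j = 0) (Q : ℝ) (e : ℂ) : FE r a na b nb Q e := by
  refine ⟨fun _ => 0, differentiable_const _, fun _ _ => ⟨0, fun _ _ _ => by simp⟩,
    fun u _ => ?_, fun u _ => ?_⟩
  · simp [DS, ha]
  · simp [DS, hb]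
omit [Field F] [NumberField F] [Ctx F] in
/-- Reindexing a Dirichlet series along a bijection of the supports. -/
theorem DS_reindex {J K : Type} {a : J → ℂ} {na : J → ℝ} {a' : K → ℂ} {na' : K → ℝ} {A : ℝ}
    (hA : 0 < A) {c : ℂ} (hc : c ≠ 0) (φ : {k // a' k ≠ 0} → J) (hi : Function.Injective φ)
    (hs : ∀ j, a j ≠ 0 → ∃ k, φ k = j)
    (he : ∀ k, a (φ k) = c * a' k ∧ 0 < na' k ∧ na (φ k) = A * na' k) (u : ℂ) :
    DS a na u = c * (A : ℂ) ^ (-u) * DS a' na' u := by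
  rw [DS, DS, ← hi.tsum_eq fun j hj => hs j (left_ne_zero_of_mul hj), ← tsum_mul_left,
    ← tsum_subtype_eq_of_support_subset (s := {k | a' k ≠ 0}) fun k hk =>
      left_ne_zero_of_mul (right_ne_zero_of_mul hk)]
  refine tsum_congr fun k => ?_
  obtain ⟨h1, h2, h3⟩ := he k
  rw [h1, h3, ofReal_mul, mul_cpow_ofReal_nonneg hA.le h2.le]
  ring

end Vale.Agent.P319B
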