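import Vale.Agent.P319B.EDef

/-! Counting prime powers and the Euler product bound. -/

namespace Vale.Agent.P319B

open Complex NumberField IsDedekindDomain
open scoped Classical

variable {F : Type} [Field F] [NumberField F]

theorem idA_pp (P : HeightOneSpectrum (𝓞 F)) : IsPrimePow (Ideal.absNorm P.asIdeal) := by
  have := P.isMaximal
  have : Finite (𝓞 F ⧸ P.asIdeal) :=
    (Ideal.absNorm_ne_zero_iff _).1 (mt Ideal.absNorm_eq_zero_iff.1 P.ne_bot)
  let _ := Fintype.ofFinite (𝓞 F ⧸ P.asIdeal)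
  let _ := Ideal.Quotient.field P.asIdeal
  rw [Ideal.absNorm_apply, Submodule.cardQuot_apply, Nat.card_eq_fintype_card]
  exact FiniteField.isPrimePow_card _

theorem idA_two (P : HeightOneSpectrum (𝓞 F)) : 2 ≤ Ideal.absNorm P.asIdeal := (idA_pp P).two_le

theorem idA_one_le {J : Ideal (𝓞 F)} (hJ : J ≠ ⊥) : 1 ≤ Ideal.absNorm J :=
  Nat.one_le_iff_ne_zero.2 (mt Ideal.absNorm_eq_zero_iff.1 hJ)

theorem idA_fiber (k : ℕ) (s : Finset (PP F)) (hs : ∀ x ∈ s, nPP x = k) : s.card ≤ dg F := by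
  rcases s.eq_empty_or_nonempty with rfl | ⟨x0, hx0⟩
  · simp
  have hk : k ≠ 1 := by
    rw [← hs x0 hx0]
    exact ((idA_pp x0.1).pow (Nat.succ_ne_zero _)).ne_one
  have hl := Nat.minFac_prime hk
  have hinj : Set.InjOn (fun x : PP F => x.1.asIdeal) s := by
    rintro ⟨P, i⟩ hx ⟨Q, j⟩ hy h
    obtain rfl : P = Q := HeightOneSpectrum.ext h
    have h1 := (hs _ hx).trans (hs _ hy).symm
    have h2 := Nat.pow_right_injective (idA_two P) h1
    exact Prod.ext rfl (Nat.add_right_cancel h2)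
  have h1 : ∀ x ∈ s, k.minFac ∣ Ideal.absNorm x.1.asIdeal ∧ ((k.minFac : ℕ) : 𝓞 F) ∈ x.1.asIdeal := by
    intro x hx
    obtain ⟨p, f, hp, hf, e⟩ := (isPrimePow_nat_iff _).1 (idA_pp x.1)
    have e2 : k.minFac = p := by
      rw [← hs x hx, nPP, nP, ← e, ← pow_mul, hp.pow_minFac (by positivity)]
    rw [e2]
    refine ⟨e ▸ dvd_pow_self p hf.ne', x.1.isPrime.mem_of_pow_mem f ?_⟩
    rw [← Nat.cast_pow, e]
    exact Ideal.absNorm_mem _
  have h2 : ∏ P ∈ s.image (fun x : PP F => x.1.asIdeal), P ∣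
      Ideal.span {((k.minFac : ℕ) : 𝓞 F)} := by
    refine Finset.prod_primes_dvd _ (fun P hP => ?_) fun P hP => ?_
    · obtain ⟨x, -, rfl⟩ := Finset.mem_image.1 hP
      exact x.1.prime
    · obtain ⟨x, hx, rfl⟩ := Finset.mem_image.1 hP
      exact Ideal.dvd_span_singleton.2 (h1 x hx).2
  have h3 := map_dvd Ideal.absNorm h2
  rw [Finset.prod_image hinj, map_prod, Ideal.absNorm_span_natCast, RingOfIntegers.rank] at h3
  have h4 := Finset.prod_dvd_prod_of_dvd (s := s) (fun _ => k.minFac) _ fun x hx => (h1 x hx).1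
  rw [Finset.prod_const] at h4
  exact (Nat.pow_dvd_pow_iff_le_right hl.one_lt).1 (h4.trans h3)

theorem idA_sum_le {g : ℕ → ℝ} (hg : ∀ n, 0 ≤ g n) (hs : Summable g) (u : Finset (PP F)) :
    ∑ x ∈ u, g (nPP x) ≤ dg F * ∑' n, g n := by
  rw [Finset.sum_comp g nPP]
  refine le_trans ?_ (mul_le_mul_of_nonneg_left
    (hs.sum_le_tsum (u.image nPP) fun n _ => hg n) (Nat.cast_nonneg _))
  rw [Finset.mul_sum]
  refine Finset.sum_le_sum fun k _ => ?_
  rw [nsmul_eq_mul]
  refine mul_le_mul_of_nonneg_right (Nat.cast_le.2 (idA_fiber k _ fun x hx => ?_)) (hg k)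
  exact (Finset.mem_filter.1 hx).2

theorem idA_primes (S : Finset (HeightOneSpectrum (𝓞 F))) :
    ∑ P ∈ S, ((Ideal.absNorm P.asIdeal : ℝ) ^ 2)⁻¹ ≤ dg F := by
  set g : ℕ → ℝ := fun n => if 2 ≤ n then ((n : ℝ) ^ 2)⁻¹ else 0 with hg
  have h0 : ∀ n, 0 ≤ g n := fun n => by
    simp only [hg]
    split_ifs <;> positivity
  have h1 : ∀ u : Finset ℕ, ∑ n ∈ u, g n ≤ 1 := by
    intro u
    rw [← Finset.sum_filter]
    refine (Finset.sum_le_sum_of_subset_of_nonneg (t := Finset.Ioc 1 (u.sup id + 1))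
      (fun n hn => ?_) fun _ _ _ => by positivity).trans
      ((sum_Ioc_inv_sq_le_sub one_ne_zero (by omega)).trans ?_)
    · obtain ⟨h2, h3⟩ := Finset.mem_filter.1 hn
      have : n ≤ u.sup id := Finset.le_sup (f := id) h2
      exact Finset.mem_Ioc.2 ⟨h3, by omega⟩
    · rw [Nat.cast_one, inv_one]
      exact sub_le_self _ (by positivity)
  have h2 := idA_sum_le (F := F) h0 (summable_of_sum_le h0 h1) (S.image fun P => (P, 0))
  rw [Finset.sum_image fun P _ Q _ h => (Prod.ext_iff.1 h).1] at h2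
  refine le_trans (le_of_eq (Finset.sum_congr rfl fun P _ => ?_)) (h2.trans
    (mul_le_of_le_one_right (Nat.cast_nonneg _) (Real.tsum_le_of_sum_le h0 h1)))
  simp only [hg, nPP, nP, zero_add, pow_one, if_pos (idA_two P)]

theorem idA_euler (X : ℕ) (S : Finset (HeightOneSpectrum (𝓞 F))) :
    ∑ J ∈ (Ideal.finite_setOfPred_absNorm_le (S := 𝓞 F) X).toFinset.filter
      (fun J => J ≠ ⊥ ∧ ∀ P : HeightOneSpectrum (𝓞 F), P.asIdeal ∣ J → P ∈ S),
      ((Ideal.absNorm J : ℝ) ^ 2)⁻¹ ≤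
        Real.exp (2 * ∑ P ∈ S, ((Ideal.absNorm P.asIdeal : ℝ) ^ 2)⁻¹) := by
  set T := (Ideal.finite_setOfPred_absNorm_le (S := 𝓞 F) X).toFinset with hT
  have mT : ∀ J, J ∈ T ↔ Ideal.absNorm J ≤ X := fun J => Set.Finite.mem_toFinset _
  induction S using Finset.induction_on with
  | empty =>
    refine (Finset.sum_le_sum_of_subset_of_nonneg (t := {⊤}) (fun J hJ => ?_)
      fun _ _ _ => by positivity).trans (by simp)
    obtain ⟨-, h1, h2⟩ := Finset.mem_filter.1 hJ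
    by_contra h
    obtain ⟨m, hm, h3⟩ := Ideal.exists_le_maximal J (mt Finset.mem_singleton.2 h)
    exact Finset.notMem_empty _ (h2 ⟨m, hm.isPrime, fun h4 => h1 (le_bot_iff.1 (h4 ▸ h3))⟩
      (Ideal.dvd_iff_le.2 h3))
  | insert Q S hQ ih =>
    set A := T.filter (fun J => J ≠ ⊥ ∧ ∀ P : HeightOneSpectrum (𝓞 F), P.asIdeal ∣ J → P ∈ S)
    set B := T.filter
      (fun J => J ≠ ⊥ ∧ ∀ P : HeightOneSpectrum (𝓞 F), P.asIdeal ∣ J → P ∈ insert Q S) with hB
    set x : ℝ := ((Ideal.absNorm Q.asIdeal : ℝ) ^ 2)⁻¹ with hx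
    have h2 : (2 : ℝ) ≤ Ideal.absNorm Q.asIdeal := by exact_mod_cast idA_two Q
    have x0 : 0 ≤ x := by positivity
    have x1 : x ≤ 1 / 2 := by
      rw [hx, one_div]
      exact inv_anti₀ two_pos (by nlinarith)
    have hsub : B ⊆ A ∪ B.image (fun J => Q.asIdeal * J) := by
      intro J hJ
      obtain ⟨h3, h4, h5⟩ := Finset.mem_filter.1 hJ
      by_cases h : Q.asIdeal ∣ J
      · obtain ⟨I, rfl⟩ := h
        refine Finset.mem_union_right _ (Finset.mem_image.2 ⟨I, Finset.mem_filter.2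
          ⟨(mT _).2 (le_trans ?_ ((mT _).1 h3)), right_ne_zero_of_mul h4,
            fun P hP => h5 P (hP.mul_left _)⟩, rfl⟩)
        rw [map_mul]
        exact Nat.le_mul_of_pos_left _ (by have := idA_two Q; omega)
      · refine Finset.mem_union_left _ (Finset.mem_filter.2 ⟨h3, h4, fun P hP => ?_⟩)
        exact (Finset.mem_insert.1 (h5 P hP)).resolve_left fun e => h (e ▸ hP)
    have h3 : ∑ J ∈ B, ((Ideal.absNorm J : ℝ) ^ 2)⁻¹ ≤ ∑ J ∈ A, ((Ideal.absNorm J : ℝ) ^ 2)⁻¹ +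
        x * ∑ J ∈ B, ((Ideal.absNorm J : ℝ) ^ 2)⁻¹ := by
      refine (Finset.sum_le_sum_of_subset_of_nonneg hsub fun _ _ _ => by positivity).trans ?_
      rw [← Finset.union_sdiff_self_eq_union, Finset.sum_union Finset.disjoint_sdiff]
      refine add_le_add le_rfl ((Finset.sum_le_sum_of_subset_of_nonneg Finset.sdiff_subset
        fun _ _ _ => by positivity).trans (le_of_eq ?_))
      rw [Finset.sum_image fun I _ J _ h => mul_left_cancel₀ Q.ne_bot h, Finset.mul_sum]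
      refine Finset.sum_congr rfl fun J _ => ?_
      rw [map_mul, Nat.cast_mul, mul_pow, mul_inv]
    have h4 : 0 ≤ ∑ J ∈ B, ((Ideal.absNorm J : ℝ) ^ 2)⁻¹ :=
      Finset.sum_nonneg fun _ _ => by positivity
    have h5 := Real.add_one_le_exp (2 * x)
    rw [Finset.sum_insert hQ, mul_add, Real.exp_add]
    generalize ∑ J ∈ B, ((Ideal.absNorm J : ℝ) ^ 2)⁻¹ = b at h3 h4
    have h6 : (1 - x) * b ≤ Real.exp (2 * ∑ P ∈ S, ((Ideal.absNorm P.asIdeal : ℝ) ^ 2)⁻¹) := by
      linarith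
    have h7 : 1 ≤ (2 * x + 1) * (1 - x) := by nlinarith
    calc b ≤ (2 * x + 1) * (1 - x) * b := le_mul_of_one_le_left h4 h7
      _ = (2 * x + 1) * ((1 - x) * b) := by ring
      _ ≤ _ := mul_le_mul h5 h6 (mul_nonneg (by linarith) h4) (Real.exp_pos _).le

theorem idA_zeta (u : Finset (Ideal (𝓞 F))) :
    ∑ J ∈ u, ((Ideal.absNorm J : ℝ) ^ 2)⁻¹ ≤ Real.exp (2 * dg F) := by
  set X := u.sup Ideal.absNorm
  have hf : {P : HeightOneSpectrum (𝓞 F) | Ideal.absNorm P.asIdeal ≤ X}.Finite :=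
    (Ideal.finite_setOfPred_absNorm_le (S := 𝓞 F) X).preimage
      (HeightOneSpectrum.asIdeal_injective.injOn)
  refine le_trans ?_ ((idA_euler X hf.toFinset).trans
    (Real.exp_le_exp.2 (mul_le_mul_of_nonneg_left (idA_primes _) two_pos.le)))
  rw [← Finset.sum_filter_ne_zero]
  refine Finset.sum_le_sum_of_subset_of_nonneg (fun J hJ => ?_) fun _ _ _ => by positivity
  obtain ⟨h1, h2⟩ := Finset.mem_filter.1 hJ
  have h3 : J ≠ ⊥ := by
    rintro rfl
    simp at h2
  have h4 : Ideal.absNorm J ≤ X := Finset.le_sup h1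
  refine Finset.mem_filter.2 ⟨(Set.Finite.mem_toFinset _).2 h4, h3, fun P hP => ?_⟩
  exact (Set.Finite.mem_toFinset _).2
    ((Nat.le_of_dvd (idA_one_le h3) (map_dvd Ideal.absNorm hP)).trans h4)

/-- The logarithm of the norm as a sum over prime power divisors. -/
theorem idA_log {J : Ideal (𝓞 F)} (hJ : J ≠ ⊥) :
    HasSum (fun x : PP F => if x.1.asIdeal ^ (x.2 + 1) ∣ J then Real.log (nP x) else 0)
      (Real.log (Ideal.absNorm J)) := by
  induction J using UniqueFactorizationMonoid.induction_on_prime with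
  | h₁ => exact absurd rfl hJ
  | h₂ J hu =>
    have h1 : ∀ x : PP F, (if x.1.asIdeal ^ (x.2 + 1) ∣ J then Real.log (nP x) else 0) = 0 :=
      fun x => if_neg fun h => x.1.prime.not_isUnit
        (isUnit_of_dvd_unit ((dvd_pow_self _ (Nat.succ_ne_zero _)).trans h) hu)
    simp only [h1]
    rw [Ideal.isUnit_iff.1 hu, Ideal.absNorm_top, Nat.cast_one, Real.log_one]
    exact hasSum_zero
  | h₃ J Q h0 hQ ih =>
    obtain ⟨P, rfl⟩ : ∃ P : HeightOneSpectrum (𝓞 F), P.asIdeal = Q :=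
      ⟨⟨Q, Ideal.isPrime_of_prime hQ, hQ.ne_zero⟩, rfl⟩
    have hf := FiniteMultiplicity.of_prime_left hQ h0
    have h1 := (hasSum_ite_eq ((P, multiplicity P.asIdeal J) : PP F)
      (Real.log (Ideal.absNorm P.asIdeal))).add (ih h0)
    have h2 : ∀ x : PP F, (if x.1.asIdeal ^ (x.2 + 1) ∣ P.asIdeal * J then Real.log (nP x) else 0) =
        (if x = (P, multiplicity P.asIdeal J) then Real.log (Ideal.absNorm P.asIdeal) else 0) +
          if x.1.asIdeal ^ (x.2 + 1) ∣ J then Real.log (nP x) else 0 := by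
      rintro ⟨P', k⟩
      by_cases h : P' = P
      · subst h
        simp only [Prod.mk.injEq, true_and, hf.pow_dvd_iff_le_multiplicity, nP]
        rw [pow_succ']
        simp only [mul_dvd_mul_iff_left hQ.ne_zero, hf.pow_dvd_iff_le_multiplicity]
        split_ifs <;> first | omega | simp
      · have h3 : ¬ P'.asIdeal ∣ P.asIdeal := fun h4 => h (HeightOneSpectrum.ext
          (associated_iff_eq.1 (P'.prime.associated_of_dvd hQ h4)))
        rw [if_neg (c := (P', k) = _) fun e => h (Prod.ext_iff.1 e).1, zero_add]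
        exact if_congr ⟨P'.prime.pow_dvd_of_dvd_mul_left _ h3, fun h5 => h5.mul_left _⟩ rfl rfl
    simp only [h2]
    rw [map_mul, Nat.cast_mul, Real.log_mul
      (Nat.cast_ne_zero.2 (Nat.one_le_iff_ne_zero.1 (idA_one_le hQ.ne_zero)))
      (Nat.cast_ne_zero.2 (Nat.one_le_iff_ne_zero.1 (idA_one_le h0)))]
    exact h1

end Vale.Agent.P319B
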