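import Vale.Agent.P319B.EDef
import Vale.Agent.P319B.IdSA

/-! Dirichlet series over ideals. -/

namespace Vale.Agent.P319B

open Complex NumberField
open scoped Classical ComplexConjugate
open Vale.Agent.P026 (w kk fk)

variable {F : Type} [Field F] [NumberField F]


theorem IsHC.norm_le {m : ℕ} {χ : Ideal (𝓞 F) → ℂ} (h : IsHC m χ) (J : Ideal (𝓞 F)) :
    ‖χ J‖ ≤ 1 := by
  by_cases h0 : J = ⊥
  · rw [h0, h.map_bot, norm_zero]
    exact zero_le_one
  by_cases h1 : IsCoprime J (Ideal.span {(m : 𝓞 F)})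
  · exact (h.norm_eq J h0 h1).le
  · rw [h.eq_zero J h1, norm_zero]
    exact zero_le_one
theorem IsHC.congr {m : ℕ} {χ : Ideal (𝓞 F) → ℂ} (h : IsHC m χ) {x y : 𝓞 F}
    (hxy : (m : 𝓞 F) ∣ x - y) : χ (Ideal.span {x}) = χ (Ideal.span {y}) := by
  have hm : ¬ (m : 𝓞 F) ∣ 1 := fun h1 => by
    obtain ⟨z, h2, h3⟩ := h.nontriv
    refine h3 (h.triv z ?_ (h1.trans (one_dvd _)))
    rintro rfl
    exact h2 (by rw [Ideal.span_singleton_eq_bot.2 rfl, h.map_bot])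
  have key : ∀ a z : 𝓞 F, (m : 𝓞 F) ∣ a * z - 1 →
      χ (Ideal.span {a}) * χ (Ideal.span {z}) = 1 := fun a z hz => by
    rw [← h.map_mul, Ideal.span_singleton_mul_span_singleton]
    refine h.triv _ (fun h0 => hm ?_) hz
    rwa [h0, zero_sub, dvd_neg] at hz
  obtain ⟨t, ht⟩ := hxy
  by_cases hx : IsCoprime x (m : 𝓞 F)
  · obtain ⟨a, b, hab⟩ := hx
    have h1 := key a x ⟨-b, by linear_combination hab⟩
    have h2 := key a y ⟨-b - a * t, by linear_combination hab - a * ht⟩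
    linear_combination χ (Ideal.span {y}) * h1 - χ (Ideal.span {x}) * h2
  · have hy : ¬ IsCoprime y (m : 𝓞 F) := fun ⟨a, b, hab⟩ =>
      hx ⟨a, b - a * t, by linear_combination hab + a * ht⟩
    rw [h.eq_zero _ (mt (Ideal.isCoprime_span_singleton_iff _ _).1 hx),
      h.eq_zero _ (mt (Ideal.isCoprime_span_singleton_iff _ _).1 hy)]
theorem two_le_Hc {m : ℕ} (hm : 0 < m) (h2 : 2 ≤ dg F) : (dg F : ℝ) ≤ Hc F m ∧ 2 ≤ Hc F m := by
  have h1 : (1 : ℝ) ≤ m := by exact_mod_cast hm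
  have h3 : (1 : ℝ) ≤ (NumberField.discr F).natAbs := by
    exact_mod_cast Int.natAbs_pos.2 (NumberField.discr_ne_zero F)
  have h4 : (dg F : ℝ) ≤ Hc F m :=
    le_add_of_nonneg_right (Real.log_nonneg (one_le_mul_of_one_le_of_one_le h1 h3))
  exact ⟨h4, le_trans (by exact_mod_cast h2) h4⟩
theorem zeta_two_le :
    Summable (fun J : Ideal (𝓞 F) => ((Ideal.absNorm J : ℝ) ^ 2)⁻¹) ∧
      ∑' J : Ideal (𝓞 F), ((Ideal.absNorm J : ℝ) ^ 2)⁻¹ ≤ Real.exp (2 * dg F) :=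
  ⟨summable_of_sum_le (fun _ => by positivity) idA_zeta,
    Real.tsum_le_of_sum_le (fun _ => by positivity) idA_zeta⟩
theorem two_le_nP (x : PP F) : 2 ≤ nP x := idA_two x.1
theorem isPrimePow_nPP (x : PP F) : IsPrimePow (nPP x) :=
  (idA_pp x.1).pow (Nat.succ_ne_zero _)
theorem log_nP_le (x : PP F) : Real.log (nP x) ≤ Real.log (nPP x) := by
  have h := two_le_nP x
  refine Real.log_le_log (by exact_mod_cast (by omega : 0 < nP x)) ?_
  exact_mod_cast Nat.le_self_pow (Nat.succ_ne_zero _) _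
theorem nPP_prime {x : PP F} (h : (nPP x).Prime) : x.2 = 0 ∧ nP x = nPP x := by
  have h1 : x.2 + 1 = 1 := Nat.Prime.eq_one_of_pow h
  exact ⟨by omega, by rw [nPP, h1, pow_one]⟩
theorem tsum_pp_le {g : ℕ → ℝ} (hg : ∀ n, 0 ≤ g n) (hs : Summable g) :
    Summable (fun x : PP F => g (nPP x)) ∧ ∑' x : PP F, g (nPP x) ≤ dg F * ∑' n, g n :=
  ⟨summable_of_sum_le (fun _ => hg _) (idA_sum_le hg hs),
    Real.tsum_le_of_sum_le (fun _ => hg _) (idA_sum_le hg hs)⟩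

theorem ids_term {χ : Ideal (𝓞 F) → ℂ} (h0 : χ ⊥ = 0) (h1 : ∀ J, ‖χ J‖ ≤ 1) {s : ℂ}
    (hs : 2 ≤ s.re) (J : Ideal (𝓞 F)) :
    ‖χ J * (Ideal.absNorm J : ℂ) ^ (-s)‖ ≤ ((Ideal.absNorm J : ℝ) ^ 2)⁻¹ := by
  by_cases hJ : J = ⊥
  · rw [hJ, h0, zero_mul, norm_zero]
    positivity
  have h2 := idA_one_le hJ
  rw [norm_mul, Complex.norm_natCast_cpow_of_pos h2, ← Real.rpow_two,
    ← Real.rpow_neg (Nat.cast_nonneg _)]
  refine (mul_le_of_le_one_left (by positivity) (h1 J)).trans ?_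
  exact Real.rpow_le_rpow_of_exponent_le (by exact_mod_cast h2) (by rw [neg_re]; linarith)

theorem ids_summable {χ : Ideal (𝓞 F) → ℂ} (h0 : χ ⊥ = 0) (h1 : ∀ J, ‖χ J‖ ≤ 1) {s : ℂ}
    (hs : 2 ≤ s.re) : Summable fun J => ‖χ J * (Ideal.absNorm J : ℂ) ^ (-s)‖ :=
  Summable.of_nonneg_of_le (fun _ => norm_nonneg _) (ids_term h0 h1 hs) zeta_two_le.1

theorem LI_upper {m : ℕ} {χ : Ideal (𝓞 F) → ℂ} (h : IsHC m χ) {s : ℂ} (hs : 2 ≤ s.re) :
    Summable (fun J : Ideal (𝓞 F) => χ J * (Ideal.absNorm J : ℂ) ^ (-s)) ∧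
      ‖LI χ s‖ ≤ Real.exp (2 * dg F) :=
  ⟨(ids_summable h.map_bot h.norm_le hs).of_norm,
    (tsum_of_norm_bounded zeta_two_le.1.hasSum (ids_term h.map_bot h.norm_le hs)).trans
      zeta_two_le.2⟩
theorem LI_lower {m : ℕ} {χ : Ideal (𝓞 F) → ℂ} (h : IsHC m χ) {s : ℂ}
    (hs : 3 + 3 * (dg F : ℝ) ≤ s.re) : 1 / 2 ≤ ‖LI χ s‖ := by
  have hn : (0 : ℝ) ≤ dg F := Nat.cast_nonneg _
  have h1 := (LI_upper h (s := s) (by linarith)).1.tsum_eq_add_tsum_ite ⊤
  rw [h.map_one, Ideal.absNorm_top, Nat.cast_one, one_cpow, one_mul] at h1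
  have h2 : ‖∑' J : Ideal (𝓞 F), if J = ⊤ then 0 else χ J * (Ideal.absNorm J : ℂ) ^ (-s)‖ ≤
      (2 : ℝ) ^ (2 - s.re) * Real.exp (2 * dg F) := by
    refine (tsum_of_norm_bounded (zeta_two_le.1.hasSum.mul_left ((2 : ℝ) ^ (2 - s.re)))
      fun J => ?_).trans (mul_le_mul_of_nonneg_left zeta_two_le.2 (by positivity))
    split_ifs with hJ
    · rw [norm_zero]
      positivity
    by_cases h0 : J = ⊥
    · rw [h0, h.map_bot, zero_mul, norm_zero]
      positivity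
    have h3 := idA_one_le h0
    have h4 : 2 ≤ Ideal.absNorm J := lt_of_le_of_ne h3 fun e => hJ (Ideal.absNorm_eq_one_iff.1 e.symm)
    have h5 : (0 : ℝ) < Ideal.absNorm J := by exact_mod_cast h3
    rw [norm_mul, Complex.norm_natCast_cpow_of_pos h3, ← Real.rpow_two, ← Real.rpow_neg h5.le,
      neg_re, show -s.re = 2 - s.re + -2 by ring, Real.rpow_add h5]
    refine (mul_le_of_le_one_left (by positivity) (h.norm_le J)).trans
      (mul_le_mul_of_nonneg_right ?_ (by positivity))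
    exact Real.rpow_le_rpow_of_nonpos two_pos (by exact_mod_cast h4) (by linarith)
  have h3 : (2 : ℝ) ^ (2 - s.re) * Real.exp (2 * dg F) ≤ 1 / 2 := by
    have t1 : (2 : ℝ) ^ (2 - s.re) ≤ 1 / 2 * (8 ^ dg F)⁻¹ := by
      refine (Real.rpow_le_rpow_of_exponent_le one_le_two
        (show 2 - s.re ≤ -((3 * dg F + 1 : ℕ) : ℝ) by push_cast; linarith)).trans (le_of_eq ?_)
      rw [Real.rpow_neg two_pos.le, Real.rpow_natCast, pow_succ, pow_mul]
      norm_num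
    have t2 : Real.exp (2 * dg F) ≤ 8 ^ dg F := by
      rw [mul_comm, Real.exp_nat_mul]
      refine pow_le_pow_left₀ (Real.exp_pos _).le ?_ _
      have := Real.exp_one_lt_d9
      rw [show (2 : ℝ) = 1 + 1 by norm_num, Real.exp_add]
      nlinarith [Real.exp_pos 1]
    calc _ ≤ 1 / 2 * (8 ^ dg F)⁻¹ * (8 : ℝ) ^ dg F := by gcongr
      _ = 1 / 2 := by field_simp
  have h4 := norm_sub_norm_le (1 : ℂ)
    (-∑' J : Ideal (𝓞 F), if J = ⊤ then 0 else χ J * (Ideal.absNorm J : ℂ) ^ (-s))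
  rw [norm_one, norm_neg, sub_neg_eq_add, ← h1] at h4
  rw [LI]
  linarith

theorem ids_pow {m : ℕ} {χ : Ideal (𝓞 F) → ℂ} (h : IsHC m χ) (J : Ideal (𝓞 F)) (k : ℕ) :
    χ (J ^ k) = χ J ^ k := by
  induction k with
  | zero => rw [pow_zero, pow_zero, Ideal.one_eq_top, h.map_one]
  | succ k ih => rw [pow_succ, pow_succ, h.map_mul, ih]

theorem ids_ZI {m : ℕ} {χ : Ideal (𝓞 F) → ℂ} (h : IsHC m χ) {s : ℂ} (hs : 2 < s.re) :
    Summable fun x : PP F =>
      ‖(Real.log (nP x) : ℂ) * χ x.1.asIdeal ^ (x.2 + 1) * (nPP x : ℂ) ^ (-s)‖ := by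
  refine Summable.of_nonneg_of_le (fun _ => norm_nonneg _) (fun x => ?_)
    (tsum_pp_le (F := F) (g := fun n => (n : ℝ) ^ (1 - s.re)) (fun _ => by positivity)
      (Real.summable_nat_rpow.2 (by linarith))).1
  have h1 := (isPrimePow_nPP x).pos
  have h2 : (0 : ℝ) < nPP x := by exact_mod_cast h1
  rw [norm_mul, norm_mul, norm_pow, Complex.norm_natCast_cpow_of_pos h1, Complex.norm_real,
    Real.norm_of_nonneg (Real.log_natCast_nonneg _), sub_eq_add_neg, Real.rpow_add h2,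
    Real.rpow_one, neg_re]
  refine mul_le_mul_of_nonneg_right ?_ (by positivity)
  refine (mul_le_of_le_one_right (Real.log_natCast_nonneg _)
    (pow_le_one₀ (norm_nonneg _) (h.norm_le _))).trans ((log_nP_le x).trans ?_)
  exact Real.log_le_self h2.le

theorem ids_conv {m : ℕ} {χ : Ideal (𝓞 F) → ℂ} (h : IsHC m χ) {s : ℂ} (hs : 2 < s.re) :
    ZI χ s * LI χ s =
      ∑' J, (Real.log (Ideal.absNorm J) : ℂ) * (χ J * (Ideal.absNorm J : ℂ) ^ (-s)) := by
  have s1 := ids_ZI h hs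
  have s2 := ids_summable h.map_bot h.norm_le hs.le
  set c : PP F × Ideal (𝓞 F) → ℂ := fun z =>
    ((if z.1.1.asIdeal ^ (z.1.2 + 1) ∣ z.2 then Real.log (nP z.1) else 0 : ℝ) : ℂ) *
      (χ z.2 * (Ideal.absNorm z.2 : ℂ) ^ (-s)) with hc
  set i : PP F × Ideal (𝓞 F) → PP F × Ideal (𝓞 F) :=
    fun z => (z.1, z.1.1.asIdeal ^ (z.1.2 + 1) * z.2) with hi
  have hinj : Function.Injective i := by
    rintro ⟨x, I⟩ ⟨y, J⟩ e
    obtain ⟨e1, e2⟩ := Prod.ext_iff.1 e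
    obtain rfl : x = y := e1
    exact Prod.ext rfl (mul_left_cancel₀ (pow_ne_zero _ x.1.ne_bot) e2)
  have hsup : ∀ z ∉ Set.range i, c z = 0 := by
    rintro ⟨x, J⟩ hz
    simp only [hc]
    rw [if_neg fun ⟨I, hI⟩ => hz ⟨(x, I), Prod.ext rfl hI.symm⟩, ofReal_zero, zero_mul]
  have e1 : ∀ z, c (i z) = (Real.log (nP z.1) : ℂ) * χ z.1.1.asIdeal ^ (z.1.2 + 1) *
      (nPP z.1 : ℂ) ^ (-s) * (χ z.2 * (Ideal.absNorm z.2 : ℂ) ^ (-s)) := by
    intro z
    simp only [hc, hi]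
    rw [if_pos (dvd_mul_right _ _), h.map_mul, ids_pow h, map_mul, map_pow, Nat.cast_mul,
      Complex.natCast_mul_natCast_cpow, nPP, nP]
    ring
  have s4 := summable_mul_of_summable_norm s1 s2
  have s3 : Summable c := (hinj.summable_iff hsup).1 (s4.congr fun z => (e1 z).symm)
  rw [ZI, LI, tsum_mul_tsum_of_summable_norm s1 s2, ← tsum_congr e1,
    hinj.tsum_eq fun z hz => by_contra fun h' => hz (hsup z h'),
    ← (Equiv.prodComm _ _).tsum_eq]
  refine s3.prod_symm.tsum_prod.trans (tsum_congr fun J => ?_)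
  simp only [hc, Prod.swap]
  by_cases hJ : J = ⊥
  · simp [hJ, h.map_bot]
  · rw [tsum_mul_right, ← Complex.ofReal_tsum, (idA_log hJ).tsum_eq]

theorem hasDerivAt_LI {m : ℕ} {χ : Ideal (𝓞 F) → ℂ} (h : IsHC m χ) {s : ℂ} (hs : 2 < s.re) :
    HasDerivAt (LI χ) (-(ZI χ s * LI χ s)) s := by
  have hU : IsOpen {z : ℂ | 2 < z.re} := isOpen_lt continuous_const continuous_re
  have hd : ∀ (J : Ideal (𝓞 F)) (z : ℂ), HasDerivAt (fun z => χ J * (Ideal.absNorm J : ℂ) ^ (-z))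
      (-((Real.log (Ideal.absNorm J) : ℂ) * (χ J * (Ideal.absNorm J : ℂ) ^ (-z)))) z := by
    intro J z
    by_cases hJ : J = ⊥
    · simp only [hJ, h.map_bot, zero_mul, mul_zero, neg_zero]
      exact hasDerivAt_const _ _
    have h1 : (Ideal.absNorm J : ℂ) ≠ 0 :=
      Nat.cast_ne_zero.2 (Nat.one_le_iff_ne_zero.1 (idA_one_le hJ))
    refine (((hasDerivAt_neg z).const_cpow (Or.inl h1)).const_mul (χ J)).congr_deriv ?_
    rw [← Complex.natCast_log]
    ring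
  have hb : ∀ (J : Ideal (𝓞 F)) (z : ℂ), z ∈ {z : ℂ | 2 < z.re} →
      ‖χ J * (Ideal.absNorm J : ℂ) ^ (-z)‖ ≤ ((Ideal.absNorm J : ℝ) ^ 2)⁻¹ :=
    fun J z hz => ids_term h.map_bot h.norm_le (le_of_lt hz) J
  have h1 := (Complex.differentiableOn_tsum_of_summable_norm zeta_two_le.1
    (fun J z _ => (hd J z).differentiableAt.differentiableWithinAt) hU hb).differentiableAt
      (hU.mem_nhds hs)
  have h2 := Complex.hasSum_deriv_of_summable_norm zeta_two_le.1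
    (fun J z _ => (hd J z).differentiableAt.differentiableWithinAt) hU hb hs
  simp only [(hd _ s).deriv] at h2
  rw [ids_conv h hs, ← tsum_neg, h2.tsum_eq]
  exact h1.hasDerivAt

theorem ids_euler {m : ℕ} {χ : Ideal (𝓞 F) → ℂ} (h : IsHC m χ) {s : ℂ} (hs : 2 < s.re)
    (S : Finset (Ideal (𝓞 F))) (hS : ∀ P ∈ S, Prime P) :
    LI (fun J => if ∀ P ∈ S, ¬ P ∣ J then χ J else 0) s =
      LI χ s * ∏ P ∈ S, (1 - χ P * (Ideal.absNorm P : ℂ) ^ (-s)) := by
  induction S using Finset.induction_on with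
  | empty => simp
  | insert Q S hQ ih =>
    have hS' : ∀ P ∈ S, Prime P := fun P hP => hS P (Finset.mem_insert_of_mem hP)
    have hp := hS Q (Finset.mem_insert_self _ _)
    rw [Finset.prod_insert hQ, mul_left_comm, ← ih hS']
    set f : Ideal (𝓞 F) → ℂ := fun J =>
      (if ∀ P ∈ S, ¬ P ∣ J then χ J else 0) * (Ideal.absNorm J : ℂ) ^ (-s) with hf
    have s1 : Summable f := by
      refine (ids_summable (χ := fun J => if ∀ P ∈ S, ¬ P ∣ J then χ J else 0) ?_ (fun J => ?_)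
        hs.le).of_norm
      · simp [h.map_bot]
      · split_ifs
        · exact h.norm_le J
        · simp
    have hinj : Function.Injective fun J : Ideal (𝓞 F) => Q * J := mul_right_injective₀ hp.ne_zero
    have e1 : ∀ J, (if Q ∣ Q * J then f (Q * J) else 0) =
        χ Q * (Ideal.absNorm Q : ℂ) ^ (-s) * f J := by
      intro J
      have e2 : (∀ P ∈ S, ¬ P ∣ Q * J) ↔ ∀ P ∈ S, ¬ P ∣ J := by
        refine forall₂_congr fun P hP => not_congr ?_
        rw [(hS' P hP).dvd_mul, or_iff_right]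
        exact fun h' => hQ (associated_iff_eq.1 ((hS' P hP).associated_of_dvd hp h') ▸ hP)
      simp only [hf]
      rw [if_pos (dvd_mul_right _ _), if_congr e2 rfl rfl, h.map_mul, map_mul, Nat.cast_mul,
        Complex.natCast_mul_natCast_cpow]
      split_ifs <;> ring
    have e3 : HasSum (fun J => if Q ∣ J then f J else 0)
        (χ Q * (Ideal.absNorm Q : ℂ) ^ (-s) * ∑' J, f J) := by
      rw [← hinj.hasSum_iff fun J hJ => if_neg fun ⟨I, hI⟩ => hJ ⟨I, hI.symm⟩,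
        show (fun J => if Q ∣ J then f J else 0) ∘ (fun J => Q * J) = _ from funext e1]
      exact s1.hasSum.mul_left _
    rw [sub_mul, one_mul, LI, LI, ← (s1.hasSum.sub e3).tsum_eq]
    refine tsum_congr fun J => ?_
    simp only [hf, Finset.forall_mem_insert]
    by_cases hJ : Q ∣ J <;> simp [hJ]

/-- Removal of finitely many Euler factors. -/
theorem LI_euler {m : ℕ} {χ : Ideal (𝓞 F) → ℂ} (h : IsHC m χ) {M : ℕ} (hM : M ≠ 0) :
    ∃ E : ℂ → ℂ, Differentiable ℂ E ∧ ∀ s : ℂ, 2 < s.re →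
      LI (fun J => if IsCoprime J (Ideal.span {(M : 𝓞 F)}) then χ J else 0) s = LI χ s * E s := by
  have h0 : Ideal.span {(M : 𝓞 F)} ≠ ⊥ :=
    mt Ideal.span_singleton_eq_bot.1 (Nat.cast_ne_zero.2 hM)
  set S := (UniqueFactorizationMonoid.normalizedFactors (Ideal.span {(M : 𝓞 F)})).toFinset with hS
  have hp : ∀ P ∈ S, Prime P := fun q hq =>
    UniqueFactorizationMonoid.prime_of_normalized_factor q (Multiset.mem_toFinset.1 hq)
  refine ⟨fun s => ∏ P ∈ S, (1 - χ P * (Ideal.absNorm P : ℂ) ^ (-s)), ?_, fun s hs => ?_⟩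
  · refine Differentiable.fun_finsetProd fun P hP => ?_
    have h1 : (Ideal.absNorm P : ℂ) ≠ 0 :=
      Nat.cast_ne_zero.2 (Nat.one_le_iff_ne_zero.1 (idA_one_le (hp P hP).ne_zero))
    exact ((differentiable_neg.const_cpow (Or.inl h1)).const_mul _).const_sub _
  · rw [← ids_euler h hs S hp]
    congr 1
    funext J
    refine if_congr ?_ rfl rfl
    simp only [hS, Multiset.mem_toFinset, Ideal.mem_normalizedFactors_iff h0, Ideal.dvd_iff_le]
    refine ⟨fun h P h1 h2 => h1.1.ne_top ?_,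
      fun h => Ideal.coprime_of_no_prime_ge fun P h1 h2 h3 => h P ⟨h3, h2⟩ h1⟩
    rw [eq_top_iff, ← Ideal.isCoprime_iff_sup_eq.1 h]
    exact sup_le h2 h1.2

end Vale.Agent.P319B
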