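import Vale.Agent.P319B.HChar
import Vale.Agent.P319B.IdS
import Vale.Agent.Lib.PrimeSumGRH
import Vale.Agent.P026.Main

/-! Small auxiliary primes and small quadratic non-residues. -/

namespace Vale.Agent.P319B

open Complex NumberField
open scoped Classical ComplexConjugate
open Vale.Agent.P026 (w kk fk)

theorem fn_powerful {a : ℕ} (h : IsPrimePow a) (hn : ¬ a.Prime) :
    ∃ p : ℕ × ℕ, a = p.1 ^ 2 * p.2 ^ 3 := by
  obtain ⟨l, k, hl, hk, rfl⟩ := (isPrimePow_nat_iff _).1 h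
  have h1 : k ≠ 1 := by
    rintro rfl
    exact hn (by simpa using hl)
  rcases Nat.even_or_odd' k with ⟨i, rfl | rfl⟩
  · exact ⟨(l ^ i, 1), by ring⟩
  · obtain ⟨j, rfl⟩ : ∃ j, i = j + 1 := ⟨i - 1, by omega⟩
    exact ⟨(l ^ j, l), by ring⟩

theorem fn_summable : Summable fun a : ℕ =>
    if IsPrimePow a ∧ ¬ a.Prime then (a : ℝ) ^ (-(5 / 8) : ℝ) else 0 := by
  have h1 : Summable fun p : ℕ × ℕ =>
      (p.1 : ℝ) ^ (-(5 / 4) : ℝ) * (p.2 : ℝ) ^ (-(15 / 8) : ℝ) :=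
    (Real.summable_nat_rpow.2 (by norm_num)).mul_of_nonneg (Real.summable_nat_rpow.2 (by norm_num))
      (fun _ => by positivity) (fun _ => by positivity)
  let S : Set ℕ := {a | IsPrimePow a ∧ ¬ a.Prime}
  let φ : S → ℕ × ℕ := fun a => (fn_powerful a.2.1 a.2.2).choose
  have hφ : ∀ a : S, (a : ℕ) = (φ a).1 ^ 2 * (φ a).2 ^ 3 := fun a =>
    (fn_powerful a.2.1 a.2.2).choose_spec
  have hi : Function.Injective φ := fun a b h => Subtype.ext (by rw [hφ a, hφ b, h])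
  have h2 : Summable fun a : S => ((a : ℕ) : ℝ) ^ (-(5 / 8) : ℝ) := by
    refine (h1.comp_injective hi).congr fun a => ?_
    rw [hφ a]
    simp only [Function.comp]
    push_cast
    rw [Real.mul_rpow (by positivity) (by positivity), ← Real.rpow_natCast, ← Real.rpow_natCast,
      ← Real.rpow_mul (by positivity), ← Real.rpow_mul (by positivity)]
    norm_num
  have h3 := (summable_subtype_iff_indicator (f := fun a : ℕ => (a : ℝ) ^ (-(5 / 8) : ℝ))
    (s := S)).1 h2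
  refine h3.congr fun a => ?_
  simp only [Set.indicator, S, Set.mem_ofPred_eq]

/-- The majorant of the error terms. -/
theorem fn_major : ∃ g : ℕ → ℝ, (∀ a, 0 ≤ g a) ∧ Summable g ∧ ∀ (x : ℝ) (a : ℕ), 1 ≤ x →
    IsPrimePow a → (¬ a.Prime ∨ x ^ 2 < a) →
      Real.log a * w (a / x) ≤ x ^ (3 / 4 : ℝ) * g a := by
  refine ⟨fun a => 8 * Real.exp 1 *
      (if IsPrimePow a ∧ ¬ a.Prime then (a : ℝ) ^ (-(5 / 8) : ℝ) else 0) +
      Real.exp 9 * (1 / (a : ℝ) ^ 2), fun a => ?_, (fn_summable.mul_left _).add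
        ((Real.summable_one_div_nat_pow.2 (by norm_num)).mul_left _), fun x a hx ha h => ?_⟩
  · beta_reduce
    split_ifs <;> positivity
  · beta_reduce
    have ha1 : (1 : ℝ) ≤ a := by exact_mod_cast ha.one_lt.le
    have ha0 : (0 : ℝ) < a := by linarith
    have hx0 : 0 < x := by linarith
    have hx1 : 1 ≤ x ^ (3 / 4 : ℝ) := Real.one_le_rpow hx (by norm_num)
    have hl := Real.log_nonneg ha1
    by_cases hp : a.Prime
    · have h2 := h.resolve_left (not_not.2 hp)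
      have k1 := P026.w_le_rpow (-6) (div_pos ha0 hx0)
      have k2 : (a / x : ℝ) ^ (-6 : ℝ) ≤ 1 / (a : ℝ) ^ 3 := by
        rw [Real.rpow_neg (by positivity), show (6 : ℝ) = (6 : ℕ) by norm_num, Real.rpow_natCast,
          div_pow, inv_div, div_le_div_iff₀ (by positivity) (by positivity)]
        calc x ^ 6 * (a : ℝ) ^ 3 = (x ^ 2) ^ 3 * (a : ℝ) ^ 3 := by ring
          _ ≤ (a : ℝ) ^ 3 * (a : ℝ) ^ 3 := by gcongr
          _ = 1 * (a : ℝ) ^ 6 := by ring
      have k3 : Real.log a ≤ a := (Real.log_le_sub_one_of_pos ha0).trans (by linarith)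
      rw [if_neg (fun h => h.2 hp)]
      calc Real.log a * w (a / x) ≤ a * (Real.exp 9 * (1 / (a : ℝ) ^ 3)) := by
            refine mul_le_mul k3 (k1.trans ?_) (P026.w_pos _).le ha0.le
            rw [show ((-6 : ℝ)) ^ 2 / 4 = 9 by norm_num]
            gcongr
        _ = 1 * (8 * Real.exp 1 * 0 + Real.exp 9 * (1 / (a : ℝ) ^ 2)) := by
            field_simp
            ring
        _ ≤ _ := by gcongr
    · have k1 := P026.w_le_rpow (-(3 / 4)) (div_pos ha0 hx0)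
      have k2 : Real.log a ≤ (a : ℝ) ^ (1 / 8 : ℝ) / (1 / 8) :=
        Real.log_le_rpow_div ha0.le (by norm_num)
      have k3 : (a : ℝ) ^ (1 / 8 : ℝ) * (a / x : ℝ) ^ (-(3 / 4) : ℝ) =
          x ^ (3 / 4 : ℝ) * (a : ℝ) ^ (-(5 / 8) : ℝ) := by
        rw [Real.div_rpow ha0.le hx0.le, Real.rpow_neg hx0.le, div_inv_eq_mul, ← mul_assoc,
          ← Real.rpow_add ha0, mul_comm]
        norm_num
      rw [if_pos ⟨ha, hp⟩]
      calc Real.log a * w (a / x)
          ≤ (a : ℝ) ^ (1 / 8 : ℝ) / (1 / 8) * (Real.exp 1 * (a / x : ℝ) ^ (-(3 / 4) : ℝ)) := by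
            refine mul_le_mul k2 (k1.trans ?_) (P026.w_pos _).le (by positivity)
            gcongr
            norm_num
        _ = x ^ (3 / 4 : ℝ) * (8 * Real.exp 1 * (a : ℝ) ^ (-(5 / 8) : ℝ)) := by
            linear_combination 8 * Real.exp 1 * k3
        _ ≤ _ := by
            gcongr
            exact le_add_of_nonneg_right (by positivity)

theorem fn_summable_w {x : ℝ} (hx : 0 < x) : Summable fun a : ℕ => Real.log a * w (a / x) := by
  refine Summable.of_nonneg_of_le (fun a => mul_nonneg (Real.log_natCast_nonneg a) (P026.w_pos _).le)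
    (fun a => ?_) ((Real.summable_one_div_nat_pow.2 (by norm_num : 1 < 2)).mul_left
      (Real.exp ((-3) ^ 2 / 4) * x ^ 3))
  rcases Nat.eq_zero_or_pos a with rfl | ha
  · simp
  have ha0 : (0 : ℝ) < a := by exact_mod_cast ha
  have k1 := P026.w_le_rpow (-3) (div_pos ha0 hx)
  have k3 : Real.log a ≤ a := (Real.log_le_sub_one_of_pos ha0).trans (by linarith)
  rw [Real.rpow_neg (by positivity), show (3 : ℝ) = (3 : ℕ) by norm_num, Real.rpow_natCast] at k1
  refine (mul_le_mul k3 k1 (P026.w_pos _).le ha0.le).trans (le_of_eq ?_)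
  push_cast
  field_simp

theorem fn_w_half {y : ℝ} (h1 : 1 ≤ y) (h2 : y ≤ 2) : 1 / 2 ≤ w y := by
  have k1 := Real.log_nonneg h1
  have k2 : Real.log y ≤ Real.log 2 := Real.log_le_log (by linarith) h2
  have k3 := Real.log_two_lt_d9
  calc (1 / 2 : ℝ) = Real.exp (-Real.log 2) := by
        rw [Real.exp_neg, Real.exp_log (by norm_num)]
        norm_num
    _ ≤ w y := Real.exp_le_exp.2 (by nlinarith)

theorem fn_lower : ∃ K : ℝ, 0 ≤ K ∧ ∀ (F : Type) [Field F] [NumberField F] (m : ℕ)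
    (χ : Ideal (𝓞 F) → ℂ), IsHC m χ → ∀ x : ℝ, 2 ≤ x →
    (∀ P : Ideal (𝓞 F), P.IsPrime → (Ideal.absNorm P).Prime → (Ideal.absNorm P : ℝ) ≤ x ^ 2 →
      χ P ≠ 0 → χ P = 1) → ∀ T : Finset ℕ,
    (∀ l ∈ T, l.Prime ∧ x ≤ l ∧ (l : ℝ) ≤ 2 * x ∧
      ∃ P : Ideal (𝓞 F), P.IsPrime ∧ P ≠ ⊥ ∧ Ideal.absNorm P = l ∧ χ P ≠ 0) →
    1 / 2 * ∑ l ∈ T, Real.log l ≤ ‖SI χ x‖ + K * dg F * x ^ (3 / 4 : ℝ) := by
  obtain ⟨g, g0, gs, hg⟩ := fn_major
  refine ⟨∑' a, g a, tsum_nonneg g0, fun F _ _ m χ h x hx hgood T hT => ?_⟩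
  have hx0 : 0 < x := by linarith
  let a : PP F → ℂ := fun z =>
    (Real.log (nP z) : ℂ) * χ z.1.asIdeal ^ (z.2 + 1) * (w (nPP z / x) : ℂ)
  have hle : ∀ z, ‖a z‖ ≤ Real.log (nPP z) * w (nPP z / x) := by
    intro z
    simp only [a, norm_mul, norm_pow, Complex.norm_real, Real.norm_eq_abs]
    rw [abs_of_nonneg (Real.log_natCast_nonneg _), abs_of_pos (P026.w_pos _)]
    refine mul_le_mul_of_nonneg_right ?_ (P026.w_pos _).le
    exact (mul_le_of_le_one_right (Real.log_natCast_nonneg _)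
      (pow_le_one₀ (norm_nonneg _) (h.norm_le _))).trans (log_nP_le z)
  have s1 := (tsum_pp_le (F := F) (g := fun n => Real.log n * w (n / x))
    (fun n => mul_nonneg (Real.log_natCast_nonneg n) (P026.w_pos _).le) (fn_summable_w hx0)).1
  have s2 : Summable a := Summable.of_norm_bounded s1 hle
  obtain ⟨s3, s4⟩ := tsum_pp_le (F := F) g0 gs
  let c : PP F → ℝ := fun z => (a z).re + x ^ (3 / 4 : ℝ) * g (nPP z)
  have s5 : Summable fun z => (a z).re := (Complex.hasSum_re s2.hasSum).summable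
  have s6 : Summable c := s5.add (s3.mul_left _)
  have hgx : ∀ n, 0 ≤ x ^ (3 / 4 : ℝ) * g n := fun n => mul_nonneg (by positivity) (g0 n)
  have hc : ∀ z, 0 ≤ c z := by
    intro z
    by_cases hz : ¬ (nPP z).Prime ∨ x ^ 2 < nPP z
    · have k1 := hg x _ (by linarith) (isPrimePow_nPP z) hz
      have k2 := (abs_le.1 ((Complex.abs_re_le_norm (a z)).trans (hle z))).1
      simp only [c]
      linarith
    · push Not at hz
      obtain ⟨k1, k2⟩ := nPP_prime hz.1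
      refine add_nonneg ?_ (hgx _)
      by_cases h0 : χ z.1.asIdeal = 0
      · simp [a, h0]
      · have k3 := hgood z.1.asIdeal z.1.isPrime (by rw [← k2] at hz; exact hz.1)
          (by rw [← k2] at hz; exact hz.2) h0
        simp only [a, k3, one_pow, mul_one, ← ofReal_mul, ofReal_re]
        exact mul_nonneg (Real.log_natCast_nonneg _) (P026.w_pos _).le
  choose! P hP1 hP2 hP3 hP4 using fun l hl => (hT l hl).2.2.2
  let φ : T → PP F := fun l => (⟨P l, hP1 l l.2, hP2 l l.2⟩, 0)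
  have hn : ∀ l : T, nP (φ l) = l := fun l => hP3 l l.2
  have hn' : ∀ l : T, nPP (φ l) = l := fun l => by
    rw [nPP, hn]
    simp [φ]
  have hi : Function.Injective φ := fun l l' e => Subtype.ext (by rw [← hn l, ← hn l', e])
  have k1 : 1 / 2 * ∑ l ∈ T, Real.log l ≤ ∑ z ∈ Finset.univ.map ⟨φ, hi⟩, c z := by
    rw [Finset.sum_map, Finset.mul_sum, ← Finset.sum_coe_sort T]
    refine Finset.sum_le_sum fun l _ => ?_
    obtain ⟨t1, t2, t3, -⟩ := hT l l.2
    have k3 := hgood (P l) (hP1 l l.2) (by rw [hP3 l l.2]; exact t1)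
      (by rw [hP3 l l.2]; nlinarith) (hP4 l l.2)
    have k4 : (a (φ l)).re = Real.log l * w (l / x) := by
      simp only [a, hn, hn']
      simp only [φ, k3, one_pow, mul_one, ← ofReal_mul, ofReal_re]
    have k5 := fn_w_half (y := (l : ℕ) / x) ((one_le_div hx0).2 t2) ((div_le_iff₀ hx0).2 t3)
    have k6 := Real.log_natCast_nonneg (l : ℕ)
    have k7 := hgx (nPP (φ l))
    simp only [Function.Embedding.coeFn_mk, c, k4]
    nlinarith
  have k2 := s6.sum_le_tsum (Finset.univ.map ⟨φ, hi⟩) fun z _ => hc z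
  have k3 : ∑' z, c z = (SI χ x).re + x ^ (3 / 4 : ℝ) * ∑' z : PP F, g (nPP z) := by
    rw [s5.tsum_add (s3.mul_left _), tsum_mul_left, SI, Complex.re_tsum s2]
  have k4 := Complex.re_le_norm (SI χ x)
  have k5 := mul_le_mul_of_nonneg_left s4 (by positivity : 0 ≤ x ^ (3 / 4 : ℝ))
  nlinarith

theorem fn_exp {K η : ℝ} (hη : 0 < η) : ∃ j : ℕ, 1 ≤ j ∧ ∀ B : ℝ, 2 ≤ B →
    K * B ^ 11 * (B ^ j) ^ (1 - η) < B ^ j := by
  obtain ⟨e, he⟩ := exists_nat_gt K
  obtain ⟨j, hj⟩ := exists_nat_gt (((11 + e : ℕ) : ℝ) / η)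
  have hj' : ((11 + e : ℕ) : ℝ) ≤ j * η := ((div_lt_iff₀ hη).1 hj).le
  refine ⟨j + 1, by omega, fun B hB => ?_⟩
  have hB0 : 0 < B := by linarith
  have hB1 : 1 ≤ B := by linarith
  have h1 : K < B ^ e := by
    refine he.trans_le ?_
    calc (e : ℝ) ≤ 2 ^ e := by exact_mod_cast Nat.lt_two_pow_self.le
      _ ≤ B ^ e := by gcongr
  have h2 : B ^ (11 + e) ≤ (B ^ (j + 1)) ^ η := by
    rw [← Real.rpow_natCast, ← Real.rpow_natCast, ← Real.rpow_mul hB0.le]
    refine Real.rpow_le_rpow_of_exponent_le hB1 (hj'.trans ?_)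
    push_cast
    nlinarith
  have hX : 0 < B ^ (j + 1) := by positivity
  have h3 : 0 < (B ^ (j + 1)) ^ (1 - η) := Real.rpow_pos_of_pos hX _
  calc K * B ^ 11 * (B ^ (j + 1)) ^ (1 - η) < B ^ e * B ^ 11 * (B ^ (j + 1)) ^ (1 - η) := by gcongr
    _ = B ^ (11 + e) * (B ^ (j + 1)) ^ (1 - η) := by ring
    _ ≤ (B ^ (j + 1)) ^ η * (B ^ (j + 1)) ^ (1 - η) := by gcongr
    _ = B ^ (j + 1) := by
      rw [← Real.rpow_add hX]
      simp

/-- Primes in a progression in a dyadic interval. -/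
theorem fn_primes : ∃ K η : ℝ, 0 ≤ K ∧ 0 < η ∧ ∀ (k : ℕ) (x : ℝ), k ≠ 0 → 1 ≤ x →
    x / k - K * k * x ^ (1 - η) ≤ ∑ l ∈ (Finset.Icc 1 ⌊2 * x⌋₊).filter
      (fun l : ℕ => (l.Prime ∧ (l : ZMod k) = 1) ∧ x < l), Real.log l := by
  obtain ⟨δ, hδ, C, h⟩ := Lib.PS.theta_ap_power P026.qgrh
  refine ⟨3 * |C| * (4 + 2 / δ), δ / 2, by positivity, by positivity, fun k x hk hx => ?_⟩
  have : NeZero k := ⟨hk⟩
  have hx0 : 0 < x := by linarith
  have hk1 : (1 : ℝ) ≤ k := by exact_mod_cast Nat.pos_of_ne_zero hk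
  have h1 := (abs_le.1 (h k 1 isUnit_one (2 * x) (by linarith))).1
  have h2 := (abs_le.1 (h k 1 isUnit_one x hx)).2
  have e : ∑ l ∈ (Finset.Icc 1 ⌊2 * x⌋₊).filter (fun l : ℕ => l.Prime ∧ (l : ZMod k) = 1),
      Real.log l = ∑ l ∈ (Finset.Icc 1 ⌊2 * x⌋₊).filter
        (fun l : ℕ => (l.Prime ∧ (l : ZMod k) = 1) ∧ x < l), Real.log l +
      ∑ l ∈ (Finset.Icc 1 ⌊x⌋₊).filter (fun l : ℕ => l.Prime ∧ (l : ZMod k) = 1), Real.log l := by
    rw [← Finset.sum_filter_add_sum_filter_not _ (fun l : ℕ => x < l), Finset.filter_filter]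
    congr 1
    refine Finset.sum_congr ?_ fun _ _ => rfl
    ext l
    simp only [Finset.mem_filter, Finset.mem_Icc, not_lt, Nat.le_floor_iff hx0.le,
      Nat.le_floor_iff (by positivity : (0 : ℝ) ≤ 2 * x)]
    constructor
    · rintro ⟨⟨⟨a, -⟩, b⟩, c⟩
      exact ⟨⟨a, c⟩, b⟩
    · rintro ⟨⟨a, c⟩, b⟩
      exact ⟨⟨⟨a, by linarith⟩, b⟩, c⟩
  have ht : (0 : ℝ) < k.totient := by exact_mod_cast Nat.totient_pos.2 (Nat.pos_of_ne_zero hk)
  have h3 : x / k ≤ x / k.totient := by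
    gcongr
    exact Nat.totient_le k
  have hp : 1 ≤ x ^ (δ / 2) := Real.one_le_rpow hx (by positivity)
  have h4 : Real.log (2 * k * (2 * x)) ≤ (4 + 2 / δ) * k * x ^ (δ / 2) := by
    have a1 : Real.log (4 * k) ≤ 4 * k :=
      (Real.log_le_sub_one_of_pos (by positivity)).trans (by linarith)
    have a2 := Real.log_le_rpow_div hx0.le (by positivity : 0 < δ / 2)
    have a3 : x ^ (δ / 2) / (δ / 2) = 2 / δ * x ^ (δ / 2) := by field_simp
    rw [show 2 * k * (2 * x) = 4 * k * x by ring, Real.log_mul (by positivity) hx0.ne']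
    have a4 : 0 ≤ 2 / δ * x ^ (δ / 2) := by positivity
    nlinarith
  have h5 : Real.log (2 * k * x) ≤ Real.log (2 * k * (2 * x)) :=
    Real.log_le_log (by positivity) (by nlinarith)
  have h6 : 0 ≤ Real.log (2 * k * x) := Real.log_nonneg (by nlinarith)
  have h7 : (2 * x) ^ (1 - δ) ≤ 2 * x ^ (1 - δ) := by
    rw [Real.mul_rpow (by norm_num) hx0.le]
    gcongr
    calc (2 : ℝ) ^ (1 - δ) ≤ 2 ^ (1 : ℝ) := Real.rpow_le_rpow_of_exponent_le (by norm_num) (by linarith)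
      _ = 2 := Real.rpow_one 2
  have h8 : x ^ (1 - δ) * x ^ (δ / 2) = x ^ (1 - δ / 2) := by
    rw [← Real.rpow_add hx0]
    congr 1
    ring
  have h9 : C * (2 * x) ^ (1 - δ) * Real.log (2 * k * (2 * x)) ≤
      |C| * (2 * x ^ (1 - δ)) * ((4 + 2 / δ) * k * x ^ (δ / 2)) :=
    mul_le_mul (mul_le_mul (le_abs_self C) h7 (by positivity) (abs_nonneg C)) h4 (h6.trans h5)
      (by positivity)
  have h10 : C * x ^ (1 - δ) * Real.log (2 * k * x) ≤
      |C| * x ^ (1 - δ) * ((4 + 2 / δ) * k * x ^ (δ / 2)) :=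
    mul_le_mul (mul_le_mul_of_nonneg_right (le_abs_self C) (by positivity)) (h5.trans h4) h6
      (by positivity)
  have h11 : 2 * x / k.totient = 2 * (x / k.totient) := by ring
  rw [← h8]
  linarith

theorem fn_Hc {q p : ℕ} (h2 : 2 < q) (hqp : q < p) {F : Type} [Field F] [NumberField F]
    (h1 : dg F ≤ 2 * q) (h3 : (NumberField.discr F).natAbs ≤ (3 * q) ^ (2 * q)) :
    Hc F (3 * p * q) ≤ 12 * ((q * Nat.size p : ℕ) : ℝ) ^ 2 := by
  have hq : (3 : ℝ) ≤ q := by exact_mod_cast h2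
  have hp0 : (0 : ℝ) < p := by exact_mod_cast (by omega : 0 < p)
  have hs : (1 : ℝ) ≤ Nat.size p := by exact_mod_cast Nat.size_pos.2 (by omega)
  have hd : (0 : ℝ) < (NumberField.discr F).natAbs := by
    exact_mod_cast Int.natAbs_pos.2 (NumberField.discr_ne_zero F)
  have a1 : Real.log p ≤ Nat.size p := by
    have b1 : (p : ℝ) ≤ 2 ^ Nat.size p := by exact_mod_cast (Nat.lt_size_self p).le
    refine (Real.log_le_log hp0 b1).trans ?_
    rw [Real.log_pow]
    have := Real.log_two_lt_d9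
    nlinarith
  have a2 : Real.log (3 * q) ≤ 3 * q :=
    (Real.log_le_sub_one_of_pos (by positivity)).trans (by linarith)
  have a3 : Real.log (NumberField.discr F).natAbs ≤ 2 * q * (3 * q) := by
    have b1 : ((NumberField.discr F).natAbs : ℝ) ≤ (3 * q) ^ (2 * q) := by exact_mod_cast h3
    refine (Real.log_le_log hd b1).trans ?_
    rw [Real.log_pow]
    push_cast
    gcongr
  have a4 : (dg F : ℝ) ≤ 2 * q := by exact_mod_cast h1
  rw [Hc]
  push_cast
  rw [Real.log_mul (by positivity) hd.ne', show (3 * p * q : ℝ) = p * (3 * q) by ring, Real.log_mul hp0.ne' (by positivity)]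
  generalize (Nat.size p : ℝ) = s at *
  have a5 : q ≤ q * s := by nlinarith
  have a6 : s ≤ q * s := by nlinarith
  have a7 : (q : ℝ) ^ 2 ≤ (q * s) ^ 2 := by gcongr
  have a8 : q * s ≤ (q * s) ^ 2 := by nlinarith
  nlinarith

theorem fn_coprime {F : Type} [Field F] [NumberField F] {P : Ideal (𝓞 F)} {l m : ℕ}
    (h : Ideal.absNorm P = l) (hc : l.Coprime m) : IsCoprime P (Ideal.span {(m : 𝓞 F)}) := by
  have h1 : (l : 𝓞 F) ∈ P := h ▸ Ideal.absNorm_mem P
  obtain ⟨a, b, hab⟩ := (Nat.isCoprime_iff_coprime.2 hc).map (Int.castRingHom (𝓞 F))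
  rw [Ideal.isCoprime_iff_exists]
  refine ⟨a * l, P.mul_mem_left _ h1, b * m, Ideal.mul_mem_left _ _ (Ideal.mem_span_singleton_self _),
    ?_⟩
  simpa using hab

theorem fn_cyc (k : ℕ) :
    ∃ (F : Type) (_ : Field F) (_ : NumberField F), IsCyclotomicExtension {k} ℚ F := by
  refine ⟨CyclotomicField k ℚ, inferInstance, inferInstance, ?_⟩
  have h : @IsCyclotomicExtension {k} ℚ (CyclotomicField k ℚ) _ _ (CyclotomicField.algebra k ℚ) :=
    inferInstance
  exact (Subsingleton.elim (CyclotomicField.algebra k ℚ) DivisionRing.toRatAlgebra) ▸ h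

theorem aux_of_psb (h : PSB) : ∃ C : ℕ, ∀ q p : ℕ, q.Prime → p.Prime → 2 < q → q < p →
    ∃ l : ℕ, l.Prime ∧ l ≤ (q * Nat.size p) ^ C ∧ l ≠ p ∧ q ∣ l - 1 ∧
      (p : ZMod l) ^ ((l - 1) / q) ≠ 1 := by
  obtain ⟨C, δ, hC, hδ, hS⟩ := h
  obtain ⟨K1, hK1, h1⟩ := fn_lower
  obtain ⟨K2, η, hK2, hη, h2⟩ := fn_primes
  let θ := min (min δ η) (1 / 4)
  have hθ : 0 < θ := lt_min (lt_min hδ hη) (by norm_num)
  obtain ⟨j, hj, h3⟩ := fn_exp (K := 2 * (C * 12 ^ 5 + K1) + K2 + 1) hθ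
  refine ⟨2 * j, fun q p hq hp hq2 hqp => ?_⟩
  by_contra hcon
  push Not at hcon
  have hk0 : Nat.lcm 3 q ≠ 0 := Nat.lcm_ne_zero (by norm_num) hq.ne_zero
  obtain ⟨F, _, _, _⟩ := fn_cyc (Nat.lcm 3 q)
  obtain ⟨χ, hχ, hχ2⟩ := exists_hc hq hp hq2 hqp F
  obtain ⟨⟨ω, hω⟩, hd, hD⟩ := cyc_data hq hq2 F
  have hs3 : 3 ≤ Nat.size p := Nat.lt_size.2 (by omega)
  have hH := fn_Hc hq2 hqp hd hD
  have hH0 : 0 ≤ Hc F (3 * p * q) :=
    add_nonneg (by positivity) (by rw [← Nat.cast_mul]; exact Real.log_natCast_nonneg _)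
  have hkB : Nat.lcm 3 q ≤ q * Nat.size p :=
    (Nat.le_of_dvd (by omega) (Nat.lcm_dvd_mul 3 q)).trans (by nlinarith)
  have hdB : dg F ≤ q * Nat.size p := hd.trans (by nlinarith)
  have hqB : q ≤ q * Nat.size p := by nlinarith
  have hsB : Nat.size p ≤ q * Nat.size p := by nlinarith
  have h9 : 9 ≤ q * Nat.size p := by nlinarith
  generalize q * Nat.size p = B at *
  have hB : (9 : ℝ) ≤ B := by exact_mod_cast h9
  set x : ℝ := (B : ℝ) ^ j with hx
  have hBx : (B : ℝ) ≤ x := le_self_pow₀ (by linarith) (by omega)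
  have hx1 : 1 ≤ x := by linarith
  have hx0 : 0 < x := by linarith
  let T0 := (Finset.Icc 1 ⌊2 * x⌋₊).filter
    (fun l : ℕ => (l.Prime ∧ (l : ZMod (Nat.lcm 3 q)) = 1) ∧ x < l)
  have k1 := h1 F _ χ hχ x (by linarith) (fun P hP hl hle h0 => ?_) (T0.erase p) (fun l hl => ?_)
  · have k2 := h2 _ x hk0 hx1
    have k3 := hS F ω hω _ χ hχ x hx1
    have k4 : ∑ l ∈ T0, Real.log l ≤ ∑ l ∈ T0.erase p, Real.log l + B := by
      have a1 : Real.log p ≤ B := by
        have b1 : (p : ℝ) ≤ 2 ^ Nat.size p := by exact_mod_cast (Nat.lt_size_self p).le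
        have b2 : (Nat.size p : ℝ) ≤ B := by exact_mod_cast hsB
        refine (Real.log_le_log (by exact_mod_cast hp.pos) b1).trans ?_
        rw [Real.log_pow]
        have := Real.log_two_lt_d9
        have : (0 : ℝ) ≤ Nat.size p := by positivity
        nlinarith
      by_cases hp' : p ∈ T0
      · rw [← Finset.sum_erase_add _ _ hp']
        linarith
      · rw [Finset.erase_eq_of_notMem hp']
        linarith
    have hk1 : (1 : ℝ) ≤ Nat.lcm 3 q := by exact_mod_cast Nat.pos_of_ne_zero hk0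
    have hkB' : (Nat.lcm 3 q : ℝ) ≤ B := by exact_mod_cast hkB
    have hdB' : (dg F : ℝ) ≤ B := by exact_mod_cast hdB
    have k5 : x / B ≤ x / Nat.lcm 3 q := by gcongr
    have k6 := h3 B (by linarith)
    rw [← hx] at k6
    have m1 : ∀ a : ℝ, a ≤ 1 - θ → x ^ a ≤ x ^ (1 - θ) := fun a ha =>
      Real.rpow_le_rpow_of_exponent_le hx1 ha
    have t1 : θ ≤ δ := (min_le_left _ _).trans (min_le_left _ _)
    have t2 : θ ≤ η := (min_le_left _ _).trans (min_le_right _ _)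
    have t3 : θ ≤ 1 / 4 := min_le_right _ _
    have m2 := m1 (1 - δ) (by linarith)
    have m3 := m1 (1 - η) (by linarith)
    have m4 := m1 (3 / 4) (by linarith)
    have m5 : 1 ≤ x ^ (1 - θ) := Real.one_le_rpow hx1 (by linarith)
    have b1 : (B : ℝ) ≤ (B : ℝ) ^ 10 := le_self_pow₀ (by linarith) (by norm_num)
    have n1 : C * Hc F (3 * p * q) ^ 5 * x ^ (1 - δ) ≤ C * 12 ^ 5 * (B : ℝ) ^ 10 * x ^ (1 - θ) := by
      calc _ ≤ C * (12 * (B : ℝ) ^ 2) ^ 5 * x ^ (1 - θ) := by gcongr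
        _ = _ := by ring
    have n2 : K1 * dg F * x ^ (3 / 4 : ℝ) ≤ K1 * (B : ℝ) ^ 10 * x ^ (1 - θ) := by
      gcongr
      linarith
    have n3 : K2 * Nat.lcm 3 q * x ^ (1 - η) ≤ K2 * (B : ℝ) ^ 10 * x ^ (1 - θ) := by
      gcongr
      linarith
    have n4 : (B : ℝ) ≤ (B : ℝ) ^ 10 * x ^ (1 - θ) := by nlinarith
    have n5 : x / B ≤ (2 * (C * 12 ^ 5 + K1) + K2 + 1) * (B : ℝ) ^ 10 * x ^ (1 - θ) := by
      simp only [T0] at k1 k4
      linarith
    rw [div_le_iff₀ (by linarith)] at n5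
    have n6 : (2 * (C * 12 ^ 5 + K1) + K2 + 1) * (B : ℝ) ^ 10 * x ^ (1 - θ) * B =
      (2 * (C * 12 ^ 5 + K1) + K2 + 1) * (B : ℝ) ^ 11 * x ^ (1 - θ) := by ring
    linarith
  · obtain ⟨k1, k2⟩ := hχ2 P _ hP hl rfl h0
    refine k2 (hcon _ hl ?_ ?_ k1)
    · rw [hx, ← pow_mul, mul_comm] at hle
      exact_mod_cast hle
    · intro e
      refine h0 (hχ.eq_zero P fun hc => hP.ne_top ?_)
      have a1 : (p : 𝓞 F) ∈ P := e ▸ Ideal.absNorm_mem P
      have a2 : Ideal.span {((3 * p * q : ℕ) : 𝓞 F)} ≤ P := by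
        rw [Ideal.span_singleton_le_iff_mem]
        push_cast
        exact P.mul_mem_right _ (P.mul_mem_left _ a1)
      rw [Ideal.isCoprime_iff_sup_eq, sup_eq_left.2 a2] at hc
      exact hc
  · obtain ⟨l1, l2⟩ := Finset.mem_erase.1 hl
    obtain ⟨l3, ⟨l4, l5⟩, l6⟩ := Finset.mem_filter.1 l2
    refine ⟨l4, l6.le, (Nat.le_floor_iff (by positivity)).1 (Finset.mem_Icc.1 l3).2, ?_⟩
    obtain ⟨P, p1, p2, p3⟩ := exists_deg_one hk0 l4 l5 F
    refine ⟨P, p1, p2, p3, fun h0 => ?_⟩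
    have l7 : B < l := by exact_mod_cast hBx.trans_lt l6
    have a1 : l.Coprime (3 * p * q) :=
      Nat.Coprime.mul_right (Nat.Coprime.mul_right
        ((Nat.coprime_primes l4 Nat.prime_three).2 (by omega)) ((Nat.coprime_primes l4 hp).2 l1))
        ((Nat.coprime_primes l4 hq).2 (by omega))
    have a2 := hχ.norm_eq P p2 (fn_coprime p3 a1)
    rw [h0, norm_zero] at a2
    exact zero_ne_one a2

end Vale.Agent.P319B
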