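import Vale.Agent.P319B.Kub
import Vale.Agent.P319B.Gauss

/-! Kubota Gauss sums. -/

namespace Vale.Agent.P319B

open Complex NumberField
open scoped Classical ComplexConjugate
open Vale.Agent.P026 (w kk fk)

variable {F : Type} [Field F] [NumberField F] [Ctx F]

theorem kg_psiL {Y z x x' : F} (hY : Y ≠ 0) (hz : z * Y ∈ Od F) (h : (x - x') / Y ∈ Ol F) :
    psiL (z * x) = psiL (z * x') := by
  rw [show z * x = z * x' + (x - x') / Y * (z * Y) by field_simp; ring, psiL_add,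
    psiL_of_Od (Od_mul h hz), mul_one]

theorem kg_crt {c : R F} (hc : c ≠ 0) {Y : F} (hY : Y ≠ 0) {g f : R F → ℂ} (hf : Pe c f)
    {φ : F → ℂ} (hg : ∀ d, g d = f d * φ d) {r : R F} (hr : (r : F) / c * Y ∈ Od F)
    (hφ : ∀ x x', (x - x') / Y ∈ Ol F → φ x = φ x') {a : ℕ} (hs : ∀ x, φ x ≠ 0 → Hi a x) :
    qsum (lat (c : F) Y) (fun d => ext0 g d * eT ((r : F) * d / c)) =
      gauss f c r * qsum (locL Y) (fun d => φ d * psiL ((r : F) / c * d)) := by
  refine (congrArg _ (funext fun x => ?_)).trans (qsum_crt hc hY (hf.mul (pe_psi c r))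
    (fun x x' h => by rw [hφ x x' h, kg_psiL hY hr h]) fun x hx => hs x (left_ne_zero_of_mul hx))
  by_cases h3 : x ∈ Rr F (Ctx0.M F)
  · lift x to R F using h3
    rw [ext0_coe, ext0_coe, hg, eT_eq_mul, psi, Subring.coe_mul, div_mul_eq_mul_div]
    ring
  · simp only [ext0_of_not h3, zero_mul]

theorem kg_ind {Y a z : F} (hY : Y ≠ 0) (ha : a ≠ 0) (h1 : Y / a ∈ Ol F) (h2 : z * Y ∈ Od F)
    (y : F) : qsum (locL Y) (fun d => (if (d - y) / a ∈ Ol F then 1 else 0) * psiL (z * d)) =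
      psiL (z * y) * if z * a ∈ Od F then ((nf Y / nf a : ℝ) : ℂ) else 0 := by
  rw [← qsum_ind_Ol hY ha h1 h2, ← qsum_const_mul, ← qsum_shift _ y]
  · refine congrArg _ (funext fun d => ?_)
    rw [add_sub_cancel_left, mul_add, psiL_add]
    split_ifs <;> ring
  · intro x x' h
    have h3 : (x - y) / a = (x' - y) / a + (x - x') / Y * (Y / a) := by field_simp; ring
    have h4 := mul_mem (mem_locL.1 h) h1
    rw [kg_psiL hY h2 (mem_locL.1 h), h3]
    exact congrArg (· * _) (if_congr (add_mem_cancel_right h4) rfl rfl)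

theorem kg_zero {k : R F → R F → ℂ} {c : R F} (h : ∀ d, k c d = 0) (b : ℕ) (r : R F) :
    aK k b r c = 0 := by
  simp [aK, gK, qsum, ext0, h]

theorem kg_inU {e : ℕ} {y : F} (hy : y ≠ 0) (d : F) :
    InU e (d / y) ↔ (d - y) / (y * MF F ^ e) ∈ Ol F := by
  rw [InU, Lo, div_sub_one hy, div_div]

theorem kg_Hi {y : F} {A : ℕ} (hA : Hi A y) {d : F} (h : InU 3 (d / y)) : Hi A d := by
  simpa only [zero_add, div_mul_cancel₀ _ (h.right_ne bs_three)] using (Hi.of_mem 0 h.mem).mul hA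

theorem kg_od {b : ℕ} {r c : R F} (hc : c ≠ 0) (hr : (r : F) ∈ dualL (Lb F b)) :
    (r : F) / c * (c * MF F ^ b) ∈ Od F := by
  rw [← mul_assoc, div_mul_cancel₀ _ (nrm_coe_ne hc)]
  exact (mem_dual_Lb.1 hr).2

theorem bdA_aK {k : R F → R F → ℂ} {b : ℕ} (hk : Adm k b) {r : R F}
    (hr : (r : F) ∈ dualL (Lb F b)) : BdA (aK k b r) := by
  obtain ⟨⟨⟨B, hB⟩, a, ha⟩, hp⟩ := hk
  have B0 : 0 ≤ B := (norm_nonneg _).trans (hB 0 0)
  have h1 : ∀ c, aK k b r c ≠ 0 → Hi a (c : F) := fun c hc => by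
    by_contra h
    exact hc (kg_zero (fun d => by_contra fun h' => h (ha c d h').1) b r)
  have M0 : ∀ n : ℕ, MF F ^ n ≠ 0 := fun n => pow_ne_zero _ MF_ne
  refine ⟨if_pos rfl, ⟨a, h1⟩, B * (nf (MF F ^ b) * nf (MF F ^ a)), fun c => ?_⟩
  by_cases h0 : aK k b r c = 0
  · rw [h0, norm_zero]
    exact mul_nonneg B0 (mul_pos (nf_pos _) (nf_pos _)).le
  have hc : c ≠ 0 := fun h => h0 (if_pos h)
  have c0 := nrm_coe_ne hc
  have h2 := norm_qsum_lat_le hc (mul_ne_zero c0 (M0 b))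
    (φ := fun d => ext0 (k c) d * eT ((r : F) * d / c)) (fun x x' h => by
      obtain ⟨q1, q2⟩ := mem_lat.1 h
      have q3 : Lo b ((x - x') / c) := by rwa [Lo, div_div]
      have q4 : x = x' + c * ((x - x') / c) := by field_simp; ring
      have q5 : eT ((r : F) * x / c) = eT ((r : F) * x' / c) := by
        rw [show (r : F) * x / c = r * x' / c + r * ((x - x') / c) by field_simp; ring, eT_add,
          mem_dualL.1 hr _ (mem_Lb.2 ⟨q1, q3⟩), mul_one]
      rw [q5]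
      congr 1
      by_cases hx : x' ∈ Rr F (Ctx0.M F)
      · lift x' to R F using hx
        rw [q4]
        lift (x - x') / c to R F using q1 with t
        rw [← Subring.coe_mul, ← Subring.coe_add, ext0_coe, ext0_coe, hp _ _ _ q3]
      · rw [ext0_of_not hx, ext0_of_not fun h' => hx ?_]
        rw [q4] at h'
        exact (add_mem_cancel_right (mul_mem c.2 q1)).1 h')
    (inv_ne_zero (M0 a)) (by
      rw [div_inv_eq_mul, mul_right_comm, mul_comm (c : F)]
      exact mul_mem (h1 c h0) (pow_mem MF_mem_Ol _))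
    (fun x hx => by
      have hx' := left_ne_zero_of_mul hx
      have h3 : x ∈ Rr F (Ctx0.M F) := by_contra fun h => hx' (ext0_of_not h)
      lift x to R F using h3
      rw [ext0_coe] at hx'
      rw [mem_lat, div_one, div_inv_eq_mul, mul_comm]
      exact ⟨x.2, (ha c x hx').2⟩) (B := B) fun x => by
      rw [norm_mul, norm_eT, mul_one, ext0]
      split_ifs
      · exact hB _ _
      · rwa [norm_zero]
  have := N_pos hc
  have := nf_pos (c : F)
  rw [aK, if_neg hc, norm_div, norm_real, Real.norm_of_nonneg (Nin_nonneg _),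
    div_le_iff₀ (Nin_pos c0), Nin_eq_N_mul]
  refine h2.trans_eq ?_
  rw [nf_inv, nf_mul c0 (M0 b), div_inv_eq_mul]
  ring
theorem aK_mul_left (χ : R F → ℂ) (k : R F → R F → ℂ) (b : ℕ) (r c : R F) :
    aK (fun c d => χ c * k c d) b r c = χ c * aK k b r c := by
  simp only [aK, gK, mul_ite, mul_zero, ← mul_div_assoc, ← qsum_const_mul, ext0, ← mul_assoc,
    mul_dite]
theorem aK_off (p : R F) (k : R F → R F → ℂ) (b : ℕ) (r c : R F) :
    aK (off p k) b r c = if p ∣ c then 0 else aK k b r c := by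
  have : off p k = fun c d => (if p ∣ c then 0 else 1) * k c d := by
    funext c d
    simp [off]
  rw [this, aK_mul_left (fun c => if p ∣ c then 0 else 1)]
  simp
theorem aK_k0 {e : ℕ} (he : 3 ≤ e) {c : R F} (hc : c ≠ 0) :
    aK (k0 e) e 0 c =
      if Lo e (c : F) then gauss (fun x => cub x c) c 0 / (N c : ℂ) else 0 := by
  split_ifs with h
  swap
  · exact kg_zero (fun d => if_neg fun h' => h h'.1) _ _
  have c0 := nrm_coe_ne hc
  have M0 : MF F ^ e ≠ 0 := pow_ne_zero _ MF_ne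
  have h1 : (c : F) * MF F ^ e / MF F ^ e ∈ Ol F := by
    rw [mul_div_cancel_right₀ _ M0]
    exact h.mem
  have h2 : ((0 : R F) : F) / c * (c * MF F ^ e) ∈ Od F := by simp
  rw [aK, if_neg hc, gK, kg_crt hc (mul_ne_zero c0 M0) (f := fun x => cub x c)
    (fun _ _ => cub_congr) (φ := fun d => if (d - 1) / MF F ^ e ∈ Ol F then 1 else 0)
    (fun d => ?_) h2 (fun x x' q => ?_) (a := 0) fun x hx => ?_,
    kg_ind (mul_ne_zero c0 M0) M0 h1 h2, if_pos (by simp), nf_mul c0 M0,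
    mul_div_cancel_right₀ _ (nf_pos _).ne', Nin_eq_N_mul]
  · have := ofReal_ne_zero.2 (nf_pos (c : F)).ne'
    simp only [Subring.coe_zero, zero_div, zero_mul, psiL_zero, one_mul, ofReal_mul]
    rw [mul_div_mul_right _ _ this]
  · by_cases hd : InU e (d : F)
    · rw [k0, if_pos ⟨h, hd⟩, if_pos (by exact hd), mul_one, cub_core (hd.mono he) hc]
    · rw [k0, if_neg fun h' => hd h'.2, if_neg (by exact hd), mul_zero]
  · have h3 : (x - 1) / MF F ^ e = (x' - 1) / MF F ^ e + (x - x') / (c * MF F ^ e) * c := by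
      field_simp
      ring
    rw [h3]
    exact if_congr (add_mem_cancel_right (mul_mem q h.mem)) rfl rfl
  · exact Hi.of_mem 0 (InU.mem (ite_ne_right_iff.1 hx).1)
theorem gauss_cub_zero_unit {s c : R F} (hs : IsUnit s) (hc : c ≠ 0) :
    gauss (fun x => cub x (s * c)) (s * c) 0 = gauss (fun x => cub x c) c 0 := by
  have : ∀ q : R F, psi q 0 = 1 := fun q => psi_of_dvd ⟨0, (mul_zero q).symm⟩
  simp only [gauss, zero_mul, this, mul_one, cub_unit_mul_right _ hs]
  exact sum_res_assoc hc hs fun _ _ => cub_congr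
theorem bdA_aII {y : F} (hy : y ≠ 0) (r : R F) : BdA (aII y r) := by
  obtain ⟨A, hA⟩ := exists_Hi y
  refine ⟨if_neg fun h => h.left_ne bs_three rfl,
    ⟨A, fun c hc => kg_Hi hA (ite_ne_right_iff.1 hc).1⟩, 1, fun c => ?_⟩
  rw [aII]
  split_ifs with h
  · have hc : c ≠ 0 := fun h' => h.left_ne bs_three (by rw [h', Subring.coe_zero])
    rw [norm_div, norm_real, Real.norm_of_nonneg (N_nonneg _), div_le_iff₀ (N_pos hc)]
    exact norm_gauss_le hc (fun x => norm_cub_le x c) r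
  · simp
theorem aK_kII {y : F} (hy : y ≠ 0) {φ : F → ℂ} (hφ : LocF φ) (hU : UInv φ) :
    ∃ b0 : ℕ, ∀ b, b0 ≤ b → ∀ r : R F, (r : F) ∈ dualL (Lb F b) → ∀ c : R F,
      aK (kII y φ) b r c =
        qsum (locL (y * MF F ^ b)) (fun d => φ d * psiL ((r : F) / y * d)) / (nf y : ℂ) *
          aII y r c := by
  obtain ⟨-, ⟨a, ha⟩, b1, h1⟩ := hφ
  obtain ⟨A, hA⟩ := exists_Hi y
  refine ⟨A + b1, fun b hb r hr c => ?_⟩
  by_cases h : InU 3 ((c : F) / y)
  swap
  · rw [aII, if_neg h, mul_zero]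
    exact kg_zero (fun d => if_neg h) _ _
  have c0 := h.left_ne bs_three
  have hc : c ≠ 0 := fun h' => c0 (by rw [h', Subring.coe_zero])
  have M0 : MF F ^ b ≠ 0 := pow_ne_zero _ MF_ne
  have h2 : ∀ x x', (x - x') / (c * MF F ^ b) ∈ Ol F → φ x = φ x' := fun x x' q => h1 _ _ (by
    rw [show x - x' = c * (MF F ^ b * ((x - x') / (c * MF F ^ b))) by field_simp]
    exact (kg_Hi hA h).mul_Lo (((Lo_MF_pow b).mono hb).mul_right q))
  rw [aK, if_neg hc, gK, kg_crt hc (mul_ne_zero c0 M0) (f := fun x => cub x c)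
    (fun _ _ => cub_congr) (g := kII y φ c) (fun d => if_pos h) (kg_od hc hr) h2 ha, aII, if_pos h,
    ← qsum_scale (L' := locL (y * MF F ^ b)) _ (h.ne_zero bs_three), Nin_eq_N_mul,
    nf_eq_of_inU bs_three h]
  · simp only [hU _ _ h, ← mul_assoc, div_mul_div_cancel₀ c0, ofReal_mul]
    ring
  · intro x
    rw [mem_locL, mem_locL, show (c : F) / y * x / (c * MF F ^ b) = x / (y * MF F ^ b) by
      field_simp]
  · intro x x' q
    rw [h2 _ _ (mem_locL.1 q), kg_psiL (mul_ne_zero c0 M0) (kg_od hc hr) (mem_locL.1 q)]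
theorem aK_kI {y : F} (hy : y ≠ 0) {φ : F → ℂ} (hφ : LocF φ) :
    ∃ b0 : ℕ, ∀ b, b0 ≤ b → ∀ r : R F, (r : F) ∈ dualL (Lb F b) → ∀ c : R F, c ≠ 0 →
      aK (kI y φ) b r c = gauss (fun x => cub x c) c r / (N c : ℂ) *
        (B3 (c : F) y * φ c * (nf (MF F ^ b) : ℂ) * PsiD y ((r : F) / c)) := by
  obtain ⟨-, ⟨a, ha⟩, -⟩ := hφ
  obtain ⟨A, hA⟩ := exists_Hi y
  obtain ⟨K, hK⟩ := exists_Lo_div hy 3
  refine ⟨a + K, fun b hb r hr c hc => ?_⟩
  by_cases h : φ c = 0
  · rw [h, mul_zero, zero_mul, zero_mul, mul_zero]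
    exact kg_zero (fun d => by simp [kI, h]) _ _
  have c0 := nrm_coe_ne hc
  have M0 : ∀ n : ℕ, MF F ^ n ≠ 0 := fun n => pow_ne_zero _ MF_ne
  have h1 : (c : F) * MF F ^ b / (y * MF F ^ 3) ∈ Ol F := by
    rw [← div_div]
    exact hK _ ((ha _ h).mul_Lo ((Lo_MF_pow b).mono hb))
  rw [aK, if_neg hc, gK, kg_crt hc (mul_ne_zero c0 (M0 b)) (f := fun x => cub x c)
    (fun _ _ => cub_congr) (φ := fun d => B3 (c : F) y * φ c *
      if (d - y) / (y * MF F ^ 3) ∈ Ol F then 1 else 0)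
    (fun d => ?_) (kg_od hc hr) (fun x x' q => ?_) (a := A) fun x hx => ?_]
  · simp only [mul_assoc (B3 (c : F) y * φ c)]
    rw [qsum_const_mul, kg_ind (mul_ne_zero c0 (M0 b)) (mul_ne_zero hy (M0 3)) h1 (kg_od hc hr),
      PsiD, mul_comm (y * _) (_ / _), mul_comm y (_ / _), nf_mul c0 (M0 b), Nin_eq_N_mul]
    have := ofReal_ne_zero.2 (nf_pos (c : F)).ne'
    split_ifs
    · push_cast
      field_simp
    · simp
  · rw [kI, ← kg_inU hy]
    split_ifs with hd
    · rw [cub_recip hc fun h' => hd.left_ne bs_three (by rw [h', Subring.coe_zero]),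
        B3_inU_right _ hd]
      ring
    · simp
  · have h3 : (x - y) / (y * MF F ^ 3) = (x' - y) / (y * MF F ^ 3) +
        (x - x') / (c * MF F ^ b) * (c * MF F ^ b / (y * MF F ^ 3)) := by
      have := M0 b
      have := M0 3
      field_simp
      ring
    rw [h3]
    exact congrArg _ (if_congr (add_mem_cancel_right (mul_mem q h1)) rfl rfl)
  · exact kg_Hi hA ((kg_inU hy x).2 (ite_ne_right_iff.1 (right_ne_zero_of_mul hx)).1)
theorem uInv_PsiD (y : F) : UInv (PsiD y) := fun z u hu => by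
  have M0 : MF F ≠ 0 := MF_ne
  have h1 : y * MF F ^ 3 * (u * z) ∈ Od F ↔ y * MF F ^ 3 * z ∈ Od F := by
    rw [mul_left_comm]
    exact ⟨fun h => by simpa [hu.ne_zero bs_three] using Od_mul (hu.inv bs_three).mem h,
      Od_mul hu.mem⟩
  refine ite_congr (propext h1) (fun h => ?_) fun _ => rfl
  rw [show y * (u * z) = y * z + (u - 1) / MF F ^ 3 * (y * MF F ^ 3 * z) by field_simp; ring,
    psiL_add, psiL_of_Od (Od_mul hu h), mul_one]
theorem norm_PsiD_le (y z : F) : ‖PsiD y z‖ ≤ (nf (y * MF F ^ 3))⁻¹ := by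
  rw [PsiD]
  split_ifs
  · rw [norm_div, norm_psiL, norm_real, Real.norm_of_nonneg (nf_pos _).le, one_div]
  · rw [norm_zero]
    exact (inv_pos.2 (nf_pos _)).le
theorem PsiD_supp {y : F} (hy : y ≠ 0) : ∃ a : ℕ, ∀ z, PsiD y z ≠ 0 → Hi a z := by
  obtain ⟨A, hA⟩ := exists_Hi (y * MF F ^ 3)⁻¹
  refine ⟨A + 1, fun z hz => ?_⟩
  simpa only [inv_mul_cancel_left₀ (mul_ne_zero hy (pow_ne_zero 3 MF_ne))] using
    hA.mul (Hi_of_Od (ite_ne_right_iff.1 hz).1)

end Vale.Agent.P319B
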