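import Vale.Agent.P319B.Geo2
import Vale.Agent.P319B.Pois
import Vale.Agent.P319B.Units
import Vale.Agent.P319B.KubG

/-! Fourier coefficients of the smoothed Eisenstein series. -/

namespace Vale.Agent.P319B

open Complex NumberField MeasureTheory
open scoped Classical ComplexConjugate
open Vale.Agent.P026 (w kk fk)

variable {F : Type} [Field F] [NumberField F] [Ctx F]

theorem four_exp (A : ℕ) : ∃ C : ℝ, 0 < C ∧ ∀ a : Io F → ℝ, (∀ v, 0 < a v) → ∃ S : ℝ,
    HasSum (fun d : R F => if d ≠ 0 ∧ Hi A (d : F) then Real.exp (-∑ v, a v * sqv (d : F) v)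
      else 0) S ∧ S ≤ C * (∏ v, a v)⁻¹ := by
  obtain ⟨C, hC, h⟩ := box_sum (F := F) (pow_ne_zero A (Ctx0.M_ne (F := F)))
  refine ⟨4 ^ rr F * C, by positivity, fun a ha => ?_⟩
  obtain ⟨h1, h2⟩ := h a ha
  have h3 : ∀ d : R F, (if d ≠ 0 ∧ Hi A (d : F) then Real.exp (-∑ v, a v * sqv (d : F) v) else 0) ≤
      4 ^ rr F * if (d : F) ≠ 0 ∧ IsIntegral ℤ (((Ctx0.M F ^ A : ℕ) : F) * d) then
        ∏ v, ((1 + a v * sqv (d : F) v) ^ 2)⁻¹ else 0 := fun d => by
    by_cases hd : d ≠ 0 ∧ Hi A (d : F)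
    · rw [if_pos hd, if_pos ⟨fun h0 => hd.1 (Subtype.ext h0), int_of_Hi hd.2⟩,
        ← Finset.sum_neg_distrib, Real.exp_sum, rr, ← Finset.card_univ, ← Finset.prod_const,
        ← Finset.prod_mul_distrib]
      refine Finset.prod_le_prod (fun v _ => (Real.exp_pos _).le) fun v _ => ?_
      have h4 := mul_nonneg (ha v).le (sqv_nonneg (d : F) v)
      generalize a v * sqv (d : F) v = y at h4
      have h5 := Real.add_one_le_exp (y / 2)
      rw [← div_eq_mul_inv, Real.exp_neg, inv_eq_one_div, div_le_div_iff₀ (Real.exp_pos _)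
        (by positivity), ← add_halves y, Real.exp_add, add_halves]
      nlinarith
    · rw [if_neg hd]
      positivity
  have h4 := (h1.comp_injective (Subtype.val_injective (p := (· ∈ Rr F (Ctx0.M F))))).mul_left
    (4 ^ rr F)
  have h5 := h4.of_nonneg_of_le (fun d => by positivity) h3
  refine ⟨_, h5.hasSum, (h5.tsum_le_tsum h3 h4).trans ?_⟩
  rw [tsum_mul_left, mul_assoc, ← div_eq_mul_inv]
  exact mul_le_mul_of_nonneg_left ((tsum_comp_le_tsum_of_inj h1 (fun x => by positivity)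
    Subtype.val_injective).trans h2) (by positivity)
theorem four_int {g : (Io F → ℂ) → ℂ} (hg : Continuous g) (L : AddSubgroup F) :
    IntegrableOn g (FD L) :=
  (hg.continuousOn.integrableOn_compact (isBounded_FD L).isCompact_closure).mono_set subset_closure
theorem four_cont {D : Io F → ℝ} (hD : ∀ v, 0 < D v) (t E : Io F → ℝ) :
    Continuous fun z => sc t (pt z D E) :=
  (continuous_sc t).comp (continuousOn_pt.comp_continuous
    (f := fun z : Io F → ℂ => (z, D, E)) (by fun_prop) fun _ => hD)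
theorem four_eA (ξ : Io F → ℂ) : Continuous fun z => conj (eA ξ z) :=
  continuous_conj.comp (continuous_eA.comp (f := fun z => (ξ, z)) (by fun_prop))
theorem four_hasSum {k : R F → R F → ℂ} (hk : Bdd k) {t D E : Io F → ℝ} (ht : ∀ v, 0 < t v)
    (hD : ∀ v, 0 < D v) (hE : ∀ v, 0 < E v) (L : AddSubgroup F) (ξ : Io F → ℂ) :
    HasSum (fun x : R F × R F => ∫ z in FD L,
      k x.1 x.2 * (Real.exp (-hv (sc t (pt z D E)) x) : ℂ) * conj (eA ξ z))
      (∫ z in FD L, Es k (sc t (pt z D E)) * conj (eA ξ z)) := by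
  have hQ := fun z => (posQ_pt z hD hE).sc ht
  have h1 : ∀ x : R F × R F, IntegrableOn (fun z =>
      k x.1 x.2 * (Real.exp (-hv (sc t (pt z D E)) x) : ℂ) * conj (eA ξ z)) (FD L) := fun x => by
    have := (g2_cont x).comp (four_cont hD t E)
    exact four_int ((continuous_const.mul (continuous_ofReal.comp this.neg.rexp)).mul (four_eA ξ)) L
  have hk' : Bdd fun c d => (‖k c d‖ : ℂ) :=
    ⟨hk.1.imp fun B h c d => by simpa using h c d, hk.2.imp fun a h c d h0 => h c d (by simpa using h0)⟩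
  have h2 := four_int ((continuousOn_Es hk').comp_continuous (four_cont hD t E) hQ) L
  simp only [Es, ← tsum_mul_right]
  refine hasSum_integral_of_summable_integral_norm h1 (summable_of_sum_le
    (fun x => integral_nonneg fun z => norm_nonneg _) fun s =>
      (integral_finsetSum _ fun x _ => (h1 x).norm).symm.trans_le
        (integral_mono (integrable_finsetSum _ fun x _ => (h1 x).norm) h2.re fun z => ?_))
  refine le_of_eq_of_le (Finset.sum_congr rfl fun x _ => ?_) (sum_le_hasSum s (fun x _ => ?_)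
    (hasSum_re (summable_Es hk' (hQ z)).hasSum)) <;> rw [← ofReal_mul, ofReal_re]
  · simp only [norm_mul, RCLike.norm_conj, norm_eA, mul_one, norm_real,
      Real.norm_of_nonneg (Real.exp_pos _).le]
  · positivity
/-- One residue class, unfolded. -/
theorem four_class {b : ℕ} {t D : Io F → ℝ} (ht : ∀ v, 0 < t v) (hD : ∀ v, 0 < D v) (E : Io F → ℝ)
    {r : F} (hr : r ∈ dualL (Lb F b)) {c : F} (hc : c ≠ 0) (d : F) :
    ((∏ v, t v : ℝ) : ℂ) * ∑' y : Lb F b, ∫ z in FD (Lb F b), (Real.exp (-∑ v, t v * (D v *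
      normSq (v.1 c * z v + v.1 (d + c * y)) + sqv c v * E v / D v)) : ℂ) * conj (eA (emb r) z) =
      Real.pi ^ rr F * (eT (r * d / c) / Nin c * fkV r D E fun v => t v * sqv c v) := by
  have ha : ∀ v, 0 < t v * D v * sqv c v := fun v => mul_pos (mul_pos (ht v) (hD v)) (sqv_pos hc v)
  obtain ⟨h1, h2⟩ := FT_gauss ha (emb r)
  set g : (Io F → ℂ) → ℂ := fun z =>
    (Real.exp (-∑ v, t v * D v * sqv c v * normSq (z v)) : ℂ) * conj (eA (emb r) z) with hg
  have h3 : Integrable g := h1.mul_bdd (c := 1) (four_eA _).aestronglyMeasurable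
    (Filter.Eventually.of_forall fun z => by rw [RCLike.norm_conj, norm_eA])
  have e : ∀ (y : Lb F b) z, (Real.exp (-∑ v, t v * (D v * normSq (v.1 c * z v + v.1 (d + c * y)) +
      sqv c v * E v / D v)) : ℂ) * conj (eA (emb r) z) = eT (r * d / c) *
        (Real.exp (-∑ v, t v * sqv c v * E v / D v) : ℂ) * g (z + emb (y : F) + emb (d / c)) := by
    intro y z
    have e2 : ∀ v : Io F, t v * (D v * normSq (v.1 c * z v + v.1 (d + c * y)) +
        sqv c v * E v / D v) = t v * sqv c v * E v / D v +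
          t v * D v * sqv c v * normSq ((z + emb (y : F) + emb (d / c)) v) := fun v => by
      have : v.1 c * z v + v.1 (d + c * y) = v.1 c * (z + emb (y : F) + emb (d / c)) v := by
        have := (map_ne_zero v.1).2 hc
        simp only [Pi.add_apply, emb, map_add, map_mul, map_div₀]
        field_simp
        ring
      rw [this, normSq_mul, sqv]
      ring
    have e3 : eT (r * d / c) * conj (eT (r * d / c)) = 1 := by
      rw [mul_conj, normSq_eq_norm_sq, norm_eT]
      simp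
    simp only [hg, e2, Finset.sum_add_distrib, neg_add, Real.exp_add, ofReal_mul, eA_add,
      ← eT_eq_eA, mem_dualL.1 hr _ y.2, mul_one, map_mul, ← mul_div_assoc r]
    linear_combination (-(Real.exp (-∑ v, t v * sqv c v * E v / D v) : ℂ) *
      (Real.exp (-∑ v, t v * D v * sqv c v * normSq ((z + emb (y : F) + emb (d / c)) v)) : ℂ) *
        conj (eA (emb r) z)) * e3
  simp only [e, integral_const_mul]
  rw [tsum_mul_left, (integral_FD (isLat_Lb b) (h3.comp_add_right _)).tsum_eq,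
    integral_add_right_eq_self g, show ∫ z, g z = _ from h2, mul_left_comm, mul_assoc,
    div_mul_eq_mul_div, mul_div_assoc (eT _), mul_left_comm _ (eT _)]
  congr 1
  simp only [fkV, fk, Nin, ← ofReal_prod, rr, ← ofReal_mul, ← ofReal_div,
    ← Finset.sum_neg_distrib, Real.exp_sum, ← Finset.card_univ, ← Finset.prod_const,
    ← Finset.prod_mul_distrib, ← Finset.prod_div_distrib]
  refine congrArg _ (Finset.prod_congr rfl fun v _ => ?_)
  have := ht v
  have := hD v
  have := sqv_pos hc v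
  rw [sub_eq_add_neg, Real.exp_add, mul_pow, mul_pow, ← normSq_eq_norm_sq, mul_right_comm (t v) (D v),
    emb, show (2 : ℝ) ^ 2 = 4 by norm_num]
  field_simp
theorem four_row {k : R F → R F → ℂ} {b : ℕ} (hk : Adm k b) {r : F} (hr : r ∈ dualL (Lb F b))
    {c : R F} (hc : c ≠ 0) {G : F → ℂ} (hG : Summable fun d : R F => k c d * G d) {z K : ℂ}
    (h : ∀ d : F, z * ∑' y : Lb F b, G (d + c * y) = eT (r * d / c) * K) :
    z * ∑' d : R F, k c d * G d =
      qsum (lat (c : F) ((c : F) * MF F ^ b)) (fun d => ext0 (k c) d * eT (r * d / c)) * K := by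
  obtain ⟨A, hA⟩ := hk.1.2
  have hc' : (c : F) ≠ 0 := fun h => hc (Subtype.ext h)
  have hM : (MF F ^ A)⁻¹ ≠ 0 := inv_ne_zero (pow_ne_zero A MF_ne)
  have h1 : ∀ x, x ∈ lat (c : F) ((c : F) * MF F ^ b) ↔ x / c ∈ Lb F b := fun x => by
    rw [mem_lat, mem_Lb, Lo, div_div]
  have h2 : ∀ x : F, x ∈ lat 1 (MF F ^ A)⁻¹ ↔ x ∈ Rr F (Ctx0.M F) ∧ Hi A x := fun x => by
    rw [mem_lat, div_one, div_inv_eq_mul, mul_comm, Hi]
  have h3 : ∀ x, ∀ y ∈ Lb F b, ext0 (k c) (x + c * y) = ext0 (k c) x := fun x y hy => by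
    rw [mem_Lb] at hy
    by_cases hx : x ∈ Rr F (Ctx0.M F)
    · exact (ext0_coe _ (⟨x, hx⟩ + c * ⟨y, hy.1⟩)).trans
        ((hk.2 c ⟨x, hx⟩ ⟨y, hy.1⟩ hy.2).trans (ext0_coe _ ⟨x, hx⟩).symm)
    · rw [ext0_of_not hx, ext0_of_not fun h => hx (by simpa using sub_mem h (mul_mem c.2 hy.1))]
  obtain ⟨s, -, s1, s2, s3⟩ := exists_reps ((isLat_lat one_ne_zero hM).relIndex_ne
    (isLat_lat hc' (mul_ne_zero hc' (pow_ne_zero b MF_ne))))
  have h4 : ∀ x, ext0 (k c) x ≠ 0 → ∃ y ∈ s, x - y ∈ lat (c : F) ((c : F) * MF F ^ b) :=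
    fun x hx => by
      have h5 : x ∈ Rr F (Ctx0.M F) := not_not.1 (mt ext0_of_not hx)
      exact s3 x ((h2 x).2 ⟨h5, (hA c ⟨x, h5⟩ (ext0_coe (k c) ⟨x, h5⟩ ▸ hx)).2⟩)
  let i : s × Lb F b → R F := fun p => ⟨p.1 + c * p.2,
    add_mem ((h2 _).1 (s1 _ p.1.2)).1 (mul_mem c.2 (mem_Lb.1 p.2.2).1)⟩
  have hi : Function.Injective i := fun p q hpq => by
    have h5 : (p.1 : F) + c * p.2 = q.1 + c * q.2 := congrArg Subtype.val hpq
    have h6 : (p.1 : F) = q.1 := s2 _ p.1.2 _ q.1.2 ((h1 _).2 (by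
      rw [show ((p.1 : F) - q.1) / c = q.2 - p.2 by field_simp; linear_combination h5]
      exact sub_mem q.2.2 p.2.2))
    exact Prod.ext (Subtype.ext h6) (Subtype.ext (mul_left_cancel₀ hc' (by
      rwa [h6, add_right_inj] at h5)))
  rw [← hi.tsum_eq fun x hx => ?_, Summable.tsum_prod (by exact hG.comp_injective hi),
    tsum_fintype,
    qsum_eq_sum (fun x y hxy => ?_) s s2 fun x hx => h4 x (left_ne_zero_of_mul hx),
    Finset.mul_sum, Finset.sum_mul, ← Finset.sum_coe_sort s]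
  · refine Finset.sum_congr rfl fun d _ => ?_
    rw [mul_assoc, ← h, mul_left_comm, ← tsum_mul_left (a := ext0 _ _)]
    exact congrArg _ (tsum_congr fun y => congrArg (· * _)
      ((ext0_coe _ (i (d, y))).symm.trans (h3 _ _ y.2)))
  · have h5 : x = y + c * ((x - y) / c) := by field_simp; ring
    have h6 : r * x / c = r * ((x - y) / c) + r * y / c := by ring
    rw [h6, eT_add, mem_dualL.1 hr _ ((h1 _).1 hxy), one_mul, h5, h3 _ _ ((h1 _).1 hxy)]
  · obtain ⟨y, hy, hy'⟩ := h4 x (ext0_coe (k c) x ▸ left_ne_zero_of_mul hx)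
    exact ⟨(⟨y, hy⟩, ⟨_, (h1 _).1 hy'⟩), Subtype.ext (by
      show y + c * ((x - y) / c) = (x : F)
      field_simp
      ring)⟩

theorem integrableOn_nEs {k : R F → R F → ℂ} (hk : Bdd k) {t D E : Io F → ℝ} (ht : ∀ v, 0 < t v)
    (hD : ∀ v, 0 < D v) (hE : ∀ v, 0 < E v) (L : AddSubgroup F) (ξ : Io F → ℂ) :
    IntegrableOn (fun z => nEs k t (pt z D E) * conj (eA ξ z)) (FD L) :=
  four_int ((continuous_const.mul ((continuousOn_Es hk).comp_continuous (four_cont hD t E)
    fun z => (posQ_pt z hD hE).sc ht)).mul (four_eA ξ)) L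
theorem four_coef {k : R F → R F → ℂ} {b : ℕ} (hk : Adm k b) {t D E : Io F → ℝ}
    (ht : ∀ v, 0 < t v) (hD : ∀ v, 0 < D v) (hE : ∀ v, 0 < E v) {r : R F}
    (hr : (r : F) ∈ dualL (Lb F b)) :
    ∫ z in FD (Lb F b), nEs k t (pt z D E) * conj (eA (emb (r : F)) z) =
      (if r = 0 then (((∏ v, t v) ^ (4 / 3 : ℝ) * cov (Lb F b) : ℝ) : ℂ) *
          ∑' d : R F, k 0 d * (Real.exp (-∑ v, t v * D v * sqv (d : F) v) : ℂ) else 0)
        + (Real.pi : ℂ) ^ rr F * Rsum (aK k b r) (fkV (r : F) D E) t := by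
  have hS := four_hasSum hk.1 ht hD hE (Lb F b) (emb (r : F))
  have hs := hS.summable
  have hP : 0 < ∏ v, t v := Finset.prod_pos fun v _ => ht v
  simp only [nEs, mul_assoc (((∏ v, t v) ^ (4 / 3 : ℝ) : ℝ) : ℂ)]
  rw [integral_const_mul, ← hS.tsum_eq, hs.tsum_prod, hs.prod.tsum_eq_add_tsum_ite 0, mul_add]
  congr 1
  · have h := integral_eA (isLat_Lb b) (neg_mem hr)
    simp only [emb_neg, eA_comm (-_), eA_neg, eA_comm _ (emb (r : F)), neg_eq_zero,
      ZeroMemClass.coe_eq_zero] at h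
    simp only [hv_sc_pt t _ hD, integral_const_mul, h, tsum_mul_right, ZeroMemClass.coe_zero,
      map_zero, zero_mul, zero_add, sqv, zero_div, add_zero, mul_assoc (t _)]
    split_ifs
    · push_cast
      ring
    · simp
  · rw [Rsum, ← tsum_mul_left, ← tsum_mul_left, ← tsum_mul_left]
    refine tsum_congr fun c => ?_
    rw [aK]
    split_ifs with hc
    · simp
    · have h1 := hs.prod_factor c
      simp only [hv_sc_pt t _ hD, mul_assoc (k _ _), integral_const_mul] at h1 ⊢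
      have h2 := four_row hk hr hc (G := fun d => ∫ z in FD (Lb F b), (Real.exp (-∑ v, t v * (D v *
        normSq (v.1 (c : F) * z v + v.1 d) + sqv (c : F) v * E v / D v)) : ℂ) *
          conj (eA (emb (r : F)) z)) h1 (K := Real.pi ^ rr F / Nin (c : F) *
            fkV (r : F) D E fun v => t v * sqv (c : F) v) fun d =>
        (four_class ht hD E hr (fun h => hc (Subtype.ext h)) d).trans (by ring)
      rw [show (4 / 3 : ℝ) = 1 / 3 + 1 by norm_num, Real.rpow_add hP, Real.rpow_one, ofReal_mul,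
        mul_assoc, h2, gK]
      ring
/-- Absolute version. -/
theorem four_abs (A b : ℕ) : ∃ C : ℝ, 0 < C ∧ ∀ t D E : Io F → ℝ, (∀ v, 0 < t v) →
    (∀ v, 0 < D v) → (∀ v, 0 < E v) →
      ∫⁻ z in FD (Lb F b), ∑' x : R F × R F,
        (if x ≠ 0 ∧ Hi A (x.1 : F) ∧ Hi A (x.2 : F) then
          ENNReal.ofReal (Real.exp (-hv (sc t (pt z D E)) x)) else 0) ≤
        ENNReal.ofReal (C * ((∏ v, t v * D v)⁻¹ + (∏ v, t v ^ 2 * E v)⁻¹)) := by
  let k : R F → R F → ℂ := fun c d =>
    if (c, d) ≠ 0 ∧ Hi A (c : F) ∧ Hi A (d : F) then 1 else 0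
  have hk : Adm k b := ⟨⟨⟨1, fun c d => by simp only [k]; split_ifs <;> simp⟩, A, fun c d h =>
    (not_not.1 (mt (if_neg ·) h)).2⟩, fun c d y hy => if_congr ⟨fun h => ⟨fun h0 => h.1 (by
      rw [Prod.mk_eq_zero] at h0 ⊢
      simp [h0.1, h0.2]), h.2.1, by simpa using h.2.2.sub (h.2.1.mul (Hi_zero_iff.2 hy.mem))⟩,
    fun h => ⟨fun h0 => h.1 (by
      rw [Prod.mk_eq_zero] at h0 ⊢
      exact ⟨h0.1, by simpa [h0.1] using h0.2⟩), h.2.1,
        h.2.2.add (h.2.1.mul (Hi_zero_iff.2 hy.mem))⟩⟩ rfl rfl⟩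
  obtain ⟨h0, ⟨A', hA'⟩, B, hB⟩ := bdA_aK hk (r := 0) (zero_mem _)
  obtain ⟨C, hC, hC'⟩ := four_exp (F := F) A
  obtain ⟨C1, hC1, hC1'⟩ := four_exp (F := F) A'
  have hB0 : 0 ≤ B := (norm_nonneg _).trans (hB 0)
  have hV := cov_pos (isLat_Lb (F := F) b)
  refine ⟨cov (Lb F b) * C + Real.pi ^ rr F * (B * C1), by positivity, fun t D E ht hD hE => ?_⟩
  have hP : 0 < ∏ v, t v := Finset.prod_pos fun v _ => ht v
  have hQ := fun z => (posQ_pt z hD hE).sc ht
  let G : (Io F → ℂ) → ℝ := fun z => ∑' x : R F × R F, if x ≠ 0 ∧ Hi A (x.1 : F) ∧ Hi A (x.2 : F)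
    then Real.exp (-hv (sc t (pt z D E)) x) else 0
  have hG : ∀ z, Es k (sc t (pt z D E)) = G z := fun z => by
    rw [Es, ofReal_tsum]
    refine tsum_congr fun x => ?_
    simp only [k]
    split_ifs <;> simp
  have h1 := (four_int ((continuousOn_Es hk.1).comp_continuous (four_cont hD t E) hQ) (Lb F b)).re
  simp only [Function.comp, hG, RCLike.re_to_complex, ofReal_re] at h1
  have e1 : ∀ z, ∑' x : R F × R F, (if x ≠ 0 ∧ Hi A (x.1 : F) ∧ Hi A (x.2 : F) then
      ENNReal.ofReal (Real.exp (-hv (sc t (pt z D E)) x)) else 0) = ENNReal.ofReal (G z) :=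
    fun z => by
      rw [ENNReal.ofReal_tsum_of_nonneg (fun x => by positivity) ((summable_hv A
        (hQ z)).of_nonneg_of_le (fun x => by positivity) fun x => ?_)]
      · exact tsum_congr fun x => by split_ifs <;> simp
      · by_cases h : x ≠ 0 ∧ Hi A (x.1 : F) ∧ Hi A (x.2 : F)
        · rw [if_pos h, if_pos h.2]
        · rw [if_neg h]
          positivity
  simp only [e1]
  rw [← ofReal_integral_eq_lintegral_ofReal h1
    (Filter.Eventually.of_forall fun z => tsum_nonneg fun x => by positivity)]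
  refine ENNReal.ofReal_le_ofReal ?_
  have key := four_coef hk ht hD hE (r := 0) (zero_mem _)
  simp only [nEs, ZeroMemClass.coe_zero, emb_zero, eA_comm 0, eA_zero, map_one, mul_one, hG, if_true,
    ← ofReal_mul, integral_complex_ofReal, integral_const_mul, Rsum] at key
  obtain ⟨S, s1, s2⟩ := hC' (fun v => t v * D v) fun v => mul_pos (ht v) (hD v)
  obtain ⟨S', s3, s4⟩ := hC1' (fun v => t v * E v / D v) fun v =>
    div_pos (mul_pos (ht v) (hE v)) (hD v)
  have hD' : 0 < ∏ v, D v := Finset.prod_pos fun v _ => hD v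
  have hE' : 0 < ∏ v, E v := Finset.prod_pos fun v _ => hE v
  have b1 := (tsum_of_norm_bounded (f := fun d : R F =>
      k 0 d * (Real.exp (-∑ v, t v * D v * sqv (d : F) v) : ℂ)) s1 fun d => by
    simp only [k, ne_eq, Prod.mk_eq_zero, true_and, ZeroMemClass.coe_zero, Hi.zero]
    split_ifs <;> simp [-ofReal_exp]).trans s2
  have b2 := (tsum_of_norm_bounded (f := fun c : R F => aK k b 0 c * fkV (0 : F) D E
      fun v => t v * sqv (c : F) v) (s3.mul_left (B * (∏ v, D v)⁻¹)) fun c => by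
    by_cases h : aK k b 0 c = 0
    · rw [h, zero_mul, norm_zero]
      positivity
    · rw [if_pos ⟨fun h2 => h (h2 ▸ h0), hA' c h⟩, norm_mul, mul_assoc]
      refine mul_le_mul (hB c) (le_of_eq ?_) (norm_nonneg _) hB0
      simp only [fkV, fk, ← ofReal_prod, norm_real, map_zero, norm_zero, mul_zero, ne_eq,
        OfNat.ofNat_ne_zero, not_false_eq_true, zero_pow, zero_div, sub_zero,
        Finset.prod_mul_distrib, Finset.prod_inv_distrib, ← Real.exp_sum, Finset.sum_neg_distrib,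
        div_mul_eq_mul_div, mul_right_comm _ (E _)]
      exact Real.norm_of_nonneg (by positivity)).trans
    (mul_le_mul_of_nonneg_left s4 (by positivity))
  have b3 := (le_abs_self _).trans (((norm_real _).symm.trans (congrArg norm key)).trans_le
    (norm_add_le _ _))
  simp only [norm_mul, norm_pow, norm_real, Real.norm_of_nonneg Real.pi_pos.le,
    Real.norm_of_nonneg (Real.rpow_nonneg hP.le _), Real.norm_of_nonneg hV.le] at b3
  rw [show (4 / 3 : ℝ) = 1 / 3 + 1 by norm_num, Real.rpow_add hP, Real.rpow_one] at b3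
  have h4 : 0 < (∏ v, t v) ^ (1 / 3 : ℝ) := Real.rpow_pos_of_pos hP _
  refine le_of_mul_le_mul_left (b3.trans ((add_le_add (mul_le_mul_of_nonneg_left b1 (by positivity))
    (mul_le_mul_of_nonneg_left (mul_le_mul_of_nonneg_left b2 h4.le) (by positivity))).trans ?_))
      (mul_pos h4 hP)
  simp only [Finset.prod_mul_distrib, Finset.prod_div_distrib, Finset.prod_pow]
  rw [← sub_nonneg]
  refine le_of_le_of_eq (b := (∏ v, t v) ^ (1 / 3 : ℝ) * (cov (Lb F b) * C / ((∏ v, t v) * ∏ v, E v)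
    + Real.pi ^ rr F * (B * C1) / ∏ v, D v)) (by positivity) ?_
  field_simp
  ring
/-- The degenerate term is small. -/
theorem four_zero_le {k : R F → R F → ℂ} (hk : Bdd k) : ∃ C : ℝ, 0 < C ∧ ∀ a : Io F → ℝ,
    (∀ v, 0 < a v) → ‖∑' d : R F, k 0 d * (Real.exp (-∑ v, a v * sqv (d : F) v) : ℂ)‖ ≤
      C * (1 + (∏ v, a v)⁻¹) := by
  obtain ⟨⟨B, hB⟩, A, hA⟩ := hk
  obtain ⟨C, hC, h⟩ := four_exp (F := F) A
  have h0 : 0 ≤ B := (norm_nonneg _).trans (hB 0 0)
  refine ⟨(B + 1) * (C + 1), by positivity, fun a ha => ?_⟩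
  obtain ⟨S, h1, h2⟩ := h a ha
  have hP : 0 < (∏ v, a v)⁻¹ := inv_pos.2 (Finset.prod_pos fun v _ => ha v)
  refine (tsum_of_norm_bounded (((hasSum_ite_eq (0 : R F) (1 : ℝ)).add h1).mul_left B)
    fun d => ?_).trans ?_
  swap
  · nlinarith [mul_le_mul_of_nonneg_left h2 h0, mul_nonneg h0 hC.le, mul_nonneg h0 hP.le,
      mul_nonneg hC.le hP.le]
  rw [norm_mul, norm_real, Real.norm_of_nonneg (Real.exp_pos _).le]
  by_cases hd : d = 0
  · simpa [hd, sqv] using hB 0 0
  · by_cases h3 : k 0 d = 0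
    · rw [h3, norm_zero, zero_mul]
      positivity
    · rw [if_neg hd, if_pos ⟨hd, (hA _ _ h3).2⟩, zero_add]
      exact mul_le_mul_of_nonneg_right (hB _ _) (Real.exp_pos _).le

end Vale.Agent.P319B
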