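import Vale.Agent.P319B.BS

/-! Gauss sums of an abstract residue symbol. -/

namespace Vale.Agent.P319B

open Complex NumberField
open scoped Classical ComplexConjugate

variable {F : Type} [Field F] [NumberField F] [Ctx0 F]

/-- The properties of a residue symbol used for Gauss sums. -/
structure ga_Sym (f : R F → R F → ℂ) : Prop where
  mul_left : ∀ a b c, f (a * b) c = f a c * f b c
  mul_right : ∀ a c d, c ≠ 0 → d ≠ 0 → f a (c * d) = f a c * f a d
  congr : ∀ a b c, c ∣ a - b → f a c = f b c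
  one_left : ∀ c, f 1 c = 1
  unit_right : ∀ a u, IsUnit u → f a u = 1
  norm : ∀ a c, IsCoprime a c → ‖f a c‖ = 1
  zero : ∀ a c, c ≠ 0 → ¬ IsCoprime a c → f a c = 0
  ne : ∀ p, Prime p → ∃ a, ¬ p ∣ a ∧ f a p ≠ 1

theorem ga_cop {p a : R F} (hp : Prime p) (ha : ¬ p ∣ a) : IsCoprime a p :=
  ((hp.irreducible.coprime_iff_not_dvd).2 ha).symm

theorem ga_not_cop {p a : R F} (hp : Prime p) (ha : p ∣ a) : ¬ IsCoprime a p := fun h =>
  (hp.irreducible.coprime_iff_not_dvd).1 h.symm ha

theorem ga_ab_ne {c : R F} (hc : c ≠ 0) : (ab c : ℂ) ≠ 0 := by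
  exact_mod_cast (ab_pos hc).ne'

theorem ga_ab_sq (c : R F) : (ab c : ℂ) * ab c = N c := by
  rw [← ab_sq]; push_cast; ring

theorem ga_unit_cop {u : R F} (hu : IsUnit u) (c : R F) : IsCoprime u c :=
  let ⟨v, hv⟩ := hu.exists_left_inv
  ⟨v, 0, by rw [hv, zero_mul, add_zero]⟩

/-- Induction on squarefree elements. -/
theorem ga_ind {Pr : R F → Prop} (h1 : ∀ u, IsUnit u → Pr u)
    (hm : ∀ p x, Prime p → Squarefree x → ¬ p ∣ x → Pr x → Pr (p * x)) {c : R F}
    (hc : Squarefree c) : Pr c := by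
  induction c using UniqueFactorizationMonoid.induction_on_prime with
  | h₁ => exact absurd hc not_squarefree_zero
  | h₂ x hx => exact h1 x hx
  | h₃ a p _ hp ih =>
    exact hm p a hp hc.of_mul_right (fun h => hp.not_isUnit (hc p (mul_dvd_mul_left p h)))
      (ih hc.of_mul_right)

theorem ga_cub : ga_Sym (cub (F := F)) where
  mul_left := cub_mul_left
  mul_right a _ _ hc hd := cub_mul_right a hc hd
  congr _ _ _ h := cub_congr h
  one_left := cub_one_left
  unit_right a _ hu := cub_unit_right hu a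
  norm _ _ h := norm_cub h
  zero _ _ hc h := (cub_eq_zero hc).2 h
  ne _ hp := exists_cub_ne hp

theorem ga_chi (j : ℕ) : ga_Sym (chi (F := F) j) where
  mul_left := chi_mul_left j
  mul_right a _ _ hc hd := chi_mul_right j a hc hd
  congr _ _ _ h := chi_congr j h
  one_left := chi_one_left j
  unit_right a _ hu := by rw [chi, cub_unit_right hu, quad_unit_right hu, one_pow, one_mul]
  norm _ _ h := norm_chi j h
  zero _ _ hc h := (chi_eq_zero j hc).2 h
  ne p hp := by
    obtain ⟨a, ha, hq⟩ := exists_quad_ne hp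
    refine ⟨a, ha, fun h => ?_⟩
    have h3 := cub_cube (ga_cop hp ha)
    have h4 : chi j a p ^ 3 = -1 := by
      rw [chi, hq, mul_pow, ← pow_mul, mul_comm j 3, pow_mul, h3]; norm_num
    rw [h] at h4
    norm_num at h4

/-- Picking out one residue class. -/
theorem ga_pick {c : R F} (hc : c ≠ 0) {G : R F → ℂ} (hG : Pe c G) (y : R F) :
    ∑ x ∈ res c, (if c ∣ x - y then G x else 0) = G y := by
  rw [← r2_single hc hG y]
  exact Finset.sum_congr rfl fun x _ => if_congr dvd_sub_comm rfl rfl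

namespace ga_Sym

variable {f : R F → R F → ℂ}

theorem per (hf : ga_Sym f) (c : R F) : Pe c fun x => f x c := fun _ _ h => hf.congr _ _ _ h

theorem gauss_unit (hf : ga_Sym f) {u : R F} (hu : IsUnit u) (h : R F) :
    gauss (fun x => f x u) u h = 1 := by
  rw [gauss, sum_res_unit hu ((hf.per u).mul (pe_psi u h)), hf.unit_right _ _ hu, mul_zero,
    psi_of_dvd (dvd_zero u), one_mul]

theorem gauss_mul (hf : ga_Sym f) {c d : R F} (hc0 : c ≠ 0) (hd0 : d ≠ 0) (hcd : IsCoprime c d)
    (h : R F) : gauss (fun x => f x (c * d)) (c * d) h =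
      f c d * f d c * gauss (fun x => f x c) c h * gauss (fun x => f x d) d h := by
  unfold gauss
  rw [sum_res_crt hc0 hd0 hcd ((hf.per (c * d)).mul (pe_psi (c * d) h)), mul_assoc,
    Finset.sum_mul_sum, Finset.mul_sum]
  refine Finset.sum_congr rfl fun u _ => ?_
  rw [Finset.mul_sum]
  refine Finset.sum_congr rfl fun v _ => ?_
  have e1 : f (d * u + c * v) c = f d c * f u c := by
    rw [← hf.mul_left]; exact hf.congr _ _ _ ⟨v, by ring⟩
  have e2 : f (d * u + c * v) d = f c d * f v d := by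
    rw [← hf.mul_left]; exact hf.congr _ _ _ ⟨u, by ring⟩
  have e3 : psi (c * d) (h * (d * u + c * v)) = psi c (h * u) * psi d (h * v) := by
    rw [show h * (d * u + c * v) = d * (h * u) + c * (h * v) by ring, psi_add,
      psi_mul_left hd0, mul_comm c d, psi_mul_left hc0]
  rw [hf.mul_right _ _ _ hc0 hd0, e1, e2, e3]; ring

theorem gauss_unit_mul (hf : ga_Sym f) {s c : R F} (hs : IsUnit s) (hc : c ≠ 0) (h : R F) :
    gauss (fun x => f x (s * c)) (s * c) h = f s c * gauss (fun x => f x c) c h := by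
  rw [hf.gauss_mul hs.ne_zero hc (ga_unit_cop hs c), hf.gauss_unit hs, hf.unit_right _ _ hs,
    mul_one, mul_one]

theorem sum_zero (hf : ga_Sym f) {p : R F} (hp : Prime p) : ∑ x ∈ res p, f x p = 0 := by
  obtain ⟨a, ha, hne⟩ := hf.ne p hp
  have h := sum_res_affine hp.ne_zero (hf.per p) (ga_cop hp ha) 0
  simp only [add_zero, hf.mul_left] at h
  rw [← Finset.mul_sum] at h
  have h2 : (f a p - 1) * ∑ x ∈ res p, f x p = 0 := by linear_combination h
  exact (mul_eq_zero.1 h2).resolve_left (sub_ne_zero.2 hne)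

theorem gauss_cop (hf : ga_Sym f) {c a : R F} (hc : c ≠ 0) (hh : IsCoprime a c) (r : R F) :
    gauss (fun x => f x c) c (r * a) = conj (f a c) * gauss (fun x => f x c) c r := by
  have e := sum_res_affine hc ((hf.per c).mul (pe_psi c r)) hh 0
  simp only [add_zero, hf.mul_left] at e
  unfold gauss
  rw [← e, Finset.mul_sum]
  refine Finset.sum_congr rfl fun x _ => ?_
  rw [mul_assoc r a x]
  linear_combination (-(f x c * psi c (r * (a * x)))) * bs_conj (hf.norm _ _ hh)

theorem gauss_prime (hf : ga_Sym f) {p : R F} (hp : Prime p) (h : R F) :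
    gauss (fun x => f x p) p h = conj (f h p) * gauss (fun x => f x p) p 1 := by
  by_cases hh : p ∣ h
  · rw [hf.zero _ _ hp.ne_zero (ga_not_cop hp hh), map_zero, zero_mul, ← hf.sum_zero hp]
    refine Finset.sum_congr rfl fun x _ => ?_
    rw [psi_of_dvd (hh.mul_right x), mul_one]
  · rw [← hf.gauss_cop hp.ne_zero (ga_cop hp hh), one_mul]

theorem gauss_eq (hf : ga_Sym f) {c : R F} (hc : Squarefree c) (h : R F) :
    gauss (fun x => f x c) c h = conj (f h c) * gauss (fun x => f x c) c 1 := by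
  refine ga_ind (Pr := fun c => gauss (fun x => f x c) c h =
    conj (f h c) * gauss (fun x => f x c) c 1) (fun u hu => ?_) ?_ hc
  · show gauss (fun x => f x u) u h = conj (f h u) * gauss (fun x => f x u) u 1
    rw [hf.gauss_unit hu, hf.gauss_unit hu, hf.unit_right _ _ hu, map_one, mul_one]
  · intro p x hp hx hpx ih
    have hcop := (ga_cop hp hpx).symm
    rw [hf.gauss_mul hp.ne_zero hx.ne_zero hcop, hf.gauss_mul hp.ne_zero hx.ne_zero hcop,
      hf.gauss_prime hp h, ih, hf.mul_right _ _ _ hp.ne_zero hx.ne_zero, map_mul]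
    ring

theorem gauss_mul_conj (hf : ga_Sym f) {c : R F} (hc : Squarefree c) :
    gauss (fun x => f x c) c 1 * conj (gauss (fun x => f x c) c 1) = N c := by
  have hc0 := hc.ne_zero
  have e1 : gauss (fun x => f x c) c 1 * conj (gauss (fun x => f x c) c 1) =
      ∑ y ∈ res c, gauss (fun x => f x c) c y * psi c (-y) := by
    have e0 : conj (gauss (fun x => f x c) c 1) = ∑ y ∈ res c, conj (f y c) * psi c (-y) := by
      rw [gauss, map_sum]
      refine Finset.sum_congr rfl fun y _ => ?_
      rw [map_mul, one_mul, psi_neg]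
    rw [e0, Finset.mul_sum]
    refine Finset.sum_congr rfl fun y _ => ?_
    rw [hf.gauss_eq hc y]
    ring
  have e2 : ∑ y ∈ res c, gauss (fun x => f x c) c y * psi c (-y) =
      ∑ x ∈ res c, f x c * ∑ y ∈ res c, psi c ((x - 1) * y) := by
    simp only [gauss, Finset.sum_mul, Finset.mul_sum]
    rw [Finset.sum_comm]
    refine Finset.sum_congr rfl fun x _ => Finset.sum_congr rfl fun y _ => ?_
    rw [mul_assoc, ← psi_add, show y * x + -y = (x - 1) * y by ring]
  rw [e1, e2]
  simp only [sum_psi hc0, mul_ite, mul_zero]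
  rw [ga_pick hc0 ((hf.per c).mul (H := fun _ => (N c : ℂ)) fun _ _ _ => rfl) 1,
    hf.one_left c, one_mul]

theorem norm_gauss (hf : ga_Sym f) {c : R F} (hc : Squarefree c) :
    ‖gauss (fun x => f x c) c 1 / (ab c : ℂ)‖ = 1 := by
  have h := hf.gauss_mul_conj hc
  rw [mul_conj, normSq_eq_norm_sq, ← ab_sq] at h
  have h2 : ‖gauss (fun x => f x c) c 1‖ ^ 2 = ab c ^ 2 := by exact_mod_cast h
  have h3 := (pow_left_inj₀ (norm_nonneg _) (ab_nonneg c) two_ne_zero).1 h2
  rw [norm_div, h3, norm_real, Real.norm_of_nonneg (ab_nonneg c), div_self (ab_pos hc.ne_zero).ne']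

end ga_Sym

theorem ga_sum_sq {p : R F} (hp : Prime p) {G : R F → ℂ} (hG : Pe p G) :
    ∑ t ∈ res p, G (t ^ 2) = ∑ y ∈ res p, (1 + quad y p) * G y := by
  simp only [← card_sqrt hp, Finset.card_filter, Nat.cast_sum, Finset.sum_mul, Nat.cast_ite,
    Nat.cast_one, Nat.cast_zero, ite_mul, one_mul, zero_mul]
  rw [Finset.sum_comm]
  exact Finset.sum_congr rfl fun x _ => (r2_single hp.ne_zero hG _).symm

theorem ga_J {p : R F} (hp : Prime p) :
    ∑ x ∈ res p, cub x p * cub (1 - x) p = ab p * g3 p ^ 3 := by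
  have h0 := ga_ab_ne hp.ne_zero
  have h := gauss_cub_cube hp
  rw [← ga_ab_sq] at h
  rw [g3, div_pow, h]
  field_simp

/-- The mixed Jacobi sum. -/
theorem ga_jacobi {p : R F} (hp : Prime p) :
    ∑ y ∈ res p, quad y p * cub (1 - y) p = cub 4 p * (ab p * g3 p ^ 3) := by
  have h0 := hp.ne_zero
  have hF : Pe p fun y => cub (1 - y) p :=
    fun x y h => cub_congr (by rw [sub_sub_sub_cancel_left]; exact dvd_sub_comm.1 h)
  have hG : Pe p fun t => cub (1 - t ^ 2) p :=
    fun x y h => cub_congr (by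
      rw [show 1 - x ^ 2 - (1 - y ^ 2) = (x - y) * (-(x + y)) by ring]; exact h.mul_right _)
  have e1 := ga_sum_sq hp hF
  have e2 := sum_res_affine h0 hG (ga_unit_cop isUnit_two.neg p) 1
  have e3 : ∑ x ∈ res p, cub (1 - (-2 * x + 1) ^ 2) p =
      cub 4 p * ∑ x ∈ res p, cub x p * cub (1 - x) p := by
    rw [Finset.mul_sum]
    refine Finset.sum_congr rfl fun x _ => ?_
    rw [← cub_mul_left, ← cub_mul_left, show 1 - (-2 * x + 1) ^ 2 = 4 * (x * (1 - x)) by ring]
  have e4 : ∑ y ∈ res p, cub (1 - y) p = 0 := by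
    rw [← ga_cub.sum_zero hp,
      ← sum_res_affine h0 (ga_cub.per p) (isCoprime_one_left.neg_left) 1]
    refine Finset.sum_congr rfl fun x _ => ?_
    rw [show -1 * x + 1 = 1 - x by ring]
  simp only [add_mul, one_mul, Finset.sum_add_distrib] at e1
  rw [e4, zero_add, ← e2, e3, ga_J hp] at e1
  exact e1.symm

theorem ga_conv {p : R F} (hp : Prime p) (t : R F) :
    ∑ y ∈ res p, quad y p * cub (t - y) p = chi 1 t p * (cub 4 p * (ab p * g3 p ^ 3)) := by
  have h0 := hp.ne_zero
  by_cases ht : p ∣ t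
  · rw [(ga_chi 1).zero _ _ h0 (ga_not_cop hp ht), zero_mul, ← (ga_chi 1).sum_zero hp]
    refine Finset.sum_congr rfl fun y _ => ?_
    rw [chi, pow_one, mul_comm, ← cub_neg_left y,
      cub_congr (a := t - y) (b := -y) (by simpa using ht)]
  · have hF : Pe p fun y => cub (t - y) p :=
      fun x y h => cub_congr (by rw [sub_sub_sub_cancel_left]; exact dvd_sub_comm.1 h)
    rw [← sum_res_affine h0 (Pe.mul (G := fun y => quad y p) (fun _ _ h => quad_congr h) hF)
      (ga_cop hp ht) 0, ← ga_jacobi hp, Finset.mul_sum]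
    refine Finset.sum_congr rfl fun y _ => ?_
    rw [add_zero, show t - t * y = t * (1 - y) by ring, cub_mul_left, quad_mul_left, chi, pow_one]
    ring

/-- Product of the cubic and the quadratic Gauss sums. -/
theorem ga_prod {p : R F} (hp : Prime p) :
    gauss (fun x => chi 0 x p) p 1 * gauss (fun x => cub x p) p 1 =
      cub 4 p * (ab p * g3 p ^ 3) * gauss (fun x => chi 1 x p) p 1 := by
  have h0 := hp.ne_zero
  unfold gauss
  simp only [one_mul, chi_zero_eq]
  rw [Finset.sum_mul_sum]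
  have e1 : ∀ y ∈ res p, ∑ x ∈ res p, quad y p * psi p y * (cub x p * psi p x) =
      ∑ t ∈ res p, quad y p * cub (t - y) p * psi p t := by
    intro y _
    have hF : Pe p fun t => quad y p * cub (t - y) p * psi p t := fun a b h => by
      beta_reduce
      rw [cub_congr (a := a - y) (b := b - y) (by simpa using h), psi_congr h]
    rw [← sum_res_affine h0 hF isCoprime_one_left y]
    refine Finset.sum_congr rfl fun x _ => ?_
    rw [one_mul, add_sub_cancel_right, psi_add]; ring
  rw [Finset.sum_congr rfl e1, Finset.sum_comm, Finset.mul_sum]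
  refine Finset.sum_congr rfl fun t _ => ?_
  rw [← Finset.sum_mul, ga_conv hp]; ring

theorem ga_rel {G : R F → ℂ} (hG : ∀ p q, Prime p → Associated p q → G p = G q)
    {s t : Multiset (R F)} (h : Multiset.Rel Associated s t) (hs : ∀ p ∈ s, Prime p) :
    (s.map G).prod = (t.map G).prod := by
  induction h with
  | zero => rfl
  | cons h1 _ ih =>
    rw [Multiset.map_cons, Multiset.map_cons, Multiset.prod_cons, Multiset.prod_cons,
      hG _ _ (hs _ (Multiset.mem_cons_self _ _)) h1,
      ih fun p hp => hs p (Multiset.mem_cons_of_mem hp)]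

theorem ga_cubs {x y : R F} (hx : x ≠ 0) (hy : y ≠ 0) :
    cub x y ^ 2 * cub y x ^ 2 = cub x y * B3 (x : F) y := by
  rw [cub_recip hx hy]
  linear_combination B3 (x : F) y ^ 2 * cub_pow_four y x

end Vale.Agent.P319B
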