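import Vale.Agent.P319B.Ring
import Vale.Agent.P319B.Arch

/-! Auxiliary facts for the norms: the M part of rationals, the two ideals of an integer. -/

namespace Vale.Agent.P319B

open Complex NumberField
open scoped Classical ComplexConjugate

theorem nrmA_pos (M : ℕ) (q : ℚ) : 0 < partM M q :=
  Finset.prod_pos fun l hl => zpow_pos (by exact_mod_cast (Nat.prime_of_mem_primeFactors hl).pos) _

theorem nrmA_one (M : ℕ) : partM M 1 = 1 := by simp [partM]

theorem nrmA_zero (M : ℕ) : partM M 0 = 1 := by simp [partM]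

theorem nrmA_abs (M : ℕ) (q : ℚ) : partM M |q| = partM M q := by
  rcases abs_choice q with h | h <;> simp [h, partM]

theorem nrmA_mul (M : ℕ) {q r : ℚ} (hq : q ≠ 0) (hr : r ≠ 0) :
    partM M (q * r) = partM M q * partM M r := by
  rw [partM, partM, partM, ← Finset.prod_mul_distrib]
  refine Finset.prod_congr rfl fun l hl => ?_
  have hp := Nat.prime_of_mem_primeFactors hl
  have := Fact.mk hp
  rw [padicValRat.mul hq hr, zpow_add₀ (by exact_mod_cast hp.ne_zero)]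

theorem nrmA_inv (M : ℕ) (q : ℚ) : partM M q⁻¹ = (partM M q)⁻¹ := by
  rw [partM, partM, ← Finset.prod_inv_distrib]
  refine Finset.prod_congr rfl fun l hl => ?_
  have := Fact.mk (Nat.prime_of_mem_primeFactors hl)
  rw [padicValRat.inv, zpow_neg]

theorem nrmA_coprime {M n : ℕ} (h : n.Coprime M) : partM M (n : ℚ) = 1 := by
  refine Finset.prod_eq_one fun l hl => ?_
  have hp := Nat.prime_of_mem_primeFactors hl
  have : ¬ l ∣ n := fun hd =>
    hp.one_lt.ne' (Nat.eq_one_of_dvd_coprimes h hd (Nat.dvd_of_mem_primeFactors hl))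
  rw [padicValRat.of_nat, padicValNat.eq_zero_of_not_dvd this]
  simp

theorem nrmA_dvd {M n k : ℕ} (hM : M ≠ 0) (h : n ∣ M ^ k) : partM M (n : ℚ) = n := by
  have hn : n ≠ 0 := fun h0 => pow_ne_zero k hM (by simpa [h0] using h)
  have hs : n.factorization.support ⊆ M.primeFactors := by
    intro l hl
    rw [Nat.support_factorization] at hl
    have hp := Nat.prime_of_mem_primeFactors hl
    exact Nat.mem_primeFactors.2
      ⟨hp, hp.dvd_of_dvd_pow ((Nat.dvd_of_mem_primeFactors hl).trans h), hM⟩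
  have h1 := Nat.prod_factorization_pow_eq_self hn
  rw [Finsupp.prod_of_support_subset _ hs _ (by simp)] at h1
  conv_rhs => rw [← h1]
  rw [partM, Nat.cast_prod]
  refine Finset.prod_congr rfl fun l hl => ?_
  rw [padicValRat.of_nat, zpow_natCast, Nat.factorization_def _ (Nat.prime_of_mem_primeFactors hl),
    Nat.cast_pow]

theorem nrmA_one_le (M n : ℕ) : 1 ≤ partM M (n : ℚ) :=
  Finset.prod_induction _ (fun x : ℝ => 1 ≤ x) (fun _ _ => one_le_mul_of_one_le_of_one_le) le_rfl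
    fun l hl => one_le_zpow₀
    (by exact_mod_cast (Nat.prime_of_mem_primeFactors hl).one_le) (zero_le_padicValRat_of_nat n)

section coe
variable {F : Type} [Field F]

theorem nrmC_add (a b : 𝓞 F) : ((a + b : 𝓞 F) : F) = a + b := map_add (algebraMap _ _) a b
theorem nrmC_mul (a b : 𝓞 F) : ((a * b : 𝓞 F) : F) = a * b := map_mul (algebraMap _ _) a b
theorem nrmC_nat (m : ℕ) : ((m : 𝓞 F) : F) = m := map_natCast (algebraMap (𝓞 F) F) m
theorem nrmC_int (m : ℤ) : ((m : 𝓞 F) : F) = m := map_intCast (algebraMap (𝓞 F) F) m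
theorem nrmC_ex {x : F} (h : IsIntegral ℤ x) : ∃ z : 𝓞 F, (z : F) = x := ⟨⟨x, h⟩, rfl⟩

end coe

variable {F : Type} [Field F] [NumberField F] [Ctx0 F]

/-- The integers x with x / c in the subring S. -/
def nrmId (S : Subring F) (hS : ∀ x : F, IsIntegral ℤ x → x ∈ S) (c : F) : Ideal (𝓞 F) where
  carrier := {x | (x : F) / c ∈ S}
  zero_mem' := by simp
  add_mem' := by
    intro a b ha hb
    have : ((a + b : 𝓞 F) : F) / c = (a : F) / c + (b : F) / c := by
      rw [nrmC_add, add_div]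
    show ((a + b : 𝓞 F) : F) / c ∈ S
    rw [this]
    exact add_mem ha hb
  smul_mem' := by
    intro r a ha
    have : ((r • a : 𝓞 F) : F) / c = (r : F) * ((a : F) / c) := by
      rw [smul_eq_mul, nrmC_mul, mul_div_assoc]
    show ((r • a : 𝓞 F) : F) / c ∈ S
    rw [this]
    exact mul_mem (hS _ r.isIntegral_coe) ha

/-- The ideal prime to M. -/
def nrmI (c : F) : Ideal (𝓞 F) := nrmId (Rr F (Ctx0.M F)) (fun _ => int_mem_R) c
/-- The ideal supported at M. -/
def nrmJ (c : F) : Ideal (𝓞 F) := nrmId (Ol F) (fun _ => int_mem_Ol) c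

theorem mem_nrmI {c : F} {x : 𝓞 F} : x ∈ nrmI c ↔ (x : F) / c ∈ Rr F (Ctx0.M F) := Iff.rfl
theorem mem_nrmJ {c : F} {x : 𝓞 F} : x ∈ nrmJ c ↔ (x : F) / c ∈ Ol F := Iff.rfl

theorem nrmI_nat (c : F) : ∃ m : ℕ, m.Coprime (Ctx0.M F) ∧ (m : 𝓞 F) ∈ nrmI c := by
  obtain ⟨m, h1, h2⟩ := exists_mul_mem_R c⁻¹
  refine ⟨m, h1, ?_⟩
  rw [mem_nrmI, nrmC_nat, div_eq_mul_inv]
  exact h2

theorem nrmJ_nat (c : F) : ∃ a : ℕ, ((Ctx0.M F ^ a : ℕ) : 𝓞 F) ∈ nrmJ c := by
  obtain ⟨a, h⟩ := exists_Hi c⁻¹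
  refine ⟨a, ?_⟩
  rw [mem_nrmJ, nrmC_nat, div_eq_mul_inv, Nat.cast_pow]
  exact h

theorem nrmI_coprime (c : F) : (Ideal.absNorm (nrmI c)).Coprime (Ctx0.M F) := by
  obtain ⟨m, h1, h2⟩ := nrmI_nat c
  have := Ideal.absNorm_dvd_absNorm_of_le ((Ideal.span_singleton_le_iff_mem _).2 h2)
  rw [Ideal.absNorm_span_natCast] at this
  exact Nat.Coprime.coprime_dvd_left this (h1.pow_left _)

theorem nrmJ_dvd (c : F) : ∃ k : ℕ, Ideal.absNorm (nrmJ c) ∣ Ctx0.M F ^ k := by
  obtain ⟨a, h2⟩ := nrmJ_nat c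
  have := Ideal.absNorm_dvd_absNorm_of_le ((Ideal.span_singleton_le_iff_mem _).2 h2)
  rw [Ideal.absNorm_span_natCast, ← pow_mul] at this
  exact ⟨_, this⟩

theorem nrm_ne_zero {m : ℕ} (h : m.Coprime (Ctx0.M F)) : m ≠ 0 := by
  rintro rfl
  have := six_le_M (F := F)
  rw [Nat.coprime_zero_left] at h
  omega

theorem nrm_bezout {a b : ℕ} (h : a.Coprime b) : ∃ u v : ℤ, u * a + v * b = 1 :=
  Nat.isCoprime_iff_coprime.2 h

theorem nrmI_mul_nrmJ {c : 𝓞 F} (hc : c ≠ 0) :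
    nrmI (c : F) * nrmJ (c : F) = Ideal.span {c} := by
  have hc' : (c : F) ≠ 0 := RingOfIntegers.coe_ne_zero_iff.2 hc
  obtain ⟨m, h1, h2⟩ := nrmI_nat (c : F)
  obtain ⟨a, h3⟩ := nrmJ_nat (c : F)
  obtain ⟨u, v, huv⟩ := nrm_bezout (h1.pow_right a)
  have hco : IsCoprime (nrmI (c : F)) (nrmJ (c : F)) :=
    Ideal.isCoprime_iff_exists.2 ⟨u * m, Ideal.mul_mem_left _ _ h2, v * (Ctx0.M F ^ a : ℕ),
      Ideal.mul_mem_left _ _ h3, by exact_mod_cast congrArg (Int.cast : ℤ → 𝓞 F) huv⟩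
  rw [Ideal.mul_eq_inf_of_isCoprime hco]
  ext x
  rw [Ideal.mem_inf, mem_nrmI, mem_nrmJ, Ideal.mem_span_singleton]
  constructor
  · rintro ⟨k1, k2⟩
    obtain ⟨z, hz⟩ := nrmC_ex (int_of_mem k1 k2)
    refine ⟨z, RingOfIntegers.ext ?_⟩
    rw [nrmC_mul, hz, mul_div_cancel₀ _ hc']
  · rintro ⟨y, rfl⟩
    rw [nrmC_mul, mul_div_cancel_left₀ _ hc']
    exact ⟨int_mem_R y.isIntegral_coe, int_mem_Ol y.isIntegral_coe⟩

theorem nrm_abs_norm (c : 𝓞 F) :
    |Algebra.norm ℚ (c : F)| = ((Ideal.absNorm (Ideal.span {c}) : ℕ) : ℚ) := by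
  have h := Nin_eq_absNorm c
  rw [Nin_eq] at h
  exact_mod_cast h

theorem nrm_nf_int {c : 𝓞 F} (hc : c ≠ 0) : nf (c : F) = (Ideal.absNorm (nrmJ (c : F)) : ℝ) := by
  obtain ⟨k, hk⟩ := nrmJ_dvd (c : F)
  have h1 := nrmI_coprime (c : F)
  have h2 : Ideal.absNorm (nrmJ (c : F)) ≠ 0 := fun h0 =>
    pow_ne_zero k (Ctx0.M_ne (F := F)) (by simpa [h0] using hk)
  rw [nf, ← nrmA_abs, nrm_abs_norm, ← nrmI_mul_nrmJ hc, map_mul, Nat.cast_mul,
    nrmA_mul _ (by exact_mod_cast nrm_ne_zero h1) (by exact_mod_cast h2), nrmA_coprime h1,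
    nrmA_dvd Ctx0.M_ne hk, one_mul]

theorem nrm_NF_int {c : 𝓞 F} (hc : c ≠ 0) : NF (c : F) = (Ideal.absNorm (nrmI (c : F)) : ℝ) := by
  have h0 : 0 < nf (c : F) := nrmA_pos _ _
  rw [NF, div_eq_iff h0.ne', Nin_eq_absNorm, nrm_nf_int hc, ← nrmI_mul_nrmJ hc, map_mul,
    Nat.cast_mul]

/-- The inclusion of the integers into R. -/
def nrmInc : 𝓞 F →+* R F :=
  (algebraMap (𝓞 F) F).codRestrict (Rr F (Ctx0.M F)) fun x => int_mem_R x.isIntegral_coe

theorem nrm_Nn {c : R F} (hc : c ≠ 0) : Nn c = Ideal.absNorm (nrmI (c : F)) := by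
  have e1 : (Ideal.span {c}).toAddSubgroup.comap (nrmInc (F := F)).toAddMonoidHom =
      (nrmI (c : F)).toAddSubgroup := by
    ext x
    show nrmInc x ∈ Ideal.span {c} ↔ x ∈ nrmI (c : F)
    rw [Ideal.mem_span_singleton, dvd_iff_div hc, mem_nrmI]
    rfl
  have e2 : (nrmInc (F := F)).toAddMonoidHom.range ⊔ (Ideal.span {c}).toAddSubgroup = ⊤ := by
    rw [eq_top_iff]
    intro x _
    obtain ⟨k, hk⟩ := mem_Rr.1 x.2
    obtain ⟨m, h1, h2⟩ := nrmI_nat (c : F)
    obtain ⟨u, v, huv⟩ := nrm_bezout (h1.pow_right k)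
    have hm : c ∣ (m : R F) := by
      rw [dvd_iff_div hc]
      simpa [mem_nrmI] using h2
    obtain ⟨z, hz⟩ := nrmC_ex hk
    refine AddSubgroup.mem_sup.2 ⟨nrmInc (v * z), ⟨_, rfl⟩, x * u * m, ?_, ?_⟩
    · exact Ideal.mem_span_singleton.2 (hm.mul_left _)
    · apply Subtype.ext
      have h3 : (u : F) * m + v * MF F ^ k = 1 := by
        have := congrArg (Int.cast : ℤ → F) huv
        push_cast at this
        exact this
      have h4 : ((nrmInc (v * z) : R F) : F) = v * (MF F ^ k * x) := by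
        show ((v * z : 𝓞 F) : F) = _
        rw [nrmC_mul, nrmC_int, hz]
      rw [Subring.coe_add, h4]
      push_cast
      linear_combination (x : F) * h3
  rw [Ideal.absNorm_eq_index, ← e1, AddSubgroup.index_comap, ← AddSubgroup.relIndex_sup_right, e2,
    AddSubgroup.relIndex_top_right]
  rfl

theorem mem_locL' {y x : F} : x ∈ locL y ↔ x / y ∈ Ol F := by
  rw [div_eq_mul_inv]
  rfl

theorem nrm_relIndex {y : F} (hy : y ≠ 0) {a : 𝓞 F} (ha : a ≠ 0) :
    (locL (y * a)).relIndex (locL y) = Ideal.absNorm (nrmJ (a : F)) := by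
  have ha' : (a : F) ≠ 0 := RingOfIntegers.coe_ne_zero_iff.2 ha
  set f : 𝓞 F →+ F := (AddMonoidHom.mulRight y).comp (algebraMap (𝓞 F) F).toAddMonoidHom with hf
  have hfa : ∀ x, f x = (x : F) * y := fun x => rfl
  have e1 : (locL (y * a)).comap f = (nrmJ (a : F)).toAddSubgroup := by
    ext x
    show f x ∈ locL (y * a) ↔ x ∈ nrmJ (a : F)
    rw [mem_locL', mem_nrmJ, hfa]
    have : (x : F) * y / (y * a) = (x : F) / a := by field_simp
    rw [this]
  have e2 : f.range ⊔ locL (y * a) = locL y := by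
    apply le_antisymm
    · refine sup_le ?_ fun x hx => ?_
      · rintro _ ⟨x, rfl⟩
        rw [mem_locL', hfa, mul_div_cancel_right₀ _ hy]
        exact int_mem_Ol x.isIntegral_coe
      · rw [mem_locL'] at hx ⊢
        have : x / y = x / (y * a) * a := by field_simp
        rw [this]
        exact mul_mem hx (int_mem_Ol a.isIntegral_coe)
    · intro x hx
      rw [mem_locL'] at hx
      obtain ⟨m, h1, h2⟩ := mem_Ol.1 hx
      obtain ⟨k, hk⟩ := nrmJ_nat (a : F)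
      obtain ⟨u, v, huv⟩ := nrm_bezout (h1.pow_right k)
      have h3 : (u : F) * m + v * ((Ctx0.M F ^ k : ℕ) : F) = 1 := by
        have := congrArg (Int.cast : ℤ → F) huv
        push_cast at this ⊢
        exact this
      rw [mem_nrmJ, nrmC_nat] at hk
      obtain ⟨z, hz⟩ := nrmC_ex h2
      refine AddSubgroup.mem_sup.2 ⟨f (u * z), ⟨_, rfl⟩,
        x * v * ((Ctx0.M F ^ k : ℕ) : F), ?_, ?_⟩
      · rw [mem_locL']
        have : x * v * ((Ctx0.M F ^ k : ℕ) : F) / (y * a) =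
            x / y * v * (((Ctx0.M F ^ k : ℕ) : F) / a) := by field_simp
        rw [this]
        exact mul_mem (mul_mem hx (intCast_mem _ v)) hk
      · rw [hfa, nrmC_mul, nrmC_int, hz]
        have : (m : F) * (x / y) * y = m * x := by field_simp
        linear_combination x * h3 + u * this
  rw [Ideal.absNorm_eq_index, ← e1, AddSubgroup.index_comap, ← e2,
    AddSubgroup.relIndex_sup_right]

end Vale.Agent.P319B
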