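import Vale.Agent.P319B.Ring
import Vale.Agent.P319B.Arch
import Vale.Agent.P319B.NormA

/-! The norms nf, NF, N. -/

namespace Vale.Agent.P319B

open Complex NumberField
open scoped Classical ComplexConjugate
open Vale.Agent.P026 (w kk fk)

theorem nrm_card_mod {Q : Type} [CommRing Q] [Finite Q] {p : ℕ} (hp : p.Prime) {z : Q}
    (h1 : z ^ p = 1) (h2 : IsUnit (z - 1)) : Nat.card Q ≡ 1 [MOD p] := by
  have := Fact.mk hp
  have := Fintype.ofFinite Q
  let f : Function.End Q := fun x => z * x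
  have hk : ∀ k : ℕ, f ^ k = fun x => z ^ k * x := by
    intro k
    induction k with
    | zero =>
      funext x
      rw [pow_zero, pow_zero, one_mul]
      rfl
    | succ k ih =>
      funext x
      rw [pow_succ', Function.End.mul_def, ih, pow_succ', mul_assoc]
      rfl
  have hf : f ^ p ^ 1 = 1 := by
    rw [hk, pow_one, h1]
    funext x
    rw [one_mul]
    rfl
  have h3 := Equiv.Perm.card_fixedPoints_modEq hf
  have h4 : Function.fixedPoints f = {0} := by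
    ext x
    rw [Function.mem_fixedPoints_iff, Set.mem_singleton_iff]
    show z * x = x ↔ x = 0
    rw [← h2.mul_right_eq_zero, sub_mul, one_mul, sub_eq_zero]
  rw [← Nat.card_eq_fintype_card, ← Nat.card_eq_fintype_card, h4] at h3
  simpa using h3

variable {F : Type} [Field F] [NumberField F] [Ctx0 F]

omit [Ctx0 F] in
theorem nrm_norm_ne {x : F} (hx : x ≠ 0) : Algebra.norm ℚ x ≠ 0 := Algebra.norm_ne_zero_iff.2 hx

omit [Ctx0 F] in
theorem nrm_norm_nat (m : ℕ) : Algebra.norm ℚ (m : F) = ((m ^ dg F : ℕ) : ℚ) := by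
  rw [← map_natCast (algebraMap ℚ F) m, Algebra.norm_algebraMap, Nat.cast_pow]

theorem nf_pos (z : F) : 0 < nf z := nrmA_pos _ _
theorem nf_one : nf (1 : F) = 1 := by rw [nf, map_one, nrmA_one]
theorem nf_neg (x : F) : nf (-x) = nf x := by
  have h := Nin_neg x
  rw [Nin_eq, Nin_eq] at h
  have h2 : |Algebra.norm ℚ (-x)| = |Algebra.norm ℚ x| := by exact_mod_cast h
  rw [nf, nf, ← nrmA_abs, h2, nrmA_abs]
theorem nf_mul {x y : F} (hx : x ≠ 0) (hy : y ≠ 0) : nf (x * y) = nf x * nf y := by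
  rw [nf, map_mul, nrmA_mul _ (nrm_norm_ne hx) (nrm_norm_ne hy), nf, nf]
theorem nf_inv (x : F) : nf x⁻¹ = (nf x)⁻¹ := by
  rcases eq_or_ne x 0 with rfl | hx
  · rw [inv_zero, nf, Algebra.norm_zero, nrmA_zero, inv_one]
  · have h := nf_mul hx (inv_ne_zero hx)
    rw [mul_inv_cancel₀ hx, nf_one] at h
    exact eq_inv_of_mul_eq_one_right h.symm
theorem nf_div {x y : F} (hx : x ≠ 0) (hy : y ≠ 0) : nf (x / y) = nf x / nf y := by
  rw [div_eq_mul_inv, nf_mul hx (inv_ne_zero hy), nf_inv, div_eq_mul_inv]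
theorem nf_pow {x : F} (hx : x ≠ 0) (k : ℕ) : nf (x ^ k) = nf x ^ k := by
  induction k with
  | zero => rw [pow_zero, pow_zero, nf_one]
  | succ k ih => rw [pow_succ, nf_mul (pow_ne_zero k hx) hx, ih, pow_succ]
theorem nf_MF : nf (MF F) = (Ctx0.M F : ℝ) ^ dg F := by
  rw [nf, MF, nrm_norm_nat, nrmA_dvd Ctx0.M_ne dvd_rfl, Nat.cast_pow]

theorem nrm_nf_nat {m : ℕ} (h : m.Coprime (Ctx0.M F)) : nf (m : F) = 1 := by
  rw [nf, nrm_norm_nat, nrmA_coprime (h.pow_left _)]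

theorem one_le_nf {z : F} (h : z ∈ Ol F) : 1 ≤ nf z := by
  rcases eq_or_ne z 0 with rfl | hz
  · rw [nf, Algebra.norm_zero, nrmA_zero]
  obtain ⟨m, h1, h2⟩ := mem_Ol.1 h
  obtain ⟨a, ha⟩ := nrmC_ex h2
  have hm : (m : F) ≠ 0 := Nat.cast_ne_zero.2 (nrm_ne_zero h1)
  have h3 : nf (a : F) = nf z := by rw [ha, nf_mul hm hz, nrm_nf_nat h1, one_mul]
  rw [← h3, nf, ← nrmA_abs, nrm_abs_norm]
  exact nrmA_one_le _ _
theorem nf_olU {z : F} (h : OlU z) : nf z = 1 := by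
  have h1 := one_le_nf h.2.2
  rw [nf_inv, one_le_inv₀ (nf_pos z)] at h1
  exact le_antisymm h1 (one_le_nf h.2.1)
theorem nf_eq_of_inU {e : ℕ} (he : 1 ≤ e) {x y : F} (h : InU e (x / y)) : nf x = nf y := by
  have h1 := nf_olU (h.olU he)
  rw [nf_div (h.left_ne he) (h.right_ne he), div_eq_one_iff_eq (nf_pos y).ne'] at h1
  exact h1
theorem nf_le_of_div {x y : F} (hx : x ≠ 0) (hy : y ≠ 0) (h : x / y ∈ Ol F) : nf y ≤ nf x := by
  have h1 := one_le_nf h
  rwa [nf_div hx hy, one_le_div (nf_pos y)] at h1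
theorem nf_ge_of_Hi {a : ℕ} {z : F} (hz : z ≠ 0) (h : Hi a z) :
    1 ≤ ((Ctx0.M F : ℝ) ^ dg F) ^ a * nf z := by
  have h1 := one_le_nf h
  rwa [nf_mul (pow_ne_zero a MF_ne) hz, nf_pow MF_ne, nf_MF] at h1
theorem Nin_eq_NF_mul (z : F) : Nin z = NF z * nf z := by
  rw [NF, div_mul_cancel₀ _ (nf_pos z).ne']
theorem NF_nonneg (z : F) : 0 ≤ NF z := div_nonneg (Nin_nonneg z) (nf_pos z).le
theorem NF_pos {z : F} (hz : z ≠ 0) : 0 < NF z := div_pos (Nin_pos hz) (nf_pos z)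
theorem NF_one : NF (1 : F) = 1 := by rw [NF, Nin_one, nf_one, div_one]
theorem nrm_NF_zero : NF (0 : F) = 0 := by rw [NF, Nin_zero, zero_div]
theorem NF_mul (x y : F) : NF (x * y) = NF x * NF y := by
  rcases eq_or_ne x 0 with rfl | hx
  · rw [zero_mul, nrm_NF_zero, zero_mul]
  rcases eq_or_ne y 0 with rfl | hy
  · rw [mul_zero, nrm_NF_zero, mul_zero]
  rw [NF, NF, NF, Nin_mul, nf_mul hx hy, div_mul_div_comm]
theorem NF_inv (x : F) : NF x⁻¹ = (NF x)⁻¹ := by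
  rw [NF, NF, Nin_inv, nf_inv, inv_div, inv_div_inv]
theorem NF_div (x y : F) : NF (x / y) = NF x / NF y := by
  rw [div_eq_mul_inv, NF_mul, NF_inv, div_eq_mul_inv]
theorem Nin_eq_N_mul (c : R F) : Nin (c : F) = N c * nf (c : F) := Nin_eq_NF_mul _

theorem nrm_NF_MF : NF (MF F) = 1 := by
  rw [NF, nf_MF, MF, Nin_natCast, div_self]
  exact pow_ne_zero _ (Nat.cast_ne_zero.2 Ctx0.M_ne)

theorem nrm_NF_pow (x : F) (k : ℕ) : NF (x ^ k) = NF x ^ k := by
  induction k with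
  | zero => rw [pow_zero, pow_zero, NF_one]
  | succ k ih => rw [pow_succ, NF_mul, ih, pow_succ]

theorem nrm_coe_ne {c : R F} (hc : c ≠ 0) : (c : F) ≠ 0 := fun h => hc (Subtype.ext h)

theorem nrm_N {c : R F} (hc : c ≠ 0) : N c = (Ideal.absNorm (nrmI (c : F)) : ℝ) := by
  obtain ⟨k, hk⟩ := mem_Rr.1 c.2
  obtain ⟨a, ha⟩ := nrmC_ex hk
  have hM : MF F ^ k ≠ 0 := pow_ne_zero k MF_ne
  have ha0 : a ≠ 0 := by
    rintro rfl
    exact mul_ne_zero hM (nrm_coe_ne hc) ha.symm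
  have h1 : nrmI (c : F) = nrmI (a : F) := by
    ext x
    rw [mem_nrmI, mem_nrmI, ha]
    constructor
    · intro h
      have : (x : F) / (MF F ^ k * c) = (MF F)⁻¹ ^ k * ((x : F) / c) := by
        rw [inv_pow, div_mul_eq_div_div_swap, div_eq_inv_mul]
      rw [this]
      exact mul_mem (pow_mem MF_inv_mem_R k) h
    · intro h
      have : (x : F) / c = MF F ^ k * ((x : F) / (MF F ^ k * c)) := by
        rw [div_mul_eq_div_div_swap, mul_div_cancel₀ _ hM]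
      rw [this]
      exact mul_mem (pow_mem (natCast_mem _ _) k) h
  rw [h1, ← nrm_NF_int ha0, ha, NF_mul, nrm_NF_pow, nrm_NF_MF, one_pow, one_mul, N]

theorem nrm_one_le {c : R F} (hc : c ≠ 0) : 1 ≤ N c := by
  rw [nrm_N hc]
  exact_mod_cast Nat.one_le_iff_ne_zero.2 (nrm_ne_zero (nrmI_coprime (c : F)))

theorem nrm_unit {u : R F} (h : IsUnit u) : N u = 1 := by
  obtain ⟨v, hv⟩ := h.exists_right_inv
  have hv0 : v ≠ 0 := right_ne_zero_of_mul_eq_one hv
  have h1 : N u * N v = 1 := by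
    rw [N, N, ← NF_mul, ← Subring.coe_mul, hv, Subring.coe_one, NF_one]
  have h2 := nrm_one_le h.ne_zero
  have h3 := nrm_one_le hv0
  nlinarith

theorem Nin_ge_of_Hi {a : ℕ} {c : R F} (hc : c ≠ 0) (h : Hi a (c : F)) :
    1 ≤ ((Ctx0.M F : ℝ) ^ dg F) ^ a * Nin (c : F) := by
  have h1 := nf_ge_of_Hi (nrm_coe_ne hc) h
  rw [Nin_eq_N_mul, mul_left_comm]
  exact one_le_mul_of_one_le_of_one_le (nrm_one_le hc) h1
theorem Nin_of_inU {u : R F} (hu : IsUnit u) {e : ℕ} (he : 1 ≤ e) (h : InU e (u : F)) :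
    Nin (u : F) = 1 := by
  rw [Nin_eq_N_mul, nrm_unit hu, nf_olU (h.olU he), one_mul]

theorem N_nonneg (x : R F) : 0 ≤ N x := NF_nonneg _
theorem N_mul (x y : R F) : N (x * y) = N x * N y := NF_mul _ _
theorem N_pow (x : R F) (k : ℕ) : N (x ^ k) = N x ^ k := by
  rw [N, N, ← nrm_NF_pow, Subring.coe_pow]
@[simp] theorem N_zero : N (0 : R F) = 0 := nrm_NF_zero
@[simp] theorem N_one : N (1 : R F) = 1 := NF_one
@[simp] theorem N_neg (x : R F) : N (-x) = N x := by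
  rw [N, N, NF, NF, Subring.coe_neg, Nin_neg, nf_neg]
theorem N_eq_zero {x : R F} : N x = 0 ↔ x = 0 := by
  refine ⟨fun h => by_contra fun hx => ?_, fun h => h ▸ N_zero⟩
  exact (NF_pos (nrm_coe_ne hx)).ne' h
theorem N_pos {x : R F} (h : x ≠ 0) : 0 < N x := NF_pos (nrm_coe_ne h)
theorem one_le_N {x : R F} (h : x ≠ 0) : 1 ≤ N x := nrm_one_le h
theorem N_le_of_dvd {x y : R F} (hy : y ≠ 0) (h : x ∣ y) : N x ≤ N y := by
  obtain ⟨z, rfl⟩ := h
  rw [N_mul]
  exact le_mul_of_one_le_right (N_nonneg x) (one_le_N (right_ne_zero_of_mul hy))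
theorem N_unit {u : R F} (h : IsUnit u) : N u = 1 := nrm_unit h
theorem N_assoc {x y : R F} (h : Associated x y) : N x = N y := by
  obtain ⟨u, rfl⟩ := h
  rw [N_mul, N_unit u.isUnit, mul_one]
theorem ab_nonneg (x : R F) : 0 ≤ ab x := Real.sqrt_nonneg _
theorem ab_sq (x : R F) : ab x ^ 2 = N x := Real.sq_sqrt (N_nonneg x)
theorem ab_mul (x y : R F) : ab (x * y) = ab x * ab y := by
  rw [ab, N_mul, Real.sqrt_mul (N_nonneg x), ab, ab]
theorem ab_pow (x : R F) (k : ℕ) : ab (x ^ k) = ab x ^ k := by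
  induction k with
  | zero => rw [pow_zero, pow_zero, ab, N_one, Real.sqrt_one]
  | succ k ih => rw [pow_succ, ab_mul, ih, pow_succ]
theorem ab_pos {x : R F} (h : x ≠ 0) : 0 < ab x := Real.sqrt_pos.2 (N_pos h)
theorem one_le_ab {x : R F} (h : x ≠ 0) : 1 ≤ ab x := Real.one_le_sqrt.2 (one_le_N h)
theorem ab_one : ab (1 : R F) = 1 := by rw [ab, N_one, Real.sqrt_one]
theorem ab_unit {u : R F} (h : IsUnit u) : ab u = 1 := by rw [ab, N_unit h, Real.sqrt_one]
theorem finite_quot {c : R F} (hc : c ≠ 0) : Finite (R F ⧸ Ideal.span {c}) := by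
  refine Nat.finite_of_card_ne_zero ?_
  have h := nrm_Nn hc
  rw [Nn] at h
  rw [h]
  exact nrm_ne_zero (nrmI_coprime (c : F))
theorem N_eq_Nn {c : R F} (hc : c ≠ 0) : N c = (Nn c : ℝ) := by rw [nrm_N hc, nrm_Nn hc]
theorem Nn_coprime {c : R F} (hc : c ≠ 0) : (Nn c).Coprime (Ctx0.M F) := by
  rw [nrm_Nn hc]
  exact nrmI_coprime _
theorem isUnit_iff_N {u : R F} : IsUnit u ↔ N u = 1 := by
  refine ⟨N_unit, fun h => ?_⟩
  have hu : u ≠ 0 := by
    rintro rfl
    simp at h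
  rw [N_eq_Nn hu, Nat.cast_eq_one, Nn, Nat.card_eq_one_iff_unique] at h
  rw [← Ideal.span_singleton_eq_top]
  exact Ideal.Quotient.subsingleton_iff.1 h.1
theorem Nn_mod_six {c : R F} (hc : c ≠ 0) : Nn c % 6 = 1 := by
  have := finite_quot hc
  set φ := Ideal.Quotient.mk (Ideal.span {c})
  have h2 : Nn c ≡ 1 [MOD 2] := by
    refine nrm_card_mod Nat.prime_two (z := -1) (by simp) ?_
    have h := (isUnit_two (F := F)).neg.map φ
    have e : φ (-2) = -1 - 1 := by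
      rw [map_neg, map_ofNat]
      ring
    rwa [e] at h
  have h3 : Nn c ≡ 1 [MOD 3] := by
    refine nrm_card_mod Nat.prime_three (z := φ (omR F)) ?_ ?_
    · have e : omR F ^ 3 = 1 := by linear_combination (omR F - 1) * omR_eq (F := F)
      rw [← map_pow, e, map_one]
    · have e : (omR F - 1) * (omR F + 2) = -3 := by linear_combination omR_eq (F := F)
      have h := (isUnit_three (F := F)).neg
      rw [← e] at h
      have h' := (isUnit_of_mul_isUnit_left h).map φ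
      rwa [map_sub, map_one] at h'
  unfold Nat.ModEq at h2 h3
  omega
theorem seven_le_N {c : R F} (hc : c ≠ 0) (h : ¬ IsUnit c) : 7 ≤ N c := by
  rw [isUnit_iff_N, N_eq_Nn hc, Nat.cast_eq_one] at h
  have h1 := Nn_mod_six hc
  have h2 : 7 ≤ Nn c := by omega
  rw [N_eq_Nn hc]
  exact_mod_cast h2
/-- The ideal of the ring of integers attached to an element of R. -/
theorem exists_ideal {c : R F} (hc : c ≠ 0) : ∃ I : Ideal (𝓞 F), I ≠ ⊥ ∧
    IsCoprime I (Ideal.span {((Ctx0.M F : ℕ) : 𝓞 F)}) ∧ (Ideal.absNorm I : ℝ) = N c ∧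
    ∀ x : 𝓞 F, x ∈ I ↔ (x : F) / (c : F) ∈ Rr F (Ctx0.M F) := by
  refine ⟨nrmI (c : F), ?_, ?_, (nrm_N hc).symm, fun x => mem_nrmI⟩
  · exact fun h => nrm_ne_zero (nrmI_coprime (c : F)) (Ideal.absNorm_eq_zero_iff.2 h)
  · obtain ⟨m, h1, h2⟩ := nrmI_nat (c : F)
    obtain ⟨u, v, huv⟩ := nrm_bezout h1
    exact Ideal.isCoprime_iff_exists.2 ⟨u * m, Ideal.mul_mem_left _ _ h2, v * (Ctx0.M F : ℕ),
      Ideal.mul_mem_left _ _ (Ideal.mem_span_singleton_self _),
      by exact_mod_cast congrArg (Int.cast : ℤ → 𝓞 F) huv⟩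
/-- The index of a local lattice. -/
theorem relIndex_locL {y z : F} (hy : y ≠ 0) (hz : z ≠ 0) (h : z / y ∈ Ol F) :
    (((locL z).relIndex (locL y) : ℕ) : ℝ) = nf z / nf y := by
  obtain ⟨m, h1, h2⟩ := mem_Ol.1 h
  obtain ⟨a, ha⟩ := nrmC_ex h2
  have hm : (m : F) ≠ 0 := Nat.cast_ne_zero.2 (nrm_ne_zero h1)
  have ha0 : a ≠ 0 := by
    rintro rfl
    exact mul_ne_zero hm (div_ne_zero hz hy) ha.symm
  have e : y * a = m * z := by
    rw [ha]
    field_simp
  have e1 : locL z = locL (y * a) := by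
    ext x
    rw [mem_locL', mem_locL', e]
    constructor
    · intro hx
      have : x / (m * z) = (m : F)⁻¹ * (x / z) := by field_simp
      rw [this]
      exact mul_mem (nat_inv_mem_Ol h1) hx
    · intro hx
      have : x / z = m * (x / (m * z)) := by field_simp
      rw [this]
      exact mul_mem (natCast_mem _ _) hx
  rw [e1, nrm_relIndex hy ha0, ← nrm_nf_int ha0, ha, nf_mul hm (div_ne_zero hz hy),
    nrm_nf_nat h1, one_mul, nf_div hz hy]

theorem norm_nit (t : ℝ) (c : R F) : ‖nit t c‖ = 1 :=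
  Complex.norm_exp_I_mul_ofReal _
theorem nit_mul (t : ℝ) {c d : R F} (hc : c ≠ 0) (hd : d ≠ 0) :
    nit t (c * d) = nit t c * nit t d := by
  rw [nit, nit, nit, ← Complex.exp_add, N_mul, Real.log_mul (N_pos hc).ne' (N_pos hd).ne']
  congr 1
  push_cast
  ring
theorem nit_add (t s : ℝ) (c : R F) : nit (t + s) c = nit t c * nit s c := by
  rw [nit, nit, nit, ← Complex.exp_add]
  congr 1
  push_cast
  ring
theorem norm_W (Y t : ℝ) (c : R F) : ‖W Y t c‖ = w (N c / Y) := by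
  rw [W, norm_mul, norm_nit, mul_one, Complex.norm_real, Real.norm_eq_abs]
  exact abs_of_pos (Real.exp_pos _)
theorem W_mul (Y t : ℝ) {c d : R F} (hc : c ≠ 0) (hd : d ≠ 0) :
    W Y t (d * c) = nit t d * W (Y / N d) t c := by
  rw [W, W, nit_mul t hd hc, N_mul, div_div_eq_mul_div, mul_comm (N c)]
  ring
theorem W_eq_Wt (Y t : ℝ) (c : R F) : W Y t c = Wt Y t (N c) := rfl

end Vale.Agent.P319B
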