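import Vale.Agent.P319B.TDef
import Vale.Agent.P319B.Norm
import Vale.Agent.P026.Geo

/-! The action on tuples of Hermitian forms. -/

namespace Vale.Agent.P319B

open Complex NumberField MeasureTheory
open scoped Classical ComplexConjugate
open Vale.Agent.P026 (w kk fk)

variable {F : Type} [Field F] [NumberField F] [Ctx0 F]

theorem geo1_pos {c d : ℂ} (h : c ≠ 0 ∨ d ≠ 0) {q : P026.HF} (h0 : 0 < q.2.2) (h1 : 0 < dlt q) :
    0 < P026.hq q c d := by
  refine pos_of_mul_pos_left (a := P026.hq q c d) (b := q.2.2) ?_ h0.le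
  rw [mul_comm, P026.geo_D_mul_hq]
  by_cases hc : c = 0
  · simp only [hc, mul_zero, zero_add, normSq_zero, zero_mul, add_zero]
    exact normSq_pos.2 (mul_ne_zero (ofReal_ne_zero.2 h0.ne') (h.resolve_left fun h2 => h2 hc))
  · exact add_pos_of_nonneg_of_pos (normSq_nonneg _) (mul_pos (normSq_pos.2 hc) h1)
theorem geo1_act {a b c d : ℂ} (h : c ≠ 0 ∨ d ≠ 0) (z : ℂ) {D E : ℝ} (hD : 0 < D) (hE : 0 < E) :
    P026.actC a b c d (P026.pt z D E) =
      P026.pt (((D : ℂ) * (a * z + b) * conj (c * z + d) + a * conj c * ((E / D : ℝ) : ℂ)) /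
          ((D * normSq (c * z + d) + normSq c * E / D : ℝ) : ℂ))
        (D * normSq (c * z + d) + normSq c * E / D) (normSq (a * d - b * c) * E) := by
  have h1 : (P026.actC a b c d (P026.pt z D E)).2.2 = _ := P026.hq_pt z hD.ne' E c d
  have h2 : (P026.actC a b c d (P026.pt z D E)).2.1 = (D : ℂ) * (a * z + b) *
      conj (c * z + d) + a * conj c * ((E / D : ℝ) : ℂ) := by
    simp only [P026.actC, P026.pt, map_add, map_mul, conj_ofReal, ofReal_add, ofReal_mul,
      ← mul_conj]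
    ring
  have h3 := P026.geo_det a b c d (P026.pt z D E)
  rw [P026.geo_pt_det z hD.ne'] at h3
  have h5 := P026.eq_pt (Q := P026.actC a b c d (P026.pt z D E))
    (geo1_pos h hD (hE.trans_eq (P026.geo_pt_det z hD.ne' E).symm))
  rwa [h3, h1, h2] at h5
theorem geo1_det (g : GM F) (v : Io F) :
    v.1 (g.a : F) * v.1 (g.d : F) - v.1 (g.b : F) * v.1 (g.c : F) = v.1 ((g.u : R F) : F) := by
  rw [← g.det]
  simp
theorem geo1_ne (g : GM F) (v : Io F) : v.1 (g.c : F) ≠ 0 ∨ v.1 (g.d : F) ≠ 0 := by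
  by_contra h
  push Not at h
  have h1 := geo1_det g v
  rw [h.1, h.2, mul_zero, mul_zero, sub_zero, eq_comm, map_eq_zero] at h1
  exact g.u.ne_zero (Subtype.ext h1)
theorem geo1_cont : Continuous dlt := by
  unfold dlt
  fun_prop
theorem geo1_exh {X ι : Type} [NormedAddCommGroup X] [ProperSpace X] [Fintype ι] {f g : ι → X → ℝ}
    (hf : ∀ i, Continuous (f i)) (hg : ∀ i, Continuous (g i)) {C S : Set X} (hC : IsClosed C)
    (hS : ∀ x, x ∈ S ↔ ((∀ i, 0 < f i x) ∧ ∀ i, 0 < g i x) ∧ x ∈ C) : ∃ K : ℕ → Set X,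
    (∀ n, IsCompact (K n) ∧ K n ⊆ S) ∧ Monotone K ∧ ⋃ n, K n = S := by
  let K : ℕ → Set X := fun n => Metric.closedBall 0 n ∩
    (((⋂ i, {x | 1 / ((n : ℝ) + 1) ≤ f i x}) ∩ ⋂ i, {x | 1 / ((n : ℝ) + 1) ≤ g i x}) ∩ C)
  have h1 : ∀ n, K n ⊆ S := fun n x hx => (hS x).2
    ⟨⟨fun i => Nat.one_div_pos_of_nat.trans_le (Set.mem_iInter.1 hx.2.1.1 i),
      fun i => Nat.one_div_pos_of_nat.trans_le (Set.mem_iInter.1 hx.2.1.2 i)⟩, hx.2.2⟩
  refine ⟨K, fun n => ⟨(isCompact_closedBall _ _).inter_right (((isClosed_iInter fun i =>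
    isClosed_le continuous_const (hf i)).inter (isClosed_iInter fun i =>
    isClosed_le continuous_const (hg i))).inter hC), h1 n⟩, fun m n h x hx => ?_,
    (Set.iUnion_subset h1).antisymm fun x hx => ?_⟩
  · have h2 : 1 / ((n : ℝ) + 1) ≤ 1 / ((m : ℝ) + 1) := Nat.one_div_le_one_div h
    exact ⟨Metric.closedBall_subset_closedBall (Nat.cast_le.2 h) hx.1,
      ⟨Set.mem_iInter.2 fun i => h2.trans (Set.mem_iInter.1 hx.2.1.1 i),
        Set.mem_iInter.2 fun i => h2.trans (Set.mem_iInter.1 hx.2.1.2 i)⟩, hx.2.2⟩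
  · rw [hS] at hx
    have h2 : ∀ a : ℝ, 0 < a → ∀ᶠ n : ℕ in Filter.atTop, 1 / ((n : ℝ) + 1) ≤ a := fun a ha =>
      tendsto_one_div_add_atTop_nhds_zero_nat.eventually (Iic_mem_nhds ha)
    obtain ⟨n, hn⟩ := ((tendsto_natCast_atTop_atTop.eventually_ge_atTop ‖x‖).and
      ((Filter.eventually_all.2 fun i => h2 _ (hx.1.1 i)).and
        (Filter.eventually_all.2 fun i => h2 _ (hx.1.2 i)))).exists
    exact Set.mem_iUnion.2 ⟨n, mem_closedBall_zero_iff.2 hn.1,
      ⟨Set.mem_iInter.2 hn.2.1, Set.mem_iInter.2 hn.2.2⟩, hx.2⟩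

theorem act_one (Q : HF F) : act 1 Q = Q :=
  funext fun v => by simp [act, P026.geo_actC_one]
theorem act_mul (g h : GM F) (Q : HF F) : act (g * h) Q = act g (act h Q) :=
  funext fun v => by
    simp only [act, GM.mul_a, GM.mul_b, GM.mul_c, GM.mul_d, Subring.coe_add, Subring.coe_mul,
      map_add, map_mul, P026.geo_actC_mul]
theorem hv_act (g : GM F) (Q : HF F) (x : R F × R F) : hv (act g Q) x = hv Q (row x g) := by
  simp only [hv, act, row, Subring.coe_add, Subring.coe_mul, map_add, map_mul, P026.geo_hq_act]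
theorem act_D (g : GM F) (Q : HF F) (v : Io F) :
    (act g Q v).2.2 = P026.hq (Q v) (v.1 (g.c : F)) (v.1 (g.d : F)) :=
  rfl
theorem dlt_act (g : GM F) (Q : HF F) (v : Io F) :
    dlt (act g Q v) = sqv ((g.u : R F) : F) v * dlt (Q v) :=
  (P026.geo_det _ _ _ _ _).trans (by rw [geo1_det]; rfl)
theorem PosQ.act {Q : HF F} (hQ : PosQ Q) (g : GM F) : PosQ (act g Q) :=
  fun v => ⟨geo1_pos (geo1_ne g v) (hQ v).1 (hQ v).2, by
    rw [dlt_act]
    exact mul_pos (sqv_pos (fun h => g.u.ne_zero (Subtype.ext h)) v) (hQ v).2⟩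
theorem PosQ.sc {Q : HF F} (hQ : PosQ Q) {t : Io F → ℝ} (ht : ∀ v, 0 < t v) :
    PosQ (sc t Q) :=
  fun v => ⟨mul_pos (ht v) (hQ v).1, by
    have : dlt (P319B.sc t Q v) = t v ^ 2 * dlt (Q v) := by
      simp only [dlt, P319B.sc, Prod.smul_fst, Prod.smul_snd, smul_eq_mul, real_smul, normSq_mul,
        normSq_ofReal]
      ring
    rw [this]
    exact mul_pos (pow_pos (ht v) 2) (hQ v).2⟩
theorem posQ_of_mem {Q : HF F} (hQ : Q ∈ slab F) : PosQ Q := hQ.1
theorem isOpen_posQ : IsOpen {Q : HF F | PosQ Q} := by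
  simp only [PosQ, Set.ofPred_forall, Set.ofPred_and]
  exact isOpen_iInter_of_finite fun v => (isOpen_lt continuous_const (by fun_prop)).inter
    (isOpen_lt continuous_const (geo1_cont.comp (continuous_apply v)))
theorem act_mem_slab {g : GM F} (hg : Nin ((g.u : R F) : F) = 1) {Q : HF F} (hQ : Q ∈ slab F) :
    act g Q ∈ slab F := by
  have h : ∏ v, dlt (act g Q v) = ∏ v, dlt (Q v) := by
    simp only [dlt_act, Finset.prod_mul_distrib]
    rw [show ∏ v, sqv ((g.u : R F) : F) v = 1 from hg, one_mul]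
  exact ⟨(posQ_of_mem hQ).act g, h ▸ hQ.2.1, h ▸ hQ.2.2⟩
theorem continuous_act (g : GM F) : Continuous (act g) :=
  continuous_pi fun v => (P026.geo_continuous _ _ _ _).comp (continuous_apply v)
theorem continuous_sc (t : Io F → ℝ) : Continuous (sc (F := F) t) :=
  continuous_pi fun v => (continuous_apply v).const_smul (t v)
theorem act_sc (g : GM F) (t : Io F → ℝ) (Q : HF F) : act g (sc t Q) = sc t (act g Q) :=
  funext fun v => by
    simp only [act, sc, P026.actC, P026.hq, Prod.smul_fst, Prod.smul_snd, smul_eq_mul, real_smul,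
      Prod.smul_mk, mul_assoc, re_ofReal_mul, map_mul, conj_ofReal, ofReal_mul, Prod.mk.injEq]
    refine ⟨?_, ?_, ?_⟩ <;> ring
theorem hv_sc (t : Io F → ℝ) (Q : HF F) (x : R F × R F) :
    hv (sc t Q) x = ∑ v, t v * P026.hq (Q v) (v.1 (x.1 : F)) (v.1 (x.2 : F)) :=
  Finset.sum_congr rfl fun v _ => by
    simp only [sc, P026.hq, Prod.smul_fst, Prod.smul_snd, smul_eq_mul, real_smul, mul_assoc,
      re_ofReal_mul]
    ring
/-- The slab is exhausted by compact sets. -/
theorem slab_exhaust : ∃ K : ℕ → Set (HF F), (∀ n, IsCompact (K n) ∧ K n ⊆ slab F) ∧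
    ⋃ n, K n = slab F := by
  have h : Continuous fun Q : HF F => ∏ v, dlt (Q v) :=
    continuous_finsetProd _ fun v _ => geo1_cont.comp (continuous_apply v)
  obtain ⟨K, h1, -, h2⟩ := geo1_exh (S := slab F) (f := fun v Q => (Q v).2.2)
    (g := fun v (Q : HF F) => dlt (Q v)) (fun v => by fun_prop)
    (fun v => geo1_cont.comp (continuous_apply v))
    ((isClosed_le continuous_const h).inter (isClosed_le h continuous_const))
    fun Q => and_congr forall_and Iff.rfl
  exact ⟨K, h1, h2⟩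
theorem DE_exhaust : ∃ K : ℕ → Set ((Io F → ℝ) × (Io F → ℝ)),
    (∀ n, IsCompact (K n) ∧ K n ⊆ DE F) ∧ Monotone K ∧ ⋃ n, K n = DE F := by
  have h : Continuous fun p : (Io F → ℝ) × (Io F → ℝ) => ∏ v, p.2 v := by fun_prop
  exact geo1_exh (S := DE F) (f := fun v p => p.1 v) (g := fun v p => p.2 v) (fun v => by fun_prop)
    (fun v => by fun_prop)
    ((isClosed_le continuous_const h).inter (isClosed_le h continuous_const))
    fun p => ⟨fun h => ⟨⟨h.1, h.2.1⟩, h.2.2⟩, fun h => ⟨h.1.1, h.1.2, h.2⟩⟩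

theorem dlt_pt (z : Io F → ℂ) {D : Io F → ℝ} (hD : ∀ v, 0 < D v) (E : Io F → ℝ) (v : Io F) :
    dlt (pt z D E v) = E v :=
  P026.geo_pt_det _ (hD v).ne' _
theorem posQ_pt (z : Io F → ℂ) {D E : Io F → ℝ} (hD : ∀ v, 0 < D v) (hE : ∀ v, 0 < E v) :
    PosQ (pt z D E) :=
  fun v => ⟨hD v, (hE v).trans_eq (dlt_pt z hD E v).symm⟩
theorem pt_mem_slab (z : Io F → ℂ) {p : (Io F → ℝ) × (Io F → ℝ)} (h : p ∈ DE F) :
    pt z p.1 p.2 ∈ slab F :=
  ⟨posQ_pt z h.1 h.2.1, by simpa only [dlt_pt z h.1] using h.2.2⟩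
theorem eq_pt {Q : HF F} (hQ : PosQ Q) :
    Q = pt (fun v => (Q v).2.1 / ((Q v).2.2 : ℂ)) (fun v => (Q v).2.2) (fun v => dlt (Q v)) :=
  funext fun v => P026.eq_pt (hQ v).1
theorem hv_sc_pt (t : Io F → ℝ) (z : Io F → ℂ) {D : Io F → ℝ} (hD : ∀ v, 0 < D v) (E : Io F → ℝ)
    (x : R F × R F) : hv (sc t (pt z D E)) x =
      ∑ v, t v * (D v * normSq (v.1 (x.1 : F) * z v + v.1 (x.2 : F)) +
        sqv (x.1 : F) v * E v / D v) :=
  (hv_sc _ _ _).trans (Finset.sum_congr rfl fun v _ =>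
    congrArg _ (P026.hq_pt _ (hD v).ne' _ _ _))
theorem act_tr_pt (y : R F) (z : Io F → ℂ) (D E : Io F → ℝ) :
    act (tr y) (pt z D E) = pt (z + emb (y : F)) D E :=
  funext fun v => by
    simp only [act, tr, pt, Subring.coe_one, Subring.coe_zero, map_one, map_zero, Pi.add_apply, emb]
    generalize v.1 (y : F) = u
    refine Prod.ext ?_ (Prod.ext ?_ ?_)
    · simp only [P026.actC, P026.hq, P026.pt, normSq_apply, add_re, add_im, mul_re, mul_im, conj_re,
        conj_im, ofReal_re, ofReal_im, one_re, one_im]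
      ring
    · simp [P026.actC, P026.pt, mul_add]
    · simp [P026.actC, P026.hq, P026.pt]
/-- The stabiliser of the row (0, 1). -/
theorem act_upper_pt {g : GM F} (hc : g.c = 0) (hd : g.d = 1) (z : Io F → ℂ) {D : Io F → ℝ}
    (hD : ∀ v, 0 < D v) (E : Io F → ℝ) :
    act g (pt z D E) =
      pt (emb (g.a : F) * z + emb (g.b : F)) D (fun v => sqv (g.a : F) v * E v) :=
  funext fun v => by
    simp only [act, pt, hc, hd, Subring.coe_one, Subring.coe_zero, map_one, map_zero, Pi.add_apply,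
      Pi.mul_apply, emb, sqv]
    generalize v.1 (g.a : F) = a
    generalize v.1 (g.b : F) = b
    refine Prod.ext ?_ (Prod.ext ?_ ?_)
    · simp only [P026.actC, P026.hq, P026.pt, normSq_apply, add_re, add_im, mul_re, mul_im, conj_re,
        conj_im, ofReal_re, ofReal_im]
      ring
    · simp only [P026.actC, P026.pt, map_zero, map_one]
      ring
    · simp [P026.actC, P026.hq, P026.pt]
theorem act_pt {g : GM F} (hu : g.u = 1) (z : Io F → ℂ) {D E : Io F → ℝ} (hD : ∀ v, 0 < D v)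
    (hE : ∀ v, 0 < E v) : ∃ z' : Io F → ℂ, act g (pt z D E) =
      pt z' (fun v => D v * normSq (v.1 (g.c : F) * z v + v.1 (g.d : F)) +
        sqv (g.c : F) v * E v / D v) E :=
  ⟨_, funext fun v => by
    have h := geo1_act (a := v.1 (g.a : F)) (b := v.1 (g.b : F)) (geo1_ne g v) (z v) (hD v) (hE v)
    rw [geo1_det, hu, Units.val_one, Subring.coe_one, map_one, normSq_one, one_mul] at h
    exact h⟩
/-- Behaviour near the cusp a / c. -/
theorem act_inv_pt {g : GM F} (hu : g.u = 1) (hc : g.c ≠ 0) (x : Io F → ℂ) {D E : Io F → ℝ}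
    (hD : ∀ v, 0 < D v) (hE : ∀ v, 0 < E v) :
    act g⁻¹ (pt (emb ((g.a : F) / g.c) + x) D E) =
      pt (fun v => v.1 (-(g.d : F) / g.c) - (D v : ℂ) * conj (x v) /
          (v.1 (g.c : F) ^ 2 * ((D v * normSq (x v) + E v / D v : ℝ) : ℂ)))
        (fun v => sqv (g.c : F) v * (D v * normSq (x v) + E v / D v)) E :=
  funext fun v => by
    have hc' : v.1 (g.c : F) ≠ 0 := (map_ne_zero _).2 fun h => hc (Subtype.ext h)
    have hdet := geo1_det g v
    have h := geo1_act (a := v.1 (g⁻¹.a : F)) (b := v.1 (g⁻¹.b : F)) (geo1_ne g⁻¹ v)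
      ((emb ((g.a : F) / g.c) + x) v) (hD v) (hE v)
    rw [geo1_det] at h
    refine h.trans ?_
    simp only [GM.inv_a, GM.inv_b, GM.inv_c, GM.inv_d, GM.inv_u, hu, inv_one, Units.val_one, one_mul,
      Subring.coe_one, map_one, Subring.coe_neg, map_neg, Pi.add_apply, emb, map_div₀, pt,
      sqv] at hdet ⊢
    have h4 : 0 < D v * normSq (x v) + E v / D v :=
      add_pos_of_nonneg_of_pos (mul_nonneg (hD v).le (normSq_nonneg _)) (div_pos (hE v) (hD v))
    generalize v.1 (g.a : F) = a at *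
    generalize v.1 (g.b : F) = b at *
    generalize v.1 (g.c : F) = c at *
    generalize v.1 (g.d : F) = d at *
    have h1 : -c * (a / c + x v) + a = -(c * x v) := by field_simp; ring
    have h2 : d * (a / c + x v) + -b = c⁻¹ + d * x v := by field_simp; linear_combination hdet
    have h3 : D v * normSq (-(c * x v)) + normSq (-c) * E v / D v =
        normSq c * (D v * normSq (x v) + E v / D v) := by
      rw [normSq_neg, normSq_mul, normSq_neg]; ring
    rw [h1, h2, h3]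
    have h5 : ((D v * normSq (x v) + E v / D v : ℝ) : ℂ) ≠ 0 := ofReal_ne_zero.2 h4.ne'
    have h7 : conj c ≠ 0 := (map_ne_zero _).2 hc'
    have h8 : ((E v / D v : ℝ) : ℂ) =
        ((D v * normSq (x v) + E v / D v : ℝ) : ℂ) - D v * (x v * conj (x v)) := by
      rw [mul_conj]; push_cast; ring
    congr 1
    rw [ofReal_mul (normSq c), ← mul_conj c, h8]
    simp only [map_neg, map_mul]
    generalize ((D v * normSq (x v) + E v / D v : ℝ) : ℂ) = S at h5
    field_simp
    ring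

theorem continuousOn_pt :
    ContinuousOn (fun p : (Io F → ℂ) × (Io F → ℝ) × (Io F → ℝ) => pt p.1 p.2.1 p.2.2)
      {p | ∀ v, 0 < p.2.1 v} :=
  continuousOn_pi.2 fun v => ContinuousOn.prodMk (ContinuousOn.add (by fun_prop)
    (ContinuousOn.div (by fun_prop) (by fun_prop) fun p hp => (hp v).ne')) (by fun_prop)

end Vale.Agent.P319B
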