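import Vale.Agent.P319B.BS
import Vale.Agent.P319B.Loc
import Vale.Agent.P319B.Cls
import Vale.Agent.P319B.TDef

/-! The Kubota symbol. -/

namespace Vale.Agent.P319B

open Complex NumberField
open scoped Classical ComplexConjugate
open Vale.Agent.P026 (w kk fk)

variable {F : Type} [Field F] [NumberField F] [Ctx0 F]

theorem row_mul (x : R F × R F) (g h : GM F) : row x (g * h) = row (row x g) h := by
  refine Prod.ext ?_ ?_ <;> simp only [row, GM.mul_a, GM.mul_b, GM.mul_c, GM.mul_d] <;> ring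
theorem row_one (x : R F × R F) : row x (1 : GM F) = x := by
  refine Prod.ext ?_ ?_ <;> simp [row]
theorem row_zero_one (g : GM F) : row ((0, 1) : R F × R F) g = (g.c, g.d) := by
  refine Prod.ext ?_ ?_ <;> simp [row]
theorem trl_one (k : R F → R F → ℂ) : trl k 1 = k := by
  funext c d
  rw [trl, inv_one, row_one]
theorem trl_mul (k : R F → R F → ℂ) (g h : GM F) : trl k (g * h) = trl (trl k g) h := by
  funext c d
  rw [trl, trl, trl, mul_inv_rev, row_mul]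
theorem trl_row (k : R F → R F → ℂ) (g : GM F) (x : R F × R F) :
    trl k g (row x g).1 (row x g).2 = k x.1 x.2 := by
  rw [trl, Prod.mk.eta, ← row_mul, mul_inv_cancel, row_one]

theorem kub_three : 1 ≤ 3 := by norm_num

theorem kub_cop (g : GM F) : IsCoprime g.c g.d :=
  ⟨-(↑g.u⁻¹ * g.b), ↑g.u⁻¹ * g.a, by linear_combination (↑g.u⁻¹ : R F) * g.det + g.u.inv_mul⟩

theorem kub_cop' (g : GM F) : IsCoprime g.b g.d :=
  ⟨-(↑g.u⁻¹ * g.c), ↑g.u⁻¹ * g.a, by linear_combination (↑g.u⁻¹ : R F) * g.det + g.u.inv_mul⟩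

/-- The symbol only depends on the lower entry modulo c and on its local class. -/
theorem kub_shift {c d d' : R F} (h : InU 3 ((d' : F) / d)) (hc : c ∣ d' - d) :
    cub c d' = cub c d := by
  rcases eq_or_ne c 0 with rfl | h0
  · rw [sub_eq_zero.1 (zero_dvd_iff.1 hc)]
  · rw [cub_recip h0 (r2_ne (h.left_ne kub_three)), cub_recip h0 (r2_ne (h.right_ne kub_three)),
      B3_inU_right _ h, cub_congr hc]

theorem kub_core (g : GM F) {c1 d1 : R F} (h0 : c1 ≠ 0) (h1 : d1 ≠ 0) (hd : g.d ≠ 0)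
    (hU : InU 3 (((c1 * g.b + d1 * g.d : R F) : F) / ((d1 : F) * g.d))) (h : IsCoprime c1 g.d) :
    cub (c1 * g.a + d1 * g.c) (c1 * g.b + d1 * g.d) =
      cub c1 d1 * cub g.c g.d * B3 ((g.u : R F) : F) d1 * B3 (d1 : F) g.d := by
  have hD : c1 * g.b + d1 * g.d ≠ 0 := r2_ne (hU.left_ne kub_three)
  have a1 := r2_coe_ne h1
  have a2 := r2_coe_ne hd
  have hB : ∀ x : F, B3 x ((c1 * g.b + d1 * g.d : R F) : F) = B3 x d1 * B3 x g.d := fun x => by
    rw [B3_inU_right x hU, B3_mul_right x a1 a2]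
  have e1 : cub g.d (c1 * g.b + d1 * g.d) * cub (c1 * g.a + d1 * g.c) (c1 * g.b + d1 * g.d) =
      cub c1 (c1 * g.b + d1 * g.d) * cub g.u (c1 * g.b + d1 * g.d) := by
    rw [← cub_mul_left, ← cub_mul_left]
    exact cub_congr ⟨g.c, by linear_combination c1 * g.det⟩
  have e2 : cub g.d (c1 * g.b + d1 * g.d) = B3 (g.d : F) d1 * (cub c1 g.d * cub g.b g.d) := by
    rw [cub_recip hd hD, hB, B3_self, mul_one, ← cub_mul_left]
    exact congrArg _ (cub_congr ⟨d1, by ring⟩)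
  have e3 : cub c1 (c1 * g.b + d1 * g.d) = cub c1 d1 * cub c1 g.d := by
    rw [cub_recip h0 hD, hB, cub_congr (a := c1 * g.b + d1 * g.d) (b := d1 * g.d) ⟨g.b, by ring⟩,
      cub_mul_left, cub_recip h0 h1, cub_recip h0 hd]
    ring
  have e4 : cub g.u (c1 * g.b + d1 * g.d) =
      B3 ((g.u : R F) : F) d1 * (cub g.b g.d * cub g.c g.d) := by
    rw [cub_unit_left g.u.isUnit hD, hB, ← cub_unit_left g.u.isUnit hd, ← cub_mul_left,
      ← cub_neg_left (g.b * g.c)]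
    exact congrArg _ (cub_congr ⟨g.a, by linear_combination -g.det⟩)
  have e5 : cub c1 g.d * cub g.b g.d ≠ 0 :=
    mul_ne_zero (fun h0 => (cub_eq_zero hd).1 h0 h) fun h0 => (cub_eq_zero hd).1 h0 (kub_cop' g)
  rw [e2, e3, e4] at e1
  apply mul_left_cancel₀ e5
  linear_combination B3 (d1 : F) g.d * e1 - cub c1 g.d * cub g.b g.d *
    cub (c1 * g.a + d1 * g.c) (c1 * g.b + d1 * g.d) * B3_mul_swap (d1 : F) g.d

theorem kub_small (z : F) (e : ℕ) : ∃ K : ℕ, ∀ y : F, Lo K y → Lo e (z * y) :=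
  let ⟨a, ha⟩ := exists_Hi z; ⟨a + e, fun _ hy => ha.mul_Lo hy⟩

theorem kub_inU {x z y : F} (hx : x ≠ 0) (h : Lo 3 (z / x * y)) : InU 3 ((x + z * y) / x) := by
  rw [show (x + z * y) / x = 1 + z / x * y by field_simp]
  exact (InU.one 3).add_Lo h

/-- The basic multiplicativity of the cubic symbol along rows. -/
theorem cub_row (g : GM F) (c1 d1 : R F) (h1 : d1 ≠ 0) (hd : g.d ≠ 0)
    (hU : InU 3 (((row (c1, d1) g).2 : F) / ((d1 : F) * g.d))) :
    cub (row (c1, d1) g).1 (row (c1, d1) g).2 =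
      cub c1 d1 * cub g.c g.d * B3 ((g.u : R F) : F) d1 * B3 (d1 : F) g.d := by
  change InU 3 (((c1 * g.b + d1 * g.d : R F) : F) / ((d1 : F) * g.d)) at hU
  change cub (c1 * g.a + d1 * g.c) (c1 * g.b + d1 * g.d) = _
  rcases eq_or_ne c1 0 with rfl | h0
  · rw [zero_mul, zero_mul, zero_add, zero_add, cub_mul_right _ h1 hd,
      cub_congr (a := d1 * g.c) (b := 0) (c := d1) (by simp), cub_zero_left h1]
    split_ifs with hu
    · rw [cub_mul_left, cub_unit_left hu hd, B3_units g.u.isUnit hu]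
      ring
    · simp only [zero_mul]
  have hD : ((c1 * g.b + d1 * g.d : R F) : F) ≠ 0 := hU.left_ne kub_three
  obtain ⟨K1, hK1⟩ := kub_small ((g.c : F) / g.d) 3
  obtain ⟨K2, hK2⟩ :=
    kub_small (((c1 * g.a + d1 * g.c : R F) : F) / ((c1 * g.b + d1 * g.d : R F) : F)) 3
  obtain ⟨y, hy, hc⟩ := exists_coprime_add (kub_cop g) h0 (K1 + K2)
  have u1 : InU 3 (((g.d + g.c * y : R F) : F) / g.d) := by
    push_cast
    exact kub_inU (r2_coe_ne hd) (hK1 _ (hy.mono (Nat.le_add_right _ _)))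
  have u2 : InU 3 (((c1 * g.b + d1 * g.d + (c1 * g.a + d1 * g.c) * y : R F) : F) /
      ((c1 * g.b + d1 * g.d : R F) : F)) := by
    rw [Subring.coe_add, Subring.coe_mul]
    exact kub_inU hD (hK2 _ (hy.mono (Nat.le_add_left _ _)))
  have e := kub_core (⟨g.a, g.b + g.a * y, g.c, g.d + g.c * y, g.u, by
      linear_combination g.det⟩ : GM F) h0 h1 (r2_ne (u1.left_ne kub_three)) (by
    rw [show c1 * (g.b + g.a * y) + d1 * (g.d + g.c * y) =
      c1 * g.b + d1 * g.d + (c1 * g.a + d1 * g.c) * y by ring]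
    exact (u2.trans kub_three hU).trans kub_three
      ((InU.div_self (r2_coe_ne h1)).mul_div (u1.symm kub_three))) (by rwa [mul_comm y] at hc)
  dsimp only at e
  rw [show c1 * (g.b + g.a * y) + d1 * (g.d + g.c * y) =
      c1 * g.b + d1 * g.d + (c1 * g.a + d1 * g.c) * y by ring, kub_shift u2 ⟨y, by ring⟩,
    kub_shift u1 ⟨y, by ring⟩, B3_inU_right _ u1] at e
  exact e

theorem kub_det {e : ℕ} {g : GM F} (hg : CG e g) : InU e ((g.u : R F) : F) := by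
  rw [← g.det, sub_eq_add_neg]
  push_cast
  exact (hg.1.mul hg.2.2.2).add_Lo (hg.2.1.mul_right hg.2.2.1.mem).neg

theorem kub_inv (u : (R F)ˣ) : (((u⁻¹ : (R F)ˣ) : R F) : F) = ((u : R F) : F)⁻¹ :=
  eq_inv_of_mul_eq_one_left (by rw [← Subring.coe_mul, u.inv_mul, Subring.coe_one])

/-- The congruence conditions define a subgroup. -/
def kubG {e : ℕ} (he : 1 ≤ e) : Subgroup (GM F) where
  carrier := {g | CG e g}
  one_mem' := ⟨InU.one e, Lo.zero e, Lo.zero e, InU.one e⟩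
  mul_mem' := by
    rintro g h ⟨a1, a2, a3, a4⟩ ⟨b1, b2, b3, b4⟩
    refine ⟨?_, ?_, ?_, ?_⟩ <;> simp only [GM.mul_a, GM.mul_b, GM.mul_c, GM.mul_d] <;> push_cast
    · exact (a1.mul b1).add_Lo (a2.mul_right b3.mem)
    · exact (Lo.mul_left a1.mem b2).add (a2.mul_right b4.mem)
    · exact (a3.mul_right b1.mem).add (Lo.mul_left a4.mem b3)
    · rw [add_comm]
      exact (a4.mul b4).add_Lo (a3.mul_right b2.mem)
  inv_mem' := by
    intro g hg
    have hu := (kub_det hg).inv he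
    obtain ⟨a1, a2, a3, a4⟩ := hg
    refine ⟨?_, ?_, ?_, ?_⟩ <;> simp only [GM.inv_a, GM.inv_b, GM.inv_c, GM.inv_d] <;>
      push_cast <;> rw [kub_inv]
    · exact hu.mul a4
    · exact (Lo.mul_left hu.mem a2).neg
    · exact (Lo.mul_left hu.mem a3).neg
    · exact hu.mul a1

theorem mem_Ge {e : ℕ} (he : 1 ≤ e) {g : GM F} : g ∈ Ge F e ↔ CG e g := by
  have : Ge F e = kubG he := Subgroup.closure_eq (kubG he)
  rw [this]
  rfl
theorem inU_det {e : ℕ} (he : 1 ≤ e) {g : GM F} (hg : g ∈ Ge F e) :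
    InU e ((g.u : R F) : F) := kub_det ((mem_Ge he).1 hg)
theorem Nin_det {e : ℕ} (he : 1 ≤ e) {g : GM F} (hg : g ∈ Ge F e) :
    Nin ((g.u : R F) : F) = 1 := Nin_of_inU g.u.isUnit he (inU_det he hg)
theorem norm_k0_le (e : ℕ) (c d : R F) : ‖k0 e c d‖ ≤ 1 := by
  unfold k0
  split_ifs
  · exact norm_cub_le c d
  · simp
theorem norm_k0_Ge {e : ℕ} (he : 1 ≤ e) {g : GM F} (hg : g ∈ Ge F e) :
    ‖k0 e g.c g.d‖ = 1 := by
  obtain ⟨-, -, h3, h4⟩ := (mem_Ge he).1 hg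
  rw [k0, if_pos ⟨h3, h4⟩]
  exact norm_cub (kub_cop g)
theorem k0_zero_zero {e : ℕ} (he : 1 ≤ e) : k0 e (0 : R F) 0 = 0 :=
  if_neg fun h => h.2.ne_zero he rfl
theorem k0_zero_left {e : ℕ} (he : 1 ≤ e) (d : R F) :
    k0 e 0 d = if IsUnit d ∧ InU e (d : F) then 1 else 0 := by
  unfold k0
  by_cases h : InU e (d : F)
  · rw [if_pos ⟨Lo.zero e, h⟩, cub_zero_left (r2_ne (h.ne_zero he))]
    simp only [h, and_true]
  · rw [if_neg fun h' => h h'.2, if_neg fun h' => h h'.2]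
theorem kub_ne {e : ℕ} {c d : R F} (h : k0 e c d ≠ 0) :
    Lo e (c : F) ∧ InU e (d : F) ∧ cub c d ≠ 0 := by
  unfold k0 at h
  split_ifs at h with h1
  · exact ⟨h1.1, h1.2, h⟩
  · exact absurd rfl h
theorem k0_coprime {e : ℕ} (he : 1 ≤ e) {c d : R F} (h : k0 e c d ≠ 0) : IsCoprime c d := by
  obtain ⟨-, h2, h3⟩ := kub_ne h
  by_contra h4
  exact h3 ((cub_eq_zero (r2_ne (h2.ne_zero he))).2 h4)
theorem k0_ne_zero {e : ℕ} (he : 1 ≤ e) {c d : R F} (h : k0 e c d ≠ 0) :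
    ∃ g ∈ Ge F e, g.u = 1 ∧ g.c = c ∧ g.d = d := by
  obtain ⟨u, v, huv⟩ := k0_coprime he h
  obtain ⟨h1, h2, -⟩ := kub_ne h
  have d0 := h2.ne_zero he
  obtain ⟨t, ht⟩ := ring_split ((u : F) / d) e
  have hb : Lo e ((t * d - u : R F) : F) := by
    rw [show ((t * d - u : R F) : F) = -(((u : F) / d - t) * d) by push_cast; field_simp; ring]
    exact (ht.mul_right h2.mem).neg
  refine ⟨⟨v + t * c, t * d - u, c, d, 1, by rw [Units.val_one]; linear_combination huv⟩,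
    (mem_Ge he).2 ⟨?_, hb, h1, h2⟩, rfl, rfl, rfl⟩
  have e1 : ((v + t * c : R F) : F) = (1 + ((t * d - u : R F) : F) * c) / d := by
    rw [eq_div_iff d0, ← Subring.coe_mul, ← Subring.coe_mul, ← Subring.coe_one (Rr F _),
      ← Subring.coe_add]
    exact congrArg _ (by linear_combination huv)
  change InU e ((v + t * c : R F) : F)
  rw [e1]
  exact ((InU.one e).add_Lo (hb.mul_right h1.mem)).div he h2
theorem kub_cond {e : ℕ} {g : GM F} (hg : CG e g) {x : R F × R F}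
    (h : Lo e (x.1 : F) ∧ InU e (x.2 : F)) :
    Lo e ((row x g).1 : F) ∧ InU e ((row x g).2 : F) := by
  obtain ⟨a1, a2, a3, a4⟩ := hg
  simp only [row]
  push_cast
  refine ⟨(h.1.mul_right a1.mem).add (Lo.mul_left h.2.mem a3), ?_⟩
  rw [add_comm]
  exact (h.2.mul a4).add_Lo (h.1.mul_right a2.mem)
theorem k0_row {e : ℕ} (he : 3 ≤ e) {g : GM F} (hg : g ∈ Ge F e) (x : R F × R F) :
    k0 e (row x g).1 (row x g).2 = k0 e x.1 x.2 * k0 e g.c g.d := by
  have he1 : 1 ≤ e := by omega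
  have h1 := (mem_Ge he1).1 hg
  by_cases h : Lo e (x.1 : F) ∧ InU e (x.2 : F)
  · have h2 := kub_cond h1 h
    rw [k0, k0, k0, if_pos h2, if_pos h, if_pos ⟨h1.2.2.1, h1.2.2.2⟩,
      cub_row g x.1 x.2 (r2_ne (h.2.ne_zero he1)) (r2_ne (h1.2.2.2.ne_zero he1))
        ((h2.2.div he1 (h.2.mul h1.2.2.2)).mono he),
      B3_S6_left (S6.of_inU ((kub_det h1).mono he)), B3_S6_left (S6.of_inU (h.2.mono he)),
      mul_one, mul_one]
  · rw [k0, k0, if_neg h, zero_mul, if_neg fun h2 => h ?_]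
    have h3 := kub_cond ((mem_Ge he1).1 (inv_mem hg)) h2
    rwa [← row_mul, mul_inv_cancel, row_one] at h3
theorem trl_k0 {e : ℕ} (he : 3 ≤ e) {g : GM F} (hg : g ∈ Ge F e) :
    trl (k0 e) g = fun c d => conj (k0 e g.c g.d) * k0 e c d := by
  have he1 : 1 ≤ e := by omega
  funext c d
  have h1 := k0_row he hg (row (0, 1) g⁻¹)
  rw [← row_mul, inv_mul_cancel, row_one, k0_zero_left he1,
    if_pos ⟨isUnit_one, InU.one e⟩, row_zero_one] at h1
  rw [trl, k0_row he (inv_mem hg)]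
  have h2 := bs_conj (norm_k0_Ge he1 hg)
  dsimp only at h1 ⊢
  linear_combination (-(k0 e c d * conj (k0 e g.c g.d))) * h1 - k0 e c d * k0 e g⁻¹.c g⁻¹.d * h2
theorem k0_eq_kI : k0 3 = kI (1 : F) (fun x => if Lo 3 x then 1 else 0) := by
  funext c d
  unfold k0 kI
  rw [div_one]
  by_cases h1 : Lo 3 (c : F) <;> by_cases h2 : InU 3 (d : F) <;> simp [h1, h2]

theorem Adm.trl_tr {k : R F → R F → ℂ} {b : ℕ} (hk : Adm k b) {y : R F} (hy : Lo b (y : F)) :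
    trl k (tr y) = k := by
  funext c d
  have e : row (c, d) (tr y)⁻¹ = (c, d + c * -y) := by
    refine Prod.ext ?_ ?_ <;> simp [row, tr]
    ring
  rw [trl, e]
  exact hk.2 c d (-y) hy.neg
theorem Adm.mono {k : R F → R F → ℂ} {b b' : ℕ} (hk : Adm k b) (h : b ≤ b') : Adm k b' :=
  ⟨hk.1, fun c d y hy => hk.2 c d y (hy.mono h)⟩
theorem Bdd.trl {k : R F → R F → ℂ} (hk : Bdd k) (g : GM F) : Bdd (trl k g) := by
  obtain ⟨⟨B, hB⟩, a, ha⟩ := hk
  obtain ⟨a1, h1⟩ := exists_Hi (g.a : F)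
  obtain ⟨a2, h2⟩ := exists_Hi (g.b : F)
  obtain ⟨a3, h3⟩ := exists_Hi (g.c : F)
  obtain ⟨a4, h4⟩ := exists_Hi (g.d : F)
  refine ⟨⟨B, fun c d => hB _ _⟩, a + (a1 + a2 + a3 + a4), fun c d h => ?_⟩
  obtain ⟨b1, b2⟩ := ha _ _ h
  have e : row (row (c, d) g⁻¹) g = (c, d) := by rw [← row_mul, inv_mul_cancel, row_one]
  generalize row (c, d) g⁻¹ = x at b1 b2 e
  obtain ⟨rfl, rfl⟩ := Prod.mk.inj e
  push_cast
  exact ⟨(b1.mul (h1.mono (by omega))).add (b2.mul (h3.mono (by omega))),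
    (b1.mul (h2.mono (by omega))).add (b2.mul (h4.mono (by omega)))⟩
theorem kub_ite {k : R F → R F → ℂ} (hk : Bdd k) (p : R F → R F → Prop) :
    Bdd (fun c d => if p c d then k c d else 0) := by
  obtain ⟨⟨B, hB⟩, a, ha⟩ := hk
  refine ⟨⟨B, fun c d => ?_⟩, a, fun c d h => ha c d fun h0 => h (by simp [h0])⟩
  dsimp only
  split_ifs
  · exact hB c d
  · exact norm_zero.trans_le ((norm_nonneg _).trans (hB c d))
theorem Bdd.lin {k : R F → R F → ℂ} (hk : Bdd k) (p : R F) (l : R F × R F) :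
    Bdd (lin p l k) := kub_ite hk _
theorem Bdd.add {k k' : R F → R F → ℂ} (hk : Bdd k) (hk' : Bdd k') :
    Bdd (fun c d => k c d + k' c d) := by
  obtain ⟨⟨B, hB⟩, a, ha⟩ := hk
  obtain ⟨⟨B', hB'⟩, a', ha'⟩ := hk'
  refine ⟨⟨B + B', fun c d => (norm_add_le _ _).trans (add_le_add (hB c d) (hB' c d))⟩, a + a',
    fun c d h => ?_⟩
  by_cases h0 : k c d = 0
  · have := ha' c d fun h1 => h (by simp [h0, h1])
    exact ⟨this.1.mono (by omega), this.2.mono (by omega)⟩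
  · have := ha c d h0
    exact ⟨this.1.mono (by omega), this.2.mono (by omega)⟩
theorem kub_mul {k : R F → R F → ℂ} (hk : Bdd k) {χ : R F → ℂ} {A : ℝ} (hχ : ∀ c, ‖χ c‖ ≤ A) :
    Bdd (fun c d => χ c * k c d) := by
  obtain ⟨⟨B, hB⟩, a, ha⟩ := hk
  refine ⟨⟨A * B, fun c d => ?_⟩, a, fun c d h => ha c d (right_ne_zero_of_mul h)⟩
  rw [norm_mul]
  exact mul_le_mul (hχ c) (hB c d) (norm_nonneg _) ((norm_nonneg _).trans (hχ c))
theorem Bdd.smul {k : R F → R F → ℂ} (hk : Bdd k) (z : ℂ) : Bdd (fun c d => z * k c d) :=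
  kub_mul hk (χ := fun _ => z) fun _ => le_rfl
theorem Adm.mul_left {k : R F → R F → ℂ} {b : ℕ} (hk : Adm k b) {χ : R F → ℂ} (hχ : Bd1 χ) :
    Adm (fun c d => χ c * k c d) b :=
  ⟨kub_mul hk.1 hχ, fun c d y hy => congrArg _ (hk.2 c d y hy)⟩
theorem Adm.off {k : R F → R F → ℂ} {b : ℕ} (hk : Adm k b) (p : R F) : Adm (off p k) b := by
  have e : P319B.off p k = fun c d => (if p ∣ c then 0 else 1) * k c d := by
    funext c d
    unfold P319B.off
    split_ifs <;> simp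
  rw [e]
  exact hk.mul_left fun c => by split_ifs <;> simp
theorem adm_k0 {e : ℕ} (he : 3 ≤ e) (b : ℕ) : Adm (k0 (F := F) e) b := by
  have he1 : 1 ≤ e := by omega
  refine ⟨⟨⟨1, norm_k0_le e⟩, 0, fun c d h => ?_⟩, fun c d y hy => ?_⟩
  · obtain ⟨h1, h2, -⟩ := kub_ne h
    exact ⟨Hi.of_mem 0 h1.mem, Hi.of_mem 0 h2.mem⟩
  · unfold k0
    by_cases h : Lo e (c : F) ∧ InU e (d : F)
    · have h1 : InU e ((d + c * y : R F) : F) := h.2.add_Lo (h.1.mul_right hy.mem)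
      rw [if_pos h, if_pos ⟨h.1, h1⟩]
      exact kub_shift ((h1.div he1 h.2).mono he) ⟨y, by ring⟩
    · rw [if_neg h, if_neg fun h1 => h ⟨h1.1, ?_⟩]
      have h2 := h1.2.add_Lo (h1.1.mul_right hy.mem).neg
      push_cast at h2
      rwa [add_neg_cancel_right] at h2
theorem kub_hi {y z : F} {a : ℕ} (ha : Hi a y) (h : InU 3 (z / y)) : Hi a z := by
  have h1 := (Hi.of_mem 0 h.mem).mul ha
  rwa [zero_add, div_mul_cancel₀ _ (h.right_ne kub_three)] at h1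
theorem kub_bd {φ : F → ℂ} {B : ℝ} (hB : ∀ x, ‖φ x‖ ≤ B) (p : Prop) (c d : R F) (x : F) :
    ‖if p then cub c d * φ x else 0‖ ≤ B := by
  split_ifs
  · rw [norm_mul]
    exact (mul_le_of_le_one_left (norm_nonneg _) (norm_cub_le c d)).trans (hB x)
  · exact norm_zero.trans_le ((norm_nonneg _).trans (hB x))
theorem kub_sp {φ : F → ℂ} {p : Prop} {c d : R F} {x : F}
    (h : (if p then cub c d * φ x else 0) ≠ 0) : p ∧ φ x ≠ 0 := by
  split_ifs at h with h1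
  · exact ⟨h1, right_ne_zero_of_mul h⟩
  · exact absurd rfl h
theorem adm_kI {y : F} (hy : y ≠ 0) {φ : F → ℂ} (hφ : LocF φ) : ∃ b : ℕ, Adm (kI y φ) b := by
  obtain ⟨⟨B, hB⟩, ⟨a, ha⟩, -⟩ := hφ
  obtain ⟨a1, h1⟩ := exists_Hi y
  obtain ⟨a2, h2⟩ := exists_Hi y⁻¹
  refine ⟨a + a2 + 3, ⟨⟨B, fun c d => kub_bd hB _ _ _ _⟩, a + a1, fun c d h => ?_⟩,
    fun c d z hz => ?_⟩
  · obtain ⟨b1, b2⟩ := kub_sp h
    exact ⟨(ha _ b2).mono (by omega), (kub_hi h1 b1).mono (by omega)⟩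
  · unfold kI
    by_cases h0 : φ c = 0
    · simp [h0]
    have h3 := ((ha _ h0).mul h2).mul_Lo hz
    have e : ((d + c * z : R F) : F) / y = d / y + c * y⁻¹ * z := by
      push_cast
      field_simp
    by_cases h : InU 3 ((d : F) / y)
    · have h4 : InU 3 (((d + c * z : R F) : F) / y) := e ▸ h.add_Lo h3
      rw [if_pos h, if_pos h4, kub_shift (h4.trans kub_three (h.symm kub_three)) ⟨z, by ring⟩]
    · rw [if_neg h, if_neg fun h4 => h ?_]
      have h5 := h4.add_Lo h3.neg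
      rwa [e, add_neg_cancel_right] at h5
theorem adm_kII {y : F} (hy : y ≠ 0) {φ : F → ℂ} (hφ : LocF φ) : ∃ b : ℕ, Adm (kII y φ) b := by
  obtain ⟨⟨B, hB⟩, ⟨a, ha⟩, b, hb⟩ := hφ
  obtain ⟨a1, h1⟩ := exists_Hi y
  refine ⟨a1 + b, ⟨⟨B, fun c d => kub_bd hB _ _ _ _⟩, a + a1, fun c d h => ?_⟩,
    fun c d z hz => ?_⟩
  · obtain ⟨b1, b2⟩ := kub_sp h
    exact ⟨(kub_hi h1 b1).mono (by omega), (ha _ b2).mono (by omega)⟩
  · unfold kII
    split_ifs with h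
    · rw [cub_congr (a := d + c * z) (b := d) ⟨z, by ring⟩, hb _ d ?_]
      push_cast
      rw [add_sub_cancel_left]
      exact (kub_hi h1 h).mul_Lo hz
    · rfl
theorem lin_zero_one (p : R F) (k : R F → R F → ℂ) :
    lin p (0, 1) k = fun c d => (if p ∣ c then 1 else 0) * k c d := by
  funext c d
  simp [lin]
theorem off_eq (p : R F) (k : R F → R F → ℂ) :
    off p k = fun c d => k c d + (-1) * lin p (0, 1) k c d := by
  funext c d
  rw [lin_zero_one, off]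
  split_ifs with h <;> simp [h]
theorem lin_trl (p : R F) (l : R F × R F) (k : R F → R F → ℂ) (g : GM F) :
    lin p l (trl k g) = trl (lin p (row l g⁻¹) k) g := by
  funext c d
  have e : (row (c, d) g⁻¹).1 * (row l g⁻¹).2 - (row (c, d) g⁻¹).2 * (row l g⁻¹).1 =
      (g⁻¹).u * (c * l.2 - d * l.1) := by
    rw [← (g⁻¹).det]
    simp only [row]
    ring
  rw [lin, trl, trl, lin, e, (g⁻¹).u.isUnit.dvd_mul_left]
theorem prim_row {p : R F} {l : R F × R F} (h : ¬ (p ∣ l.1 ∧ p ∣ l.2)) (g : GM F) :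
    ¬ (p ∣ (row l g).1 ∧ p ∣ (row l g).2) := fun h1 => h (by
  have e : row (row l g) g⁻¹ = l := by rw [← row_mul, mul_inv_cancel, row_one]
  rw [← e]
  exact ⟨dvd_add (h1.1.mul_right _) (h1.2.mul_right _),
    dvd_add (h1.1.mul_right _) (h1.2.mul_right _)⟩)
theorem kub_mem_Lns {p : R F} {l : R F × R F} :
    l ∈ Lns p ↔ l = (0, 1) ∨ ∃ j ∈ res p, (1, j) = l := by
  rw [Lns, Finset.mem_insert, Finset.mem_image]
theorem card_Lns {p : R F} (hp : Prime p) : ((Lns p).card : ℝ) = N p + 1 := by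
  rw [Lns, Finset.card_insert_of_notMem fun h => ?_, Finset.card_image_of_injective _
    fun j j' h => (Prod.mk.inj h).2, Nat.cast_add, card_res hp.ne_zero, Nat.cast_one]
  obtain ⟨j, -, hj⟩ := Finset.mem_image.1 h
  exact one_ne_zero (Prod.mk.inj hj).1
theorem prim_of_mem_Lns {p : R F} (hp : Prime p) {l : R F × R F} (h : l ∈ Lns p) :
    ¬ (p ∣ l.1 ∧ p ∣ l.2) := by
  rcases kub_mem_Lns.1 h with rfl | ⟨j, -, rfl⟩
  · exact fun h1 => hp.not_dvd_one h1.2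
  · exact fun h1 => hp.not_dvd_one h1.1
/-- A primitive row lies on exactly one line. -/
theorem existsUnique_Lns {p : R F} (hp : Prime p) {x : R F × R F} (h : ¬ (p ∣ x.1 ∧ p ∣ x.2)) :
    ∃! l, l ∈ Lns p ∧ p ∣ x.1 * l.2 - x.2 * l.1 := by
  by_cases h1 : p ∣ x.1
  · refine ⟨(0, 1), ⟨kub_mem_Lns.2 (Or.inl rfl), by simpa using h1⟩, fun l ⟨h2, h3⟩ => ?_⟩
    rcases kub_mem_Lns.1 h2 with rfl | ⟨j, -, rfl⟩
    · rfl
    · refine absurd ⟨h1, ?_⟩ h
      have := dvd_sub (h1.mul_right j) h3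
      simpa using this
  · obtain ⟨u, v, huv⟩ := (hp.coprime_iff_not_dvd.2 h1)
    obtain ⟨j, hj, t, ht⟩ := exists_res hp.ne_zero (v * x.2)
    have h4 : p ∣ x.1 * j - x.2 * 1 :=
      ⟨-(x.1 * t) - u * x.2, by linear_combination x.2 * huv - x.1 * ht⟩
    refine ⟨(1, j), ⟨kub_mem_Lns.2 (Or.inr ⟨j, hj, rfl⟩), h4⟩, fun l ⟨h2, h3⟩ => ?_⟩
    rcases kub_mem_Lns.1 h2 with rfl | ⟨j', hj', rfl⟩
    · exact absurd (by simpa using h3) h1
    · have h5 := dvd_sub h3 h4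
      rw [sub_sub_sub_cancel_right, ← mul_sub] at h5
      rw [res_unique hj' hj ((hp.dvd_or_dvd h5).resolve_left h1)]
theorem kub_line {p : R F} (hp : Prime p) {l l' : R F × R F} (h : ¬ (p ∣ l.1 ∧ p ∣ l.2))
    (hl : p ∣ l.1 * l'.2 - l.2 * l'.1) {c d : R F} (h1 : p ∣ c * l.2 - d * l.1) :
    p ∣ c * l'.2 - d * l'.1 := by
  by_contra h2
  refine h ⟨(hp.dvd_or_dvd ?_).resolve_right h2, (hp.dvd_or_dvd ?_).resolve_right h2⟩
  · rw [show l.1 * (c * l'.2 - d * l'.1) =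
      c * (l.1 * l'.2 - l.2 * l'.1) + l'.1 * (c * l.2 - d * l.1) by ring]
    exact dvd_add (hl.mul_left _) (h1.mul_left _)
  · rw [show l.2 * (c * l'.2 - d * l'.1) =
      d * (l.1 * l'.2 - l.2 * l'.1) + l'.2 * (c * l.2 - d * l.1) by ring]
    exact dvd_add (hl.mul_left _) (h1.mul_left _)
theorem lin_congr {p : R F} (hp : Prime p) {l l' : R F × R F} (h : ¬ (p ∣ l.1 ∧ p ∣ l.2))
    (h' : ¬ (p ∣ l'.1 ∧ p ∣ l'.2)) (hl : p ∣ l.1 * l'.2 - l.2 * l'.1) (k : R F → R F → ℂ) :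
    lin p l k = lin p l' k := by
  funext c d
  have hl' : p ∣ l'.1 * l.2 - l'.2 * l.1 := by
    rw [show l'.1 * l.2 - l'.2 * l.1 = -(l.1 * l'.2 - l.2 * l'.1) by ring]
    exact hl.neg_right
  exact if_congr ⟨kub_line hp h hl, kub_line hp h' hl'⟩ rfl rfl
theorem LocF.comp_mul {φ : F → ℂ} (hφ : LocF φ) {a : F} (ha : a ≠ 0) :
    LocF (fun x => φ (x * a)) := by
  obtain ⟨⟨B, hB⟩, ⟨A, hA⟩, b, hb⟩ := hφ
  obtain ⟨a1, h1⟩ := exists_Hi a⁻¹
  obtain ⟨K, hK⟩ := kub_small a b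
  refine ⟨⟨B, fun x => hB _⟩, ⟨A + a1, fun x hx => ?_⟩, K, fun x x' h => hb _ _ ?_⟩
  · have := (hA _ hx).mul h1
    rwa [mul_inv_cancel_right₀ ha] at this
  · rw [← sub_mul, mul_comm]
    exact hK _ h
theorem UInv.comp_mul {φ : F → ℂ} (hφ : UInv φ) (a : F) : UInv (fun x => φ (x * a)) :=
  fun x u hu => by
    dsimp only
    rw [mul_assoc, hφ _ u hu]
theorem locF_ind (K : ℕ) : LocF (fun x : F => if Lo K x then (1 : ℂ) else 0) := by
  refine ⟨⟨1, fun x => ?_⟩, ⟨0, fun x hx => ?_⟩, K, fun x x' h => if_congr ⟨fun h1 => ?_, fun h1 => ?_⟩ rfl rfl⟩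
  · dsimp only
    split_ifs <;> simp
  · exact Hi.of_mem 0 (Lo.mem (e := K) (by by_contra h; exact hx (if_neg h)))
  · simpa using h1.sub h
  · simpa using h.add h1
theorem uInv_ind (K : ℕ) : UInv (fun x : F => if Lo K x then (1 : ℂ) else 0) := by
  refine fun x u hu => if_congr ⟨fun h1 => ?_, Lo.mul_left hu.mem⟩ rfl rfl
  have := Lo.mul_left (hu.inv kub_three).mem h1
  rwa [inv_mul_cancel_left₀ (hu.ne_zero kub_three)] at this

end Vale.Agent.P319B
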