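import Vale.Agent.P319B.GeoM
import Vale.Agent.P319B.Kub

/-! The smoothed Eisenstein series, partitions of unity and unfolding. -/

namespace Vale.Agent.P319B

open Complex NumberField MeasureTheory Filter Topology
open scoped Classical ComplexConjugate
open Vale.Agent.P026 (w kk fk)

variable {F : Type} [Field F] [NumberField F] [Ctx0 F]

theorem g2_low {q : P026.HF} (h0 : 0 < q.2.2) (h1 : 0 < dlt q) : 0 < q.1 + q.2.2 ∧ ∀ c d : ℂ,
    dlt q / (q.1 + q.2.2) * (normSq c + normSq d) ≤ P026.hq q c d := by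
  obtain ⟨A, B, D⟩ := q
  have h2 : 0 < A + D := add_pos ((pos_iff_pos_of_mul_pos
    ((normSq_nonneg B).trans_lt (sub_pos.1 h1))).2 h0) h0
  refine ⟨h2, fun c d => ?_⟩
  have e : P026.hq (A, B, D) c d * (A + D) = (A * D - normSq B) * (normSq c + normSq d) +
      normSq (A * c + conj B * d) + normSq (B * c + D * d) := by
    simp [P026.hq, normSq_apply]
    ring
  rw [div_mul_eq_mul_div, div_le_iff₀ h2, e, add_assoc]
  exact le_add_of_nonneg_right (add_nonneg (normSq_nonneg _) (normSq_nonneg _))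
theorem g2_near {Q0 : HF F} (h : PosQ Q0) : ∃ a : ℝ, 0 < a ∧ ∀ᶠ Q in 𝓝 Q0, ∀ x : R F × R F,
    a * ∑ v, sqv (x.1 : F) v + a * ∑ v, sqv (x.2 : F) v ≤ hv Q x := by
  obtain ⟨a, ha, ha'⟩ := ((eventually_all.2 fun v => nhdsWithin_le_nhds (Iio_mem_nhds
    (div_pos (h v).2 (g2_low (h v).1 (h v).2).1))).and (self_mem_nhdsWithin (a := (0 : ℝ))
      (s := Set.Ioi 0))).exists
  refine ⟨a, ha', ?_⟩
  have h1 : ∀ v, ContinuousAt (fun Q : HF F => dlt (Q v) / ((Q v).1 + (Q v).2.2)) Q0 := fun v =>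
    (geo1_cont.comp (continuous_apply v)).continuousAt.div (by fun_prop)
      (g2_low (h v).1 (h v).2).1.ne'
  filter_upwards [isOpen_posQ.mem_nhds h,
    eventually_all.2 fun v => (h1 v).eventually (Ioi_mem_nhds (ha v))] with Q h2 h3 x
  rw [← mul_add, ← Finset.sum_add_distrib, Finset.mul_sum]
  exact Finset.sum_le_sum fun v _ => (mul_le_mul_of_nonneg_right (le_of_lt (h3 v))
    (add_nonneg (sqv_nonneg _ _) (sqv_nonneg _ _))).trans ((g2_low (h2 v).1 (h2 v).2).2 _ _)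
theorem g2_sum (A : ℕ) {a : ℝ} (ha : 0 < a) :
    Summable fun x : R F => if Hi A (x : F) then Real.exp (-(a * ∑ v, sqv (x : F) v)) else 0 := by
  have h := summable_lat_gauss (isLat_lat (F := F) one_ne_zero
    (inv_ne_zero (pow_ne_zero A MF_ne))) ha 0
  refine (Function.Injective.summable_iff (g := fun z : lat (1 : F) (MF F ^ A)⁻¹ =>
    (⟨z, by simpa using (mem_lat.1 z.2).1⟩ : R F))
    (fun y z hyz => Subtype.ext (congrArg (fun x : R F => (x : F)) hyz)) fun x hx => if_neg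
      fun h1 => hx ⟨⟨x, mem_lat.2 ⟨by simp, by rwa [div_inv_eq_mul, mul_comm]⟩⟩, rfl⟩).1 ?_
  refine h.of_nonneg_of_le (fun z => ?_) fun z => ?_ <;> simp only [Function.comp] <;> split_ifs
  exacts [(Real.exp_pos _).le, le_rfl, by simp, by positivity]
theorem g2_dom (A : ℕ) {Q0 : HF F} (h : PosQ Q0) : ∃ u : R F × R F → ℝ, Summable u ∧
    ∀ᶠ Q in 𝓝 Q0, ∀ x : R F × R F,
      (if Hi A (x.1 : F) ∧ Hi A (x.2 : F) then Real.exp (-hv Q x) else 0) ≤ u x := by
  obtain ⟨a, ha, h1⟩ := g2_near h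
  have h2 : ∀ x : R F,
      0 ≤ if Hi A (x : F) then Real.exp (-(a * ∑ v, sqv (x : F) v)) else 0 := fun x => by
    positivity
  refine ⟨_, (g2_sum A ha).mul_of_nonneg (g2_sum A ha) h2 h2, h1.mono fun Q hQ x => ?_⟩
  by_cases h3 : Hi A (x.1 : F) ∧ Hi A (x.2 : F)
  · rw [if_pos h3, if_pos h3.1, if_pos h3.2, ← Real.exp_add, ← neg_add]
    exact Real.exp_le_exp.2 (neg_le_neg (hQ x))
  · rw [if_neg h3]
    exact mul_nonneg (h2 _) (h2 _)
theorem g2_bd {k : R F → R F → ℂ} (hk : Bdd k) : ∃ (B : ℝ) (A : ℕ), 0 ≤ B ∧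
    ∀ (Q : HF F) (x : R F × R F), ‖k x.1 x.2 * (Real.exp (-hv Q x) : ℂ)‖ ≤
      B * if Hi A (x.1 : F) ∧ Hi A (x.2 : F) then Real.exp (-hv Q x) else 0 := by
  obtain ⟨⟨B, hB⟩, A, hA⟩ := hk
  refine ⟨B, A, (norm_nonneg _).trans (hB 0 0), fun Q x => ?_⟩
  rw [norm_mul, norm_real, Real.norm_of_nonneg (Real.exp_pos _).le]
  split_ifs with h
  · exact mul_le_mul_of_nonneg_right (hB _ _) (Real.exp_pos _).le
  · rw [not_not.1 (mt (hA _ _) h), norm_zero, zero_mul, mul_zero]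
theorem g2_cont (x : R F × R F) : Continuous fun Q : HF F => hv Q x := by
  unfold hv P026.hq
  fun_prop
theorem g2_inv (g : GM F) (Q : HF F) : act g⁻¹ (act g Q) = Q := by
  rw [← act_mul, inv_mul_cancel, act_one]

theorem summable_hv (A : ℕ) {Q : HF F} (hQ : PosQ Q) :
    Summable (fun x : R F × R F =>
      if Hi A (x.1 : F) ∧ Hi A (x.2 : F) then Real.exp (-hv Q x) else 0) := by
  obtain ⟨u, h1, h2⟩ := g2_dom A hQ
  exact h1.of_nonneg_of_le (fun x => by positivity) h2.self_of_nhds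
theorem summable_Es {k : R F → R F → ℂ} (hk : Bdd k) {Q : HF F} (hQ : PosQ Q) :
    Summable (fun x : R F × R F => k x.1 x.2 * (Real.exp (-hv Q x) : ℂ)) := by
  obtain ⟨B, A, -, h⟩ := g2_bd hk
  exact ((summable_hv A hQ).mul_left B).of_norm_bounded (h Q)
theorem measurable_Es (k : R F → R F → ℂ) : Measurable (Es k) :=
  Measurable.tsum fun x => Continuous.measurable (by have := g2_cont x; fun_prop)
theorem measurable_nEs (k : R F → R F → ℂ) (t : Io F → ℝ) : Measurable (nEs k t) :=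
  ((measurable_Es k).comp (continuous_sc t).measurable).const_mul _
theorem continuousOn_Es {k : R F → R F → ℂ} (hk : Bdd k) :
    ContinuousOn (Es k) {Q | PosQ Q} :=
  fun Q0 h0 => by
    obtain ⟨B, A, hB, h⟩ := g2_bd hk
    obtain ⟨u, h1, h2⟩ := g2_dom A h0
    refine (ContinuousOn.continuousAt ?_ h2).continuousWithinAt
    exact continuousOn_tsum (fun x => Continuous.continuousOn (by have := g2_cont x; fun_prop))
      (h1.mul_left B) fun x Q hQ => (h Q x).trans (mul_le_mul_of_nonneg_left (hQ x) hB)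
theorem continuousOn_nEs {k : R F → R F → ℂ} (hk : Bdd k) {t : Io F → ℝ} (ht : ∀ v, 0 < t v) :
    ContinuousOn (nEs k t) {Q | PosQ Q} :=
  continuousOn_const.mul ((continuousOn_Es hk).comp (continuous_sc t).continuousOn
    fun _ hQ => PosQ.sc hQ ht)
theorem Es_act (k : R F → R F → ℂ) (g : GM F) (Q : HF F) : Es k (act g Q) = Es (trl k g) Q := by
  let e : R F × R F ≃ R F × R F := ⟨fun x => row x g, fun x => row x g⁻¹,
    fun x => by simp only [← row_mul, mul_inv_cancel, row_one],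
    fun x => by simp only [← row_mul, inv_mul_cancel, row_one]⟩
  rw [Es, Es, eq_comm, ← e.tsum_eq]
  exact tsum_congr fun x => by simp only [e, Equiv.coe_fn_mk, trl_row, hv_act]
theorem nEs_act (k : R F → R F → ℂ) (g : GM F) (t : Io F → ℝ) (Q : HF F) :
    nEs k t (act g Q) = nEs (trl k g) t Q := by rw [nEs, nEs, ← act_sc, Es_act]
theorem Es_smul (z : ℂ) (k : R F → R F → ℂ) (Q : HF F) :
    Es (fun c d => z * k c d) Q = z * Es k Q := by simp only [Es, mul_assoc, tsum_mul_left]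
theorem nEs_smul (z : ℂ) (k : R F → R F → ℂ) (t : Io F → ℝ) (Q : HF F) :
    nEs (fun c d => z * k c d) t Q = z * nEs k t Q := by rw [nEs, nEs, Es_smul, mul_left_comm]
theorem nEs_add {k k' : R F → R F → ℂ} (hk : Bdd k) (hk' : Bdd k') {t : Io F → ℝ}
    (ht : ∀ v, 0 < t v) {Q : HF F} (hQ : PosQ Q) :
    nEs (fun c d => k c d + k' c d) t Q = nEs k t Q + nEs k' t Q := by
  simp only [nEs, Es, add_mul]
  rw [(summable_Es hk (hQ.sc ht)).tsum_add (summable_Es hk' (hQ.sc ht)), mul_add]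
theorem nEs_sum {ι : Type} (s : Finset ι) {k : ι → R F → R F → ℂ} (hk : ∀ i ∈ s, Bdd (k i))
    {t : Io F → ℝ} (ht : ∀ v, 0 < t v) {Q : HF F} (hQ : PosQ Q) :
    nEs (fun c d => ∑ i ∈ s, k i c d) t Q = ∑ i ∈ s, nEs (k i) t Q := by
  simp only [nEs, Es, Finset.sum_mul]
  rw [Summable.tsum_finsetSum fun i hi => summable_Es (hk i hi) (hQ.sc ht), Finset.mul_sum]

theorem exists_beta {e : ℕ} (he : 1 ≤ e) : ∃ β, IsBeta (F := F) e β := by
  let r : HF F → ℝ := fun Q => Real.exp (-∑ v, (Q v).1) * Real.exp (-∑ v, (Q v).2.2)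
  have hr : Continuous r := by fun_prop
  have r0 : ∀ Q, 0 < r Q := fun Q => by positivity
  let u : HF F → ENNReal := fun Q => ENNReal.ofReal (r Q)
  let U : HF F → ENNReal := fun Q => ∑' g : Ge F e, u (act g Q)
  have hu : Measurable u := hr.measurable.ennreal_ofReal
  have hU : Measurable U := Measurable.tsum fun g => hu.comp (continuous_act _).measurable
  have h0 : ∀ Q, u Q ≠ 0 := fun Q => (ENNReal.ofReal_pos.2 (r0 Q)).ne'
  have h1 : ∀ Q, u Q ≤ U Q := fun Q => by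
    simpa only [OneMemClass.coe_one, act_one] using
      ENNReal.le_tsum (f := fun g : Ge F e => u (act g Q)) 1
  have h2 : ∀ Q0, PosQ Q0 → ∃ S : ℝ, 0 < S ∧ ∀ᶠ Q in 𝓝 Q0, U Q ≤ ENNReal.ofReal S := by
    intro Q0 hQ0
    obtain ⟨b, b1, b2⟩ := g2_dom 0 hQ0
    have b0 : ∀ x, 0 ≤ b x := fun x => le_trans (by positivity) (b2.self_of_nhds x)
    have hs := (b1.mul_of_nonneg b1 b0 b0).comp_injective
      (i := fun g : Ge F e => ((g.1.a, g.1.b), (g.1.c, g.1.d))) fun g h e => by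
        simp only [Prod.mk.injEq] at e
        exact Subtype.ext (GM.ext e.1.1 e.1.2 e.2.1 e.2.2 (Units.ext (by
          rw [← g.1.det, ← h.1.det, e.1.1, e.1.2, e.2.1, e.2.2])))
    refine ⟨∑' g : Ge F e, b (g.1.a, g.1.b) * b (g.1.c, g.1.d) + 1, add_pos_of_nonneg_of_pos
      (tsum_nonneg fun g => mul_nonneg (b0 _) (b0 _)) one_pos, b2.mono fun Q hQ => ?_⟩
    refine le_trans ?_ (ENNReal.ofReal_le_ofReal (le_add_of_nonneg_right zero_le_one))
    rw [ENNReal.ofReal_tsum_of_nonneg (fun g => mul_nonneg (b0 _) (b0 _)) hs]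
    refine ENNReal.tsum_le_tsum fun g => ENNReal.ofReal_le_ofReal ?_
    obtain ⟨a1, a2, a3, a4⟩ := (mem_Ge he).1 g.2
    exact mul_le_mul ((if_pos ⟨Hi_zero_iff.2 a1.mem, Hi_zero_iff.2 a2.mem⟩).symm.trans_le
      (hQ (g.1.a, g.1.b))) ((if_pos ⟨Hi_zero_iff.2 a3.mem, Hi_zero_iff.2 a4.mem⟩).symm.trans_le
        (hQ (g.1.c, g.1.d))) (Real.exp_pos _).le (b0 _)
  have h3 : ∀ (h : Ge F e) Q, U (act h Q) = U Q := fun h Q => by
    simp only [U, ← act_mul]
    exact (Equiv.mulRight h).tsum_eq fun g : Ge F e => u (act g Q)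
  refine ⟨fun Q => u Q / U Q, hu.div hU, fun Q => ENNReal.div_le_of_le_mul (by simpa using h1 Q),
    fun K hK hK' => ?_, fun Q hQ => ?_⟩
  · refine hK.induction_on (p := fun s => ∃ c : ℝ, 0 < c ∧ ∀ Q ∈ s, ENNReal.ofReal c ≤ u Q / U Q)
      ⟨1, one_pos, fun _ h => h.elim⟩ (fun s t hst ⟨c, hc, h⟩ => ⟨c, hc, fun Q hQ => h Q (hst hQ)⟩)
      (fun s t ⟨c, hc, h⟩ ⟨d, hd, h'⟩ => ⟨min c d, lt_min hc hd, fun Q hQ => hQ.elim
        (fun hQ => (ENNReal.ofReal_le_ofReal (min_le_left _ _)).trans (h Q hQ))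
        fun hQ => (ENNReal.ofReal_le_ofReal (min_le_right _ _)).trans (h' Q hQ)⟩) fun Q0 hQ0 => ?_
    obtain ⟨S, hS, hS'⟩ := h2 Q0 (hK' hQ0).1
    refine ⟨_, nhdsWithin_le_nhds (hS'.and (hr.continuousAt.eventually
      (Ioi_mem_nhds (half_lt_self (r0 Q0))))), r Q0 / 2 / S, div_pos (half_pos (r0 Q0)) hS,
      fun Q hQ => ?_⟩
    rw [ENNReal.ofReal_div_of_pos hS]
    exact ENNReal.div_le_div (ENNReal.ofReal_le_ofReal (le_of_lt hQ.2)) hQ.1
  · obtain ⟨S, -, hS⟩ := h2 Q hQ.1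
    simp only [h3, div_eq_mul_inv, ENNReal.tsum_mul_right]
    exact ENNReal.mul_inv_cancel (ne_bot_of_le_ne_bot (h0 Q) (h1 Q))
      (ne_top_of_le_ne_top ENNReal.ofReal_ne_top hS.self_of_nhds)
theorem g2_one {e : ℕ} {β : HF F → ENNReal} (hβ : IsBeta e β) :
    ∀ᵐ Q ∂nu F, ∑' g : Ge F e, β (act (g : GM F)⁻¹ Q) = 1 := by
  filter_upwards [ae_restrict_mem measurableSet_slab] with Q hQ
  rw [← hβ.sum Q hQ]
  exact (Equiv.inv (Ge F e)).tsum_eq fun g : Ge F e => β (act g Q)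
theorem g2_unfold {e : ℕ} {β : HF F → ENNReal} (hβ : IsBeta e β) {G : HF F → ENNReal}
    (hG : Measurable G) :
    ∑' g : Ge F e, ∫⁻ Q, β (act (g : GM F)⁻¹ Q) * G Q ∂nu F = ∫⁻ Q, G Q ∂nu F := by
  rw [← lintegral_tsum (f := fun (g : Ge F e) Q => β (act (g : GM F)⁻¹ Q) * G Q)
    fun g => ((hβ.meas.comp (continuous_act _).measurable).mul hG).aemeasurable]
  refine lintegral_congr_ae ?_
  filter_upwards [g2_one hβ] with Q hQ
  rw [ENNReal.tsum_mul_right, hQ, one_mul]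
theorem g2_shift {e : ℕ} (he : 1 ≤ e) {β : HF F → ENNReal} (hβ : IsBeta e β) {G : HF F → ENNReal}
    (hG : Measurable G) (g : Ge F e) :
    ∫⁻ Q, β Q * G (act g Q) ∂nu F = ∫⁻ Q, β (act (g : GM F)⁻¹ Q) * G Q ∂nu F := by
  rw [← (measurePreserving_act (Nin_det he g.2)).lintegral_comp
    (f := fun Q => β (act (g : GM F)⁻¹ Q) * G Q)
    ((hβ.meas.comp (continuous_act _).measurable).mul hG)]
  simp only [g2_inv]
theorem lintegral_unfold {e : ℕ} (he : 1 ≤ e) {β : HF F → ENNReal} (hβ : IsBeta e β)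
    {G : HF F → ENNReal} (hG : Measurable G) :
    ∫⁻ Q, β Q * ∑' g : Ge F e, G (act g Q) ∂(nu F) = ∫⁻ Q, G Q ∂(nu F) := by
  simp only [← ENNReal.tsum_mul_left]
  rw [lintegral_tsum (f := fun (g : Ge F e) Q => β Q * G (act g Q)) fun g =>
    (hβ.meas.mul (hG.comp (continuous_act _).measurable)).aemeasurable, ← g2_unfold hβ hG]
  exact tsum_congr fun g => g2_shift he hβ hG g
theorem integral_unfold {e : ℕ} (he : 1 ≤ e) {β : HF F → ENNReal} (hβ : IsBeta e β)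
    {G : HF F → ℂ} (hm : Measurable G) (hG : Integrable G (nu F)) :
    Integrable (fun Q => ((β Q).toReal : ℂ) * ∑' g : Ge F e, G (act g Q)) (nu F) ∧
      ∫ Q, ((β Q).toReal : ℂ) * ∑' g : Ge F e, G (act g Q) ∂(nu F) = ∫ Q, G Q ∂(nu F) := by
  have hb : ∀ Q, β Q ≠ ⊤ := fun Q => ne_top_of_le_ne_top ENNReal.one_ne_top (hβ.le_one Q)
  have hn : ∀ Q (z : ℂ), ‖((β Q).toReal : ℂ) * z‖ₑ = β Q * ‖z‖ₑ := fun Q z => by
    rw [enorm_mul, ← ofReal_norm, norm_real, Real.norm_of_nonneg ENNReal.toReal_nonneg,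
      ENNReal.ofReal_toReal (hb Q)]
  have hβm : Measurable fun Q => ((β Q).toReal : ℂ) :=
    measurable_ofReal.comp hβ.meas.ennreal_toReal
  have m1 : ∀ g : GM F, Measurable fun Q => ((β (act g⁻¹ Q)).toReal : ℂ) * G Q := fun g =>
    (hβm.comp (continuous_act _).measurable).mul hm
  have m2 : ∀ g : GM F, Measurable fun Q => ((β Q).toReal : ℂ) * G (act g Q) := fun g =>
    hβm.mul (hm.comp (continuous_act _).measurable)
  have h1 := g2_unfold hβ hm.enorm
  refine ⟨⟨(hβm.mul (Measurable.tsum fun g : Ge F e =>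
    hm.comp (continuous_act _).measurable)).aestronglyMeasurable, ?_⟩, ?_⟩
  · refine lt_of_le_of_lt (lintegral_mono fun Q => ?_)
      ((lintegral_unfold he hβ hm.enorm).trans_lt hG.2)
    rw [hn]
    exact mul_le_mul_right enorm_tsum_le_tsum_enorm _
  · simp only [← tsum_mul_left]
    rw [integral_tsum (fun g : Ge F e => (m2 g).aestronglyMeasurable)
      (by simp only [hn, g2_shift he hβ hm.enorm, h1]; exact hG.2.ne)]
    have h2 : ∀ g : Ge F e, ∫ Q, ((β Q).toReal : ℂ) * G (act g Q) ∂nu F =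
        ∫ Q, ((β (act (g : GM F)⁻¹ Q)).toReal : ℂ) * G Q ∂nu F := fun g => by
      conv_rhs => rw [← (measurePreserving_act (Nin_det he g.2)).map_eq, integral_map
        (continuous_act _).measurable.aemeasurable (m1 g).aestronglyMeasurable]
      simp only [g2_inv]
    simp only [h2]
    rw [← integral_tsum (fun g : Ge F e => (m1 g).aestronglyMeasurable)
      (by simp only [hn, h1]; exact hG.2.ne)]
    refine integral_congr_ae ?_
    filter_upwards [g2_one hβ] with Q hQ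
    rw [tsum_mul_right, ← ofReal_tsum, ← ENNReal.tsum_toReal_eq fun g => hb _, hQ]
    simp

theorem mem_Fz {s : Set (Io F → ℝ)} :
    s ∈ Fz F ↔ ∃ δ : ℝ, 0 < δ ∧ ∀ t : Io F → ℝ, (∀ v, 0 < t v) → ∏ v, t v < δ → t ∈ s := by
  rw [Fz, mem_inf_principal, (nhdsGT_basis (0 : ℝ)).comap _ |>.mem_iff]
  exact exists_congr fun δ => and_congr_right fun _ =>
    ⟨fun h t h1 h2 => h ⟨Finset.prod_pos fun v _ => h1 v, h2⟩ h1, fun h t h1 h2 => h t h2 h1.2⟩
instance : (Fz F).NeBot := ⟨fun h => by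
  obtain ⟨δ, h1, h2⟩ := mem_Fz.1 (empty_mem_iff_bot.2 h)
  refine h2 (Function.update 1 (Classical.arbitrary _) (δ / 2)) (fun v => ?_) ?_
  · rw [Function.update_apply]
    split_ifs
    exacts [half_pos h1, one_pos]
  · rw [Finset.prod_update_of_mem (Finset.mem_univ _)]
    simpa using h1⟩
instance : (Fz F).IsCountablyGenerated := by
  unfold Fz
  infer_instance
theorem eventually_Fz_pos : ∀ᶠ t in Fz F, ∀ v, 0 < t v :=
  mem_inf_of_right (mem_principal_self _)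
theorem tendsto_prod_Fz : Tendsto (fun t : Io F → ℝ => ∏ v, t v) (Fz F) (𝓝[>] 0) :=
  tendsto_comap.mono_left inf_le_left
theorem tendsto_prod_Fz2 :
    Tendsto (fun p : (Io F → ℝ) × (Io F → ℝ) => (∏ v, p.1 v) * ∏ v, p.2 v) (Fz F ×ˢ Fz F)
      (𝓝[>] 0) := by
  have h := tendsto_nhdsWithin_iff.1 (tendsto_prod_Fz (F := F))
  refine tendsto_nhdsWithin_iff.2 ⟨?_, (h.2.prod_mk h.2).mono fun p hp =>
    mul_pos (α := ℝ) hp.1 hp.2⟩
  simpa using (h.1.comp tendsto_fst).mul (h.1.comp tendsto_snd)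
theorem tendsto_Fz_mul {s : Io F → ℝ} (hs : ∀ v, 0 < s v) :
    Tendsto (fun (t : Io F → ℝ) v => t v * s v) (Fz F) (Fz F) :=
  fun A hA => by
    obtain ⟨δ, h1, h2⟩ := mem_Fz.1 hA
    have h3 : 0 < ∏ v, s v := Finset.prod_pos fun v _ => hs v
    exact mem_Fz.2 ⟨δ / ∏ v, s v, div_pos h1 h3, fun t h4 h5 => h2 _ (fun v => mul_pos (h4 v) (hs v))
      (by rwa [Finset.prod_mul_distrib, ← lt_div_iff₀ h3])⟩

end Vale.Agent.P319B
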