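import Vale.Agent.P319B.GeoMA

/-! Invariant measure and coordinates on the slab. -/

namespace Vale.Agent.P319B

open Complex NumberField MeasureTheory
open scoped Classical ComplexConjugate
open Vale.Agent.P026 (w kk fk)

variable {F : Type} [Field F] [NumberField F] [Ctx0 F]

theorem measurableSet_slab : MeasurableSet (slab F) := by
  have h : Measurable fun Q : HF F => ∏ v, dlt (Q v) := (continuous_finsetProd _ fun v _ =>
    geo1_cont.comp (continuous_apply v)).measurable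
  exact isOpen_posQ.measurableSet.inter
    ((measurableSet_le measurable_const h).inter (measurableSet_le h measurable_const))
theorem measurePreserving_act {g : GM F} (hg : Nin ((g.u : R F) : F) = 1) :
    MeasurePreserving (act g) (nu F) (nu F) := by
  have h1 : Nin ((g⁻¹.u : R F) : F) = 1 := by
    have h := congrArg (fun x : R F => Nin (x : F)) g.u.inv_mul
    simpa only [Subring.coe_mul, Nin_mul, hg, mul_one, Subring.coe_one, Nin_one, GM.inv_u] using h
  have h2 : act g ⁻¹' slab F = slab F := by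
    ext Q
    refine ⟨fun h => ?_, act_mem_slab hg⟩
    have := act_mem_slab h1 h
    rwa [← act_mul, inv_mul_cancel, act_one] at this
  have h3 := (gm_vol hg).restrict_preimage measurableSet_slab
  rwa [h2] at h3
theorem measurableSet_DE : MeasurableSet (DE F) := by
  unfold DE
  measurability
theorem measurable_pt :
    Measurable (fun p : (Io F → ℂ) × (Io F → ℝ) × (Io F → ℝ) => pt p.1 p.2.1 p.2.2) := by
  unfold pt P026.pt
  fun_prop
theorem prod_DE : (volume.restrict (Set.univ ×ˢ DE F) :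
    Measure ((Io F → ℂ) × (Io F → ℝ) × (Io F → ℝ))) =
      (volume : Measure (Io F → ℂ)).prod (volume.restrict (DE F)) := by
  rw [Measure.volume_eq_prod, ← Measure.prod_restrict, Measure.restrict_univ]
theorem gm_mem (p : (Io F → ℂ) × (Io F → ℝ) × (Io F → ℝ)) :
    pt p.1 p.2.1 p.2.2 ∈ slab F ↔ p ∈ (Set.univ : Set (Io F → ℂ)) ×ˢ DE F := by
  refine ⟨fun h => ?_, fun h => pt_mem_slab p.1 h.2⟩
  have h0 : ∀ v, 0 < p.2.1 v := fun v => (h.1 v).1
  exact ⟨trivial, h0, fun v => dlt_pt p.1 h0 p.2.2 v ▸ (h.1 v).2,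
    by simpa only [dlt_pt p.1 h0] using h.2⟩
theorem gm_open : IsOpen {p : (Io F → ℝ) × (Io F → ℝ) |
    ((∀ v, 0 < p.1 v) ∧ ∀ v, 0 < p.2 v) ∧ 1 < ∏ v, p.2 v ∧ ∏ v, p.2 v < 2} := by
  simp only [Set.ofPred_forall, Set.ofPred_and]
  exact ((isOpen_iInter_of_finite fun v => isOpen_lt (by fun_prop) (by fun_prop)).inter
    (isOpen_iInter_of_finite fun v => isOpen_lt (by fun_prop) (by fun_prop))).inter
    ((isOpen_lt (by fun_prop) (by fun_prop)).inter (isOpen_lt (by fun_prop) (by fun_prop)))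
theorem gm_sub : {p : (Io F → ℝ) × (Io F → ℝ) |
    ((∀ v, 0 < p.1 v) ∧ ∀ v, 0 < p.2 v) ∧ 1 < ∏ v, p.2 v ∧ ∏ v, p.2 v < 2} ⊆ DE F :=
  fun _ hp => ⟨hp.1.1, hp.1.2, hp.2.1.le, hp.2.2.le⟩
theorem measurePreserving_pt :
    MeasurePreserving (fun p : (Io F → ℂ) × (Io F → ℝ) × (Io F → ℝ) => pt p.1 p.2.1 p.2.2)
      ((volume.restrict (Set.univ ×ˢ DE F)).withDensity
        (fun p => ENNReal.ofReal (∏ v, p.2.1 v))) (nu F) := by
  refine ⟨measurable_pt, Measure.ext fun s hs => ?_⟩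
  have hm := hs.inter measurableSet_slab
  have h1 := gm_change (G := (s ∩ slab F).indicator 1) (measurable_one.indicator hm)
  rw [lintegral_indicator_one hm, Measure.restrict_apply hm,
    (Set.inter_eq_left (t := {Q : HF F | ∀ v, 0 < (Q v).2.2})).2 fun Q hQ v => (hQ.2.1 v).1] at h1
  rw [Measure.map_apply measurable_pt hs, withDensity_apply _ (measurable_pt hs), nu,
    Measure.restrict_apply hs, ← h1, Measure.restrict_restrict (measurable_pt hs),
    ← lintegral_indicator ((measurable_pt hs).inter (MeasurableSet.univ.prod measurableSet_DE))]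
  refine lintegral_congr fun p => ?_
  by_cases hp : pt p.1 p.2.1 p.2.2 ∈ s ∩ slab F
  · rw [Set.indicator_of_mem hp, Pi.one_apply, mul_one,
      ← ENNReal.ofReal_prod_of_nonneg fun v _ => (((gm_mem p).1 hp.2).2.1 v).le]
    exact Set.indicator_of_mem (Set.mem_inter (x := p) hp.1 ((gm_mem p).1 hp.2)) _
  · rw [Set.indicator_of_notMem hp, mul_zero]
    exact Set.indicator_of_notMem (fun h => hp ⟨h.1, (gm_mem p).2 h.2⟩) _
theorem ae_pt {Pr : HF F → Prop} (h : ∀ᵐ Q ∂(nu F), Pr Q) :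
    ∀ᵐ p : (Io F → ℂ) × (Io F → ℝ) × (Io F → ℝ) ∂(volume.restrict (Set.univ ×ˢ DE F)),
      Pr (pt p.1 p.2.1 p.2.2) := by
  have h1 := measurePreserving_pt.quasiMeasurePreserving.ae h
  rw [ae_withDensity_iff (by fun_prop)] at h1
  filter_upwards [h1, ae_restrict_mem (MeasurableSet.univ.prod measurableSet_DE)] with p hp hm
  exact hp (ENNReal.ofReal_pos.2 (Finset.prod_pos fun v _ => hm.2.1 v)).ne'
theorem ae_of_pt {Pr : HF F → Prop}
    (h : ∀ᵐ p : (Io F → ℂ) × (Io F → ℝ) × (Io F → ℝ) ∂(volume.restrict (Set.univ ×ˢ DE F)),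
      Pr (pt p.1 p.2.1 p.2.2)) : ∀ᵐ Q ∂(nu F), Pr Q := by
  obtain ⟨T, hT, hTm, hT0⟩ := exists_measurable_superset_of_null (ae_iff.1 h)
  have hψ : Measurable fun Q : HF F => ((fun v => (Q v).2.1 / ((Q v).2.2 : ℂ), fun v => (Q v).2.2,
      fun v => dlt (Q v)) : (Io F → ℂ) × (Io F → ℝ) × (Io F → ℝ)) := by
    unfold dlt
    fun_prop
  have h1 : ∀ᵐ Q ∂nu F, ((fun v => (Q v).2.1 / ((Q v).2.2 : ℂ), fun v => (Q v).2.2,
      fun v => dlt (Q v)) : (Io F → ℂ) × (Io F → ℝ) × (Io F → ℝ)) ∈ Tᶜ := by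
    rw [← measurePreserving_pt.map_eq]
    refine (ae_map_iff measurable_pt.aemeasurable (hψ hTm.compl)).2 ?_
    refine withDensity_absolutelyContinuous _ _ ?_
    filter_upwards [compl_mem_ae_iff.2 hT0,
      ae_restrict_mem (MeasurableSet.univ.prod measurableSet_DE)] with p hp hm
    simp only [dlt_pt p.1 hm.2.1]
    simp only [pt, P026.pt, fun v => mul_div_cancel_left₀ (p.1 v) (ofReal_ne_zero.2 (hm.2.1 v).ne')]
    exact hp
  filter_upwards [h1, ae_restrict_mem measurableSet_slab] with Q hQ hs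
  by_contra hn
  refine hQ (hT ?_)
  rw [eq_pt hs.1] at hn
  exact hn
theorem lintegral_pt {G : HF F → ENNReal} (hG : Measurable G) :
    ∫⁻ Q, G Q ∂(nu F) =
      ∫⁻ p in DE F, ENNReal.ofReal (∏ v, p.1 v) * ∫⁻ z, G (pt z p.1 p.2) := by
  have h := hG.fun_comp measurable_pt
  rw [← measurePreserving_pt.lintegral_comp hG,
    lintegral_withDensity_eq_lintegral_mul _ (by fun_prop) h, prod_DE,
    lintegral_prod_symm _ (Measurable.mul (by fun_prop) h).aemeasurable]
  exact lintegral_congr fun p => lintegral_const_mul' (ENNReal.ofReal (∏ v, p.1 v))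
    (fun z => G (pt z p.1 p.2)) ENNReal.ofReal_ne_top
theorem integral_pt {G : HF F → ℂ} (hm : Measurable G) (hG : Integrable G (nu F)) :
    IntegrableOn (fun p : (Io F → ℝ) × (Io F → ℝ) =>
      ((∏ v, p.1 v : ℝ) : ℂ) * ∫ z, G (pt z p.1 p.2)) (DE F) ∧
    ∫ Q, G Q ∂(nu F) = ∫ p in DE F, ((∏ v, p.1 v : ℝ) : ℂ) * ∫ z, G (pt z p.1 p.2) := by
  have h0 : Measurable fun p : (Io F → ℂ) × (Io F → ℝ) × (Io F → ℝ) =>
    ENNReal.ofReal (∏ v, p.2.1 v) := by fun_prop
  have h1 := measurePreserving_pt.integrable_comp_of_integrable hG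
  have h2 : ∫ Q, G Q ∂nu F = _ := (congrArg (integral · G) measurePreserving_pt.map_eq.symm).trans
    (integral_map measurable_pt.aemeasurable hm.aestronglyMeasurable)
  have h3 : ∀ᵐ p : (Io F → ℝ) × (Io F → ℝ) ∂volume.restrict (DE F),
      ∫ z, (ENNReal.ofReal (∏ v, p.1 v)).toReal • G (pt z p.1 p.2) =
        ((∏ v, p.1 v : ℝ) : ℂ) * ∫ z, G (pt z p.1 p.2) := by
    filter_upwards [ae_restrict_mem measurableSet_DE] with p hp
    rw [integral_smul, ENNReal.toReal_ofReal (Finset.prod_nonneg fun v _ => (hp.1 v).le),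
      real_smul]
  rw [integrable_withDensity_iff_integrable_smul' h0
    (Filter.Eventually.of_forall fun _ => ENNReal.ofReal_lt_top), prod_DE] at h1
  rw [h2, integral_withDensity_eq_integral_toReal_smul h0
    (Filter.Eventually.of_forall fun _ => ENNReal.ofReal_lt_top), prod_DE]
  exact ⟨h1.integral_prod_right.congr h3, (integral_prod_symm _ h1).trans (integral_congr_ae h3)⟩
/-- Integrals over boxes are bounded by integrals over compact sets. -/
theorem exists_compact_box {A : Set (Io F → ℂ)} (hA : Bornology.IsBounded A) (hAm : MeasurableSet A)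
    {B : Set ((Io F → ℝ) × (Io F → ℝ))} (hB : IsCompact B) (hBD : B ⊆ DE F) :
    ∃ K : Set (HF F), IsCompact K ∧ K ⊆ slab F ∧ ∀ G : HF F → ENNReal, Measurable G →
      ∫⁻ p in B, ENNReal.ofReal (∏ v, p.1 v) * ∫⁻ z in A, G (pt z p.1 p.2) ≤ ∫⁻ Q in K, G Q := by
  have h1 := (hA.isCompact_closure.prod hB).image_of_continuousOn
    (continuousOn_pt.mono fun p hp => (hBD hp.2).1)
  have h2 : (fun p : (Io F → ℂ) × (Io F → ℝ) × (Io F → ℝ) => pt p.1 p.2.1 p.2.2) ''
      (closure A ×ˢ B) ⊆ slab F := by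
    rintro _ ⟨p, hp, rfl⟩
    exact pt_mem_slab _ (hBD hp.2)
  refine ⟨_, h1, h2, fun G hG => ?_⟩
  rw [← Set.inter_eq_left.2 h2, ← Measure.restrict_restrict h1.measurableSet,
    ← lintegral_indicator h1.measurableSet, ← nu, lintegral_pt (hG.indicator h1.measurableSet)]
  refine le_trans (setLIntegral_mono' hB.measurableSet fun p hp => mul_le_mul_right ?_ _)
    (lintegral_mono_set hBD)
  rw [← lintegral_indicator hAm]
  refine lintegral_mono fun z => Set.indicator_apply_le' (fun hz => ?_) fun _ => zero_le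
  rw [Set.indicator_of_mem (Set.mem_image_of_mem _ (Set.mk_mem_prod (subset_closure hz) hp))]
theorem restrict_DE_ne_zero : (volume.restrict (DE F)) ≠ 0 :=
  fun h => by
    refine (gm_open (F := F)).measure_ne_zero volume ⟨(1, Function.update 1 (Classical.arbitrary _)
      (3 / 2)), ⟨fun _ => one_pos, fun v => ?_⟩, ?_⟩ 
      (measure_mono_null gm_sub (Measure.restrict_eq_zero.1 h))
    · simp only [Function.update_apply]
      split_ifs <;> norm_num
    · rw [Finset.prod_update_of_mem (Finset.mem_univ _)]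
      norm_num
/-- Almost everywhere equal continuous functions agree in the interior. -/
theorem eq_of_ae_DE {f g : (Io F → ℂ) × (Io F → ℝ) × (Io F → ℝ) → ℂ}
    (h : ∀ᵐ x ∂(volume.restrict (Set.univ ×ˢ DE F)), f x = g x)
    (hf : ContinuousOn f {p | (∀ v, 0 < p.2.1 v) ∧ ∀ v, 0 < p.2.2 v})
    (hg : ContinuousOn g {p | (∀ v, 0 < p.2.1 v) ∧ ∀ v, 0 < p.2.2 v})
    (z : Io F → ℂ) {D E : Io F → ℝ} (hD : ∀ v, 0 < D v) (hE : ∀ v, 0 < E v)
    (h1 : 1 < ∏ v, E v) (h2 : ∏ v, E v < 2) : f (z, D, E) = g (z, D, E) :=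
  have : (volume : Measure ((Io F → ℂ) × (Io F → ℝ) × (Io F → ℝ))).IsOpenPosMeasure :=
    Measure.prod.instIsOpenPosMeasure
  Measure.eqOn_open_of_ae_eq (ae_restrict_of_ae_restrict_of_subset (Set.prod_mono le_rfl gm_sub) h)
    (isOpen_univ.prod gm_open) (hf.mono fun _ hp => hp.2.1) (hg.mono fun _ hp => hp.2.1)
    ⟨trivial, ⟨hD, hE⟩, h1, h2⟩

end Vale.Agent.P319B
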