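import Vale.Agent.P319B.Geo

/-! Product measures and the change of variables on tuples of forms. -/

namespace Vale.Agent.P319B

open Complex NumberField MeasureTheory
open scoped Classical ComplexConjugate ENNReal

theorem gm_fin {n : ℕ} {E : Fin n → Type} {mE : ∀ i, MeasurableSpace (E i)}
    {μ : (i : Fin n) → Measure (E i)} [∀ i, SigmaFinite (μ i)] (f : (i : Fin n) → E i → ℝ≥0∞)
    (hf : ∀ i, Measurable (f i)) :
    ∫⁻ x : (i : Fin n) → E i, ∏ i, f i (x i) ∂(Measure.pi μ) = ∏ i, ∫⁻ x, f i x ∂(μ i) := by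
  induction n with
  | zero => simp
  | succ n ih =>
    calc
      _ = ∫⁻ x : E 0 × ((i : Fin n) → E (Fin.succ i)),
          f 0 x.1 * ∏ i : Fin n, f (Fin.succ i) (x.2 i)
          ∂((μ 0).prod (Measure.pi (fun i => μ i.succ))) := by
        rw [← ((measurePreserving_piFinSuccAbove μ 0).symm).lintegral_comp_emb
          (MeasurableEquiv.measurableEmbedding _)]
        refine lintegral_congr fun x => ?_
        rw [Fin.prod_univ_succAbove _ 0]
        show f 0 (Fin.insertNth (α := E) 0 x.1 x.2 0) *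
          ∏ i, f (Fin.succAbove 0 i) (Fin.insertNth (α := E) 0 x.1 x.2 (Fin.succAbove 0 i)) = _
        simp only [Fin.insertNth_apply_same, Fin.insertNth_apply_succAbove]
        rfl
      _ = (∫⁻ x, f 0 x ∂μ 0) * ∏ i : Fin n, ∫⁻ x : E (Fin.succ i), f (Fin.succ i) x ∂(μ i.succ) := by
        rw [← ih _ (fun i => hf _), ← lintegral_prod_mul (hf 0).aemeasurable]
        exact (Finset.measurable_prod _ fun i _ => (hf _).comp (measurable_pi_apply i)).aemeasurable
      _ = ∏ i, ∫⁻ x, f i x ∂(μ i) := by rw [Fin.prod_univ_succ]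

/-- Tonelli for products of functions of one variable. -/
theorem gm_pi {ι : Type} [Fintype ι] {E : ι → Type}
    {mE : ∀ i, MeasurableSpace (E i)} {μ : (i : ι) → Measure (E i)} [∀ i, SigmaFinite (μ i)]
    (f : (i : ι) → E i → ℝ≥0∞) (hf : ∀ i, Measurable (f i)) :
    ∫⁻ x : (i : ι) → E i, ∏ i, f i (x i) ∂(Measure.pi μ) = ∏ i, ∫⁻ x, f i x ∂(μ i) := by
  let e := (Fintype.equivFin ι).symm
  rw [← (measurePreserving_piCongrLeft _ e).lintegral_comp_emb
    (MeasurableEquiv.measurableEmbedding _)]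
  simp_rw [← e.prod_comp, MeasurableEquiv.coe_piCongrLeft, Equiv.piCongrLeft_apply_apply]
  exact gm_fin _ fun i => hf _

theorem gm_dens {ι : Type} [Fintype ι] {E : ι → Type}
    {mE : ∀ i, MeasurableSpace (E i)} {μ : (i : ι) → Measure (E i)} [∀ i, SigmaFinite (μ i)]
    (f : (i : ι) → E i → ℝ≥0∞) (hf : ∀ i, Measurable (f i))
    [∀ i, SigmaFinite ((μ i).withDensity (f i))] :
    Measure.pi (fun i => (μ i).withDensity (f i)) =
      (Measure.pi μ).withDensity fun x => ∏ i, f i (x i) := by
  refine Measure.pi_eq fun s hs => ?_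
  rw [withDensity_apply _ (MeasurableSet.univ_pi hs),
    ← lintegral_indicator (MeasurableSet.univ_pi hs)]
  have h1 : ∀ x : (i : ι) → E i, (Set.univ.pi s).indicator (fun x => ∏ i, f i (x i)) x =
      ∏ i, (s i).indicator (f i) (x i) := by
    intro x
    by_cases hx : x ∈ Set.univ.pi s
    · rw [Set.indicator_of_mem hx]
      exact Finset.prod_congr rfl fun i _ => (Set.indicator_of_mem (hx i trivial) _).symm
    · rw [Set.indicator_of_notMem hx]
      simp only [Set.mem_pi, Set.mem_univ, true_imp_iff, not_forall] at hx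
      obtain ⟨i, hi⟩ := hx
      exact (Finset.prod_eq_zero (Finset.mem_univ i) (Set.indicator_of_notMem hi _)).symm
  simp_rw [h1]
  rw [gm_pi _ fun i => (hf i).indicator (hs i)]
  exact Finset.prod_congr rfl fun i _ => by
    rw [withDensity_apply _ (hs i), lintegral_indicator (hs i)]

theorem gm_act {a b c d : ℂ} (h : a * d - b * c ≠ 0) {s : Set P026.HF} (hs : MeasurableSet s) :
    volume (P026.actC a b c d ⁻¹' s) = ENNReal.ofReal (normSq (a * d - b * c) ^ 2)⁻¹ * volume s := by
  obtain ⟨t, ht⟩ := IsAlgClosed.exists_pow_nat_eq (a * d - b * c) two_pos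
  have h0 : t ≠ 0 := fun h0 => h (by rw [← ht, h0, zero_pow two_ne_zero])
  have h1 : P026.actC t 0 0 t = fun Q => normSq t • Q := by
    funext ⟨A, B, D⟩
    simp [P026.actC, P026.hq, mul_comm, ← mul_conj, mul_assoc, mul_left_comm]
  have h2 : P026.actC a b c d = P026.actC t 0 0 t ∘ P026.actC (a / t) (b / t) (c / t) (d / t) := by
    funext Q
    simp [← P026.geo_actC_mul, mul_div_cancel₀ _ h0]
  have h3 := P026.geo_mp (a := a / t) (b := b / t) (c := c / t) (d := d / t) (by
    field_simp
    linear_combination -ht)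
  have i1 : (volume : Measure (ℂ × ℝ)).IsAddHaarMeasure := Measure.prod.instIsAddHaarMeasure _ _
  have i2 : (volume : Measure P026.HF).IsAddHaarMeasure := Measure.prod.instIsAddHaarMeasure _ _
  rw [h2, Set.preimage_comp, h3.measure_preimage
    ((P026.geo_continuous _ _ _ _).measurable hs).nullMeasurableSet, h1,
    Measure.addHaar_preimage_smul _ (normSq_pos.2 h0).ne', ← ht, map_pow, ← pow_mul,
    abs_of_nonneg (inv_nonneg.2 (pow_nonneg (normSq_nonneg _) _))]
  simp

theorem gm_one : MeasurePreserving (fun p : ℂ × ℝ × ℝ => P026.pt p.1 p.2.1 p.2.2)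
    (volume.withDensity fun p => ENNReal.ofReal p.2.1) (volume.restrict {Q | 0 < Q.2.2}) := by
  have hm := P026.geo_measurable_pt
  refine ⟨hm, Measure.ext fun s hs => ?_⟩
  have h0 := hs.inter (measurableSet_lt (measurable_const (a := (0 : ℝ))) measurable_snd.snd)
  have h1 := P026.geo_change (F := (s ∩ {Q | 0 < Q.2.2}).indicator 1) (measurable_one.indicator h0)
    (fun Q hQ => Set.indicator_of_notMem (fun h => absurd h.2 (not_lt.2 hQ)) _)
  rw [lintegral_indicator_one h0] at h1
  rw [Measure.map_apply hm hs, withDensity_apply _ (hm hs), Measure.restrict_apply hs, ← h1,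
    ← lintegral_indicator (hm hs)]
  refine lintegral_congr fun p => ?_
  rcases le_or_gt p.2.1 0 with h | h
  · simp [Set.indicator, ENNReal.ofReal_of_nonpos h]
  · have : 0 < (P026.pt p.1 p.2.1 p.2.2).2.2 := h
    simp [Set.indicator, this]

variable {F : Type} [Field F] [NumberField F] [Ctx0 F]

theorem gm_vol {g : GM F} (hg : Nin ((g.u : R F) : F) = 1) :
    MeasurePreserving (act g) volume volume := by
  refine ⟨(continuous_act g).measurable, (Measure.pi_eq fun s hs => ?_).symm⟩
  have h : ∀ v : Io F, v.1 (g.a : F) * v.1 (g.d : F) - v.1 (g.b : F) * v.1 (g.c : F) ≠ 0 :=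
    fun v => by
      rw [geo1_det, map_ne_zero]
      exact fun h => g.u.ne_zero (Subtype.ext h)
  rw [Measure.map_apply (continuous_act g).measurable (MeasurableSet.univ_pi hs),
    show act g ⁻¹' Set.univ.pi s = Set.univ.pi fun v => P026.actC _ _ _ _ ⁻¹' s v from rfl,
    volume_pi_pi, Finset.prod_congr rfl fun v _ => gm_act (h v) (hs v), Finset.prod_mul_distrib,
    ← ENNReal.ofReal_prod_of_nonneg fun v _ => by positivity]
  simp only [geo1_det, Finset.prod_inv_distrib, Finset.prod_pow]
  rw [show ∏ v : Io F, normSq (v.1 ((g.u : R F) : F)) = 1 from hg]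
  simp

theorem gm_change {G : HF F → ℝ≥0∞} (hG : Measurable G) :
    ∫⁻ p : (Io F → ℂ) × (Io F → ℝ) × (Io F → ℝ), (∏ v, ENNReal.ofReal (p.2.1 v)) *
      G (pt p.1 p.2.1 p.2.2) = ∫⁻ Q in {Q | ∀ v, 0 < (Q v).2.2}, G Q := by
  have h1 := measurePreserving_pi (fun _ : Io F => _) _ fun _ => gm_one
  rw [gm_dens _ fun _ => by fun_prop, ← Measure.restrict_pi_pi] at h1
  have h2 := ((MeasurePreserving.id volume).prod
    (volume_measurePreserving_arrowProdEquivProdArrow ℝ ℝ (Io F))).comp
    (volume_measurePreserving_arrowProdEquivProdArrow ℂ (ℝ × ℝ) (Io F))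
  have h3 : Measurable fun p : (Io F → ℂ) × (Io F → ℝ) × (Io F → ℝ) => pt p.1 p.2.1 p.2.2 := by
    unfold pt P026.pt
    fun_prop
  have h4 := h1.lintegral_comp hG
  rw [lintegral_withDensity_eq_lintegral_mul _ (by fun_prop) (hG.fun_comp h1.measurable)] at h4
  rw [show {Q : HF F | ∀ v, 0 < (Q v).2.2} = Set.univ.pi fun _ => {Q | 0 < Q.2.2} from
    Set.ext fun Q => by simp]
  exact (h2.lintegral_comp (Measurable.fun_mul (by fun_prop) (hG.fun_comp h3))).symm.trans h4

end Vale.Agent.P319B
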