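import Vale.Agent.P319B.Kub

/-! Functions of type I and II as translates of the Kubota symbol. -/

namespace Vale.Agent.P319B

open Complex NumberField
open scoped Classical ComplexConjugate
open Vale.Agent.P026 (w kk fk)

variable {F : Type} [Field F] [NumberField F] [Ctx0 F]

theorem k2_fin (A e : ℕ) : ∃ s : Finset F, ∀ x : F, Hi A x → ∃ y ∈ s, Lo e (x - y) := by
  have hM : ∀ k : ℕ, MF F ^ k ≠ 0 := fun k => pow_ne_zero k MF_ne
  obtain ⟨s, -, -, -, h⟩ := exists_reps (loc_idx_ne (y := (MF F ^ A)⁻¹) (z := MF F ^ e)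
    (inv_ne_zero (hM A)) (hM e) (by
      rw [div_inv_eq_mul]
      exact mul_mem (pow_mem MF_mem_Ol e) (pow_mem MF_mem_Ol A)))
  refine ⟨s, fun x hx => ?_⟩
  obtain ⟨y, hy, h1⟩ := h x (mem_locL.2 (by rw [div_inv_eq_mul, mul_comm]; exact hx))
  exact ⟨y, hy, mem_locL.1 h1⟩

/-- The relation of lying in the same orbit of the local congruence subgroup. -/
def k2Rel (e : ℕ) (x z : R F × R F) : Prop :=
  InU e ((x.2 : F) / z.2) ∧ Lo e ((x.1 : F) * z.2 - x.2 * z.1)

theorem k2Rel.symm {e : ℕ} (he : 1 ≤ e) {x z : R F × R F} (h : k2Rel e x z) : k2Rel e z x :=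
  ⟨h.1.symm he, by have := h.2.neg; rwa [neg_sub, mul_comm, mul_comm (x.1 : F)] at this⟩

theorem k2Rel.trans {e : ℕ} (he : 1 ≤ e) {x z v : R F × R F} (h : k2Rel e x z)
    (h' : k2Rel e z v) : k2Rel e x v := by
  refine ⟨h.1.trans he h'.1, ?_⟩
  have h0 := h.1.right_ne he
  have := (h.2.mul_right (h'.1.symm he).mem).add (h'.2.mul_right h.1.mem)
  refine (congrArg (Lo e) ?_).mp this
  field_simp
  ring

theorem k2_mat {c d : R F} (h : IsCoprime c d) (hd : d ≠ 0) :
    ∃ g : GM F, g.u = 1 ∧ g.c = c ∧ g.d = d ∧ (g.b : F) / d ∈ Ol F := by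
  obtain ⟨u, v, huv⟩ := h
  obtain ⟨t, ht⟩ := ring_split ((u : F) / d) 0
  refine ⟨⟨v + t * c, -u + t * d, c, d, 1, by
    rw [Units.val_one]; linear_combination huv⟩, rfl, rfl, rfl, ?_⟩
  have h1 := (Lo_zero_iff.1 ht.neg)
  have h2 : (d : F) ≠ 0 := fun x => hd (Subtype.ext x)
  refine (congrArg (· ∈ Ol F) ?_).mp h1
  push_cast
  field_simp
  ring

theorem k2_inv {g : GM F} (hg : g.u = 1) (C D : R F) :
    row (C, D) g⁻¹ = (C * g.d - D * g.c, -(C * g.b) + D * g.a) := by
  simp only [row, GM.inv_a, GM.inv_b, GM.inv_c, GM.inv_d, hg, inv_one, Units.val_one, one_mul]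
  refine Prod.ext ?_ ?_ <;> simp only <;> ring

theorem k2_det {g : GM F} (hg : g.u = 1) : (g.a : F) * g.d - g.b * g.c = 1 := by
  have := g.det
  rw [hg, Units.val_one] at this
  exact_mod_cast congrArg (fun x : R F => (x : F)) this

/-- The translate of the Kubota symbol by a matrix with bottom row (c, d). -/
theorem k2_trl {e : ℕ} (he : 3 ≤ e) {g : GM F} (hg : g.u = 1) (hd : g.d ≠ 0)
    (hb : (g.b : F) / g.d ∈ Ol F) (C D : R F) :
    cub g.c g.d * trl (k0 e) g C D = if k2Rel e (C, D) (g.c, g.d) then cub C D else 0 := by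
  have h1 : 1 ≤ e := le_trans (by norm_num) he
  have h2 : (g.d : F) ≠ 0 := fun x => hd (Subtype.ext x)
  have det := k2_det hg
  set c1 : R F := C * g.d - D * g.c with hc1
  set d1 : R F := -(C * g.b) + D * g.a with hd1
  have e1 : (c1 : F) = C * g.d - D * g.c := by rw [hc1]; push_cast; ring
  have e2 : (D : F) / g.d = d1 + c1 * (g.b / g.d) := by
    rw [e1, hd1]; push_cast; field_simp; linear_combination (-(D : F)) * det
  have iff : (Lo e (c1 : F) ∧ InU e (d1 : F)) ↔ k2Rel e (C, D) (g.c, g.d) := by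
    refine ⟨fun h => ⟨?_, e1 ▸ h.1⟩, fun h => ⟨e1 ▸ h.2, ?_⟩⟩
    · exact e2 ▸ h.2.add_Lo (h.1.mul_right hb)
    · have a1 : Lo e (c1 : F) := e1 ▸ h.2
      have a2 := InU.add_Lo h.1 (a1.mul_right hb).neg
      simp only [e2, add_neg_cancel_right] at a2
      exact a2
  rw [trl, k2_inv hg, k0]
  by_cases h : Lo e (c1 : F) ∧ InU e (d1 : F)
  · rw [if_pos h, if_pos (iff.1 h)]
    have r : row (c1, d1) g = (C, D) := by
      rw [hc1, hd1, ← k2_inv hg, ← row_mul, inv_mul_cancel, row_one]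
    have n1 : (d1 : F) ≠ 0 := h.2.ne_zero h1
    have := cub_row g c1 d1 (fun x => n1 (by rw [x]; rfl)) hd (by
      rw [r]
      have := ((iff.1 h).1.div h1 h.2).mono he
      rwa [div_div, mul_comm] at this)
    rw [r, hg, Units.val_one, OneMemClass.coe_one, B3_one_left,
      B3_inU_left (x' := 1) (by rw [div_one]; exact h.2.mono he), B3_one_left] at this
    rw [this]; ring
  · rw [if_neg h, if_neg (fun x => h (iff.2 x)), mul_zero]

theorem kII_eq_trl (y : F) (φ : F → ℂ) :
    kII y φ = trl (kI y (fun x => φ (x * (-1)))) (wey F) := by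
  funext c d
  rw [trl, k2_inv rfl]
  simp [wey, kI, kII, cub_neg_left]
/-- A function of type I is a finite combination of translates of the Kubota symbol. -/
theorem kI_decomp {y : F} (hy : y ≠ 0) {φ : F → ℂ} (hφ : LocF φ) :
    ∃ (e n : ℕ) (g : Fin n → GM F) (lam : Fin n → ℂ), 3 ≤ e ∧ (∀ i, (g i).u = 1) ∧
      kI y φ = fun c d => ∑ i, lam i * trl (k0 e) (g i) c d := by
  obtain ⟨-, ⟨a, ha⟩, b, hb⟩ := hφ
  obtain ⟨K1, hK1⟩ := exists_Lo_div hy b
  obtain ⟨a2, ha2⟩ := exists_Hi y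
  set e := 3 + K1 + (a + b) with he
  have e3 : 3 ≤ e := by omega
  have e1 : 1 ≤ e := by omega
  obtain ⟨K2, hK2⟩ := exists_Lo_div hy e
  obtain ⟨s, hs⟩ := k2_fin (F := F) (a + a2) (K2 + (a + a2 + e))
  set X := {x : R F × R F // InU 3 ((x.2 : F) / y) ∧ φ x.1 ≠ 0 ∧ IsCoprime x.1 x.2}
  have n2 : ∀ x : X, (x.1.2 : F) ≠ 0 := fun x => x.2.1.left_ne bs_three
  have H1 : ∀ x : X, Hi (a + a2) (x.1.1 : F) := fun x => (ha _ x.2.2.1).mono (by omega)
  have H2 : ∀ x : X, Hi (a + a2) (x.1.2 : F) := fun x => by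
    have := (Hi.of_mem a x.2.1.mem).mul ha2
    rwa [div_mul_cancel₀ _ hy] at this
  let S : Setoid X := ⟨fun x z => k2Rel e x.1 z.1, fun x => ⟨InU.div_self (n2 x), by
    rw [mul_comm, sub_self]; exact Lo.zero e⟩, fun h => h.symm e1, fun h h' => h.trans e1 h'⟩
  choose f1 m1 l1 using fun x : X => hs _ (H1 x)
  choose f2 m2 l2 using fun x : X => hs _ (H2 x)
  have fin : Finite (Quotient S) := by
    refine Finite.of_injective (β := s × s)
      (fun q => (⟨f1 q.out, m1 _⟩, ⟨f2 q.out, m2 _⟩)) fun q q' h => ?_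
    simp only [Prod.mk.injEq, Subtype.mk.injEq] at h
    have a1 := (l1 q.out).sub (l1 q'.out)
    have a2 := (l2 q.out).sub (l2 q'.out)
    rw [h.1, sub_sub_sub_cancel_right] at a1
    rw [h.2, sub_sub_sub_cancel_right] at a2
    refine Quotient.out_equiv_out.1 ⟨?_, ?_⟩
    · have b1 := (hK2 _ (a2.mono (by omega))).mul_right (q'.out.2.1.symm bs_three).mem
      refine (congrArg (Lo e) ?_).mp b1
      have := n2 q'.out
      field_simp
    · have b1 := ((H2 q'.out).mul_Lo (e := e) (a1.mono (by omega))).sub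
        ((H1 q'.out).mul_Lo (e := e) (a2.mono (by omega)))
      refine (congrArg (Lo e) ?_).mp b1
      ring
  obtain ⟨n, ⟨σ⟩⟩ := Finite.exists_equiv_fin (Quotient S)
  set t : Fin n → X := fun i => (σ.symm i).out with ht
  have d0 : ∀ i, (t i).1.2 ≠ 0 := fun i x => n2 (t i) (by rw [x]; rfl)
  choose g g1 g2 g3 g4 using fun i => k2_mat (t i).2.2.2 (d0 i)
  refine ⟨e, n, g, fun i => φ (t i).1.1 * cub (g i).c (g i).d, e3, g1, ?_⟩
  funext C D
  have ek : ∀ i, φ (t i).1.1 * cub (g i).c (g i).d * trl (k0 e) (g i) C D =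
      if k2Rel e (C, D) (t i).1 then kI y φ C D else 0 := fun i => by
    rw [mul_assoc, k2_trl e3 (g1 i) (by rw [g3]; exact d0 i) (by rw [g3]; exact g4 i), g2, g3]
    split_ifs with h
    · have u1 : InU 3 ((D : F) / y) := (h.1.mono e3).trans bs_three (t i).2.1
      rw [kI, if_pos u1, mul_comm, hb C (t i).1.1]
      have b1 := ((hK1 _ (h.2.mono (by omega))).mul_right ((t i).2.1.symm bs_three).mem).add
        ((ha _ (t i).2.2.1).mul_Lo (e := b) (Lo.mono (by omega) h.1))
      refine (congrArg (Lo b) ?_).mp b1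
      have := n2 (t i)
      field_simp
      ring
    · exact mul_zero _
  simp only [ek]
  by_cases h : kI y φ C D = 0
  · simp [h]
  have h' := h
  rw [kI] at h'
  have u1 : InU 3 ((D : F) / y) := by_contra fun x => h' (if_neg x)
  rw [if_pos u1] at h'
  have D0 : D ≠ 0 := fun x => u1.left_ne bs_three (by rw [x]; rfl)
  set x : X := ⟨(C, D), u1, right_ne_zero_of_mul h',
    by_contra fun z => left_ne_zero_of_mul h' ((cub_eq_zero D0).2 z)⟩ with hx
  have iff : ∀ i, k2Rel e (C, D) (t i).1 ↔ σ (Quotient.mk S x) = i := fun i => by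
    rw [← Equiv.eq_symm_apply, Quotient.mk_eq_iff_out]
    rfl
  simp [iff]
/-- Transport from the cusp a / c to infinity. -/
theorem kII_trans {y yl : F} (hy : y ≠ 0) (hl : yl ≠ 0) {φ : F → ℂ} (hφ : LocF φ) (hU : UInv φ) :
    ∃ K : ℕ, ∀ g : GM F, g.u = 1 → InU 3 ((g.c : F) / yl) → Lo K (g.a : F) → Lo K (g.d : F) →
      trl (kII y φ) g = fun c d =>
        (cub g.a g.c * B3 (-y / yl) yl) * kI (-y / yl) (fun x => φ (x * yl⁻¹)) c d := by
  obtain ⟨-, ⟨a, ha⟩, b, hb⟩ := hφ
  obtain ⟨a1, h1⟩ := exists_Hi (y / yl)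
  obtain ⟨a2, h2⟩ := exists_Hi (yl / y)
  refine ⟨3 + b + a + a1 + a2, fun g hg hq hA hd => ?_⟩
  funext c d
  have det := k2_det hg
  have q0 : (g.c : F) ≠ 0 := hq.left_ne bs_three
  have hq' := hq.symm bs_three
  set C' : R F := c * g.d - d * g.c with hC
  set D' : R F := -(c * g.b) + d * g.a with hD
  have eC : (C' : F) = c * g.d - d * g.c := by rw [hC]; push_cast; ring
  have eD : (D' : F) = -(c * g.b) + d * g.a := by rw [hD]; push_cast; ring
  have eφ : φ (c * yl⁻¹) = φ (c / g.c) := by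
    rw [← hU (c / g.c) _ hq]; congr 1; field_simp
  have P : InU 3 ((C' : F) / y) → φ D' ≠ 0 → InU 3 ((d : F) / (-y / yl)) ∧ φ (c / g.c) = φ D' :=
    fun u v => by
      have b1 := (ha _ v).mul h2
      refine ⟨?_, hb _ _ ?_⟩
      · have := ((u.mul hq').add_Lo (((hA.mono (by omega)).mul_right hd.mem).mul_left
          (u.mul hq').mem).neg).add_Lo (b1.mul_Lo (e := 3) (hd.mono (by omega))).neg
        refine (congrArg (InU 3) ?_).mp this
        rw [eC, eD]; field_simp; linear_combination (-((c : F) * g.d)) * det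
      · have := (h1.mul_Lo (e := b) (hA.mono (by omega))).mul_left (u.mul hq').mem
        refine (congrArg (Lo b) ?_).mp this
        rw [eC, eD]; field_simp; linear_combination (c : F) * det
  have Q : InU 3 ((d : F) / (-y / yl)) → φ (c / g.c) ≠ 0 →
      InU 3 ((C' : F) / y) ∧ φ (c / g.c) = φ D' := fun u v => by
    have b0 := ha _ v
    refine ⟨?_, hb _ _ ?_⟩
    · have := (u.mul hq).add_Lo (((b0.mul h2).mul_Lo (e := 3) (hd.mono (by omega))).mul_left hq.mem)
      refine (congrArg (InU 3) ?_).mp this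
      rw [eC]; field_simp; ring
    · have := ((b0.mul_Lo (e := b) (hA.mono (by omega))).mul_right hd.mem).add
        ((h1.mul_Lo (e := b) (hA.mono (by omega))).mul_left u.mem)
      refine (congrArg (Lo b) ?_).mp this
      rw [eD]; field_simp; linear_combination (c : F) * det
  rw [trl, k2_inv hg, kII, kI, eφ]
  dsimp only
  by_cases u : InU 3 ((C' : F) / y) <;> by_cases v : InU 3 ((d : F) / (-y / yl))
  · rw [if_pos u, if_pos v]
    have e : φ (c / g.c) = φ D' := by
      by_cases x : φ D' = 0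
      · by_contra z
        exact z (Q v fun r => z (r.trans x.symm)).2
      · exact (P u x).2
    have d0 : (d : F) ≠ 0 := v.left_ne bs_three
    have := cub_row (⟨g.b, g.d, -g.a, -g.c, 1, by
      have := g.det
      rw [hg] at this
      linear_combination this⟩ : GM F) c d (fun x => d0 (by rw [x]; rfl))
      (neg_ne_zero.2 fun x => q0 (by rw [x]; rfl)) (by
        have := u.div bs_three (v.mul hq)
        refine (congrArg (InU 3) ?_).mp this
        simp only [row]
        rw [eC]; push_cast; field_simp; ring)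
    simp only [row] at this
    rw [show c * g.b + d * -g.a = -D' by rw [hD]; ring, show c * g.d + d * -g.c = C' by
      rw [hC]; ring, cub_neg_left, cub_neg_left, Units.val_one, OneMemClass.coe_one, B3_one_left,
      cub_assoc_right g.a (Associated.refl g.c).neg_left, NegMemClass.coe_neg, B3_neg_right,
      B3_inU_left v, B3_inU_right _ hq] at this
    rw [this, e]; ring
  · rw [if_pos u, if_neg v, mul_zero, by_contra (p := φ D' = 0) fun x => v (P u x).1, mul_zero]
  · rw [if_neg u, if_pos v, by_contra (p := φ (c / g.c) = 0) fun x => u (Q v x).1, mul_zero,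
      mul_zero]
  · rw [if_neg u, if_neg v, mul_zero]

end Vale.Agent.P319B
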