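import Vale.Agent.P319B.L2
import Vale.Agent.P319B.Kub2

/-! Closure properties of mean square limits. -/

namespace Vale.Agent.P319B

open Complex NumberField MeasureTheory Filter Topology
open scoped Classical ComplexConjugate
open Vale.Agent.P026 (w kk fk)

variable {F : Type} [Field F] [NumberField F] [Ctx F]

theorem Conv.add {k k' : R F → R F → ℂ} (hk : Bdd k) (hk' : Bdd k') {f f' : HF F → ℂ}
    (hm : Measurable f) (hm' : Measurable f') (h : Conv k f) (h' : Conv k' f') :
    Conv (fun c d => k c d + k' c d) (fun Q => f Q + f' Q) := by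
  have _ := hm'
  intro K hK hs
  refine l2c_squeeze (h K hK hs) (h' K hK hs) ?_
  filter_upwards [eventually_Fz_pos] with t ht
  refine l2c_two (((measurable_nEs _ t).sub hm).enorm.pow_const 2) ?_
  filter_upwards [ae_restrict_mem hK.measurableSet] with Q hQ
  rw [nEs_add hk hk' ht (posQ_of_mem (hs hQ)), add_sub_add_comm]
  exact l2c_sq _ _

theorem Conv.smul {k : R F → R F → ℂ} {f : HF F → ℂ} (h : Conv k f) (z : ℂ) :
    Conv (fun c d => z * k c d) (fun Q => z * f Q) := by
  intro K hK hs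
  have h1 := ENNReal.Tendsto.const_mul (a := ‖z‖ₑ ^ 2) (h K hK hs) (Or.inr (by simp))
  rw [mul_zero] at h1
  refine h1.congr fun t => ?_
  rw [← lintegral_const_mul' _ _ (by simp)]
  simp only [nEs_smul, ← mul_sub, enorm_mul, mul_pow]

theorem Conv.trl {k : R F → R F → ℂ} {f : HF F → ℂ} (hm : Measurable f) (h : Conv k f) {g : GM F}
    (hg : Nin ((g.u : R F) : F) = 1) : Conv (trl k g) (fun Q => f (act g Q)) := by
  intro K hK hs
  have hK' := hK.image (continuous_act g)
  have hs' : act g '' K ⊆ slab F := by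
    rintro _ ⟨Q, hQ, rfl⟩
    exact act_mem_slab hg (hs hQ)
  refine tendsto_of_tendsto_of_tendsto_of_le_of_le tendsto_const_nhds (h _ hK' hs')
    (fun _ => bot_le) fun t => ?_
  have h1 := (measurePreserving_act hg).setLIntegral_comp_preimage hK'.measurableSet
    (((measurable_nEs k t).sub hm).enorm.pow_const 2)
  simp only [Pi.sub_apply, nEs_act] at h1
  rw [← Measure.restrict_restrict_of_subset hs, ← Measure.restrict_restrict_of_subset hs']
  exact (lintegral_mono_set (Set.subset_preimage_image _ _)).trans h1.le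

theorem Conv.unique {k : R F → R F → ℂ} {f f' : HF F → ℂ} (hm : Measurable f)
    (hm' : Measurable f') (h : Conv k f) (h' : Conv k f') : f =ᵐ[nu F] f' := by
  obtain ⟨K, hK, hU⟩ := slab_exhaust (F := F)
  rw [nu, ← hU, EventuallyEq, ae_restrict_iUnion_iff]
  intro n
  have h1 : Tendsto (fun _ : Io F → ℝ => ∫⁻ Q in K n, ‖f Q - f' Q‖ₑ ^ 2) (Fz F) (𝓝 0) := by
    refine l2c_squeeze (h _ (hK n).1 (hK n).2) (h' _ (hK n).1 (hK n).2)
      (Eventually.of_forall fun t => l2c_two (((measurable_nEs _ t).sub hm).enorm.pow_const 2)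
        (Eventually.of_forall fun Q => ?_))
    rw [← enorm_neg (nEs k t Q - f Q),
      show f Q - f' Q = -(nEs k t Q - f Q) + (nEs k t Q - f' Q) by ring]
    exact l2c_sq _ _
  have h2 := (lintegral_eq_zero_iff ((hm.sub hm').enorm.pow_const 2)).1
    (tendsto_nhds_unique tendsto_const_nhds h1)
  filter_upwards [h2] with Q hQ
  simpa [sub_eq_zero] using hQ

theorem Conv.lintegral_lt_top {k : R F → R F → ℂ} (hk : Bdd k) {f : HF F → ℂ} (hm : Measurable f)
    (h : Conv k f) {K : Set (HF F)} (hK : IsCompact K) (hs : K ⊆ slab F) :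
    ∫⁻ Q in K, ‖f Q‖ₑ ^ 2 < ⊤ := by
  obtain ⟨t, h1, ht⟩ := (((h K hK hs).eventually (gt_mem_nhds ENNReal.zero_lt_top)).and
    eventually_Fz_pos).exists
  obtain ⟨C, hC⟩ := hK.exists_bound_of_continuousOn
    ((continuousOn_nEs hk ht).mono fun Q hQ => posQ_of_mem (hs hQ))
  have h2 : ∫⁻ Q in K, ‖nEs k t Q‖ₑ ^ 2 < ⊤ := by
    refine setLIntegral_lt_top_of_le_nnreal hK.measure_lt_top.ne ⟨C.toNNReal ^ 2, fun Q hQ => ?_⟩
    rw [ENNReal.coe_pow, ← ofReal_norm]
    exact pow_le_pow_left' (ENNReal.ofReal_le_ofReal (hC Q hQ)) 2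
  refine (l2c_two (((measurable_nEs _ t).sub hm).enorm.pow_const 2)
    (B := fun Q => ‖nEs k t Q‖ₑ ^ 2) (Eventually.of_forall fun Q => ?_)).trans_lt
    (ENNReal.add_lt_top.2 ⟨ENNReal.mul_lt_top (by simp) h1, ENNReal.mul_lt_top (by simp) h2⟩)
  have h3 := l2c_sq (-(nEs k t Q - f Q)) (nEs k t Q)
  rwa [enorm_neg, neg_sub, sub_add_cancel] at h3

theorem Conv.memLp {k : R F → R F → ℂ} (hk : Bdd k) {f : HF F → ℂ} (hm : Measurable f)
    (h : Conv k f) (L : AddSubgroup F) : ∀ᵐ p ∂(volume.restrict (DE F)),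
      MemLp (fun z => f (pt z p.1 p.2)) 2 (volume.restrict (FD L)) := by
  obtain ⟨B, hB, -, hU⟩ := DE_exhaust (F := F)
  rw [← hU, ae_restrict_iUnion_iff]
  intro n
  obtain ⟨K, hK, hs, hG⟩ := exists_compact_box (isBounded_FD L) (measurableSet_FD L) (hB n).1
    (hB n).2
  have hf : Measurable fun p : (Io F → ℂ) × (Io F → ℝ) × (Io F → ℝ) => f (pt p.1 p.2.1 p.2.2) :=
    hm.comp measurable_pt
  have h1 := ae_lt_top (((Finset.measurable_prod _ fun v _ =>
    (measurable_pi_apply v).comp measurable_fst).ennreal_ofReal).mul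
      (hf.enorm.pow_const 2).lintegral_prod_left')
    ((hG _ (hm.enorm.pow_const 2)).trans_lt (h.lintegral_lt_top hk hm hK hs)).ne
  filter_upwards [h1, ae_restrict_mem (hB n).1.measurableSet] with p hp hpB
  refine l2c_memLp (hf.comp (measurable_id.prodMk measurable_const)) ?_
  have h2 : 0 < ∏ v, p.1 v := Finset.prod_pos fun v _ => ((hB n).2 hpB).1 v
  exact ENNReal.lt_top_of_mul_ne_top_right hp.ne (by simpa using h2)

theorem IsLim.add {k k' : R F → R F → ℂ} (hk : Bdd k) (hk' : Bdd k') {f f' : HF F → ℂ}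
    (h : IsLim k f) (h' : IsLim k' f') :
    IsLim (fun c d => k c d + k' c d) (fun Q => f Q + f' Q) := by
  refine ⟨h.meas.add h'.meas, h.conv.add hk hk' h.meas h'.meas h'.conv, fun p l hp hl => ?_⟩
  have e : lin p l (fun c d => k c d + k' c d) = fun c d => lin p l k c d + lin p l k' c d := by
    funext c d
    unfold lin
    split_ifs <;> simp
  simp only [e, mul_add]
  exact (h.line p l hp hl).add (hk.lin p l) (hk'.lin p l) (h.meas.const_mul _)
    (h'.meas.const_mul _) (h'.line p l hp hl)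

theorem IsLim.smul {k : R F → R F → ℂ} {f : HF F → ℂ} (h : IsLim k f) (z : ℂ) :
    IsLim (fun c d => z * k c d) (fun Q => z * f Q) := by
  refine ⟨h.meas.const_mul z, h.conv.smul z, fun p l hp hl => ?_⟩
  simp only [l2b_lin_smul, mul_left_comm _ z]
  exact (h.line p l hp hl).smul z

theorem IsLim.trl {k : R F → R F → ℂ} {f : HF F → ℂ} (h : IsLim k f) {g : GM F}
    (hg : Nin ((g.u : R F) : F) = 1) : IsLim (trl k g) (fun Q => f (act g Q)) := by
  refine ⟨h.meas.comp (continuous_act g).measurable, h.conv.trl h.meas hg, fun p l hp hl => ?_⟩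
  rw [lin_trl]
  exact (h.line p _ hp (prim_row hl g⁻¹)).trl (h.meas.const_mul _) hg

theorem IsLim.conv_off {k : R F → R F → ℂ} (hk : Bdd k) {f : HF F → ℂ} (h : IsLim k f) {p : R F}
    (hp : Prime p) : Conv (off p k) (fun Q => ((N p / (N p + 1) : ℝ) : ℂ) * f Q) := by
  have h1 := h.conv.add hk ((hk.lin p (0, 1)).smul (-1)) h.meas ((h.meas.const_mul _).const_mul _)
    ((h.line p (0, 1) hp fun h0 => hp.not_dvd_one h0.2).smul (-1))
  have hN : N p + 1 ≠ 0 := by have := N_nonneg p; positivity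
  have e : N p / (N p + 1) = 1 - (N p + 1)⁻¹ := by field_simp; ring
  rw [off_eq, e]
  refine (congrArg _ (funext fun Q => ?_)).mp h1
  push_cast
  ring

theorem good_kI {y : F} (hy : y ≠ 0) {φ : F → ℂ} (hφ : LocF φ) : Good (kI y φ) := by
  obtain ⟨e, n, g, lam, he, hu, hk⟩ := kI_decomp hy hφ
  obtain ⟨θ, hθ, -⟩ := good_k0 (F := F) he
  have hb := (adm_k0 (F := F) he 0).1
  have key : ∀ s : Finset (Fin n), Bdd (fun c d => ∑ i ∈ s, lam i * trl (k0 e) (g i) c d) ∧
      Good (fun c d => ∑ i ∈ s, lam i * trl (k0 e) (g i) c d) := fun s => by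
    induction s using Finset.induction_on with
    | empty =>
      have h1 := hb.smul 0
      have h2 := hθ.smul 0
      simp only [zero_mul] at h1 h2
      exact ⟨h1, _, h2⟩
    | insert i s hi ih =>
      obtain ⟨h1, f, h2⟩ := ih
      simp only [Finset.sum_insert hi]
      have h3 := (hb.trl (g i)).smul (lam i)
      exact ⟨h3.add h1, _, ((hθ.trl (by rw [hu i]; exact Nin_one)).smul _).add h3 h1 h2⟩
  rw [hk]
  exact (key _).2

theorem good_kII {y : F} (hy : y ≠ 0) {φ : F → ℂ} (hφ : LocF φ) : Good (kII y φ) := by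
  obtain ⟨f, hf⟩ := good_kI hy (hφ.comp_mul (neg_ne_zero.2 one_ne_zero))
  rw [kII_eq_trl]
  exact ⟨_, hf.trl Nin_one⟩


end Vale.Agent.P319B
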