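import Vale.Agent.P319B.Stick2

/-! The power residue character as a ray class character. -/

namespace Vale.Agent.P319B

open Complex NumberField
open scoped Classical ComplexConjugate
open Vale.Agent.P026 (w kk fk)

open scoped Pointwise

section hch
variable {F : Type} [Field F] [NumberField F] {q : ℕ} {ζ : 𝓞 F}

theorem hch_span_ne_top {a : ℕ} (ha : 1 < a) : Ideal.span {(a : 𝓞 F)} ≠ ⊤ := fun h => by
  have h1 := Ideal.absNorm_span_natCast (S := 𝓞 F) a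
  rw [h, Ideal.absNorm_top] at h1
  exact (Nat.one_lt_pow Module.finrank_pos.ne' ha).ne h1

theorem hch_lies {l : ℕ} (hl : l.Prime) {P : Ideal (𝓞 F)} (hP : P.IsPrime) (hlP : (l : 𝓞 F) ∈ P) :
    P.LiesOver (Ideal.span {(l : ℤ)}) :=
  (Ideal.liesOver_span_iff hP.ne_top (Nat.prime_iff_prime_int.1 hl)).2 (by rwa [map_natCast])

theorem hch_unram {k : ℕ} (hk : k ≠ 0) [IsCyclotomicExtension {k} ℚ F] {x : 𝓞 F}
    (hx : (k : 𝓞 F) ∣ x - 1) (P : Ideal (𝓞 F)) (hP : P.IsPrime) (hxP : x ∈ P) : Unram P := by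
  intro l hl hlP hdvd
  have := NeZero.mk hk
  have := Fact.mk hl
  have := hch_lies hl hP hlP
  have hlk : ¬ l ∣ k := fun h => by
    have h1 : x - 1 ∈ P := P.mem_of_dvd ((Nat.cast_dvd_cast h).trans hx) hlP
    have h2 := P.sub_mem hxP h1
    rw [sub_sub_cancel] at h2
    exact hP.ne_top ((Ideal.eq_top_iff_one _).2 h2)
  have h1 := IsCyclotomicExtension.Rat.ramificationIdx_eq_of_not_dvd l F P hlk
  rw [← Ideal.ramificationIdx'_eq_ramificationIdx (Ideal.span {(l : ℤ)}) P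
    (by simpa using hl.ne_zero)] at h1
  have h2 : (Ideal.span {(l : ℤ)}).map (algebraMap ℤ (𝓞 F)) = Ideal.span {(l : 𝓞 F)} := by
    rw [Ideal.map_span, Set.image_singleton, map_natCast]
  refine (Ideal.ramificationIdx'_ne_one_iff ?_).2 ?_ h1
  · rw [h2]
    exact (Ideal.span_singleton_le_iff_mem _).2 hlP
  · rw [h2]
    exact Ideal.le_of_dvd hdvd

theorem hch_pow_one {M : Type*} [Monoid M] {η : M} {a b : ℕ} (hab : a.Coprime b) (ha : η ^ a = 1)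
    (hb : η ^ b = 1) : η = 1 := by
  have h := (pow_gcd_eq_one).2 ⟨ha, hb⟩
  rwa [hab, pow_one] at h

theorem hch_good {p : ℕ} (hp : p.Prime) (hpq : p.Coprime q) {Q : Ideal (𝓞 F)} (hQ : Q.IsPrime)
    (h : (p : 𝓞 F) ∈ Q) : GoodP q Q := by
  refine ⟨hQ, fun h0 => ?_, fun hq => ?_⟩
  · rw [h0, Ideal.mem_bot] at h
    exact hp.ne_zero (Nat.cast_eq_zero.1 h)
  · obtain ⟨a, b, hab⟩ := (Nat.Coprime.cast hpq : IsCoprime (p : 𝓞 F) q)
    exact hQ.ne_top ((Ideal.eq_top_iff_one _).2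
      (hab ▸ Q.add_mem (Q.mul_mem_left a h) (Q.mul_mem_left b hq)))

theorem hch_norm_dvd {p : ℕ} {Q : Ideal (𝓞 F)} (h : (p : 𝓞 F) ∈ Q) :
    Ideal.absNorm Q ∣ p ^ dg F := by
  rw [dg, ← RingOfIntegers.rank, ← Ideal.absNorm_span_natCast]
  exact Ideal.absNorm_dvd_absNorm_of_le ((Ideal.span_singleton_le_iff_mem _).2 h)

theorem hch_smul_mem (τ : F ≃ₐ[ℚ] F) {p : ℕ} {Q : Ideal (𝓞 F)} (h : (p : 𝓞 F) ∈ Q) :
    (p : 𝓞 F) ∈ τ • Q := by
  have e : τ • (p : 𝓞 F) = p := map_natCast (MulSemiringAction.toRingHom _ (𝓞 F) τ) p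
  exact e ▸ Ideal.smul_mem_pointwise_smul τ _ Q h

theorem hch_recip {k p : ℕ} (hk : k ≠ 0) [IsCyclotomicExtension {k} ℚ F] (h : PR q ζ)
    (hqk : q ∣ k) (hp : p.Prime) (hpq : p.Coprime q) {x : 𝓞 F} (hx : (k : 𝓞 F) ∣ x - 1)
    (hxp : IsCoprime x (p : 𝓞 F)) {Q : Ideal (𝓞 F)} (hQ : Q.IsPrime) (hpQ : (p : 𝓞 F) ∈ Q) :
    psym q ζ ((Ideal.absNorm Q : ℕ) : 𝓞 F) (Ideal.span {x}) =
      ∏ τ : F ≃ₐ[ℚ] F, prs q ζ (τ • Q) x := by
  have : IsGalois ℚ F := IsCyclotomicExtension.isGalois {k} ℚ F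
  refine eis_recip h ((Nat.cast_dvd_cast hqk).trans hx) (hch_unram hk hx)
    (hch_good hp hpq hQ hpQ) ?_
  refine (hxp.pow_right (n := dg F)).of_isCoprime_of_dvd_right ?_
  rw [← Nat.cast_pow]
  exact Nat.cast_dvd_cast (hch_norm_dvd hpQ)

theorem hch_triv {k p : ℕ} (hk : k ≠ 0) [IsCyclotomicExtension {k} ℚ F] (h : PR q ζ)
    (hqk : q ∣ k) (hp : p.Prime) (hpq : p.Coprime q) (hn : (dg F).Coprime q) {x : 𝓞 F}
    (hx : (k : 𝓞 F) ∣ x - 1) (hxp : (p : 𝓞 F) ∣ x - 1) :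
    psym q ζ (p : 𝓞 F) (Ideal.span {x}) = 1 := by
  have hc : ∀ {a : 𝓞 F}, a ∣ x - 1 → IsCoprime x a := fun ⟨y, hy⟩ =>
    ⟨1, -y, by linear_combination hy⟩
  have hJ : IsCoprime (Ideal.span {x}) (Ideal.span {(q : 𝓞 F)}) :=
    (Ideal.isCoprime_span_singleton_iff _ _).2 (hc ((Nat.cast_dvd_cast hqk).trans hx))
  have h1 : ∀ s : Multiset (Ideal (𝓞 F)), (∀ Q ∈ s, Q.IsPrime ∧ (p : 𝓞 F) ∈ Q) →
      psym q ζ ((Ideal.absNorm s.prod : ℕ) : 𝓞 F) (Ideal.span {x}) = 1 := fun s => by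
    induction s using Multiset.induction_on with
    | empty =>
      intro _
      rw [Multiset.prod_zero, map_one, Nat.cast_one, ← pow_zero (1 : 𝓞 F), psym_pow_left h hJ,
        pow_zero, pow_zero]
    | cons Q s ih =>
      intro hs
      obtain ⟨hQ, hpQ⟩ := hs Q (Multiset.mem_cons_self _ _)
      rw [Multiset.prod_cons, map_mul, Nat.cast_mul, psym_mul_left h hJ,
        ih fun Q' hQ' => hs Q' (Multiset.mem_cons_of_mem hQ'), mul_one,
        hch_recip hk h hqk hp hpq hx (hc hxp) hQ hpQ]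
      refine Finset.prod_eq_one fun τ _ => ?_
      rw [prs_congr ((τ • Q).mem_of_dvd hxp (hch_smul_mem τ hpQ)),
        prs_one h ((hch_good hp hpq hQ hpQ).smul τ)]
  have h0 : Ideal.span {(p : 𝓞 F)} ≠ ⊥ := by simpa using hp.ne_zero
  have h2 := h1 (UniqueFactorizationMonoid.normalizedFactors (Ideal.span {(p : 𝓞 F)})) fun Q hQ =>
    ((Ideal.mem_normalizedFactors_iff h0).1 hQ).imp_right (Ideal.span_singleton_le_iff_mem _).1
  rw [Ideal.prod_normalizedFactors_eq_self h0, Ideal.absNorm_span_natCast, RingOfIntegers.rank,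
    Nat.cast_pow, psym_pow_left h hJ] at h2
  exact hch_pow_one hn h2
    (psym_pow_q h hJ ((Ideal.isCoprime_span_singleton_iff _ _).2 (hc hxp)))

theorem hch_crt {p a : ℕ} (hp : p.Prime) (hpa : p.Coprime a) {Q : Ideal (𝓞 F)}
    (hQm : Q.IsMaximal) (hpQ : (p : 𝓞 F) ∈ Q) {β : 𝓞 F} (hβ : β ∉ Q) :
    ∃ x : 𝓞 F, x - β ∈ Q ∧ (a : 𝓞 F) ∣ x - 1 ∧ IsCoprime x (p : 𝓞 F) ∧
      ∀ Q' : Ideal (𝓞 F), Q'.IsPrime → (p : 𝓞 F) ∈ Q' → Q' ≠ Q → x - 1 ∈ Q' := by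
  have hle := (Ideal.span_singleton_le_iff_mem _).2 hpQ
  have h0 : Ideal.span {(p : 𝓞 F)} ≠ ⊥ := by simpa using hp.ne_zero
  obtain ⟨s, hs⟩ : ∃ s : Finset (Ideal (𝓞 F)), ∀ Q', Q' ∈ s ↔
      Q' ≠ Q ∧ Q'.IsPrime ∧ Ideal.span {(p : 𝓞 F)} ≤ Q' :=
    ⟨(UniqueFactorizationMonoid.normalizedFactors (Ideal.span {(p : 𝓞 F)})).toFinset.erase Q,
      fun Q' => by
        rw [Finset.mem_erase, Multiset.mem_toFinset, Ideal.mem_normalizedFactors_iff h0]⟩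
  have hco : IsCoprime Q (Ideal.span {(a : 𝓞 F)} * ∏ Q' ∈ s, Q') := by
    refine IsCoprime.mul_right ?_ (IsCoprime.prod_right fun Q' hQ' => ?_)
    · have h1 : IsCoprime (p : 𝓞 F) (a : 𝓞 F) := Nat.Coprime.cast hpa
      exact ((Ideal.isCoprime_span_singleton_iff _ _).2 h1).of_isCoprime_of_dvd_left
        (Ideal.dvd_iff_le.2 hle)
    · obtain ⟨h1, h3, h4⟩ := (hs Q').1 hQ'
      have h5 := h3.isMaximal (ne_bot_of_le_ne_bot h0 h4)
      exact Ideal.isCoprime_iff_sup_eq.2 (hQm.coprime_of_ne h5 h1.symm)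
  obtain ⟨u, hu, v, hv, huv⟩ := Ideal.isCoprime_iff_exists.1 hco
  have e1 : β * v + u - β ∈ Q := by
    have : β * v + u - β = (1 - β) * u := by linear_combination β * huv
    rw [this]
    exact Q.mul_mem_left _ hu
  have e2 : β * v + u - 1 ∈ Ideal.span {(a : 𝓞 F)} * ∏ Q' ∈ s, Q' := by
    have : β * v + u - 1 = (β - 1) * v := by linear_combination huv
    rw [this]
    exact Ideal.mul_mem_left _ _ hv
  generalize β * v + u = x at e1 e2
  have e3 : (a : 𝓞 F) ∣ x - 1 := Ideal.mem_span_singleton.1 (Ideal.mul_le_left e2)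
  have e4 : ∀ Q' : Ideal (𝓞 F), Q'.IsPrime → (p : 𝓞 F) ∈ Q' → Q' ≠ Q → x - 1 ∈ Q' := by
    intro Q' h1 h2 h3
    have h4 : Q' ∈ s := (hs Q').2 ⟨h3, h1, (Ideal.span_singleton_le_iff_mem _).2 h2⟩
    have h5 : ∏ Q' ∈ s, Q' ≤ Q' := Ideal.le_of_dvd (Finset.dvd_prod_of_mem (fun Q' => Q') h4)
    exact h5 (Ideal.mul_le_right e2)
  refine ⟨x, e1, e3, ?_, e4⟩
  rw [← Ideal.isCoprime_span_singleton_iff, Ideal.isCoprime_iff_sup_eq]
  by_contra hne
  obtain ⟨Q', h1, h2⟩ := Ideal.exists_le_maximal _ hne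
  have h3 : x ∈ Q' := (Ideal.span_singleton_le_iff_mem _).1 (le_sup_left.trans h2)
  have h4 : (p : 𝓞 F) ∈ Q' := (Ideal.span_singleton_le_iff_mem _).1 (le_sup_right.trans h2)
  by_cases h5 : Q' = Q
  · subst h5
    have := Q'.sub_mem h3 e1
    rw [sub_sub_cancel] at this
    exact hβ this
  · have := Q'.sub_mem h3 (e4 Q' h1.isPrime h4 h5)
    rw [sub_sub_cancel] at this
    exact h1.ne_top ((Ideal.eq_top_iff_one _).2 this)

theorem hch_stab {G X M : Type*} [Group G] [Fintype G] [MulAction G X] [CommMonoid M] {Q : X}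
    {f : G → M} {η : M} (h1 : ∀ τ : G, τ • Q = Q → f τ = η) (h2 : ∀ τ : G, τ • Q ≠ Q → f τ = 1) :
    ∃ c, c ∣ Nat.card G ∧ ∏ τ, f τ = η ^ c := by
  refine ⟨_, Subgroup.card_subgroup_dvd_card (MulAction.stabilizer G Q), ?_⟩
  have h3 : ∀ τ : G, f τ = if τ ∈ MulAction.stabilizer G Q then η else 1 := fun τ => by
    split_ifs with hτ
    exacts [h1 τ hτ, h2 τ hτ]
  rw [Finset.prod_congr rfl fun τ _ => h3 τ, Finset.prod_ite, Finset.prod_const_one, mul_one,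
    Finset.prod_const, ← Fintype.card_subtype, ← Nat.card_eq_fintype_card]

theorem hch_nontriv {k p : ℕ} (hk : k ≠ 0) [IsCyclotomicExtension {k} ℚ F] (h : PR q ζ)
    (hqk : q ∣ k) (hp : p.Prime) (hpq : p.Coprime q) (hn : (dg F).Coprime q) {a : ℕ}
    (hka : k ∣ a) (hpa : p.Coprime a) :
    ∃ x : 𝓞 F, IsCoprime x (a : 𝓞 F) ∧ IsCoprime x (p : 𝓞 F) ∧
      psym q ζ (p : 𝓞 F) (Ideal.span {x}) ≠ 1 := by
  have : IsGalois ℚ F := IsCyclotomicExtension.isGalois {k} ℚ F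
  obtain ⟨Q, hQm, hle⟩ := Ideal.exists_le_maximal _ (hch_span_ne_top (F := F) hp.one_lt)
  have hQ := hQm.isPrime
  have hpQ : (p : 𝓞 F) ∈ Q := (Ideal.span_singleton_le_iff_mem _).1 hle
  have hG := hch_good hp hpq hQ hpQ
  obtain ⟨β, hβ, hβ1⟩ := exists_prs_ne h hG
  obtain ⟨x, e1, e3, e5, e4⟩ := hch_crt hp hpa hQm hpQ hβ
  have hc : ∀ {b : 𝓞 F}, b ∣ x - 1 → IsCoprime x b := fun ⟨y, hy⟩ =>
    ⟨1, -y, by linear_combination hy⟩
  have hx : (k : 𝓞 F) ∣ x - 1 := (Nat.cast_dvd_cast hka).trans e3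
  refine ⟨x, hc e3, e5, fun h1 => hβ1 ?_⟩
  have hJ : IsCoprime (Ideal.span {x}) (Ideal.span {(q : 𝓞 F)}) :=
    (Ideal.isCoprime_span_singleton_iff _ _).2 (hc ((Nat.cast_dvd_cast hqk).trans hx))
  have h2 := hch_recip hk h hqk hp hpq hx e5 hQ hpQ
  obtain ⟨f, -, hf⟩ := (Nat.dvd_prime_pow hp).1 (hch_norm_dvd hpQ)
  rw [hf, Nat.cast_pow, psym_pow_left h hJ, h1, one_pow] at h2
  obtain ⟨c, hc1, hc2⟩ := hch_stab (Q := Q) (η := prs q ζ Q β)
    (f := fun τ : F ≃ₐ[ℚ] F => prs q ζ (τ • Q) x)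
    (fun τ hτ => by rw [hτ, prs_congr e1])
    (fun τ hτ => by
      rw [prs_congr (e4 _ (hG.smul τ).1 (hch_smul_mem τ hpQ) hτ), prs_one h (hG.smul τ)])
  rw [IsGalois.card_aut_eq_finrank] at hc1
  exact hch_pow_one (Nat.Coprime.coprime_dvd_left hc1 hn) (hc2.symm.trans h2.symm)
    (prs_pow_q h hG hβ)

theorem hch_tot (hq : q.Prime) (h2 : 2 < q) :
    (Nat.lcm 3 q).totient.Coprime q ∧ (Nat.lcm 3 q).totient ≤ 2 * q := by
  by_cases h3 : q = 3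
  · subst h3
    decide
  · have hc : Nat.Coprime 3 q := (Nat.coprime_primes Nat.prime_three hq).2 (Ne.symm h3)
    rw [hc.lcm_eq_mul, Nat.totient_mul hc, Nat.totient_prime Nat.prime_three, Nat.totient_prime hq]
    refine ⟨Nat.Coprime.mul_left ((Nat.coprime_primes Nat.prime_two hq).2 h2.ne) ?_, by omega⟩
    exact (Nat.coprime_self_sub_left hq.one_le).2 (Nat.coprime_one_left q)

end hch

theorem exists_hc {q p : ℕ} (hq : q.Prime) (hp : p.Prime) (h2 : 2 < q) (hqp : q < p)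
    (F : Type) [Field F] [NumberField F] [IsCyclotomicExtension {Nat.lcm 3 q} ℚ F] :
    ∃ χ : Ideal (𝓞 F) → ℂ, IsHC (3 * p * q) χ ∧
      ∀ (P : Ideal (𝓞 F)) (l : ℕ), P.IsPrime → l.Prime → Ideal.absNorm P = l → χ P ≠ 0 →
        q ∣ l - 1 ∧ ((p : ZMod l) ^ ((l - 1) / q) = 1 → χ P = 1) := by
  have hk : Nat.lcm 3 q ≠ 0 := Nat.lcm_ne_zero (by norm_num) hq.ne_zero
  have := NeZero.mk hk
  have := NeZero.mk hq.ne_zero
  have hqk : q ∣ Nat.lcm 3 q := Nat.dvd_lcm_right _ _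
  have hz : IsPrimitiveRoot (IsCyclotomicExtension.zeta (Nat.lcm 3 q) ℚ F ^ (Nat.lcm 3 q / q)) q :=
    (IsCyclotomicExtension.zeta_spec (Nat.lcm 3 q) ℚ F).pow (Nat.pos_of_ne_zero hk)
      (Nat.div_mul_cancel hqk).symm
  obtain ⟨ζ, h⟩ : ∃ ζ : 𝓞 F, PR q ζ := ⟨_, hq, h2, hz.toInteger_isPrimitiveRoot⟩
  have hpq : p.Coprime q := (Nat.coprime_primes hp hq).2 hqp.ne'
  have hp3 : p.Coprime 3 := (Nat.coprime_primes hp Nat.prime_three).2 (by omega)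
  have hn : (dg F).Coprime q := by
    rw [dg, IsCyclotomicExtension.Rat.finrank (Nat.lcm 3 q)]
    exact (hch_tot hq h2).1
  obtain ⟨σ⟩ : Nonempty (F →+* ℂ) := inferInstance
  let φ : 𝓞 F →+* ℂ := σ.comp (algebraMap (𝓞 F) F)
  have hφ : Function.Injective φ := σ.injective.comp RingOfIntegers.coe_injective
  have hm : 1 < 3 * p * q := by nlinarith [hp.one_lt]
  have hne : ∀ {I : Ideal (𝓞 F)}, IsCoprime I (Ideal.span {((3 * p * q : ℕ) : 𝓞 F)}) → I ≠ ⊥ := by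
    rintro _ hI rfl
    rw [Ideal.isCoprime_iff_sup_eq, bot_sup_eq] at hI
    exact hch_span_ne_top hm hI
  have hdv : ∀ {I : Ideal (𝓞 F)} {a : ℕ}, a ∣ 3 * p * q →
      IsCoprime I (Ideal.span {((3 * p * q : ℕ) : 𝓞 F)}) → IsCoprime I (Ideal.span {(a : 𝓞 F)}) :=
    fun ha hI => hI.of_isCoprime_of_dvd_right
      (Ideal.dvd_iff_le.2 (Ideal.span_singleton_le_span_singleton.2 (Nat.cast_dvd_cast ha)))
  have d1 : q ∣ 3 * p * q := Dvd.intro_left _ rfl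
  have d2 : p ∣ 3 * p * q := (Dvd.intro_left 3 rfl).mul_right q
  have d3 : Nat.lcm 3 q ∣ 3 * q := Nat.lcm_dvd_mul 3 q
  have d4 : 3 * q ∣ 3 * p * q := ⟨p, by ring⟩
  have hnorm : ∀ I : Ideal (𝓞 F), IsCoprime I (Ideal.span {((3 * p * q : ℕ) : 𝓞 F)}) →
      ‖φ (psym q ζ p I)‖ = 1 := fun I hI => by
    refine Complex.norm_eq_one_of_pow_eq_one ?_ hq.ne_zero
    rw [← map_pow, psym_pow_q h (hdv d1 hI) (hdv d2 hI), map_one]
  refine ⟨fun J => if IsCoprime J (Ideal.span {((3 * p * q : ℕ) : 𝓞 F)}) then φ (psym q ζ p J)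
    else 0, ⟨by omega, ?_, ?_, fun I J => ?_, fun I _ hI => ?_, fun I hI => if_neg hI,
      fun x _ hx => ?_, ?_⟩, fun P l hP hl hPl hχ => ?_⟩
  · rw [if_pos (Ideal.isCoprime_iff_sup_eq.2 (top_sup_eq _)), psym_top, map_one]
  · exact if_neg fun hI => hne hI rfl
  · by_cases hI : IsCoprime I (Ideal.span {((3 * p * q : ℕ) : 𝓞 F)})
    · by_cases hJ : IsCoprime J (Ideal.span {((3 * p * q : ℕ) : 𝓞 F)})
      · rw [if_pos hI, if_pos hJ, if_pos (hI.mul_left hJ), psym_mul_right _ (hne hI) (hne hJ),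
          map_mul]
      · rw [if_neg hJ, mul_zero, if_neg fun h' => hJ h'.of_mul_left_right]
    · rw [if_neg hI, zero_mul, if_neg fun h' => hI h'.of_mul_left_left]
  · rw [if_pos hI, hnorm I hI]
  · obtain ⟨y, hy⟩ := id hx
    rw [if_pos ((Ideal.isCoprime_span_singleton_iff _ _).2 ⟨1, -y, by linear_combination hy⟩),
      hch_triv hk h hqk hp hpq hn ((Nat.cast_dvd_cast (d3.trans d4)).trans hx)
        ((Nat.cast_dvd_cast d2).trans hx), map_one]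
  · obtain ⟨x, h1, h3, h4⟩ := hch_nontriv hk h hqk hp hpq hn d3 (hp3.mul_right hpq)
    have h5 : IsCoprime (Ideal.span {x}) (Ideal.span {((3 * p * q : ℕ) : 𝓞 F)}) := by
      rw [Ideal.isCoprime_span_singleton_iff, mul_right_comm, Nat.cast_mul]
      exact h1.mul_right h3
    refine ⟨x, ?_, ?_⟩
    · rw [if_pos h5, ← norm_ne_zero_iff, hnorm _ h5]
      exact one_ne_zero
    · rw [if_pos h5]
      exact fun h6 => h4 (hφ (h6.trans (map_one φ).symm))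
  · have hI : IsCoprime P (Ideal.span {((3 * p * q : ℕ) : 𝓞 F)}) := by
      by_contra hI
      exact hχ (if_neg hI)
    have hG : GoodP q P := ⟨hP, hne hI, fun h0 => hP.ne_top (top_le_iff.1 (by
      rw [← Ideal.isCoprime_iff_sup_eq.1 (hdv d1 hI)]
      exact sup_le le_rfl ((Ideal.span_singleton_le_iff_mem _).2 h0)))⟩
    refine ⟨hPl ▸ (dvd_absNorm_sub h hG).1, fun h1 => ?_⟩
    have h3 : (l : ℤ) ∣ (p : ℤ) ^ ((l - 1) / q) - 1 := by
      rw [← ZMod.intCast_zmod_eq_zero_iff_dvd]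
      push_cast
      rw [h1, sub_self]
    have h4 : (l : 𝓞 F) ∣ (p : 𝓞 F) ^ ((l - 1) / q) - ζ ^ 0 := by
      simpa using map_dvd (Int.castRingHom (𝓞 F)) h3
    have h5 : (l : 𝓞 F) ∈ P := hPl ▸ Ideal.absNorm_mem P
    show (if _ then _ else _) = _
    rw [if_pos hI, psym_prime hP hG.2.1, prs_of_mem h hG (hPl ▸ P.mem_of_dvd h4 h5), pow_zero,
      map_one]

theorem exists_deg_one {k l : ℕ} (hk : k ≠ 0) (hl : l.Prime) (h1 : (l : ZMod k) = 1)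
    (F : Type) [Field F] [NumberField F] [IsCyclotomicExtension {k} ℚ F] :
    ∃ P : Ideal (𝓞 F), P.IsPrime ∧ P ≠ ⊥ ∧ Ideal.absNorm P = l := by
  have := NeZero.mk hk
  have := Fact.mk hl
  obtain ⟨P, hP, hle⟩ := Ideal.exists_le_maximal _ (hch_span_ne_top (F := F) hl.one_lt)
  have := hP.isPrime
  have := hch_lies hl hP.isPrime ((Ideal.span_singleton_le_iff_mem _).1 hle)
  have hlk : ¬ l ∣ k := fun h => by
    have h2 := congrArg (ZMod.castHom h (ZMod l)) h1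
    rw [map_natCast, map_one, ZMod.natCast_self] at h2
    exact zero_ne_one h2
  refine ⟨P, hP.isPrime, ne_bot_of_le_ne_bot (by simpa using hl.ne_zero) hle, ?_⟩
  rw [← Ideal.pow_inertiaDeg l P, IsCyclotomicExtension.Rat.inertiaDeg_eq_of_not_dvd l F P hlk,
    h1, orderOf_one, pow_one]

theorem cyc_data {q : ℕ} (hq : q.Prime) (h2 : 2 < q)
    (F : Type) [Field F] [NumberField F] [IsCyclotomicExtension {Nat.lcm 3 q} ℚ F] :
    (∃ ω : F, ω ^ 2 + ω + 1 = 0) ∧ dg F ≤ 2 * q ∧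
      (NumberField.discr F).natAbs ≤ (3 * q) ^ (2 * q) := by
  have hk : Nat.lcm 3 q ≠ 0 := Nat.lcm_ne_zero (by norm_num) hq.ne_zero
  have := NeZero.mk hk
  have hz : IsPrimitiveRoot (IsCyclotomicExtension.zeta (Nat.lcm 3 q) ℚ F ^ (Nat.lcm 3 q / 3)) 3 :=
    (IsCyclotomicExtension.zeta_spec (Nat.lcm 3 q) ℚ F).pow (Nat.pos_of_ne_zero hk)
      (Nat.div_mul_cancel (Nat.dvd_lcm_left _ _)).symm
  refine ⟨⟨IsCyclotomicExtension.zeta (Nat.lcm 3 q) ℚ F ^ (Nat.lcm 3 q / 3), ?_⟩, ?_, ?_⟩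
  · have h1 := hz.geom_sum_eq_zero (by norm_num)
    simp only [Finset.sum_range_succ, Finset.sum_range_zero] at h1
    linear_combination h1
  · rw [dg, IsCyclotomicExtension.Rat.finrank (Nat.lcm 3 q)]
    exact (hch_tot hq h2).2
  · rw [IsCyclotomicExtension.Rat.natAbs_discr (Nat.lcm 3 q)]
    refine (Nat.div_le_self _ _).trans ?_
    exact (Nat.pow_le_pow_left (Nat.le_of_dvd (by omega) (Nat.lcm_dvd_mul 3 q)) _).trans
      (Nat.pow_le_pow_right (by omega) (hch_tot hq h2).2)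

end Vale.Agent.P319B
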