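import Vale.Agent.P319B.HeckAA

/-! The theta series of a ray class character. -/

namespace Vale.Agent.P319B

open Complex NumberField
open scoped Classical ComplexConjugate
open Vale.Agent.P026 (w kk fk)

section A

variable {F : Type} [Field F] [NumberField F] [Om F]

theorem ha_Vk_two {t : ℝ} (ht : 0 < t) : Vk F t ≤ Real.exp 1 * (t ^ 2)⁻¹ := by
  refine (Vk_le (σ := 2) two_pos ht).trans ?_
  rw [Real.rpow_neg ht.le, Real.rpow_two, Real.Gamma_two, mul_one,
    show (2 : ℝ) ^ 2 / 4 = 1 by norm_num]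
  gcongr
  refine mul_le_of_le_one_right (Real.exp_pos _).le (pow_le_one₀ (by positivity) ?_)
  exact Real.rpow_le_one_of_one_le_of_nonpos (by linarith [Real.pi_gt_three]) (by norm_num)

theorem ha_dual {m : ℕ} (hm : 0 < m) {b : Ideal (𝓞 F)} (hb : b ≠ ⊥) {J : Type} {ν : J → F}
    (hν : IsTr (haE F) {h | h ≠ 0 ∧ h ∈ dualL (haL (Ideal.span {(m : 𝓞 F)} * b))} ν) :
    ∃ c : J → Ideal (𝓞 F), Function.Injective c ∧ ∀ j, c j ≠ ⊥ ∧ haC (c j) = haC b ∧
      (Ideal.absNorm (c j) : ℝ) =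
        ((m * (NumberField.discr F).natAbs : ℝ)) ^ dg F * Nin (ν j) * Ideal.absNorm b := by
  have h1 : ∀ j, ν j ≠ 0 ∧ ν j ∈ dualL (haL (Ideal.span {(m : 𝓞 F)} * b)) := fun j => by
    simpa using hν.1 j 1
  have hD : ((NumberField.discr F : ℤ) : F) ≠ 0 := by exact_mod_cast NumberField.discr_ne_zero F
  have hm' : (m : F) ≠ 0 := by exact_mod_cast hm.ne'
  have h2 : ∀ j, ∀ y ∈ b, IsIntegral ℤ (((NumberField.discr F : ℤ) : F) * m * ν j * y) := by
    intro j y hy
    have : ν j * (m * y) ∈ dualL (latO F) := by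
      refine mem_dualL.2 fun z hz => ?_
      obtain ⟨z, rfl⟩ := ha_exists (mem_latO.1 hz)
      have k := mem_dualL.1 (h1 j).2 _ (ha_m_mem (m : 𝓞 F) (ha_mul_mem z (ha_coe_mem.2 hy)))
      rw [← k]
      congr 1
      simp only [RingOfIntegers.coe_eq_algebraMap, map_natCast]
      ring
    have k := discr_mul_dual this
    rwa [show ((NumberField.discr F : ℤ) : F) * (ν j * (m * y)) =
      ((NumberField.discr F : ℤ) : F) * m * ν j * y by ring] at k
  choose c c1 c2 c3 α β c4 c5 c6 using fun j =>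
    ha_scale hb (mul_ne_zero (mul_ne_zero hD hm') (h1 j).1) (h2 j)
  refine ⟨c, fun i j e => ?_, fun j => ⟨c1 j, c2 j, ?_⟩⟩
  · have k1 : Ideal.span {β i * α j} * b = Ideal.span {β j * α i} * b := by
      rw [← Ideal.span_singleton_mul_span_singleton, ← Ideal.span_singleton_mul_span_singleton,
        mul_assoc, mul_assoc, ← c6, ← c6, e, mul_left_comm]
    obtain ⟨v, hv⟩ := Ideal.span_singleton_eq_span_singleton.1 (mul_right_cancel₀ hb k1)
    obtain ⟨u, hu⟩ := ha_unit' v.isUnit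
    have b1 : (β i : F) ≠ 0 := RingOfIntegers.coe_ne_zero_iff.2 (c4 i)
    have b2 : (β j : F) ≠ 0 := RingOfIntegers.coe_ne_zero_iff.2 (c4 j)
    have k2 : (β i : F) * α j * ((v : 𝓞 F) : F) = β j * α i := by
      simpa using congrArg (algebraMap (𝓞 F) F) hv
    have k3 : ν i = ((u : Fˣ) : F) * ν j := by
      refine mul_left_cancel₀ (mul_ne_zero hD hm') ?_
      rw [mul_left_comm, c5, c5, hu]
      field_simp
      linear_combination -k2
    have k4 := (hν.2 (ν i) (h1 i)).unique (y₁ := (i, 1)) (y₂ := (j, u)) (by simp) k3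
    exact congrArg Prod.fst k4
  · rw [c3, Nin_mul, Nin_mul, Nin_natCast, mul_pow]
    have : Nin ((NumberField.discr F : ℤ) : F) = ((NumberField.discr F).natAbs : ℝ) ^ dg F := by
      rw [← Nin_natCast]
      rcases Int.natAbs_eq (NumberField.discr F) with e | e
      · conv_lhs => rw [e]
        simp only [Int.cast_natCast]
      · conv_lhs => rw [e]
        simp only [Int.cast_neg, Int.cast_natCast, Nin_neg]
    rw [this]
    ring

theorem ha_class {m : ℕ} {χ : Ideal (𝓞 F) → ℂ} (h : IsHC m χ) {b : Ideal (𝓞 F)} (hb : b ≠ ⊥)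
    (hc : IsCoprime b (Ideal.span {(m : 𝓞 F)})) {X : ℝ} (hX : 0 < X) :
    ‖∑' J : Ideal (𝓞 F),
        if haC J = (haC b)⁻¹ then χ J * (Vk F (Ideal.absNorm J / X) : ℂ) else 0‖ ≤
      2 ^ rr F * Real.exp (1 / 4) * Real.exp 1 *
        ((m * (NumberField.discr F).natAbs : ℝ) ^ dg F) ^ 2 / X *
        ∑' J : Ideal (𝓞 F), if haC J = haC b then ((Ideal.absNorm J : ℝ) ^ 2)⁻¹ else 0 := by
  have hm : Ideal.span {(m : 𝓞 F)} ≠ ⊥ := by
    rw [Ne, Ideal.span_singleton_eq_bot]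
    exact_mod_cast h.m_pos.ne'
  have hmb : Ideal.span {(m : 𝓞 F)} * b ≠ ⊥ := mul_ne_zero hm hb
  have hE : ∀ (I : Ideal (𝓞 F)) (u : haE F), ∀ x ∈ haL I, ((u : Fˣ) : F) * x ∈ haL I := by
    intro I u x hx
    obtain ⟨v, -, e⟩ := ha_unit u
    exact e ▸ ha_mul_mem v hx
  obtain ⟨k0, -, hua⟩ := ua (F := F) ha_unitGrp
  obtain ⟨ν, n1, n2⟩ := ha_isTr hb
  obtain ⟨S0, n3⟩ := exists_isTr (E := haE F)
    (S := {h | h ≠ 0 ∧ h ∈ dualL (haL (Ideal.span {(m : 𝓞 F)} * b))}) (fun h => h.1 rfl)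
    (fun x hx u => ⟨mul_ne_zero (Units.ne_zero _) hx.1, mem_dualL.2 fun y hy => by
      rw [mul_comm _ x, mul_assoc]
      exact mem_dualL.1 hx.2 _ (hE _ u y hy)⟩)
  have hNb : (0 : ℝ) < Ideal.absNorm b := by
    exact_mod_cast Nat.pos_of_ne_zero (Ideal.absNorm_eq_zero_iff.not.2 hb)
  obtain ⟨-, s2, s3⟩ := hua (haL b) _ (haf χ b) _ _ _ (ha_isLat hb) (ha_isLat hmb)
    (ha_mono Ideal.mul_le_right) (hE _) (fun x hx => haf_mem hx) (haf_per h b) (haf_unit h b) n2
    (fun x hx => hx) (fun x h0 hx => ⟨h0, haf_mem hx⟩) n3 (X * Ideal.absNorm b) (by positivity)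
  have f0 : haf χ b 0 = 0 := by
    have := haf_coe χ b 0
    rw [if_pos b.zero_mem, Ideal.span_singleton_zero, h.map_bot] at this
    simpa using this
  have e1 : ∀ J, haf χ b (ν J) * (Vk F (Nin (ν J : F) / (X * Ideal.absNorm b)) : ℂ) =
      χ b * (χ J.1 * (Vk F (Ideal.absNorm J.1 / X) : ℂ)) := by
    intro J
    have a1 : ν J ∈ b := Ideal.mul_le_right (I := J.1) (by
      rw [n1]
      exact Ideal.mem_span_singleton_self _)
    rw [haf_coe, if_pos a1, Nin_eq_absNorm, ← n1, h.map_mul, map_mul, Nat.cast_mul,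
      mul_div_mul_right _ _ hNb.ne']
    ring
  have e2 : ∑' J : {J : Ideal (𝓞 F) // J ≠ ⊥ ∧ haC J = (haC b)⁻¹},
      χ J.1 * (Vk F (Ideal.absNorm J.1 / X) : ℂ) = ∑' J : Ideal (𝓞 F),
        if haC J = (haC b)⁻¹ then χ J * (Vk F (Ideal.absNorm J / X) : ℂ) else 0 := by
    refine (tsum_subtype {J : Ideal (𝓞 F) | J ≠ ⊥ ∧ haC J = (haC b)⁻¹}
      (fun J => χ J * (Vk F (Ideal.absNorm J / X) : ℂ))).trans (tsum_congr fun J => ?_)
    by_cases hJ : J = ⊥
    · simp [hJ, h.map_bot]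
    · simp [Set.indicator, hJ]
  rw [f0, ha_qsum_zero h hb, mul_zero, zero_add, zero_add, tsum_congr e1, tsum_mul_left, e2] at s3
  have k1 := congrArg norm s3
  rw [norm_mul, h.norm_eq b hb hc, one_mul, norm_mul] at k1
  rw [k1]
  obtain ⟨c, c1, c2⟩ := ha_dual h.m_pos hb n3
  have hm0 : (0 : ℝ) < m := by exact_mod_cast h.m_pos
  have hd : (0 : ℝ) < (NumberField.discr F).natAbs := by
    exact_mod_cast Int.natAbs_pos.2 (NumberField.discr_ne_zero F)
  set A : ℝ := (m * (NumberField.discr F).natAbs : ℝ) ^ dg F with hA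
  have hA0 : 0 < A := by positivity
  have k2 := tsum_of_norm_bounded (s2.mul_left ((m : ℝ) ^ dg F)).hasSum
    (f := fun j : S0 => qsum (haL (Ideal.span {(m : 𝓞 F)} * b)) (fun x => haf χ b x * eT (j * x)) *
      (Vk F (4 ^ rr F * Real.exp (1 / 2) * (X * Ideal.absNorm b) * Nin (j : F)) : ℂ)) fun j => by
      rw [norm_mul, Complex.norm_real, Real.norm_of_nonneg (Vk_nonneg _)]
      refine mul_le_mul_of_nonneg_right (ha_qsum_le h hb ?_) (Vk_nonneg _)
      simpa using (n3.1 j 1).2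
  have s4 : Summable fun J : Ideal (𝓞 F) =>
      if haC J = haC b then ((Ideal.absNorm J : ℝ) ^ 2)⁻¹ else 0 :=
    Summable.of_nonneg_of_le (fun J => by split_ifs <;> positivity)
      (fun J => by split_ifs <;> [exact le_rfl; positivity]) zeta_two_le.1
  have k3 := s2.tsum_le_tsum_of_inj c c1 (g := fun J => Real.exp 1 * A ^ 2 / X ^ 2 *
    if haC J = haC b then ((Ideal.absNorm J : ℝ) ^ 2)⁻¹ else 0)
    (fun J _ => by split_ifs <;> positivity) (fun j => ?_) (s4.mul_left _)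
  · rw [tsum_mul_left] at k2 k3
    have k4 : ‖((X * Ideal.absNorm b / cov (haL (Ideal.span {(m : 𝓞 F)} * b)) *
        Real.exp (1 / 4) : ℝ) : ℂ)‖ ≤ X * (2 ^ rr F / (m : ℝ) ^ dg F) * Real.exp (1 / 4) := by
      have a1 := cov_pos (isLat_latO (F := F))
      have a2 := cov_latO_ge (F := F)
      rw [ha_cov hmb, map_mul, ha_absNorm_nat, Complex.norm_real,
        Real.norm_of_nonneg (by positivity)]
      gcongr
      push_cast
      rw [mul_div_assoc]
      refine mul_le_mul_of_nonneg_left ?_ hX.le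
      rw [div_le_div_iff₀ (by positivity) (by positivity)]
      rw [inv_le_iff_one_le_mul₀ (by positivity)] at a2
      have a3 : (0 : ℝ) < Ideal.absNorm b * (m : ℝ) ^ dg F := by positivity
      nlinarith
    refine (mul_le_mul k4 (k2.trans (mul_le_mul_of_nonneg_left k3 (by positivity))) (norm_nonneg _)
      (by positivity)).trans (le_of_eq ?_)
    field_simp
  · obtain ⟨d1, d2, d3⟩ := c2 j
    have hj : 0 < Nin (j : F) := Nin_pos (by simpa using (n3.1 j 1).1)
    rw [if_pos d2, d3]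
    refine (ha_Vk_two (by positivity)).trans ?_
    have a1 : (1 : ℝ) ≤ 4 ^ rr F * Real.exp (1 / 2) :=
      one_le_mul_of_one_le_of_one_le (one_le_pow₀ (by norm_num)) (Real.one_le_exp (by norm_num))
    calc _ ≤ Real.exp 1 * ((1 * (X * Ideal.absNorm b) * Nin (j : F)) ^ 2)⁻¹ := by gcongr
      _ = _ := by field_simp

end A

theorem hecke_theta : ∃ C : ℝ, 0 < C ∧ ∀ (F : Type) [Field F] [NumberField F] [Om F] (m : ℕ)
    (χ : Ideal (𝓞 F) → ℂ), IsHC m χ → ∀ X : ℝ, 0 < X →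
      ‖∑' J : Ideal (𝓞 F), χ J * (Vk F (Ideal.absNorm J / X) : ℂ)‖ ≤
        Real.exp (C * Hc F m ^ 2) / X := by
  refine ⟨5, by norm_num, fun F _ _ _ m χ h X hX => ?_⟩
  obtain ⟨z1, z2⟩ := zeta_two_le (F := F)
  have s1 : Summable fun J : Ideal (𝓞 F) => χ J * (Vk F (Ideal.absNorm J / X) : ℂ) := by
    refine Summable.of_norm_bounded (z1.mul_left (Real.exp 1 * X ^ 2)) fun J => ?_
    by_cases hJ : J = ⊥
    · simp [hJ, h.map_bot]
    · have hN : (0 : ℝ) < Ideal.absNorm J := by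
        exact_mod_cast Nat.pos_of_ne_zero (Ideal.absNorm_eq_zero_iff.not.2 hJ)
      rw [norm_mul, Complex.norm_real, Real.norm_of_nonneg (Vk_nonneg _)]
      refine (mul_le_of_le_one_left (Vk_nonneg _) (h.norm_le J)).trans
        ((ha_Vk_two (by positivity)).trans (le_of_eq ?_))
      field_simp
  have e1 : ∑' J : Ideal (𝓞 F), χ J * (Vk F (Ideal.absNorm J / X) : ℂ) =
      ∑ c : ClassGroup (𝓞 F), ∑' J : Ideal (𝓞 F),
        if haC J = c then χ J * (Vk F (Ideal.absNorm J / X) : ℂ) else 0 := by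
    rw [← Summable.tsum_finsetSum fun c _ => ?_]
    · simp
    · refine Summable.of_norm_bounded s1.norm fun J => ?_
      split_ifs
      · exact le_rfl
      · rw [norm_zero]
        exact norm_nonneg _
  have e2 : ∑' J : Ideal (𝓞 F), ((Ideal.absNorm J : ℝ) ^ 2)⁻¹ =
      ∑ c : ClassGroup (𝓞 F), ∑' J : Ideal (𝓞 F),
        if haC J = c⁻¹ then ((Ideal.absNorm J : ℝ) ^ 2)⁻¹ else 0 := by
    rw [← Summable.tsum_finsetSum fun c _ => ?_]
    · refine tsum_congr fun J => ?_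
      rw [Finset.sum_eq_single (haC J)⁻¹ (fun c _ hc => if_neg fun e => hc (by rw [e, inv_inv]))
        (by simp), if_pos (inv_inv _).symm]
    · exact Summable.of_nonneg_of_le (fun J => by split_ifs <;> positivity)
        (fun J => by split_ifs <;> [exact le_rfl; positivity]) z1
  set K : ℝ := 2 ^ rr F * Real.exp (1 / 4) * Real.exp 1 *
    ((m * (NumberField.discr F).natAbs : ℝ) ^ dg F) ^ 2 with hK
  have k1 : ‖∑' J : Ideal (𝓞 F), χ J * (Vk F (Ideal.absNorm J / X) : ℂ)‖ ≤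
      K / X * Real.exp (2 * dg F) := by
    rw [e1]
    refine (norm_sum_le _ _).trans ((Finset.sum_le_sum (g := fun c => K / X * ∑' J : Ideal (𝓞 F),
        if haC J = c⁻¹ then ((Ideal.absNorm J : ℝ) ^ 2)⁻¹ else 0) fun c _ => ?_).trans ?_)
    · obtain ⟨b, b1, b2, rfl⟩ := ha_rep h c
      simpa only [inv_inv] using ha_class h b1 b2 hX
    · rw [← Finset.mul_sum, ← e2]
      gcongr
  refine k1.trans ?_
  rw [div_mul_eq_mul_div]
  gcongr
  have hr := rr_pos (F := F)
  have h2 := two_mul_rr (F := F)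
  obtain ⟨a1, a2⟩ := two_le_Hc (F := F) h.m_pos (by omega)
  have hm0 : (0 : ℝ) < m := by exact_mod_cast h.m_pos
  have hd : (0 : ℝ) < (NumberField.discr F).natAbs := by
    exact_mod_cast Int.natAbs_pos.2 (NumberField.discr_ne_zero F)
  have a3 : Real.log (m * (NumberField.discr F).natAbs) ≤ Hc F m :=
    le_add_of_nonneg_left (by positivity)
  have a4 : (rr F : ℝ) ≤ dg F := by exact_mod_cast (by omega : rr F ≤ dg F)
  have a5 : K = Real.exp (rr F * Real.log 2 + 1 / 4 + 1 +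
      2 * dg F * Real.log (m * (NumberField.discr F).natAbs)) := by
    rw [Real.exp_add, Real.exp_add, Real.exp_add, Real.exp_nat_mul, Real.exp_log two_pos, hK,
      ← pow_mul, show (2 * dg F : ℝ) = (dg F * 2 : ℕ) by push_cast; ring, Real.exp_nat_mul,
      Real.exp_log (by positivity)]
  rw [a5, ← Real.exp_add]
  refine Real.exp_le_exp.2 ?_
  have a6 := Real.log_two_lt_d9
  have a7 : (0 : ℝ) ≤ dg F := by positivity
  have a8 : (0 : ℝ) ≤ rr F := by positivity
  have a9 : dg F * Real.log (m * (NumberField.discr F).natAbs) ≤ Hc F m * Hc F m :=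
    (mul_le_mul_of_nonneg_left a3 a7).trans (mul_le_mul_of_nonneg_right a1 (by linarith))
  nlinarith

end Vale.Agent.P319B
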