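import Vale.Agent.P319B.UA
import Vale.Agent.P319B.IdS

/-! Ideals as lattices. -/

namespace Vale.Agent.P319B

open Complex NumberField
open scoped Classical ComplexConjugate
open Vale.Agent.P026 (w kk fk)

variable {F : Type} [Field F] [NumberField F]

/-- An ideal as an additive subgroup of the field. -/
noncomputable def haL (I : Ideal (𝓞 F)) : AddSubgroup F :=
  I.toAddSubgroup.map (algebraMap (𝓞 F) F : 𝓞 F →+ F)

/-- The class of an ideal. -/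
noncomputable def haC (J : Ideal (𝓞 F)) : ClassGroup (𝓞 F) :=
  if h : J = ⊥ then 1 else ClassGroup.mk0 ⟨J, mem_nonZeroDivisors_of_ne_zero h⟩

/-- The integral units. -/
def haE (F : Type) [Field F] : Subgroup Fˣ where
  carrier := {u | IsIntegral ℤ (u : F) ∧ IsIntegral ℤ ((u⁻¹ : Fˣ) : F)}
  one_mem' := ⟨by simpa using isIntegral_one, by simpa using isIntegral_one⟩
  mul_mem' := by
    rintro a b ⟨h1, h2⟩ ⟨h3, h4⟩
    refine ⟨by simpa using h1.mul h3, ?_⟩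
    rw [mul_inv, Units.val_mul]
    exact h2.mul h4
  inv_mem' := by
    rintro a ⟨h1, h2⟩
    exact ⟨h2, by simpa using h1⟩

/-- The function on the field attached to a character and an ideal. -/
noncomputable def haf (χ : Ideal (𝓞 F) → ℂ) (b : Ideal (𝓞 F)) (x : F) : ℂ :=
  if h : ∃ y ∈ b, (y : F) = x then χ (Ideal.span {h.choose}) else 0

omit [NumberField F] in
theorem ha_unitGrp : UnitGrp (haE F) :=
  ⟨fun _ hu => hu.1, 1, one_pos, fun u h1 h2 => by rw [pow_one]; exact ⟨h1, h2⟩⟩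

omit [NumberField F] in
theorem ha_mem {I : Ideal (𝓞 F)} {x : F} : x ∈ haL I ↔ ∃ y ∈ I, (y : F) = x := Iff.rfl

omit [NumberField F] in
theorem ha_coe_mem {I : Ideal (𝓞 F)} {y : 𝓞 F} : (y : F) ∈ haL I ↔ y ∈ I :=
  ⟨fun ⟨_, h1, h2⟩ => RingOfIntegers.coe_injective h2 ▸ h1, fun h => ⟨y, h, rfl⟩⟩

omit [NumberField F] in
theorem ha_exists {x : F} (h : IsIntegral ℤ x) : ∃ y : 𝓞 F, (y : F) = x := ⟨⟨x, h⟩, rfl⟩

omit [NumberField F] in
theorem ha_unit (u : haE F) : ∃ v : 𝓞 F, IsUnit v ∧ (v : F) = ((u : Fˣ) : F) := by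
  obtain ⟨v, hv⟩ := ha_exists u.2.1
  obtain ⟨v', hv'⟩ := ha_exists u.2.2
  refine ⟨v, IsUnit.of_mul_eq_one v' (RingOfIntegers.coe_injective ?_), hv⟩
  simp only [map_mul, map_one]
  change (v : F) * (v' : F) = 1
  rw [hv, hv', Units.mul_inv]

omit [NumberField F] in
theorem ha_unit' {v : 𝓞 F} (hv : IsUnit v) : ∃ u : haE F, ((u : Fˣ) : F) = v := by
  obtain ⟨v, rfl⟩ := hv
  exact ⟨⟨Units.map (algebraMap (𝓞 F) F : 𝓞 F →* F) v, (v : 𝓞 F).isIntegral_coe,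
    ((v⁻¹ : (𝓞 F)ˣ) : 𝓞 F).isIntegral_coe⟩, rfl⟩

omit [NumberField F] in
theorem ha_top : haL (⊤ : Ideal (𝓞 F)) = latO F := by
  ext x
  exact ⟨fun ⟨y, _, h⟩ => h ▸ y.isIntegral_coe, fun h => ⟨⟨x, h⟩, trivial, rfl⟩⟩

omit [NumberField F] in
theorem ha_mono {I J : Ideal (𝓞 F)} (h : I ≤ J) : haL I ≤ haL J :=
  fun _ ⟨y, h1, h2⟩ => ⟨y, h h1, h2⟩

theorem ha_relIndex (I : Ideal (𝓞 F)) : (haL I).relIndex (latO F) = Ideal.absNorm I := by
  rw [← ha_top, haL, haL, AddSubgroup.relIndex_map_map_of_injective _ _ RingOfIntegers.coe_injective,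
    Ideal.absNorm_eq_index]
  exact AddSubgroup.relIndex_top_right _

theorem ha_relIndex_mul {I : Ideal (𝓞 F)} (hI : I ≠ ⊥) (J : Ideal (𝓞 F)) :
    (haL (J * I)).relIndex (haL I) = Ideal.absNorm J := by
  have h := AddSubgroup.relIndex_mul_relIndex (haL (J * I)) (haL I) (latO F)
    (ha_mono Ideal.mul_le_right) (ha_top (F := F) ▸ ha_mono le_top)
  rw [ha_relIndex, ha_relIndex, map_mul] at h
  exact mul_right_cancel₀ (Ideal.absNorm_eq_zero_iff.not.2 hI) h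

theorem ha_absNorm_nat (m : ℕ) : Ideal.absNorm (Ideal.span {(m : 𝓞 F)}) = m ^ dg F := by
  rw [Ideal.absNorm_span_natCast, RingOfIntegers.rank]

omit [NumberField F] in
theorem haf_coe (χ : Ideal (𝓞 F) → ℂ) (b : Ideal (𝓞 F)) (y : 𝓞 F) :
    haf χ b (y : F) = if y ∈ b then χ (Ideal.span {y}) else 0 := by
  unfold haf
  by_cases h : y ∈ b
  · have h' : ∃ z ∈ b, (z : F) = y := ⟨y, h, rfl⟩
    rw [dif_pos h', if_pos h, RingOfIntegers.coe_injective h'.choose_spec.2]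
  · have h' : ¬ ∃ z ∈ b, (z : F) = y := fun h' => h (ha_coe_mem.1 h')
    rw [dif_neg h', if_neg h]

omit [NumberField F] in
theorem haf_not (χ : Ideal (𝓞 F) → ℂ) {b : Ideal (𝓞 F)} {x : F} (h : x ∉ haL b) :
    haf χ b x = 0 := dif_neg h

omit [NumberField F] in
theorem haf_mem {χ : Ideal (𝓞 F) → ℂ} {b : Ideal (𝓞 F)} {x : F} (h : haf χ b x ≠ 0) :
    x ∈ haL b := by
  by_contra h'
  exact h (haf_not χ h')

theorem haf_le {m : ℕ} {χ : Ideal (𝓞 F) → ℂ} (h : IsHC m χ) (b : Ideal (𝓞 F)) (x : F) :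
    ‖haf χ b x‖ ≤ 1 := by
  unfold haf
  split_ifs
  · exact h.norm_le _
  · simp

theorem haf_per {m : ℕ} {χ : Ideal (𝓞 F) → ℂ} (h : IsHC m χ) (b : Ideal (𝓞 F)) (x y : F)
    (hxy : x - y ∈ haL (Ideal.span {(m : 𝓞 F)} * b)) : haf χ b x = haf χ b y := by
  have h1 : x - y ∈ haL b := ha_mono Ideal.mul_le_right hxy
  by_cases hx : x ∈ haL b
  · have hy : y ∈ haL b := by simpa using sub_mem hx h1
    obtain ⟨x, hx', rfl⟩ := ha_mem.1 hx
    obtain ⟨y, hy', rfl⟩ := ha_mem.1 hy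
    have h2 : x - y ∈ Ideal.span {(m : 𝓞 F)} * b := ha_coe_mem.1 (by simpa using hxy)
    rw [haf_coe, haf_coe, if_pos hx', if_pos hy']
    exact h.congr (Ideal.mem_span_singleton.1 (Ideal.mul_le_left h2))
  · rw [haf_not χ hx, haf_not χ (fun hy => hx (by simpa using add_mem h1 hy))]

theorem haf_mul {m : ℕ} {χ : Ideal (𝓞 F) → ℂ} (h : IsHC m χ) {b : Ideal (𝓞 F)} (a : 𝓞 F) {x : F}
    (hx : x ∈ haL b) : haf χ b (a * x) = χ (Ideal.span {a}) * haf χ b x := by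
  obtain ⟨x, hx', rfl⟩ := ha_mem.1 hx
  have e : (a : F) * (x : F) = ((a * x : 𝓞 F) : F) := by simp
  rw [e, haf_coe, haf_coe, if_pos hx', if_pos (b.mul_mem_left a hx'), ← h.map_mul,
    Ideal.span_singleton_mul_span_singleton]

omit [NumberField F] in
theorem ha_mul_mem {b : Ideal (𝓞 F)} (a : 𝓞 F) {x : F} (hx : x ∈ haL b) : (a : F) * x ∈ haL b := by
  obtain ⟨x, hx', rfl⟩ := ha_mem.1 hx
  exact ⟨a * x, b.mul_mem_left a hx', by simp⟩

omit [NumberField F] in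
theorem ha_m_mem {b : Ideal (𝓞 F)} (a : 𝓞 F) {x : F} (hx : x ∈ haL b) :
    (a : F) * x ∈ haL (Ideal.span {a} * b) := by
  obtain ⟨x, hx', rfl⟩ := ha_mem.1 hx
  exact ⟨a * x, Ideal.mul_mem_mul (Ideal.mem_span_singleton_self a) hx', by simp⟩

theorem haf_unit {m : ℕ} {χ : Ideal (𝓞 F) → ℂ} (h : IsHC m χ) (b : Ideal (𝓞 F)) (u : haE F)
    (x : F) : haf χ b (((u : Fˣ) : F) * x) = haf χ b x := by
  obtain ⟨v, hv, e⟩ := ha_unit u
  by_cases hx : x ∈ haL b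
  · rw [← e, haf_mul h v hx, Ideal.span_singleton_eq_top.2 hv, h.map_one, one_mul]
  · rw [haf_not χ hx, haf_not]
    intro h'
    obtain ⟨v', -, e'⟩ := ha_unit u⁻¹
    have := ha_mul_mem v' h'
    rw [e', ← mul_assoc] at this
    simp only [InvMemClass.coe_inv, Units.inv_mul, one_mul] at this
    exact hx this

theorem ha_qsum_zero {m : ℕ} {χ : Ideal (𝓞 F) → ℂ} (h : IsHC m χ) {b : Ideal (𝓞 F)}
    (hb : b ≠ ⊥) : qsum (haL (Ideal.span {(m : 𝓞 F)} * b)) (haf χ b) = 0 := by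
  have hi : (haL (Ideal.span {(m : 𝓞 F)} * b)).relIndex (haL b) ≠ 0 := by
    rw [ha_relIndex_mul hb, ha_absNorm_nat]
    exact pow_ne_zero _ h.m_pos.ne'
  obtain ⟨s, -, s1, s2, s3⟩ := exists_reps hi
  obtain ⟨a, a1, a2⟩ := h.nontriv
  have hc : IsCoprime (Ideal.span {a}) (Ideal.span {(m : 𝓞 F)}) := by
    by_contra hc
    exact a1 (h.eq_zero _ hc)
  obtain ⟨u, v, huv⟩ := (Ideal.isCoprime_span_singleton_iff _ _).1 hc
  have huv' : (u : F) * a + v * ((m : 𝓞 F) : F) = 1 := by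
    have := congrArg (algebraMap (𝓞 F) F) huv
    simpa using this
  have k1 := qsum_eq_sum (haf_per h b) s s2 fun x hx => s3 x (haf_mem hx)
  have hinj : ∀ x ∈ s, ∀ y ∈ s, (a : F) * x - a * y ∈ haL (Ideal.span {(m : 𝓞 F)} * b) →
      x = y := by
    intro x hx y hy hxy
    refine s2 x hx y hy ?_
    have e : x - y = u * ((a : F) * x - a * y) + v * (((m : 𝓞 F) : F) * (x - y)) := by
      linear_combination (-(x - y)) * huv'
    rw [e]
    exact add_mem (ha_mul_mem _ hxy) (ha_mul_mem _ (ha_m_mem _ (sub_mem (s1 x hx) (s1 y hy))))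
  have k2 := qsum_eq_sum (haf_per h b) (s.image fun x => (a : F) * x) (fun x hx y hy hxy => ?_)
    (fun x hx => ?_)
  · rw [Finset.sum_image fun x hx y hy e => hinj x hx y hy (by rw [e, sub_self]; exact zero_mem _),
      Finset.sum_congr rfl fun x hx => haf_mul h a (s1 x hx), ← Finset.mul_sum, ← k1] at k2
    by_contra h0
    exact a2 (mul_right_cancel₀ h0 (by rw [← k2, one_mul]))
  · obtain ⟨x, hx', rfl⟩ := Finset.mem_image.1 hx
    obtain ⟨y, hy', rfl⟩ := Finset.mem_image.1 hy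
    rw [hinj x hx' y hy' hxy]
  · obtain ⟨z, hz, e⟩ := s3 _ (ha_mul_mem u (haf_mem hx))
    refine ⟨a * z, Finset.mem_image_of_mem _ hz, ?_⟩
    have e' : x - a * z = a * ((u : F) * x - z) + v * (((m : 𝓞 F) : F) * x) := by
      linear_combination (-x) * huv'
    rw [e']
    exact add_mem (ha_mul_mem _ e) (ha_mul_mem _ (ha_m_mem _ (haf_mem hx)))

theorem ha_cls_inv {I J : Ideal (𝓞 F)} (hI : I ≠ ⊥) (hJ : J ≠ ⊥) :
    haC I = (haC J)⁻¹ ↔ ∃ x ≠ (0 : 𝓞 F), I * J = Ideal.span {x} := by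
  rw [haC, haC, dif_neg hI, dif_neg hJ, ClassGroup.mk0_eq_mk0_inv_iff]

theorem ha_cls_eq {I J : Ideal (𝓞 F)} (hI : I ≠ ⊥) (hJ : J ≠ ⊥) {x y : 𝓞 F} (hx : x ≠ 0)
    (hy : y ≠ 0) (h : Ideal.span {x} * I = Ideal.span {y} * J) : haC I = haC J := by
  rw [haC, haC, dif_neg hI, dif_neg hJ, ClassGroup.mk0_eq_mk0_iff]
  exact ⟨x, y, hx, hy, h⟩

theorem ha_rep {m : ℕ} {χ : Ideal (𝓞 F) → ℂ} (h : IsHC m χ) (c : ClassGroup (𝓞 F)) :
    ∃ b : Ideal (𝓞 F), b ≠ ⊥ ∧ IsCoprime b (Ideal.span {(m : 𝓞 F)}) ∧ c = (haC b)⁻¹ := by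
  obtain ⟨⟨I, hI⟩, rfl⟩ := ClassGroup.mk0_surjective c
  have hI0 : I ≠ ⊥ := nonZeroDivisors.ne_zero hI
  have hm : Ideal.span {(m : 𝓞 F)} ≠ ⊥ := by
    rw [Ne, Ideal.span_singleton_eq_bot]
    exact_mod_cast h.m_pos.ne'
  obtain ⟨a, ha⟩ := IsDedekindDomain.exists_sup_span_eq
    (Ideal.mul_le_left (I := I) (J := Ideal.span {(m : 𝓞 F)})) (mul_ne_zero hI0 hm)
  obtain ⟨b, hb⟩ := Ideal.dvd_iff_le.2 (le_sup_right.trans ha.le)
  rw [hb, ← Ideal.mul_sup] at ha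
  have h1 : Ideal.span {(m : 𝓞 F)} ⊔ b = ⊤ :=
    mul_left_cancel₀ hI0 (by rw [ha, Ideal.mul_top])
  have hb0 : b ≠ ⊥ := by
    rintro rfl
    rw [sup_bot_eq, Ideal.span_singleton_eq_top] at h1
    obtain ⟨x, x1, x2⟩ := h.nontriv
    refine x2 (h.triv x ?_ h1.dvd)
    rintro rfl
    exact x1 (by rw [Ideal.span_singleton_zero, h.map_bot])
  refine ⟨b, hb0, (Ideal.isCoprime_iff_sup_eq.2 h1).symm, ?_⟩
  have h2 : haC I = (haC b)⁻¹ := by
    refine (ha_cls_inv hI0 hb0).2 ⟨a, ?_, hb.symm⟩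
    rintro rfl
    rw [Ideal.span_singleton_zero] at hb
    exact mul_ne_zero hI0 hb0 hb.symm
  rw [← h2, haC, dif_neg hI0]

theorem ha_isTr {b : Ideal (𝓞 F)} (hb : b ≠ ⊥) :
    ∃ ν : {J : Ideal (𝓞 F) // J ≠ ⊥ ∧ haC J = (haC b)⁻¹} → 𝓞 F,
      (∀ J, J.1 * b = Ideal.span {ν J}) ∧
      IsTr (haE F) {x | x ≠ 0 ∧ x ∈ haL b} (fun J => (ν J : F)) := by
  have h0 : ∀ J : {J : Ideal (𝓞 F) // J ≠ ⊥ ∧ haC J = (haC b)⁻¹},
      ∃ x ≠ (0 : 𝓞 F), J.1 * b = Ideal.span {x} := fun J => (ha_cls_inv J.2.1 hb).1 J.2.2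
  choose ν h1 h2 using h0
  have h3 : ∀ J, (ν J : F) ≠ 0 := fun J => RingOfIntegers.coe_ne_zero_iff.2 (h1 J)
  refine ⟨ν, h2, fun J u => ⟨mul_ne_zero (Units.ne_zero _) (h3 J), ?_⟩, ?_⟩
  · obtain ⟨v, -, e⟩ := ha_unit u
    rw [← e]
    refine ha_mul_mem v (ha_coe_mem.2 (Ideal.mul_le_right (I := J.1) ?_))
    rw [h2]
    exact Ideal.mem_span_singleton_self _
  · rintro x ⟨hx0, hx⟩
    obtain ⟨y, hy, rfl⟩ := ha_mem.1 hx
    have hy0 : y ≠ 0 := RingOfIntegers.coe_ne_zero_iff.1 hx0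
    obtain ⟨J, hJ⟩ := Ideal.dvd_iff_le.2 ((Ideal.span_singleton_le_iff_mem b).2 hy)
    have hJ0 : J ≠ ⊥ := by
      rintro rfl
      rw [Ideal.mul_bot, Ideal.span_singleton_eq_bot] at hJ
      exact hy0 hJ
    let J' : {J : Ideal (𝓞 F) // J ≠ ⊥ ∧ haC J = (haC b)⁻¹} :=
      ⟨J, hJ0, (ha_cls_inv hJ0 hb).2 ⟨y, hy0, by rw [hJ, mul_comm]⟩⟩
    have k1 : Associated (ν J') y := by
      rw [← Ideal.span_singleton_eq_span_singleton, ← h2, hJ, mul_comm]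
    obtain ⟨v, hv⟩ := k1
    obtain ⟨u, hu⟩ := ha_unit' v.isUnit
    have k2 : (y : F) = ((u : Fˣ) : F) * ν J' := by
      rw [hu, ← hv]
      simp [mul_comm]
    refine ⟨(J', u), k2, ?_⟩
    rintro ⟨K, u'⟩ hK
    obtain ⟨v', hv', e⟩ := ha_unit u'
    have k3 : y = v' * ν K := RingOfIntegers.coe_injective (by
      simp only [map_mul]
      change (y : F) = (v' : F) * (ν K : F)
      rw [e]
      exact hK)
    have k4 : K = J' := by
      refine Subtype.ext (mul_right_cancel₀ hb ?_)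
      rw [h2, mul_comm, ← hJ, k3, Ideal.span_singleton_mul_left_unit hv']
    subst k4
    refine Prod.ext rfl (Subtype.ext (Units.ext (mul_right_cancel₀ (h3 J') ?_)))
    exact hK.symm.trans k2

variable [Om F]

omit [Om F] in
theorem ha_isLat {I : Ideal (𝓞 F)} (hI : I ≠ ⊥) : IsLat (haL I) := by
  refine isLat_latO.of_squeeze (Ideal.absNorm_eq_zero_iff.not.2 hI) (fun x hx => ?_) fun x hx => ?_
  · obtain ⟨y, rfl⟩ := ha_exists (mem_latO.1 hx)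
    exact ⟨Ideal.absNorm I * y, I.mul_mem_right y (Ideal.absNorm_mem I), by simp⟩
  · obtain ⟨y, -, rfl⟩ := ha_mem.1 hx
    exact mem_latO.2 (by simpa using ((Ideal.absNorm I : 𝓞 F) * y).isIntegral_coe)

theorem ha_cov {I : Ideal (𝓞 F)} (hI : I ≠ ⊥) : cov (haL I) = Ideal.absNorm I * cov (latO F) := by
  rw [cov_le isLat_latO (ha_isLat hI) (ha_top (F := F) ▸ ha_mono le_top), ha_relIndex]

omit [Om F] in
theorem ha_qsum_le {m : ℕ} {χ : Ideal (𝓞 F) → ℂ} (h : IsHC m χ) {b : Ideal (𝓞 F)} (hb : b ≠ ⊥)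
    {z : F} (hz : z ∈ dualL (haL (Ideal.span {(m : 𝓞 F)} * b))) :
    ‖qsum (haL (Ideal.span {(m : 𝓞 F)} * b)) (fun x => haf χ b x * eT (z * x))‖ ≤
      (m : ℝ) ^ dg F := by
  have hi := ha_relIndex_mul hb (Ideal.span {(m : 𝓞 F)})
  rw [ha_absNorm_nat] at hi
  obtain ⟨s, s0, -, s2, s3⟩ := exists_reps (hi ▸ pow_ne_zero _ h.m_pos.ne')
  rw [qsum_eq_sum (fun x y hxy => ?_) s s2 fun x hx => s3 x (haf_mem (left_ne_zero_of_mul hx))]
  · refine (norm_sum_le _ _).trans ((Finset.sum_le_card_nsmul _ _ 1 fun x _ => ?_).trans ?_)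
    · rw [norm_mul, norm_eT, mul_one]
      exact haf_le h b x
    · rw [s0, hi]
      simp
  · have e : z * x = z * (x - y) + z * y := by ring
    rw [haf_per h b x y hxy, e, eT_add, mem_dualL.1 hz _ hxy, one_mul]

/-- The ideal attached to an element of the dual lattice. -/
theorem ha_scale {b : Ideal (𝓞 F)} (hb : b ≠ ⊥) {g : F} (hg : g ≠ 0)
    (hi : ∀ y ∈ b, IsIntegral ℤ (g * y)) : ∃ c : Ideal (𝓞 F), c ≠ ⊥ ∧ haC c = haC b ∧
      (Ideal.absNorm c : ℝ) = Nin g * Ideal.absNorm b ∧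
      ∃ α β : 𝓞 F, β ≠ 0 ∧ g = (α : F) / β ∧ Ideal.span {β} * c = Ideal.span {α} * b := by
  obtain ⟨β, hβ, hβ0⟩ := Submodule.exists_mem_ne_zero_of_ne_bot hb
  obtain ⟨α, hα⟩ := ha_exists (hi β hβ)
  have hβ1 : (β : F) ≠ 0 := RingOfIntegers.coe_ne_zero_iff.2 hβ0
  have hα0 : α ≠ 0 := RingOfIntegers.coe_ne_zero_iff.1 fun h => mul_ne_zero hg hβ1 (hα.symm.trans h)
  have h1 : Ideal.span {α} * b ≤ Ideal.span {β} := by
    rw [Ideal.span_singleton_mul_le_iff]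
    intro y hy
    obtain ⟨z, hz⟩ := ha_exists (hi y hy)
    refine Ideal.mem_span_singleton.2 ⟨z, RingOfIntegers.coe_injective ?_⟩
    simp only [map_mul]
    change (α : F) * (y : F) = (β : F) * (z : F)
    rw [hα, hz]
    ring
  obtain ⟨c, hc⟩ := Ideal.dvd_iff_le.2 h1
  have hc0 : c ≠ ⊥ := by
    rintro rfl
    exact mul_ne_zero (Ideal.span_singleton_eq_bot.not.2 hα0) hb (by rw [hc, Ideal.mul_bot]; rfl)
  refine ⟨c, hc0, ha_cls_eq hc0 hb hβ0 hα0 hc.symm, ?_, α, β, hβ0, by rw [hα]; field_simp, hc.symm⟩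
  have h2 := congrArg (fun I => (Ideal.absNorm I : ℝ)) hc
  simp only [map_mul, Nat.cast_mul, ← Nin_eq_absNorm, hα, Nin_mul] at h2
  exact mul_left_cancel₀ (Nin_pos hβ1).ne' (by rw [← h2]; ring)

end Vale.Agent.P319B
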