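import Vale.Agent.P319B.HeckA
import Vale.Agent.P319B.Vk
import Vale.Agent.P026.MelA

/-! Continuation and growth of the L-function. -/

namespace Vale.Agent.P319B

open Complex NumberField MeasureTheory Filter Topology Set
open scoped Classical ComplexConjugate
open Vale.Agent.P026 (w kk fk)

section

variable {F : Type} [Field F] [NumberField F] [Om F] {m : ℕ} {χ : Ideal (𝓞 F) → ℂ}

omit [Om F] in
theorem hkb_count : Countable (Ideal (𝓞 F)) := by
  rw [← Set.countable_univ_iff]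
  refine (Set.countable_iUnion fun n : ℕ =>
    (Ideal.finite_setOfPred_absNorm_eq (S := 𝓞 F) n).countable).mono fun J _ => ?_
  exact Set.mem_iUnion.2 ⟨_, rfl⟩

omit [Om F] in
theorem hkb_one {J : Ideal (𝓞 F)} (h : J ≠ ⊥) : (1 : ℝ) ≤ Ideal.absNorm J := by
  exact_mod_cast Nat.pos_of_ne_zero fun k => h (Ideal.absNorm_eq_zero_iff.1 k)

omit [Om F] in
theorem hkb_pow {J : Ideal (𝓞 F)} (h : J ≠ ⊥) {σ : ℝ} (hσ : 2 ≤ σ) :
    (Ideal.absNorm J : ℝ) ^ (-σ) ≤ ((Ideal.absNorm J : ℝ) ^ 2)⁻¹ := by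
  rw [← Real.rpow_natCast, ← Real.rpow_neg (Nat.cast_nonneg _)]
  exact Real.rpow_le_rpow_of_exponent_le (hkb_one h) (by push_cast; linarith)

theorem hkb_term (h : IsHC m χ) {σ : ℝ} (hσ : 2 ≤ σ) {x : ℝ} (hx : 0 < x) (J : Ideal (𝓞 F)) :
    ‖χ J * (Vk F (Ideal.absNorm J * x) : ℂ)‖ ≤
      Real.exp (σ ^ 2 / 4) * (Real.pi ^ (-σ) * Real.Gamma σ) ^ rr F * x ^ (-σ) *
        ((Ideal.absNorm J : ℝ) ^ 2)⁻¹ := by
  have g := Real.Gamma_pos_of_pos (show 0 < σ by linarith)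
  by_cases hJ : J = ⊥
  · rw [hJ, h.map_bot, zero_mul, norm_zero]
    positivity
  have J1 := hkb_one hJ
  rw [norm_mul, norm_real, Real.norm_of_nonneg (Vk_nonneg _)]
  refine (mul_le_of_le_one_left (Vk_nonneg _) (h.norm_le J)).trans
    ((Vk_le (σ := σ) (by linarith) (by positivity)).trans ?_)
  rw [Real.mul_rpow (by linarith) hx.le, mul_comm ((Ideal.absNorm J : ℝ) ^ _), ← mul_assoc]
  exact mul_le_mul_of_nonneg_left (hkb_pow hJ hσ) (by positivity)

/-- The theta series. -/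
noncomputable def hkbT (χ : Ideal (𝓞 F) → ℂ) (x : ℝ) : ℂ :=
  ∑' J : Ideal (𝓞 F), χ J * (Vk F (Ideal.absNorm J * x) : ℂ)

theorem hkb_top (h : IsHC m χ) {σ : ℝ} (hσ : 2 ≤ σ) {x : ℝ} (hx : 0 < x) :
    ‖hkbT χ x‖ ≤ Real.exp (σ ^ 2 / 4) * (Real.pi ^ (-σ) * Real.Gamma σ) ^ rr F *
      Real.exp (2 * dg F) * x ^ (-σ) := by
  have g := Real.Gamma_pos_of_pos (show 0 < σ by linarith)
  refine (tsum_of_norm_bounded ((zeta_two_le (F := F)).1.hasSum.mul_left _)
    (hkb_term h hσ hx)).trans ?_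
  rw [mul_right_comm _ (Real.exp (2 * _))]
  exact mul_le_mul_of_nonneg_left zeta_two_le.2 (by positivity)

theorem hkb_cont (h : IsHC m χ) : ContinuousOn (hkbT χ) (Ioi 0) := by
  intro a ha
  have a0 : 0 < a / 2 := half_pos ha
  refine ContinuousAt.continuousWithinAt (ContinuousOn.continuousAt (s := Ioi (a / 2)) ?_
    (Ioi_mem_nhds (half_lt_self ha)))
  have g := Real.Gamma_pos_of_pos (show (0 : ℝ) < 2 by norm_num)
  refine continuousOn_tsum (fun J => ?_) ((zeta_two_le (F := F)).1.mul_left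
    (Real.exp (2 ^ 2 / 4) * (Real.pi ^ (-2 : ℝ) * Real.Gamma 2) ^ rr F * (a / 2) ^ (-2 : ℝ)))
    fun J x hx => (hkb_term h le_rfl (a0.trans hx) J).trans ?_
  · by_cases hJ : J = ⊥
    · simp only [hJ, h.map_bot, zero_mul]
      exact continuousOn_const
    have J1 := hkb_one hJ
    refine continuousOn_const.mul (continuous_ofReal.comp_continuousOn
      (continuousOn_Vk.comp (by fun_prop) fun x hx => ?_))
    exact mul_pos (by linarith) (a0.trans hx)
  · have := Real.rpow_le_rpow_of_nonpos a0 (le_of_lt hx) (show (-2 : ℝ) ≤ 0 by norm_num)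
    gcongr

theorem hkb_diff (h : IsHC m χ) {K : ℝ} (hK : ∀ x, 0 < x → ‖hkbT χ x‖ ≤ K * x) {s : ℂ}
    (hs : 0 < s.re) : DifferentiableAt ℂ (mellin (hkbT χ)) s := by
  refine mellin_differentiableAt_of_isBigO_rpow (a := s.re + 2) (b := -1)
    ((hkb_cont h).locallyIntegrableOn measurableSet_Ioi) ?_ (by linarith) ?_ (by linarith)
  · exact Asymptotics.IsBigO.of_bound _ ((eventually_gt_atTop 0).mono fun x hx => by
      rw [Real.norm_of_nonneg (Real.rpow_nonneg hx.le _)]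
      exact hkb_top h (by linarith) hx)
  · refine Asymptotics.IsBigO.of_bound K (eventually_mem_nhdsWithin.mono fun x hx => ?_)
    rw [neg_neg, Real.rpow_one, Real.norm_of_nonneg (le_of_lt hx)]
    exact hK x hx

theorem hkb_scale (s : ℂ) {a : ℝ} (ha : 0 < a) :
    ∫ x in Ioi (0 : ℝ), ‖(x : ℂ) ^ (s - 1) • (Vk F (a * x) : ℂ)‖ =
      a ^ (-s.re) * ∫ x in Ioi (0 : ℝ), ‖(x : ℂ) ^ (s - 1) • (Vk F x : ℂ)‖ := by
  have k := integral_comp_mul_left_Ioi (fun x : ℝ => ‖(x : ℂ) ^ (s - 1) • (Vk F x : ℂ)‖) 0 ha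
  rw [mul_zero, smul_eq_mul] at k
  rw [show -s.re = 1 - s.re + -1 by ring, Real.rpow_add ha, Real.rpow_neg_one, mul_assoc, ← k,
    ← integral_const_mul]
  refine setIntegral_congr_fun measurableSet_Ioi fun x hx => ?_
  have x0 : 0 < x := hx
  simp only [norm_smul]
  rw [norm_cpow_eq_rpow_re_of_pos x0, norm_cpow_eq_rpow_re_of_pos (mul_pos ha x0),
    Real.mul_rpow ha.le x0.le, ← mul_assoc, ← mul_assoc, ← Real.rpow_add ha]
  simp

theorem hkb_mellin (h : IsHC m χ) {s : ℂ} (hs : 2 < s.re) :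
    mellin (hkbT χ) s = LI χ s * mellin (fun t : ℝ => (Vk F t : ℂ)) s := by
  have := hkb_count (F := F)
  have hm := (mellin_Vk (F := F) (show 0 < s.re by linarith)).1
  have e : ∀ (J : Ideal (𝓞 F)) (x : ℝ), (x : ℂ) ^ (s - 1) • (χ J * (Vk F (Ideal.absNorm J * x) : ℂ)) =
      χ J * ((x : ℂ) ^ (s - 1) • (Vk F (Ideal.absNorm J * x) : ℂ)) := fun J x => by
    simp only [smul_eq_mul]
    ring
  have k := integral_tsum_of_summable_integral_norm (μ := volume.restrict (Ioi (0 : ℝ)))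
    (F := fun (J : Ideal (𝓞 F)) (x : ℝ) =>
      χ J * ((x : ℂ) ^ (s - 1) • (Vk F (Ideal.absNorm J * x) : ℂ))) (fun J => by
      by_cases hJ : J = ⊥
      · simp only [hJ, h.map_bot, zero_mul]
        exact integrable_zero _ _ _
      · exact ((MellinConvergent.comp_mul_left (f := fun t : ℝ => (Vk F t : ℂ))
          (zero_lt_one.trans_le (hkb_one hJ))).2 hm).const_mul _) (by
      refine Summable.of_nonneg_of_le (fun J => integral_nonneg fun _ => norm_nonneg _) (fun J => ?_)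
        ((zeta_two_le (F := F)).1.mul_right
          (∫ x in Ioi (0 : ℝ), ‖(x : ℂ) ^ (s - 1) • (Vk F x : ℂ)‖))
      have I0 : 0 ≤ ∫ x in Ioi (0 : ℝ), ‖(x : ℂ) ^ (s - 1) • (Vk F x : ℂ)‖ :=
        integral_nonneg fun _ => norm_nonneg _
      by_cases hJ : J = ⊥
      · simp only [hJ, h.map_bot, zero_mul, norm_zero, integral_zero]
        positivity
      · simp only [norm_mul (χ J)]
        rw [integral_const_mul, hkb_scale s (zero_lt_one.trans_le (hkb_one hJ))]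
        exact (mul_le_of_le_one_left (by positivity) (h.norm_le J)).trans
          (mul_le_mul_of_nonneg_right (hkb_pow hJ hs.le) I0))
  rw [mellin, LI, ← tsum_mul_right]
  simp only [hkbT, ← tsum_const_smul'', e]
  rw [← k]
  refine tsum_congr fun J => ?_
  by_cases hJ : J = ⊥
  · simp only [hJ, h.map_bot, zero_mul, integral_zero]
  · rw [integral_const_mul, mul_assoc]
    congr 1
    exact mellin_comp_mul_left (fun t : ℝ => (Vk F t : ℂ)) s (zero_lt_one.trans_le (hkb_one hJ))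

theorem hkb_norm (h : IsHC m χ) {K : ℝ} (K0 : 0 ≤ K) (hK : ∀ x, 0 < x → ‖hkbT χ x‖ ≤ K * x) {s : ℂ}
    (h0 : 0 ≤ s.re) (h2 : s.re ≤ 2) :
    ‖mellin (hkbT χ) s‖ ≤ 4 * (K + Real.exp (9 / 4 + 2 * dg F)) := by
  obtain ⟨E, hE⟩ : ∃ E, E = Real.exp (9 / 4 + 2 * dg F) := ⟨_, rfl⟩
  have E0 : 0 < E := hE ▸ Real.exp_pos _
  have hp := Real.pi_gt_three
  have a1 : ∀ x : ℝ, 0 < x → ‖hkbT χ x‖ ≤ E * x ^ (-3 : ℝ) := fun x hx => by
    refine (hkb_top h (σ := 3) (by norm_num) hx).trans (mul_le_mul_of_nonneg_right ?_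
      (by positivity))
    have b1 : Real.Gamma 3 = 2 := by
      have := Real.Gamma_nat_eq_factorial 2
      norm_num [Nat.factorial] at this ⊢
    have b2 : Real.pi ^ (-3 : ℝ) * Real.Gamma 3 ≤ 1 := by
      rw [b1, Real.rpow_neg (by positivity), inv_mul_le_iff₀ (by positivity), mul_one]
      refine le_trans ?_ (Real.rpow_le_rpow_of_exponent_le (by linarith)
        (show (1 : ℝ) ≤ 3 by norm_num))
      rw [Real.rpow_one]
      linarith
    have b3 : (Real.pi ^ (-3 : ℝ) * Real.Gamma 3) ^ rr F ≤ 1 :=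
      pow_le_one₀ (by rw [b1]; positivity) b2
    rw [hE, Real.exp_add, show (3 : ℝ) ^ 2 / 4 = 9 / 4 by norm_num]
    exact mul_le_mul_of_nonneg_right (mul_le_of_le_one_right (by positivity) b3) (by positivity)
  rw [← hE]
  refine (norm_integral_le_of_norm_le (g := fun x : ℝ => 2 * (K + E) * (1 + x ^ 2)⁻¹)
    (integrable_inv_one_add_sq.integrableOn.const_mul _)
    ((ae_restrict_mem measurableSet_Ioi).mono fun x hx => ?_)).trans ?_
  · have x0 : 0 < x := hx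
    rw [norm_smul, norm_cpow_eq_rpow_re_of_pos x0, sub_re, one_re, le_mul_inv_iff₀ (by positivity)]
    rcases le_total x 1 with x1 | x1
    · have b1 : x ^ (s.re - 1) * ‖hkbT χ x‖ ≤ K := by
        refine (mul_le_mul_of_nonneg_left (hK x x0) (by positivity)).trans ?_
        rw [Real.rpow_sub_one x0.ne', show x ^ s.re / x * (K * x) = K * x ^ s.re by field_simp]
        exact mul_le_of_le_one_right K0 (Real.rpow_le_one x0.le x1 h0)
      have b2 : 1 + x ^ 2 ≤ 2 := by nlinarith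
      calc _ ≤ K * 2 := by gcongr
        _ ≤ _ := by linarith
    · have b1 : x ^ (s.re - 1) * ‖hkbT χ x‖ ≤ E * (x ^ 2)⁻¹ := by
        refine (mul_le_mul_of_nonneg_left (a1 x x0) (by positivity)).trans ?_
        rw [mul_left_comm, ← Real.rpow_add x0, ← Real.rpow_natCast, ← Real.rpow_neg x0.le]
        exact mul_le_mul_of_nonneg_left
          (Real.rpow_le_rpow_of_exponent_le x1 (by push_cast; linarith)) E0.le
      have b2 : 1 + x ^ 2 ≤ 2 * x ^ 2 := by nlinarith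
      calc _ ≤ E * (x ^ 2)⁻¹ * (2 * x ^ 2) := by gcongr
        _ = 2 * E := by field_simp
        _ ≤ _ := by linarith
  · rw [integral_const_mul, integral_Ioi_inv_one_add_sq, Real.arctan_zero, sub_zero]
    have := Real.pi_le_four
    nlinarith

end

theorem hkb_fac : ∃ G : ℝ, 0 ≤ G ∧ ∀ (r : ℕ) (s : ℂ), 0 ≤ s.re → s.re ≤ 2 →
    ‖((Real.pi : ℂ) ^ s * (Gamma s)⁻¹) ^ r * (((√Real.pi : ℝ) : ℂ)⁻¹ * cexp (-(s ^ 2 / 4)))‖ ≤
      Real.exp (r * (G + 4 * |s.im|) + |s.im| ^ 2) := by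
  obtain ⟨G, G0, hG⟩ := P026.melA_inv_Gamma 2
  have hp := Real.pi_gt_three
  have hp' := Real.pi_le_four
  refine ⟨16 * G, by positivity, fun r s h0 h2 => ?_⟩
  rw [norm_mul, Real.exp_add, Real.exp_nat_mul, norm_pow]
  refine mul_le_mul (pow_le_pow_left₀ (norm_nonneg _) ?_ r) ?_ (norm_nonneg _) (by positivity)
  · rw [norm_mul, norm_cpow_eq_rpow_re_of_pos Real.pi_pos, Real.exp_add]
    have a1 : Real.pi ^ s.re ≤ 16 := by
      refine (Real.rpow_le_rpow_of_exponent_le (by linarith) h2).trans ?_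
      rw [Real.rpow_two]
      nlinarith
    have a2 := hG s (abs_le.2 ⟨by linarith, h2⟩)
    have a3 : 16 * G ≤ Real.exp (16 * G) := by linarith [Real.add_one_le_exp (16 * G)]
    calc _ ≤ 16 * (G * Real.exp (Real.pi * |s.im|)) := by gcongr
      _ = 16 * G * Real.exp (Real.pi * |s.im|) := by ring
      _ ≤ _ := by gcongr
  · rw [norm_mul, norm_inv, norm_real, Real.norm_of_nonneg (Real.sqrt_nonneg _), norm_exp]
    refine (mul_le_of_le_one_left (by positivity)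
      (inv_le_one_of_one_le₀ (Real.one_le_sqrt.2 (by linarith)))).trans (Real.exp_le_exp.2 ?_)
    have : (-(s ^ 2 / 4)).re = (s.im ^ 2 - s.re ^ 2) / 4 := by
      simp [sq]
      ring
    rw [this, sq_abs]
    nlinarith [sq_nonneg s.re, sq_nonneg s.im]

theorem hecke_cont : ∃ C : ℝ, 0 < C ∧ ∀ (F : Type) [Field F] [NumberField F] [Om F] (m : ℕ)
    (χ : Ideal (𝓞 F) → ℂ), IsHC m χ → ∃ L : ℂ → ℂ,
      (∀ s : ℂ, 0 < s.re → DifferentiableAt ℂ L s) ∧ (∀ s : ℂ, 2 < s.re → L s = LI χ s) ∧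
      ∀ s : ℂ, 1 / 2 ≤ s.re → ‖L s‖ ≤ Real.exp (C * Hc F m ^ 2 * (1 + |s.im|) ^ 2) := by
  obtain ⟨C, hC, hθ⟩ := hecke_theta
  obtain ⟨G, G0, hG⟩ := hkb_fac
  refine ⟨C + G + 10, by positivity, fun F _ _ _ m χ h => ?_⟩
  have r1 := rr_pos (F := F)
  have r2 := two_mul_rr (F := F)
  obtain ⟨H1, H2⟩ := two_le_Hc (F := F) h.m_pos (by omega)
  have r3 : (rr F : ℝ) ≤ dg F := by exact_mod_cast (by omega : rr F ≤ dg F)
  have hK : ∀ x, 0 < x → ‖hkbT χ x‖ ≤ Real.exp (C * Hc F m ^ 2) * x := fun x hx => by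
    have k := hθ F m χ h x⁻¹ (inv_pos.2 hx)
    simp only [div_inv_eq_mul] at k
    exact k
  have hL : ∀ s : ℂ, 2 < s.re → mellin (hkbT χ) s *
      (((Real.pi : ℂ) ^ s * (Gamma s)⁻¹) ^ rr F *
        (((√Real.pi : ℝ) : ℂ)⁻¹ * cexp (-(s ^ 2 / 4)))) = LI χ s := fun s hs => by
    have s0 : 0 < s.re := by linarith
    have a1 := Gamma_ne_zero_of_re_pos s0
    have a2 : ((√Real.pi : ℝ) : ℂ) ≠ 0 := ofReal_ne_zero.2 (Real.sqrt_pos.2 Real.pi_pos).ne'
    have a3 : (Real.pi : ℂ) ^ s ≠ 0 := by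
      rw [Ne, cpow_eq_zero_iff, not_and_or]
      exact Or.inl (ofReal_ne_zero.2 Real.pi_pos.ne')
    have a4 := Complex.exp_ne_zero (s ^ 2 / 4)
    rw [hkb_mellin h hs, (mellin_Vk s0).2, cpow_neg, Complex.exp_neg, mul_assoc, mul_mul_mul_comm,
      ← mul_pow, show ((Real.pi : ℂ) ^ s)⁻¹ * Gamma s * ((Real.pi : ℂ) ^ s * (Gamma s)⁻¹) = 1 by
        field_simp, one_pow, one_mul]
    field_simp
  refine ⟨fun s => mellin (hkbT χ) s * (((Real.pi : ℂ) ^ s * (Gamma s)⁻¹) ^ rr F *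
    (((√Real.pi : ℝ) : ℂ)⁻¹ * cexp (-(s ^ 2 / 4)))),
    fun s hs => (hkb_diff h hK hs).mul ?_, hL, fun s hs => ?_⟩
  · refine (((differentiableAt_id.const_cpow (Or.inl (ofReal_ne_zero.2 Real.pi_pos.ne'))).mul
      (differentiable_one_div_Gamma s)).pow _).mul (by fun_prop)
  obtain ⟨H, hH⟩ : ∃ H, H = Hc F m := ⟨_, rfl⟩
  dsimp only
  rw [← hH] at H1 H2 hK ⊢
  obtain ⟨t, ht⟩ : ∃ t, t = |s.im| := ⟨_, rfl⟩
  have t0 : 0 ≤ t := ht ▸ abs_nonneg _
  have HH : 2 * H ≤ H ^ 2 := by nlinarith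
  have H4 : 4 ≤ H ^ 2 := by nlinarith
  have T1 : 1 + 2 * t + t ^ 2 = (1 + t) ^ 2 := by ring
  have P1 : 0 ≤ H ^ 2 * t := by positivity
  have P2 : 0 ≤ H ^ 2 * t ^ 2 := by positivity
  have P3 : 0 ≤ (C + G) * (H ^ 2 * t) := by positivity
  have P4 : 0 ≤ (C + G) * (H ^ 2 * t ^ 2) := by positivity
  have P5 : 0 ≤ C * H ^ 2 := by positivity
  have P6 : 0 ≤ G * H ^ 2 := by positivity
  rcases lt_or_ge 2 s.re with h2 | h2
  · rw [hL s h2, ← ht, ← T1]
    refine (LI_upper h h2.le).2.trans (Real.exp_le_exp.2 ?_)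
    nlinarith
  have a1 := hkb_norm h (Real.exp_pos _).le hK (show 0 ≤ s.re by linarith) h2
  have a2 := hG (rr F) s (by linarith) h2
  have a3 : 4 * (Real.exp (C * H ^ 2) + Real.exp (9 / 4 + 2 * dg F)) ≤
      Real.exp (7 + (C * H ^ 2 + (9 / 4 + 2 * dg F))) := by
    have b1 : Real.exp (C * H ^ 2) ≤ Real.exp (C * H ^ 2 + (9 / 4 + 2 * dg F)) :=
      Real.exp_le_exp.2 (le_add_of_nonneg_right (by positivity))
    have b2 : Real.exp (9 / 4 + 2 * dg F) ≤ Real.exp (C * H ^ 2 + (9 / 4 + 2 * dg F)) :=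
      Real.exp_le_exp.2 (le_add_of_nonneg_left P5)
    have b3 := mul_le_mul_of_nonneg_right (Real.add_one_le_exp 7)
      (Real.exp_pos (C * H ^ 2 + (9 / 4 + 2 * dg F))).le
    rw [Real.exp_add 7]
    linarith
  rw [norm_mul]
  refine (mul_le_mul (a1.trans a3) a2 (norm_nonneg _) (Real.exp_pos _).le).trans ?_
  rw [← Real.exp_add, ← ht, ← T1]
  refine Real.exp_le_exp.2 ?_
  have b1 : rr F * (G + 4 * t) ≤ H ^ 2 * (G + 4 * t) :=
    mul_le_mul_of_nonneg_right (by linarith) (by positivity)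
  have b2 : 4 * t ^ 2 ≤ H ^ 2 * t ^ 2 := mul_le_mul_of_nonneg_right H4 (sq_nonneg t)
  nlinarith [sq_nonneg t]

end Vale.Agent.P319B
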