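import Vale.Agent.P319B.HexA

/-! The hexagon relation. -/

namespace Vale.Agent.P319B

open scoped Classical

open Polynomial

variable {A : Type} [CommRing A] [IsDomain A] [IsPrincipalIdealRing A] {ω : A}
  (K : Type) [Field K] [CharZero K] [Algebra A K] [IsFractionRing A K]

omit [IsDomain A] [IsPrincipalIdealRing A] [CharZero K] in
theorem hx_cop {f a : A[X]} (hf : f.Monic)
    (h : IsCoprime (f.map (algebraMap A K)) (a.map (algebraMap A K))) : HxCop f a := by
  intro x hx
  rw [← map_dvd_map (algebraMap A K) (IsFractionRing.injective A K) hf] at hx ⊢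
  rw [Polynomial.map_mul] at hx
  exact h.dvd_of_dvd_mul_left hx

omit [IsPrincipalIdealRing A] [CharZero K] in
theorem hx_ok (hω : Base ω) {f a : A[X]} (hf : f.Monic)
    (h : IsCoprime (f.map (algebraMap A K)) (a.map (algebraMap A K))) :
    Ok (LinearMap.mul A (AdjoinRoot f) (AdjoinRoot.mk f a)) := by
  have := hf.finite_adjoinRoot
  constructor
  · rw [← LinearMap.ker_eq_bot, LinearMap.ker_eq_bot']
    intro x hx
    obtain ⟨g, rfl⟩ := AdjoinRoot.mk_surjective x
    rw [LinearMap.mul_apply', ← map_mul, AdjoinRoot.mk_eq_zero] at hx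
    exact AdjoinRoot.mk_eq_zero.2 (hx_cop K hf h g hx)
  · obtain ⟨u, v, e⟩ := h
    obtain ⟨m, hm, hv⟩ := IsLocalization.integerNormalization_spec (nonZeroDivisors A) v
    have h1 : f ∣ a * IsLocalization.integerNormalization (nonZeroDivisors A) v - C m := by
      rw [← map_dvd_map (algebraMap A K) (IsFractionRing.injective A K) hf, Polynomial.map_sub,
        Polynomial.map_mul, hv, map_C, ← algebraMap_smul K, smul_eq_C_mul]
      exact ⟨-(C (algebraMap A K m) * u), by linear_combination (C (algebraMap A K m)) * e⟩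
    refine fi_of_smul hω fun x => ⟨m, nonZeroDivisors.ne_zero hm,
      AdjoinRoot.mk f (IsLocalization.integerNormalization (nonZeroDivisors A) v) * x, ?_⟩
    rw [LinearMap.mul_apply', ← mul_assoc, ← map_mul, AdjoinRoot.mk_eq_mk.2 h1, Algebra.smul_def]
    rfl

omit [IsDomain A] [IsPrincipalIdealRing A] in
theorem hx_comap (f a : A[X]) :
    (LinearMap.range (LinearMap.mul A (AdjoinRoot f) (AdjoinRoot.mk f a))).comap
      (AdjoinRoot.mkₐ f).toLinearMap = hxI A f a := by
  ext x
  rw [Submodule.mem_comap, hxA_mem_I, LinearMap.mem_range]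
  constructor
  · rintro ⟨y, hy⟩
    obtain ⟨g, rfl⟩ := AdjoinRoot.mk_surjective y
    rw [LinearMap.mul_apply', ← map_mul] at hy
    obtain ⟨s, hs⟩ := AdjoinRoot.mk_eq_mk.1 hy
    exact ⟨-s, g, by linear_combination hs⟩
  · rintro ⟨s, t, rfl⟩
    refine ⟨AdjoinRoot.mk f t, ?_⟩
    rw [LinearMap.mul_apply', ← map_mul]
    exact AdjoinRoot.mk_eq_mk.2 ⟨-s, by ring⟩

omit [IsPrincipalIdealRing A] [CharZero K] in
theorem hx_fi (hω : Base ω) {f a : A[X]} (hf : f.Monic)
    (h : IsCoprime (f.map (algebraMap A K)) (a.map (algebraMap A K))) : Fi ⊤ (hxI A f a) := by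
  have := hxA_fi_comap (π := (AdjoinRoot.mkₐ f).toLinearMap) AdjoinRoot.mk_surjective
    (hx_ok K hω hf h).2
  rwa [hx_comap, Submodule.comap_top] at this

omit [IsPrincipalIdealRing A] [CharZero K] in
theorem hx_pull (hω : Base ω) {f a b : A[X]} (hf : f.Monic)
    (h1 : IsCoprime (f.map (algebraMap A K)) (a.map (algebraMap A K)))
    (h3 : IsCoprime (b.map (algebraMap A K)) (f.map (algebraMap A K))) :
    symE ω (LinearMap.mul A (AdjoinRoot f) (AdjoinRoot.mk f a))
        (LinearMap.mul A (AdjoinRoot f) (AdjoinRoot.mk f b)) =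
      trO ω (LinearMap.mul A A[X] a) ⊤ (hxI A b f) (hxI A f a) (hxI A f (a * b))
        + cc ω ⊤ (hxI A f a) (hxI A f (a * b))
        - trO ω (LinearMap.mul A A[X] b) ⊤ (hxI A f a) (hxI A b f) (hxI A f (a * b))
        - cc ω ⊤ (hxI A b f) (hxI A f (a * b)) := by
  have hi : ∀ a : A[X], (AdjoinRoot.mkₐ f).toLinearMap ∘ₗ LinearMap.mul A A[X] a =
      LinearMap.mul A (AdjoinRoot f) (AdjoinRoot.mk f a) ∘ₗ (AdjoinRoot.mkₐ f).toLinearMap :=
    fun a => LinearMap.ext fun x => map_mul (AdjoinRoot.mk f) a x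
  refine hxA_pull hω.toCb AdjoinRoot.mk_surjective (hi a) (hi b) (hx_ok K hω hf h1)
    (hx_ok K hω hf h3.symm) (LinearMap.ext fun x =>
      mul_left_comm (AdjoinRoot.mk f a) (AdjoinRoot.mk f b) x) (hx_comap f a)
    ((hx_comap f b).trans (hxA_I_comm f b)) ?_
  rw [← hx_comap, map_mul]
  congr 2
  exact LinearMap.ext fun x => (mul_assoc (AdjoinRoot.mk f a) (AdjoinRoot.mk f b) x).symm

/-- The relation for monic polynomials over A. -/
theorem hex_int (hω : Base ω) {f a b : A[X]} (hf : f.Monic) (ha : a.Monic) (hb : b.Monic)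
    (h1 : IsCoprime (f.map (algebraMap A K)) (a.map (algebraMap A K)))
    (h2 : IsCoprime (a.map (algebraMap A K)) (b.map (algebraMap A K)))
    (h3 : IsCoprime (b.map (algebraMap A K)) (f.map (algebraMap A K))) :
    symE ω (LinearMap.mul A (AdjoinRoot f) (AdjoinRoot.mk f a))
        (LinearMap.mul A (AdjoinRoot f) (AdjoinRoot.mk f b))
      + symE ω (LinearMap.mul A (AdjoinRoot a) (AdjoinRoot.mk a b))
        (LinearMap.mul A (AdjoinRoot a) (AdjoinRoot.mk a f))
      + symE ω (LinearMap.mul A (AdjoinRoot b) (AdjoinRoot.mk b f))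
        (LinearMap.mul A (AdjoinRoot b) (AdjoinRoot.mk b a)) = 0 := by
  have cfa := hx_cop K hf h1
  have cfb := hx_cop K hf h3.symm
  have cab := hx_cop K ha h2
  have caf := hx_cop K ha h1.symm
  have cbf := hx_cop K hb h3
  have cba := hx_cop K hb h2.symm
  have hN : Fi ⊤ (hxN A f a b) := by
    have f1 : Fi ⊤ (hxI A f (a * b)) :=
      hx_fi K hω hf (by rw [Polynomial.map_mul]; exact h1.mul_right h3.symm)
    refine f1.trans ((Fi.of_iso (hxA_iso_T hf.ne_zero cfa cfb) le_top ?_).1 (hx_fi K hω ha h2))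
    rw [← hxA_inf b caf]
    exact inf_le_left
  have E1 := hxA_edge hω.toCb hf.ne_zero ha.ne_zero cfa cfb cab caf hN
  have E2 := hxA_edge hω.toCb ha.ne_zero hb.ne_zero cab caf cbf cba
    (by rw [hxA_N_cyc]; exact hN)
  have E3 := hxA_edge hω.toCb hb.ne_zero hf.ne_zero cbf cba cfa cfb
    (by rw [← hxA_N_cyc]; exact hN)
  rw [hx_pull K hω hf h1 h3, hx_pull K hω ha h2 h1, hx_pull K hω hb h3 h2]
  linear_combination E1 + E2 + E3

variable {K}

theorem hx_scale (hω : Base ω) {c : A} (hc : c ≠ 0) {f a b : K[X]} {F G H : A[X]} (hf : f.Monic)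
    (hF : F.Monic) (h1 : IsCoprime f a) (h3 : IsCoprime b f)
    (eF : F.map (algebraMap A K) = f.scaleRoots (algebraMap A K c))
    (eG : G.map (algebraMap A K) = a.scaleRoots (algebraMap A K c))
    (eH : H.map (algebraMap A K) = b.scaleRoots (algebraMap A K c)) :
    symE ω (LinearMap.mul A (AdjoinRoot F) (AdjoinRoot.mk F G))
        (LinearMap.mul A (AdjoinRoot F) (AdjoinRoot.mk F H)) =
      symS ω (AdjoinRoot.mk f a) (AdjoinRoot.mk f b)
        + a.natDegree * symS ω (algebraMap A K c) (resultant f b)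
        - b.natDegree * symS ω (algebraMap A K c) (resultant f a) := by
  have := hf.finite_adjoinRoot
  have := hF.finite_adjoinRoot
  have hinj := IsFractionRing.injective A K
  have hc' : algebraMap A K c ≠ 0 := (map_ne_zero_iff _ hinj).2 hc
  generalize hc1 : algebraMap A K c = c' at *
  have hs : ∀ (r : K) (x : AdjoinRoot f) (p : K[X]),
      aeval (algebraMap K (AdjoinRoot f) r * x) (p.scaleRoots r) =
        algebraMap K (AdjoinRoot f) r ^ p.natDegree * aeval x p := fun r x p =>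
    scaleRoots_eval₂_mul (algebraMap K (AdjoinRoot f)) x r
  have h0 : F.eval₂ (Algebra.ofId A (AdjoinRoot f))
      (algebraMap K (AdjoinRoot f) c' * AdjoinRoot.root f) = 0 := by
    have := hs c' (AdjoinRoot.root f) f
    rw [AdjoinRoot.aeval_eq, AdjoinRoot.mk_self, mul_zero, ← eF, aeval_map_algebraMap] at this
    exact this
  let j := AdjoinRoot.liftAlgHom F (Algebra.ofId A (AdjoinRoot f)) _ h0
  have hj : ∀ p : A[X], j (AdjoinRoot.mk F p) = aeval (algebraMap K (AdjoinRoot f) c' *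
      AdjoinRoot.root f) (p.map (algebraMap A K)) := by
    intro p
    rw [aeval_map_algebraMap]
    rfl
  have hu : ∀ {a : K[X]}, IsCoprime f a → IsUnit (AdjoinRoot.mk f a) := by
    rintro a ⟨u, v, e⟩
    refine IsUnit.of_mul_eq_one (AdjoinRoot.mk f v) ?_
    rw [← map_mul, ← map_one (AdjoinRoot.mk f), AdjoinRoot.mk_eq_mk]
    exact ⟨-u, by linear_combination e⟩
  have hcu : IsUnit (algebraMap K (AdjoinRoot f) c') := hc'.isUnit.map _
  have jG : j (AdjoinRoot.mk F G) =
      algebraMap K (AdjoinRoot f) c' ^ a.natDegree * AdjoinRoot.mk f a := by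
    rw [hj, eG, hs, AdjoinRoot.aeval_eq]
  have jH : j (AdjoinRoot.mk F H) =
      algebraMap K (AdjoinRoot f) c' ^ b.natDegree * AdjoinRoot.mk f b := by
    rw [hj, eH, hs, AdjoinRoot.aeval_eq]
  have ua := hu h1
  have ub := hu h3.symm
  have key := (symS_eq K hω j.toLinearMap ?_ ?_ ((hcu.pow a.natDegree).mul ua)
    ((hcu.pow b.natDegree).mul ub) (α := LinearMap.mul A (AdjoinRoot F) (AdjoinRoot.mk F G))
    (β := LinearMap.mul A (AdjoinRoot F) (AdjoinRoot.mk F H))
    (fun z => by rw [← jG]; exact map_mul j _ z) (fun z => by rw [← jH]; exact map_mul j _ z)).2.2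
  · rw [← key, symS_mul_left K hω (hcu.pow _) ua ((hcu.pow _).mul ub),
      symS_pow_left K hω hcu ((hcu.pow _).mul ub), symS_mul_right K hω hcu (hcu.pow _) ub,
      symS_mul_right K hω ua (hcu.pow _) ub, symS_swap K hω _ (AdjoinRoot.mk f a),
      symS_pow_left K hω hcu ua, symS_swap K hω (algebraMap K (AdjoinRoot f) c' ^ b.natDegree),
      symS_pow_left K hω hcu hcu, symS_self K hω, symS_scalar K hω hc' ua,
      symS_scalar K hω hc' ub, norm_eq_resultant K hf, norm_eq_resultant K hf]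
    ring
  · rw [← LinearMap.ker_eq_bot, LinearMap.ker_eq_bot']
    intro z hz
    obtain ⟨p, rfl⟩ := AdjoinRoot.mk_surjective z
    have h4 := hs c'⁻¹ (algebraMap K (AdjoinRoot f) c' * AdjoinRoot.root f)
      (p.map (algebraMap A K))
    rw [← hj, show j (AdjoinRoot.mk F p) = 0 from hz, mul_zero, ← mul_assoc, ← map_mul,
      inv_mul_cancel₀ hc', map_one, one_mul, AdjoinRoot.aeval_eq, AdjoinRoot.mk_eq_zero] at h4
    have h5 := scaleRoots_dvd _ _ (r := c') h4
    rw [← scaleRoots_mul, inv_mul_cancel₀ hc', scaleRoots_one, ← eF,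
      map_dvd_map _ hinj hF] at h5
    exact AdjoinRoot.mk_eq_zero.2 h5
  · intro z
    obtain ⟨g, rfl⟩ := AdjoinRoot.mk_surjective z
    obtain ⟨m, hm, hv⟩ := IsLocalization.integerNormalization_spec (nonZeroDivisors A)
      (g.scaleRoots c')
    refine ⟨m * c ^ g.natDegree, mul_ne_zero (nonZeroDivisors.ne_zero hm) (pow_ne_zero _ hc),
      AdjoinRoot.mk F (IsLocalization.integerNormalization (nonZeroDivisors A) (g.scaleRoots c')),
      ?_⟩
    rw [AlgHom.toLinearMap_apply, hj, hv, ← algebraMap_smul K m, map_smul, hs, AdjoinRoot.aeval_eq,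
      algebraMap_smul, mul_smul, Algebra.smul_def (c ^ g.natDegree), map_pow,
      IsScalarTower.algebraMap_apply A K (AdjoinRoot f) c, hc1]

omit [IsPrincipalIdealRing A] [CharZero K] in
theorem hx_lift {f : K[X]} (hf : f.Monic) : ∃ c : A, c ≠ 0 ∧ ∀ d : A, ∃ F : A[X], F.Monic ∧
    F.map (algebraMap A K) = f.scaleRoots (algebraMap A K (c * d)) := by
  obtain ⟨F, h1, -, h2⟩ := lifts_and_natDegree_eq_and_monic
    (IsLocalization.scaleRoots_commonDenom_mem_lifts (nonZeroDivisors A) f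
      ⟨1, by rw [map_one, hf.leadingCoeff]⟩) ((monic_scaleRoots_iff _).2 hf)
  refine ⟨_, nonZeroDivisors.coe_ne_zero
    (IsLocalization.commonDenom (nonZeroDivisors A) f.support f.coeff), fun d =>
    ⟨F.scaleRoots d, (monic_scaleRoots_iff _).2 h2, ?_⟩⟩
  rw [map_scaleRoots _ _ _ (by rw [h2.leadingCoeff, map_one]; exact one_ne_zero), h1, map_mul,
    scaleRoots_mul]

theorem hex (hω : Base ω) {f a b : K[X]} (hf : f.Monic) (ha : a.Monic) (hb : b.Monic)
    (h1 : IsCoprime f a) (h2 : IsCoprime a b) (h3 : IsCoprime b f) :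
    symS ω (AdjoinRoot.mk f a) (AdjoinRoot.mk f b) + symS ω (AdjoinRoot.mk a b) (AdjoinRoot.mk a f)
      + symS ω (AdjoinRoot.mk b f) (AdjoinRoot.mk b a) = 0 := by
  obtain ⟨c1, n1, l1⟩ := hx_lift (A := A) hf
  obtain ⟨c2, n2, l2⟩ := hx_lift (A := A) ha
  obtain ⟨c3, n3, l3⟩ := hx_lift (A := A) hb
  obtain ⟨F, hF, eF⟩ := l1 (c2 * c3)
  obtain ⟨G, hG, eG⟩ := l2 (c1 * c3)
  obtain ⟨H, hH, eH⟩ := l3 (c1 * c2)
  rw [mul_left_comm] at eG
  rw [mul_comm c3, mul_assoc] at eH
  have hc : c1 * (c2 * c3) ≠ 0 := mul_ne_zero n1 (mul_ne_zero n2 n3)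
  generalize c1 * (c2 * c3) = c at *
  have hu : IsUnit (algebraMap A K c) :=
    ((map_ne_zero_iff _ (IsFractionRing.injective A K)).2 hc).isUnit
  have key := hex_int K hω hF hG hH (by rw [eF, eG]; exact isCoprime_scaleRoots _ _ _ hu h1)
    (by rw [eG, eH]; exact isCoprime_scaleRoots _ _ _ hu h2)
    (by rw [eH, eF]; exact isCoprime_scaleRoots _ _ _ hu h3)
  have hsw : ∀ p q : K[X], symS ω (algebraMap A K c) (resultant p q) =
      symS ω (algebraMap A K c) (resultant q p) := by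
    intro p q
    rw [resultant_comm]
    rcases neg_one_pow_eq_or K (p.natDegree * q.natDegree) with h | h
    · rw [h, one_mul]
    · rw [h, neg_one_mul, symS_neg_right K hω]
  rw [hx_scale hω hc hf hF h1 h3 eF eG eH, hx_scale hω hc ha hG h2 h1 eG eH eF,
    hx_scale hω hc hb hH h3 h2 eH eF eG, hsw a f, hsw b a, hsw b f] at key
  linear_combination key

end Vale.Agent.P319B
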