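import Vale.Agent.P319B.Proj

/-! The hexagon relation in an ambient ring. -/

namespace Vale.Agent.P319B

open scoped Classical

noncomputable section

variable {A : Type} [CommRing A] {ω : A} {W W' : Type} [AddCommGroup W] [Module A W]
  [AddCommGroup W'] [Module A W']

theorem hxA_iso_comap {π : W →ₗ[A] W'} (hπ : Function.Surjective π) (N N' : Submodule A W') :
    Iso π (N.comap π) (N'.comap π) N N' := by
  refine ⟨fun _ hx => hx, fun _ _ => Iff.rfl, fun y hy => ?_⟩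
  obtain ⟨x, rfl⟩ := hπ y
  refine ⟨x, hy, ?_⟩
  rw [sub_self]
  exact N'.zero_mem

theorem hxA_iso_lift {π : W →ₗ[A] W'} (hπ : Function.Surjective π) {α : W →ₗ[A] W}
    {α' : W' →ₗ[A] W'} (ia : π ∘ₗ α = α' ∘ₗ π) {N N' M M' : Submodule A W'}
    (h : Iso α' N N' M M') : Iso α (N.comap π) (N'.comap π) (M.comap π) (M'.comap π) := by
  have e : ∀ x, π (α x) = α' (π x) := fun x => LinearMap.congr_fun ia x
  refine ⟨fun x hx => ?_, fun x hx => ?_, fun y hy => ?_⟩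
  · rw [Submodule.mem_comap, e]
    exact h.1 _ hx
  · rw [Submodule.mem_comap, e]
    exact h.2.1 _ hx
  · obtain ⟨x', hx', h'⟩ := h.2.2 _ hy
    obtain ⟨x, rfl⟩ := hπ x'
    refine ⟨x, hx', ?_⟩
    rw [Submodule.mem_comap, map_sub, e]
    exact h'

theorem hxA_fi_comap {π : W →ₗ[A] W'} (hπ : Function.Surjective π) {N N' : Submodule A W'}
    (h : Fi N N') : Fi (N.comap π) (N'.comap π) :=
  (Fi.of_iso (hxA_iso_comap hπ N N') (Submodule.comap_mono h.1) h.1).2 h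

theorem hxA_pull (hω : Cb ω) {π : W →ₗ[A] W'} (hπ : Function.Surjective π) {α β : W →ₗ[A] W}
    {α' β' : W' →ₗ[A] W'} (ia : π ∘ₗ α = α' ∘ₗ π) (ib : π ∘ₗ β = β' ∘ₗ π) (hα : Ok α')
    (hβ : Ok β') (h : α' * β' = β' * α') {La Lb Lab : Submodule A W}
    (ea : (LinearMap.range α').comap π = La) (eb : (LinearMap.range β').comap π = Lb)
    (eab : (LinearMap.range (α' * β')).comap π = Lab) :
    symE ω α' β' = trO ω α ⊤ Lb La Lab + cc ω ⊤ La Lab - trO ω β ⊤ La Lb Lab - cc ω ⊤ Lb Lab := by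
  subst ea eb eab
  have m2 := ds_map_range α' β'
  have n1 : (LinearMap.range α').map β' = LinearMap.range (α' * β') := by rw [ds_map_range, h]
  have a2 := dsA_iso hα.1 (Submodule.map_top α') m2
  have b2 := dsA_iso hβ.1 (Submodule.map_top β') n1
  have fa' := dsA_fi hα.1 hβ.2 (Submodule.map_top α') m2
  have fb' := dsA_fi hβ.1 hα.2 (Submodule.map_top β') n1
  have a1 := hxA_iso_lift hπ ia a2
  have b1 := hxA_iso_lift hπ ib b2
  have ga := hxA_fi_comap hπ hα.2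
  have gb := hxA_fi_comap hπ hβ.2
  have ga' := hxA_fi_comap hπ fa'
  have gb' := hxA_fi_comap hπ fb'
  have c1 := trO_comp hω a1 (hxA_iso_comap hπ _ _) gb ga'.1 fa'.1
  have c2 := trO_comp hω (hxA_iso_comap hπ _ _) a2 gb le_top fa'.1
  have c3 := trO_comp hω b1 (hxA_iso_comap hπ _ _) ga gb'.1 fb'.1
  have c4 := trO_comp hω (hxA_iso_comap hπ _ _) b2 ga le_top fb'.1
  have d1 := trO_chain hω ga ga' le_top fa'.1 (hxA_iso_comap hπ _ _) (hxA_iso_comap hπ _ _)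
  have d2 := trO_chain hω gb gb' le_top fb'.1 (hxA_iso_comap hπ _ _) (hxA_iso_comap hπ _ _)
  rw [ia] at c1
  rw [ib] at c3
  rw [Submodule.comap_top] at c1 c2 c3 c4 d1 d2
  unfold symE
  linear_combination c1 - c2 - c3 + c4 - d1 + d2

variable {P : Type} [CommRing P] [Algebra A P]

variable (A) in
/-- The ideal with two generators. -/
def hxI (u v : P) : Submodule A P := (Ideal.span {u, v}).restrictScalars A

variable (A) in
/-- The ideal generated by the three products. -/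
def hxN (u v w : P) : Submodule A P := (Ideal.span {u * v, v * w, w * u}).restrictScalars A

theorem hxA_mem_I {u v x : P} : x ∈ hxI A u v ↔ ∃ s t, s * u + t * v = x :=
  Ideal.mem_span_pair

theorem hxA_mem_N {u v w x : P} :
    x ∈ hxN A u v w ↔ ∃ s t r, s * (u * v) + t * (v * w) + r * (w * u) = x :=
  Submodule.mem_span_triple

theorem hxA_N_cyc (u v w : P) : hxN A v w u = hxN A u v w := by
  ext x
  rw [hxA_mem_N, hxA_mem_N]
  constructor
  · rintro ⟨s, t, r, rfl⟩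
    exact ⟨r, s, t, by ring⟩
  · rintro ⟨s, t, r, rfl⟩
    exact ⟨t, r, s, by ring⟩

theorem hxA_I_comm (u v : P) : hxI A u v = hxI A v u := by
  unfold hxI
  rw [Set.pair_comm]

/-- Weak coprimality. -/
def HxCop (u v : P) : Prop := ∀ x, u ∣ v * x → u ∣ x

theorem hxA_iso_T [IsDomain P] {f a b : P} (hf : f ≠ 0) (h1 : HxCop f a) (h2 : HxCop f b) :
    Iso (LinearMap.mul A P f) ⊤ (hxI A a b) (hxI A f (a * b)) (hxN A f a b) := by
  refine ⟨fun x _ => hxA_mem_I.2 ⟨x, 0, ?_⟩, fun x _ => ?_, fun y hy => ?_⟩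
  · rw [LinearMap.mul_apply']
    ring
  · rw [LinearMap.mul_apply', hxA_mem_N, hxA_mem_I]
    constructor
    · rintro ⟨s, t, r, e⟩
      obtain ⟨t', rfl⟩ : f ∣ t := h2 _ (h1 _ ⟨x - s * a - r * b, by linear_combination e⟩)
      exact ⟨s + t' * b, r, mul_left_cancel₀ hf (by linear_combination e)⟩
    · rintro ⟨s, t, rfl⟩
      exact ⟨s, 0, t, by ring⟩
  · obtain ⟨s, t, rfl⟩ := hxA_mem_I.1 hy
    refine ⟨s, trivial, hxA_mem_N.2 ⟨0, -t, 0, ?_⟩⟩
    rw [LinearMap.mul_apply']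
    ring

theorem hxA_sup (f a b : P) : hxI A f (a * b) ⊔ hxI A a (b * f) = hxI A f a := by
  refine le_antisymm (sup_le ?_ ?_) ?_
  · intro x hx
    obtain ⟨s, t, rfl⟩ := hxA_mem_I.1 hx
    exact hxA_mem_I.2 ⟨s, t * b, by ring⟩
  · intro x hx
    obtain ⟨s, t, rfl⟩ := hxA_mem_I.1 hx
    exact hxA_mem_I.2 ⟨t * b, s, by ring⟩
  · intro x hx
    obtain ⟨s, t, rfl⟩ := hxA_mem_I.1 hx
    exact Submodule.add_mem_sup (hxA_mem_I.2 ⟨s, 0, by ring⟩) (hxA_mem_I.2 ⟨t, 0, by ring⟩)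

theorem hxA_inf {f a : P} (b : P) (h : HxCop a f) :
    hxI A f (a * b) ⊓ hxI A a (b * f) = hxN A f a b := by
  refine le_antisymm ?_ (le_inf ?_ ?_)
  · rintro x ⟨hx, hx'⟩
    obtain ⟨u, v, rfl⟩ := hxA_mem_I.1 hx
    obtain ⟨s, t, e⟩ := hxA_mem_I.1 hx'
    obtain ⟨r, hr⟩ : a ∣ u - b * t := h _ ⟨s - b * v, by linear_combination -e⟩
    exact hxA_mem_N.2 ⟨r, v, t, by linear_combination (-f) * hr⟩
  · intro x hx
    obtain ⟨s, t, r, rfl⟩ := hxA_mem_N.1 hx
    exact hxA_mem_I.2 ⟨s * a + r * b, t, by ring⟩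
  · intro x hx
    obtain ⟨s, t, r, rfl⟩ := hxA_mem_N.1 hx
    exact hxA_mem_I.2 ⟨s * f + t * b, r, by ring⟩

theorem hxA_N_le (f a b : P) : hxN A f a b ≤ hxI A a b := by
  intro x hx
  obtain ⟨s, t, r, rfl⟩ := hxA_mem_N.1 hx
  exact hxA_mem_I.2 ⟨s * f + t * b, r * f, by ring⟩

/-- One vertex of the hexagon. -/
def hxU (ω : A) (f a b : P) : ZMod 3 :=
  trO ω (LinearMap.mul A P f) ⊤ (hxI A a b) (hxI A f (a * b)) (hxN A f a b) +
    cc ω ⊤ (hxI A f (a * b)) (hxN A f a b)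

theorem hxA_edge [IsDomain P] (hω : Cb ω) {f a b : P} (hf : f ≠ 0) (ha : a ≠ 0) (h1 : HxCop f a)
    (h2 : HxCop f b) (h3 : HxCop a b) (h4 : HxCop a f) (hN : Fi ⊤ (hxN A f a b)) :
    trO ω (LinearMap.mul A P a) ⊤ (hxI A b f) (hxI A f a) (hxI A f (a * b))
      + cc ω ⊤ (hxI A f a) (hxI A f (a * b))
      - trO ω (LinearMap.mul A P f) ⊤ (hxI A a b) (hxI A f a) (hxI A a (b * f))
      - cc ω ⊤ (hxI A f a) (hxI A a (b * f)) = hxU ω a b f - hxU ω f a b := by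
  have hs := hxA_sup (A := A) f a b
  have hi := hxA_inf (A := A) b h4
  have l1 : hxI A f (a * b) ≤ hxI A f a := hs ▸ le_sup_left
  have l2 : hxI A a (b * f) ≤ hxI A f a := hs ▸ le_sup_right
  have k1 : hxN A f a b ≤ hxI A f (a * b) := hi ▸ inf_le_left
  have k2 : hxN A f a b ≤ hxI A a (b * f) := hi ▸ inf_le_right
  have f0 := hN.left le_top (k1.trans l1)
  have f1 := hN.right le_top (k1.trans l1)
  have S := cc_sup hω (Λ1 := hxI A f (a * b)) (Λ2 := hxI A a (b * f)) (by rw [hs, hi]; exact f1)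
  have i1 := orB_iso_sup (hxI A f (a * b)) (hxI A a (b * f))
  have i2 := orB_iso_sup' (hxI A f (a * b)) (hxI A a (b * f))
  rw [hs, hi] at S i1 i2
  have Tf := hxA_iso_T (A := A) hf h1 h2
  have Ta := hxA_iso_T (A := A) ha h3 h4
  have l3 := hxA_N_le (A := A) a b f
  rw [hxA_N_cyc] at Ta l3
  have C1 := trO_comp hω Ta i1 (hN.left le_top l3) k2 l1
  have C2 := trO_comp hω Tf i2 (hN.left le_top (hxA_N_le f a b)) k1 l2
  rw [LinearMap.id_comp] at C1 C2
  have D1 := cc_cocycle hω f0 (f1.left l1 k1) (f1.right l1 k1)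
  have D2 := cc_cocycle hω f0 (f1.left l2 k2) (f1.right l2 k2)
  unfold hxU
  rw [hxA_N_cyc]
  linear_combination C1 - C2 + S - D1 + D2

end

end Vale.Agent.P319B
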