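import Vale.Agent.P319B.MelA

/-! The smooth sum in terms of the dual sequence, and the main range. -/

namespace Vale.Agent.P319B

open Complex MeasureTheory Filter Topology Set
open scoped ComplexConjugate
open Vale.Agent.P026 (w melE melJ norm_melE melJ_int melJ_le melJ_nonneg melA_int_gauss melQ melO
  melI melQ_int melQ_pos melI_pos melO_le melD_exp)

theorem mlB_swap {J : Type} [Countable J] {a : J → ℂ} {n : J → ℝ} {B : ℝ} (h : Sz a n B)
    {p s : ℝ → ℂ} (hp : Integrable p) (hs : Continuous s) (hre : ∀ τ, (s τ).re = -2) :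
    ∑' x, a x * ∫ τ, p τ * (n x : ℂ) ^ s τ = ∫ τ, p τ * ∑' x, a x * (n x : ℂ) ^ s τ := by
  have hn : ∀ x τ, ‖a x * (p τ * (n x : ℂ) ^ s τ)‖ = ‖a x‖ / n x ^ 2 * ‖p τ‖ := fun x τ => by
    by_cases hx : a x = 0
    · simp [hx]
    have h1 : 0 < n x := zero_lt_one.trans_le (h.1 x hx)
    rw [norm_mul, norm_mul, norm_cpow_eq_rpow_re_of_pos h1, hre, Real.rpow_neg h1.le,
      Real.rpow_two]
    ring
  have hi : ∀ x, Integrable fun τ => a x * (p τ * (n x : ℂ) ^ s τ) := fun x => by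
    by_cases hx : a x = 0
    · simp [hx]
    have h1 : 0 < n x := zero_lt_one.trans_le (h.1 x hx)
    refine (hp.norm.const_mul (‖a x‖ / n x ^ 2)).mono' ?_
      (Eventually.of_forall fun τ => (hn x τ).le)
    exact (hp.1.mul (hs.const_cpow
      (Or.inl (ofReal_ne_zero.2 h1.ne'))).aestronglyMeasurable).const_mul _
  have h2 := hasSum_integral_of_summable_integral_norm hi (by
    simp only [hn, integral_const_mul]
    exact h.2.1.mul_right _)
  simp only [integral_const_mul] at h2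
  rw [h2.tsum_eq]
  refine integral_congr_ae (Eventually.of_forall fun τ => ?_)
  simp only [← tsum_mul_left, mul_left_comm (p τ)]

theorem mlB_weight {Y : ℝ} (hY : 0 < Y) (t : ℝ) {x : ℝ} (hx : 0 < x) :
    ∫ τ : ℝ, melE Y t ((2 : ℝ) + τ * I) * (x : ℂ) ^ (-(((2 : ℝ) : ℂ) + τ * I)) = Wt Y t x := by
  have hπ : ((√Real.pi : ℝ) : ℂ) ≠ 0 := ofReal_ne_zero.2 (Real.sqrt_pos.2 Real.pi_pos).ne'
  have e : ∀ τ : ℝ, melE Y t ((2 : ℝ) + τ * I) * (x : ℂ) ^ (-(((2 : ℝ) : ℂ) + τ * I)) =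
      cexp (((2 : ℝ) + τ * I + t * I) ^ 2 / 4 - ((2 : ℝ) + τ * I + t * I) * Real.log (x / Y)) *
        (cexp (I * ((t * Real.log x : ℝ) : ℂ)) / (2 * (√Real.pi : ℝ))) := fun τ => by
    rw [melE, mlA_cpow hx, Real.log_div hx.ne' hY.ne', div_mul_eq_mul_div, ← mul_div_assoc,
      ← exp_add, ← exp_add]
    congr 2
    push_cast
    ring
  simp only [e]
  rw [integral_mul_const, P026.melA_gauss, Wt, w]
  field_simp

/-- The smooth sum in terms of the dual sequence. -/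
theorem mlB_dual (r : ℕ) {Y : ℝ} (hY : 0 < Y) (t : ℝ) {J J' : Type} [Countable J] [Countable J']
    {a : J → ℂ} {na : J → ℝ} {b : J' → ℂ} {nb : J' → ℝ} {Q Ca Cb : ℝ} {e : ℂ} (ha : Sz a na Ca)
    (hb : Sz b nb Cb) (hQ : 0 < Q) (hF : FE r a na b nb Q e) :
    ∑' x, a x * Wt Y t (na x) = e * ∑' x, b x * ((Q : ℂ)⁻¹ * mlH r Y t (nb x / Q ^ 2)) := by
  obtain ⟨Λ, hd, hbd, h2, h1⟩ := hF
  have hE : Integrable fun τ : ℝ => melE Y t ((2 : ℝ) + τ * I) := by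
    obtain ⟨C, -, hC⟩ := mlg_bound 0 Y t 2 2
    refine P026.melA_int_line (C := C) (mlA_E_diff Y t).continuous fun τ => ?_
    simpa only [mlg, pow_zero, mul_one] using hC 2 ⟨le_rfl, le_rfl⟩ τ
  have hQ2 : 0 < (Q ^ 2)⁻¹ := by positivity
  have s1 := mlB_swap ha hE (s := fun τ => -(((2 : ℝ) : ℂ) + τ * I)) (by fun_prop)
    (fun τ => by simp)
  have s2 := mlB_swap hb ((mlP_int r Y t (σ := -1) (by norm_num) hQ2).const_mul (Q : ℂ)⁻¹)
    (s := fun τ => -(1 - (((-1 : ℝ) : ℂ) + τ * I))) (by fun_prop) (fun τ => by simp; norm_num)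
  obtain ⟨C, hC0, hC⟩ := mlg_bound r Y t (-1) 2
  obtain ⟨D, hD⟩ := hbd (-1) 2
  have s3 := P026.melA_shift (f := fun u => mlg r Y t u * Λ u) ((mlg_diff r Y t).mul hd)
    (a := -1) (b := 2) (C := C * D) (by norm_num) fun σ hσ τ => by
      have h3 := hD (σ + τ * I) (by simpa using hσ.1) (by simpa using hσ.2)
      rw [norm_mul, mul_right_comm]
      exact mul_le_mul (hC σ hσ τ) h3 (norm_nonneg _) (by positivity)
  have e1 : ∑' x, a x * Wt Y t (na x) = ∑' x, a x * ∫ τ : ℝ, melE Y t ((2 : ℝ) + τ * I) *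
      (na x : ℂ) ^ (-(((2 : ℝ) : ℂ) + τ * I)) := tsum_congr fun x => by
    by_cases hx : a x = 0
    · rw [hx, zero_mul, zero_mul]
    rw [mlB_weight hY t (zero_lt_one.trans_le (ha.1 x hx))]
  have e2 : ∑' x, b x * ((Q : ℂ)⁻¹ * mlH r Y t (nb x / Q ^ 2)) = ∑' x, b x * ∫ τ : ℝ,
      (Q : ℂ)⁻¹ * (mlP r Y t ((-1 : ℝ) + τ * I) *
        (((Q ^ 2)⁻¹ : ℝ) : ℂ) ^ (((-1 : ℝ) : ℂ) + τ * I - 1)) *
        (nb x : ℂ) ^ (-(1 - (((-1 : ℝ) : ℂ) + τ * I))) := tsum_congr fun x => by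
    by_cases hx : b x = 0
    · rw [hx, zero_mul, zero_mul]
    have h3 : 0 < nb x := zero_lt_one.trans_le (hb.1 x hx)
    rw [mlH_eq r Y t (σ := -1) (by norm_num) (by positivity), ← integral_const_mul]
    congr 1
    refine integral_congr_ae (Eventually.of_forall fun τ => ?_)
    simp only
    rw [div_eq_mul_inv, ofReal_mul, mul_cpow_ofReal_nonneg h3.le hQ2.le, neg_sub]
    ring
  rw [e1, e2, s1, s2, ← integral_const_mul]
  refine Eq.trans ?_ (s3.symm.trans ?_)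
  · refine integral_congr_ae (Eventually.of_forall fun τ => ?_)
    have h3 := mlA_ne (u := (2 : ℝ) + τ * I) (by simp)
    simp only
    rw [h2 _ (by simp), mlg, mul_assoc, ← mul_assoc (_ ^ r), ← mul_pow, inv_mul_cancel₀ h3,
      one_pow, one_mul, DS]
  · refine integral_congr_ae (Eventually.of_forall fun τ => ?_)
    have h3 : (Q : ℂ) ^ (1 - 2 * (((-1 : ℝ) : ℂ) + τ * I)) =
        (Q : ℂ)⁻¹ * (((Q ^ 2)⁻¹ : ℝ) : ℂ) ^ (((-1 : ℝ) : ℂ) + τ * I - 1) := by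
      rw [← cpow_neg_one, mlA_cpow hQ, mlA_cpow hQ, mlA_cpow hQ2, ← exp_add, Real.log_inv,
        Real.log_pow]
      congr 1
      push_cast
      ring
    simp only
    rw [h1 _ (by simp), h3, mlP, DS]
    ring

noncomputable section

/-- One term of the integrand, as a function of the height. -/
def mlT (r : ℕ) (Y t Q : ℝ) (β : ℂ) (x τ : ℝ) : ℂ :=
  β * ((Q : ℂ)⁻¹ * (mlP r Y t ((1 / 2 : ℝ) + τ * I) *
    ((x / Q ^ 2 : ℝ) : ℂ) ^ (((1 / 2 : ℝ) : ℂ) + τ * I - 1)))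

/-- The integrand of the main range. -/
def mlF (r : ℕ) (Y t Q : ℝ) {J : Type} (b : J → ℂ) (nb : J → ℝ) (z : ℝ × ℝ) : ℂ :=
  ∑' x, ((melQ (1 / 2) (Real.log (nb x) - z.1) : ℝ) : ℂ) * mlT r Y t Q (b x) (nb x) z.2

end

theorem mlP_half (r : ℕ) : ∃ C : ℝ, 0 < C ∧ ∀ Y t τ : ℝ, 0 < Y →
    ‖mlP r Y t ((1 / 2 : ℝ) + τ * I)‖ ≤ C * √Y * Real.exp (-(τ + t) ^ 2 / 4) := by
  obtain ⟨C, hC, h⟩ := mlP_bound r 0
  refine ⟨C, hC, fun Y t τ hY => ?_⟩
  simpa only [Nat.cast_zero, sub_zero, pow_zero, mul_one, mul_zero, zero_mul] using h Y t τ hY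

theorem mlP_int' (r : ℕ) (Y t : ℝ) :
    Integrable fun τ : ℝ => mlP r Y t ((1 / 2 : ℝ) + τ * I) := by
  simpa only [ofReal_one, one_cpow, mul_one] using mlP_int r Y t (σ := 1 / 2) le_rfl one_pos

theorem mlB_half {Q x : ℝ} (hQ : 0 < Q) (hx : 0 < x) :
    Q⁻¹ * (x / Q ^ 2) ^ (-(1 / 2) : ℝ) = x ^ (-(1 / 2) : ℝ) := by
  rw [Real.div_rpow hx.le (by positivity), ← Real.rpow_two, ← Real.rpow_mul hQ.le,
    show (2 : ℝ) * -(1 / 2) = -1 by norm_num, Real.rpow_neg_one]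
  field_simp

theorem mlT_norm (r : ℕ) (Y t : ℝ) {Q x : ℝ} (hQ : 0 < Q) (β : ℂ) (hx : 1 ≤ x) (τ : ℝ) :
    ‖mlT r Y t Q β x τ‖ ≤ ‖β‖ * ‖mlP r Y t ((1 / 2 : ℝ) + τ * I)‖ := by
  have h0 : 0 < x := by linarith
  have e : (((1 / 2 : ℝ) : ℂ) + τ * I - 1).re = -(1 / 2) := by
    simp
    norm_num
  rw [mlT, norm_mul, norm_mul, norm_mul, norm_cpow_eq_rpow_re_of_pos (by positivity), e,
    norm_inv, norm_real, Real.norm_eq_abs, abs_of_pos hQ, mul_left_comm Q⁻¹, mlB_half hQ h0]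
  refine mul_le_mul_of_nonneg_left (mul_le_of_le_one_right (norm_nonneg _) ?_) (norm_nonneg _)
  exact Real.rpow_le_one_of_one_le_of_nonpos hx (by norm_num)

theorem mlT_int (r : ℕ) (Y t : ℝ) {Q x : ℝ} (hQ : 0 < Q) {β : ℂ} (hx : β ≠ 0 → 1 ≤ x) :
    Integrable (mlT r Y t Q β x) := by
  by_cases hr : β = 0
  · have : mlT r Y t Q β x = fun _ => 0 := by
      funext τ
      simp [mlT, hr]
    rw [this]
    exact integrable_zero _ _ _
  have h0 : 0 < x := by linarith [hx hr]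
  exact ((mlP_int r Y t (σ := 1 / 2) le_rfl (by positivity)).const_mul _).const_mul _

theorem mlF_eq (r : ℕ) (Y t l : ℝ) {Q B : ℝ} (hQ : 0 < Q) {J : Type} [Countable J] {b : J → ℂ}
    {nb : J → ℝ} (hb : Sz b nb B) :
    AEStronglyMeasurable (mlF r Y t Q b nb) ((volume.restrict (Ioc 0 l)).prod volume) ∧
    ∑' x, b x * ((Q : ℂ)⁻¹ * mlH r Y t (nb x / Q ^ 2)) * melO (Ioc 0 l) (Real.log (nb x)) =
      ∫ z, mlF r Y t Q b nb z ∂((volume.restrict (Ioc 0 l)).prod volume) := by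
  have hq : ∀ x : J, Integrable (fun ρ => ((melQ (1 / 2) (Real.log (nb x) - ρ) : ℝ) : ℂ))
      (volume.restrict (Ioc 0 l)) := fun x =>
    (((melQ_int (1 / 2)).comp_sub_left (Real.log (nb x))).ofReal (𝕜 := ℂ)).integrableOn
  have hi := fun x => (hq x).mul_prod (mlT_int r Y t hQ (hb.1 x))
  refine ⟨AEStronglyMeasurable.tsum fun x => (hi x).1, ?_⟩
  have hs := hasSum_integral_of_summable_integral_norm hi (by
    refine Summable.of_nonneg_of_le (fun x => integral_nonneg fun v => norm_nonneg _) (fun x => ?_)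
      (hb.2.1.mul_left ((Real.exp l ^ (- -2 : ℝ) *
        melI (1 / 2 - -2)) * (∫ τ : ℝ, ‖mlP r Y t ((1 / 2 : ℝ) + τ * I)‖)))
    by_cases hx : b x = 0
    · simp [hx, mlT]
    have h0 : 0 < nb x := zero_lt_one.trans_le (hb.1 x hx)
    simp only [norm_mul]
    rw [integral_prod_mul (fun ρ => ‖((melQ (1 / 2) (Real.log (nb x) - ρ) : ℝ) : ℂ)‖)
      (fun τ => ‖mlT r Y t Q (b x) (nb x) τ‖)]
    have hI := melI_pos (1 / 2 - -2)
    calc _ ≤ (nb x ^ (-2 : ℝ) * Real.exp l ^ (- -2 : ℝ) * melI (1 / 2 - -2)) *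
          (‖b x‖ * ∫ τ : ℝ, ‖mlP r Y t ((1 / 2 : ℝ) + τ * I)‖) := by
          refine mul_le_mul ?_ ?_ (integral_nonneg fun _ => norm_nonneg _) (by positivity)
          · have h1 := melO_le (-2) (Real.log (Real.exp l)) (S := Ioc 0 l) measurableSet_Ioc
              (fun ρ hρ => by rw [Real.log_exp]; linarith [hρ.2]) (Real.log (nb x))
            rw [melD_exp _ h0 (Real.exp_pos l)] at h1
            simp only [norm_real, Real.norm_eq_abs, abs_of_pos (melQ_pos _ _)]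
            exact h1
          · rw [← integral_const_mul]
            exact integral_mono (mlT_int r Y t hQ (hb.1 x)).norm
              ((mlP_int' r Y t).norm.const_mul _) (mlT_norm r Y t hQ _ (hb.1 x hx))
      _ = _ := by
          rw [Real.rpow_neg h0.le, Real.rpow_two]
          ring)
  refine Eq.trans (tsum_congr fun x => ?_) hs.tsum_eq
  rw [integral_prod_mul (fun ρ => ((melQ (1 / 2) (Real.log (nb x) - ρ) : ℝ) : ℂ))
    (mlT r Y t Q (b x) (nb x)), integral_complex_ofReal, mul_comm]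
  congr 1
  rw [mlH, ← integral_const_mul, ← integral_const_mul]
  rfl

theorem mlF_norm (r : ℕ) (Y t : ℝ) {Q : ℝ} (hQ : 0 < Q) {J : Type} {b : J → ℂ} {nb : J → ℝ}
    (h0 : ∀ x, b x ≠ 0 → 1 ≤ nb x) (ρ τ : ℝ) :
    ‖mlF r Y t Q b nb (ρ, τ)‖ = Real.exp (-ρ / 2) * ‖mlP r Y t ((1 / 2 : ℝ) + τ * I)‖ *
      ‖∑' x, b x * Wt (Real.exp ρ) τ (nb x)‖ := by
  have e : ∀ x, ((melQ (1 / 2) (Real.log (nb x) - ρ) : ℝ) : ℂ) * mlT r Y t Q (b x) (nb x) τ =
      ((Real.exp (-ρ / 2) : ℝ) * mlP r Y t ((1 / 2 : ℝ) + τ * I) *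
        cexp ((-(2 * τ * Real.log Q) : ℝ) * I)) * (b x * Wt (Real.exp ρ) τ (nb x)) := fun x => by
    by_cases hr : b x = 0
    · simp [hr, mlT]
    have hy : 0 < nb x := zero_lt_one.trans_le (h0 x hr)
    have hQ' : (Q : ℂ)⁻¹ = cexp (-(Real.log Q : ℝ)) := by
      rw [exp_neg, ← ofReal_exp, Real.exp_log hQ]
    have key : ((melQ (1 / 2) (Real.log (nb x) - ρ) : ℝ) : ℂ) * (Q : ℂ)⁻¹ *
        ((nb x / Q ^ 2 : ℝ) : ℂ) ^ (((1 / 2 : ℝ) : ℂ) + τ * I - 1) =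
        (Real.exp (-ρ / 2) : ℝ) * cexp ((-(2 * τ * Real.log Q) : ℝ) * I) *
          Wt (Real.exp ρ) τ (nb x) := by
      rw [hQ', mlA_cpow (by positivity), Real.log_div hy.ne' (by positivity), Real.log_pow, Wt, w,
        melQ, Real.log_div hy.ne' (Real.exp_pos _).ne', Real.log_exp, ofReal_exp, ofReal_exp,
        ofReal_exp, ← exp_add, ← exp_add, ← exp_add, ← exp_add, ← exp_add]
      congr 1
      push_cast
      ring
    rw [mlT]
    linear_combination b x * mlP r Y t ((1 / 2 : ℝ) + τ * I) * key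
  simp only [mlF, e]
  rw [tsum_mul_left, norm_mul, norm_mul, norm_mul, norm_exp_ofReal_mul_I, mul_one, norm_real,
    Real.norm_eq_abs, abs_of_pos (Real.exp_pos _)]

theorem mlB_main (r A : ℕ) : ∃ C : ℝ, 0 < C ∧
    ∀ {I' J' : Type} [Countable I'] (J : Finset J') (b : J' → I' → ℂ) (nb : I' → ℝ) (Q : J' → ℝ)
      (Y R0 B B0 t : ℝ), 0 < Y → 1 ≤ R0 → 0 ≤ B → (∀ j ∈ J, Sz (b j) nb B0 ∧ 0 < Q j) →
      (∀ R τ : ℝ, 1 ≤ R → R ≤ R0 →
        ∑ j ∈ J, ‖∑' x, b j x * Wt R τ (nb x)‖ ^ 2 ≤ B * R * (1 + |τ|) ^ A) →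
      ∑ j ∈ J, ‖∑' x, b j x * ((Q j : ℂ)⁻¹ * mlH r Y t (nb x / Q j ^ 2)) *
        melO (Ioc 0 (Real.log R0)) (Real.log (nb x))‖ ^ 2 ≤
        C * (1 + |t|) ^ A * Y * (B * Real.log R0 ^ 2) := by
  obtain ⟨C, hC, hP⟩ := mlP_half r
  refine ⟨C ^ 2 * ((∫ x, melJ A x) ^ 2 + 1), by positivity,
    fun J b nb Q Y R0 B B0 t hY hR hB hJ hS => ?_⟩
  have hl : 0 ≤ Real.log R0 := Real.log_nonneg hR
  have hg : Integrable (fun x : ℝ × ℝ => (1 : ℝ) * melJ A (x.2 + t))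
      ((volume.restrict (Ioc 0 (Real.log R0))).prod volume) :=
    (integrable_const (1 : ℝ)).mul_prod ((melJ_int A).comp_add_right t)
  have h := P026.melD_mink J (fun j => mlF r Y t (Q j) (b j) nb)
    (fun j hj => (mlF_eq r Y t _ (hJ j hj).2 (hJ j hj).1).1) hg
    (fun x => by rw [one_mul]; exact melJ_nonneg _ _)
    (D := C ^ 2 * Y * B * (1 + |t|) ^ A) (by positivity) (by
      filter_upwards [Measure.quasiMeasurePreserving_fst.ae (ae_restrict_mem measurableSet_Ioc)]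
      rintro ⟨ρ, τ⟩ ⟨h1, h2⟩
      have h3 := hS (Real.exp ρ) τ (Real.one_le_exp h1.le)
        ((Real.le_log_iff_exp_le (by linarith)).1 h2)
      have h4 := pow_le_pow_left₀ (norm_nonneg _) (hP Y t τ hY) 2
      rw [mul_pow, mul_pow, Real.sq_sqrt hY.le] at h4
      have h5 := melJ_le A τ t
      have h6 : Real.exp (-(τ + t) ^ 2 / 4) ≤ melJ A (τ + t) :=
        le_mul_of_one_le_right (Real.exp_pos _).le
          (one_le_pow₀ (le_add_of_nonneg_right (abs_nonneg _)))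
      have h7 : Real.exp (-ρ / 2) ^ 2 * Real.exp ρ = 1 := by
        rw [← Real.exp_nat_mul, ← Real.exp_add, Real.exp_eq_one_iff]
        push_cast
        ring
      have h8 := melJ_nonneg A (τ + t)
      rw [Finset.sum_congr rfl fun j hj => by
        rw [mlF_norm r Y t (hJ j hj).2 (hJ j hj).1.1, mul_pow], ← Finset.mul_sum, mul_pow, one_mul]
      calc _ ≤ Real.exp (-ρ / 2) ^ 2 * (C ^ 2 * Y * Real.exp (-(τ + t) ^ 2 / 4) ^ 2) *
            (B * Real.exp ρ * (1 + |τ|) ^ A) := by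
            gcongr
        _ = (Real.exp (-ρ / 2) ^ 2 * Real.exp ρ) * (C ^ 2 * Y * B) * Real.exp (-(τ + t) ^ 2 / 4) *
            (Real.exp (-(τ + t) ^ 2 / 4) * (1 + |τ|) ^ A) := by ring
        _ ≤ 1 * (C ^ 2 * Y * B) * melJ A (τ + t) * ((1 + |t|) ^ A * melJ A (τ + t)) := by
            rw [h7]
            gcongr
        _ = _ := by ring)
  rw [integral_prod_mul (fun _ : ℝ => (1 : ℝ)) (fun τ => melJ A (τ + t)),
    integral_add_right_eq_self, setIntegral_const, Real.volume_real_Ioc_of_le hl, sub_zero,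
    smul_eq_mul, mul_one] at h
  rw [Finset.sum_congr rfl fun j hj => by rw [(mlF_eq r Y t _ (hJ j hj).2 (hJ j hj).1).2]]
  refine h.trans ?_
  have : 0 ≤ C ^ 2 * (1 + |t|) ^ A * Y * (B * Real.log R0 ^ 2) := by positivity
  nlinarith

end Vale.Agent.P319B
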