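import Vale.Agent.P319B.Kp
import Vale.Agent.P026.MelD
import Vale.Agent.P319B.MelB

/-! From the functional equation to a bound for smooth sums (family version). -/

namespace Vale.Agent.P319B

open Complex NumberField
open scoped Classical ComplexConjugate
open Vale.Agent.P026 (w kk fk)

theorem mel_Wt {J : Type} {a : J → ℂ} {n : J → ℝ} {B : ℝ} (h : Sz a n B) {Y : ℝ} (hY : 0 < Y)
    (t : ℝ) (j : J) : ‖a j * Wt Y t (n j)‖ ≤ Real.exp 1 * Y ^ 2 * (‖a j‖ / n j ^ 2) := by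
  by_cases hj : a j = 0
  · simp [hj]
  have h0 : 0 < n j := zero_lt_one.trans_le (h.1 j hj)
  have h1 := P026.w_le_rpow (-2) (div_pos h0 hY)
  rw [Real.rpow_neg (div_pos h0 hY).le, Real.rpow_two, show (-2 : ℝ) ^ 2 / 4 = 1 by norm_num] at h1
  rw [Wt, norm_mul, norm_mul, mul_comm I, norm_exp_ofReal_mul_I, mul_one, norm_real,
    Real.norm_eq_abs, abs_of_pos (P026.w_pos _)]
  refine (mul_le_mul_of_nonneg_left h1 (norm_nonneg _)).trans (le_of_eq ?_)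
  field_simp

theorem summable_Wt {J : Type} {a : J → ℂ} {n : J → ℝ} {B : ℝ} (h : Sz a n B) {Y : ℝ} (hY : 0 < Y)
    (t : ℝ) : Summable (fun j => a j * Wt Y t (n j)) :=
  Summable.of_norm_bounded (h.2.1.mul_left _) (mel_Wt h hY t)
theorem norm_tsum_Wt_le : ∃ C : ℝ, 0 < C ∧ ∀ {J : Type} (a : J → ℂ) (n : J → ℝ) (B : ℝ),
    Sz a n B → ∀ Y t : ℝ, 0 < Y → ‖∑' j, a j * Wt Y t (n j)‖ ≤ C * B * Y ^ 2 := by
  refine ⟨Real.exp 1, Real.exp_pos 1, fun a n B h Y t hY => ?_⟩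
  refine (tsum_of_norm_bounded (h.2.1.hasSum.mul_left _) (mel_Wt h hY t)).trans ?_
  rw [mul_right_comm _ B]
  exact mul_le_mul_of_nonneg_left h.2.2 (by positivity)

open Vale.Agent.P026 (melO melI melI_pos melO_le melD_exp melO_nonneg melO_add melO_le_I)

theorem mel_piece {J : Type} {b β : J → ℂ} {nb : J → ℝ} {B D k R : ℝ} (hb : Sz b nb B)
    (hD : 0 ≤ D) (hR : 0 < R) {S : Set ℝ} (hS : MeasurableSet S)
    (hk : ∀ ρ ∈ S, 0 ≤ k * (ρ - Real.log R)) (h0 : ∀ x, b x = 0 → β x = 0)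
    (h : ∀ x, b x ≠ 0 → ‖β x‖ ≤ D * ‖b x‖ * nb x ^ (-2 - k)) :
    (Summable fun x => β x * melO S (Real.log (nb x))) ∧
      ‖∑' x, β x * melO S (Real.log (nb x))‖ ≤ melI (1 / 2 - k) * (D * B) * R ^ (-k) := by
  have hI := melI_pos (1 / 2 - k)
  have key : ∀ x, ‖β x * melO S (Real.log (nb x))‖ ≤
      melI (1 / 2 - k) * D * R ^ (-k) * (‖b x‖ / nb x ^ 2) := fun x => by
    by_cases hx : b x = 0
    · simp [hx, h0 x hx]
    have h1 : 0 < nb x := zero_lt_one.trans_le (hb.1 x hx)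
    have h2 := melO_le k (Real.log R) hS hk (Real.log (nb x))
    rw [melD_exp _ h1 hR] at h2
    rw [norm_mul, norm_real, Real.norm_eq_abs, abs_of_nonneg (melO_nonneg _ _)]
    refine (mul_le_mul (h x hx) h2 (melO_nonneg _ _) (by positivity)).trans (le_of_eq ?_)
    have h3 : nb x ^ (-2 - k) * nb x ^ k = (nb x ^ 2)⁻¹ := by
      rw [← Real.rpow_add h1, sub_add_cancel, Real.rpow_neg h1.le, Real.rpow_two]
    rw [div_eq_mul_inv ‖b x‖, ← h3]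
    ring
  refine ⟨Summable.of_norm_bounded (hb.2.1.mul_left _) key,
    (tsum_of_norm_bounded (hb.2.1.hasSum.mul_left _) key).trans ?_⟩
  refine (mul_le_mul_of_nonneg_left hb.2.2 (by positivity)).trans (le_of_eq ?_)
  ring

theorem mel_one (r : ℕ) {n : ℕ} (hn : 2 ≤ n) : ∃ C : ℝ, 0 < C ∧
    ∀ {J J' : Type} [Countable J] [Countable J'] (a : J → ℂ) (na : J → ℝ) (b : J' → ℂ)
      (nb : J' → ℝ) (Q : ℝ) (e : ℂ) (Qm Y R0 B0 t Ca : ℝ), 0 < Y → 1 ≤ R0 → 0 ≤ B0 →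
      Sz a na Ca → Sz b nb B0 → 0 < Q → Q ≤ Qm → ‖e‖ ≤ 1 → FE r a na b nb Q e →
      ‖∑' x, a x * Wt Y t (na x)‖ ^ 2 ≤
        C * (‖∑' x, b x * ((Q : ℂ)⁻¹ * mlH r Y t (nb x / Q ^ 2)) *
          melO (Set.Ioc 0 (Real.log R0)) (Real.log (nb x))‖ ^ 2 + (1 + |t|) ^ (8 * n * r) * Y *
            (B0 ^ 2 * (1 + R0 ^ 3 * (Qm ^ 2 / (Y * R0)) ^ (2 * n)))) := by
  obtain ⟨C0, hC0, h0⟩ := mlH_bound r 0
  obtain ⟨C1, hC1, h1⟩ := mlH_bound r n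
  have hI := melI_pos (1 / 2)
  have hI2 := melI_pos (1 / 2 - -2)
  have hI3 := melI_pos (1 / 2 - (n - 3 / 2))
  set C2 := melI (1 / 2 - -2)
  set C3 := melI (1 / 2 - (n - 3 / 2))
  refine ⟨3 * (melI (1 / 2))⁻¹ ^ 2 * (1 + (C2 * C0) ^ 2 + (C3 * C1) ^ 2), by positivity,
    fun {J J'} _ _ a na b nb Q e Qm Y R0 B0 t Ca hY hR hB0 ha hb hQ hQm he hV => ?_⟩
  set β : J' → ℂ := fun x => b x * ((Q : ℂ)⁻¹ * mlH r Y t (nb x / Q ^ 2)) with hβ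
  have hβ0 : ∀ x, b x = 0 → β x = 0 := fun x hx => by simp [hβ, hx]
  have hnorm : ∀ x, ‖β x‖ = ‖b x‖ * (Q⁻¹ * ‖mlH r Y t (nb x / Q ^ 2)‖) := fun x => by
    simp only [hβ, norm_mul, norm_inv, norm_real, Real.norm_eq_abs, abs_of_pos hQ]
  have hQm0 : 0 < Qm := hQ.trans_le hQm
  have hR0 : 0 < R0 := by linarith
  have hn' : (2 : ℝ) ≤ n := by exact_mod_cast hn
  have b1 : ∀ x, b x ≠ 0 → ‖β x‖ ≤ C0 * √Y * ‖b x‖ * nb x ^ (-2 - -2 : ℝ) := fun x hx => by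
    have h2 := hb.1 x hx
    have hy : 0 < nb x := by linarith
    have := h0 Y t (nb x / Q ^ 2) hY (by positivity)
    simp only [mul_zero, zero_mul, pow_zero, mul_one, Nat.cast_zero, sub_zero] at this
    rw [hnorm, sub_self, Real.rpow_zero, mul_one]
    calc _ ≤ ‖b x‖ * (Q⁻¹ * (C0 * √Y * (nb x / Q ^ 2) ^ (-(1 / 2) : ℝ))) := by gcongr
      _ = C0 * √Y * ‖b x‖ * (Q⁻¹ * (nb x / Q ^ 2) ^ (-(1 / 2) : ℝ)) := by ring
      _ ≤ _ := by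
        rw [mlB_half hQ hy]
        exact mul_le_of_le_one_right (by positivity)
          (Real.rpow_le_one_of_one_le_of_nonpos h2 (by norm_num))
  have b2 : ∀ x, b x ≠ 0 → ‖β x‖ ≤ C1 * (1 + |t|) ^ (4 * n * r) * √Y * (Qm ^ 2 / Y) ^ n *
      ‖b x‖ * nb x ^ (-2 - (n - 3 / 2) : ℝ) := fun x hx => by
    have hy : 0 < nb x := zero_lt_one.trans_le (hb.1 x hx)
    have e1 : Q⁻¹ * (nb x / Q ^ 2) ^ (-(1 / 2) - n : ℝ) =
        (Q ^ 2) ^ n * nb x ^ (-2 - (n - 3 / 2) : ℝ) := by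
      rw [Real.rpow_sub (by positivity), mul_div_assoc', mlB_half hQ hy, Real.rpow_natCast,
        show (-2 - (n - 3 / 2) : ℝ) = -(1 / 2) - n by ring, Real.rpow_sub hy, Real.rpow_natCast,
        div_pow]
      field_simp
    have := h1 Y t (nb x / Q ^ 2) hY (by positivity)
    rw [hnorm]
    calc _ ≤ ‖b x‖ * (Q⁻¹ * (C1 * (1 + |t|) ^ (4 * n * r) * (√Y * Y⁻¹ ^ n) *
          (nb x / Q ^ 2) ^ (-(1 / 2) - n : ℝ))) := by gcongr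
      _ = C1 * (1 + |t|) ^ (4 * n * r) * (√Y * Y⁻¹ ^ n) * ‖b x‖ *
          (Q⁻¹ * (nb x / Q ^ 2) ^ (-(1 / 2) - n : ℝ)) := by ring
      _ ≤ C1 * (1 + |t|) ^ (4 * n * r) * (√Y * Y⁻¹ ^ n) * ‖b x‖ *
          ((Qm ^ 2) ^ n * nb x ^ (-2 - (n - 3 / 2) : ℝ)) := by
          rw [e1]
          gcongr
      _ = _ := by
          rw [div_pow, inv_pow]
          ring
  have hl : 0 ≤ Real.log R0 := Real.log_nonneg hR
  obtain ⟨s1, t1⟩ := mel_piece hb (by positivity) one_pos (measurableSet_Iic (a := 0))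
    (fun ρ (hρ : ρ ≤ 0) => by rw [Real.log_one]; linarith) hβ0 b1
  obtain ⟨s2, -⟩ := mel_piece hb (by positivity) hR0
    (measurableSet_Ioc (a := 0) (b := Real.log R0)) (fun ρ hρ => by linarith [hρ.2]) hβ0 b1
  obtain ⟨s3, t3⟩ := mel_piece hb (by positivity) hR0 (measurableSet_Ioi (a := Real.log R0))
    (fun ρ (hρ : Real.log R0 < ρ) => mul_nonneg (by linarith) (by linarith)) hβ0 b2
  rw [Real.one_rpow, mul_one] at t1
  have split : ∑' x, β x = ((melI (1 / 2))⁻¹ : ℝ) *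
      (∑' x, β x * melO (Set.Iic 0) (Real.log (nb x)) +
        ∑' x, β x * melO (Set.Ioc 0 (Real.log R0)) (Real.log (nb x)) +
        ∑' x, β x * melO (Set.Ioi (Real.log R0)) (Real.log (nb x))) := by
    rw [← s1.tsum_add s2, ← (s1.add s2).tsum_add s3, ← tsum_mul_left]
    refine tsum_congr fun x => ?_
    rw [← mul_add, ← mul_add, ← ofReal_add, ← ofReal_add, melO_add hl, mul_left_comm,
      ← ofReal_mul, inv_mul_cancel₀ hI.ne', ofReal_one, mul_one]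
  rw [mlB_dual r hY t ha hb hQ hV, split]
  generalize ∑' x, β x * melO (Set.Iic 0) (Real.log (nb x)) = X1 at t1 ⊢
  generalize ∑' x, β x * melO (Set.Ioc 0 (Real.log R0)) (Real.log (nb x)) = X2
  generalize ∑' x, β x * melO (Set.Ioi (Real.log R0)) (Real.log (nb x)) = X3 at t3 ⊢
  have hT : 1 ≤ (1 + |t|) ^ (8 * n * r) := one_le_pow₀ (le_add_of_nonneg_right (abs_nonneg _))
  have u1 : ‖X1‖ ^ 2 ≤ (C2 * C0) ^ 2 * ((1 + |t|) ^ (8 * n * r) * Y * B0 ^ 2) := by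
    refine (pow_le_pow_left₀ (norm_nonneg _) t1 2).trans ?_
    calc _ = (C2 * C0) ^ 2 * (1 * √Y ^ 2 * B0 ^ 2) := by ring
      _ ≤ _ := by
        rw [Real.sq_sqrt hY.le]
        gcongr
  have u3 : ‖X3‖ ^ 2 ≤ (C3 * C1) ^ 2 * ((1 + |t|) ^ (8 * n * r) * Y *
      (B0 ^ 2 * (R0 ^ 3 * (Qm ^ 2 / (Y * R0)) ^ (2 * n)))) := by
    refine (pow_le_pow_left₀ (norm_nonneg _) t3 2).trans (le_of_eq ?_)
    have e3 : (R0 ^ (-(n - 3 / 2) : ℝ)) ^ 2 = R0 ^ 3 * R0⁻¹ ^ (2 * n) := by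
      rw [← Real.rpow_natCast, ← Real.rpow_mul hR0.le, inv_pow, ← Real.rpow_natCast R0 3,
        ← Real.rpow_natCast R0 (2 * n), ← Real.rpow_neg hR0.le, ← Real.rpow_add hR0]
      congr 1
      push_cast
      ring
    rw [← div_div, div_eq_mul_inv _ R0, mul_pow (Qm ^ 2 / Y), mul_pow _ (R0 ^ _), e3]
    calc _ = (C3 * C1) ^ 2 * ((1 + |t|) ^ (8 * n * r) * √Y ^ 2 *
        (B0 ^ 2 * (R0 ^ 3 * ((Qm ^ 2 / Y) ^ (2 * n) * R0⁻¹ ^ (2 * n))))) := by ring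
      _ = _ := by rw [Real.sq_sqrt hY.le]
  have u4 : ‖e * (((melI (1 / 2))⁻¹ : ℝ) * (X1 + X2 + X3))‖ ≤
      (melI (1 / 2))⁻¹ * (‖X1‖ + ‖X2‖ + ‖X3‖) := by
    rw [norm_mul, norm_mul, norm_real, Real.norm_eq_abs, abs_of_pos (inv_pos.2 hI)]
    refine (mul_le_of_le_one_left (by positivity) he).trans ?_
    gcongr
    exact norm_add₃_le
  refine (pow_le_pow_left₀ (norm_nonneg _) u4 2).trans ?_
  rw [mul_pow, mul_assoc, mul_comm 3, mul_assoc]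
  gcongr
  have p1 : 0 ≤ (1 + |t|) ^ (8 * n * r) * Y * B0 ^ 2 := by positivity
  have p3 : 0 ≤ (1 + |t|) ^ (8 * n * r) * Y *
      (B0 ^ 2 * (R0 ^ 3 * (Qm ^ 2 / (Y * R0)) ^ (2 * n))) := by positivity
  have e5 : (1 + |t|) ^ (8 * n * r) * Y *
      (B0 ^ 2 * (1 + R0 ^ 3 * (Qm ^ 2 / (Y * R0)) ^ (2 * n))) =
      (1 + |t|) ^ (8 * n * r) * Y * B0 ^ 2 + (1 + |t|) ^ (8 * n * r) * Y *
        (B0 ^ 2 * (R0 ^ 3 * (Qm ^ 2 / (Y * R0)) ^ (2 * n))) := by ring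
  rw [e5]
  generalize (1 + |t|) ^ (8 * n * r) * Y * B0 ^ 2 = U at u1 p1 ⊢
  generalize (1 + |t|) ^ (8 * n * r) * Y *
    (B0 ^ 2 * (R0 ^ 3 * (Qm ^ 2 / (Y * R0)) ^ (2 * n))) = V at u3 p3 ⊢
  have q1 := sq_nonneg (C2 * C0)
  have q3 := sq_nonneg (C3 * C1)
  generalize (C2 * C0) ^ 2 = c1 at u1 q1 ⊢
  generalize (C3 * C1) ^ 2 = c3 at u3 q3 ⊢
  nlinarith [sq_nonneg (‖X1‖ - ‖X2‖), sq_nonneg (‖X1‖ - ‖X3‖), sq_nonneg (‖X2‖ - ‖X3‖),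
    mul_nonneg q1 (sq_nonneg ‖X2‖), mul_nonneg q3 (sq_nonneg ‖X2‖), mul_nonneg q1 p3,
    mul_nonneg q3 p1]

theorem V2 (r A n : ℕ) (hn : 2 ≤ n) : ∃ C : ℝ, 0 < C ∧
    ∀ {I I' J' : Type} [Countable I] [Countable I'] (J : Finset J') (a : J' → I → ℂ) (na : I → ℝ)
      (b : J' → I' → ℂ) (nb : I' → ℝ) (Q : J' → ℝ) (e : J' → ℂ) (Qm Y R0 B B0 t : ℝ),
      0 < Y → 1 ≤ R0 → 0 ≤ B → 0 ≤ B0 →
      (∀ j ∈ J, (∃ Ca : ℝ, Sz (a j) na Ca) ∧ Sz (b j) nb B0 ∧ 0 < Q j ∧ Q j ≤ Qm ∧ ‖e j‖ ≤ 1 ∧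
        FE r (a j) na (b j) nb (Q j) (e j)) →
      (∀ R τ : ℝ, 1 ≤ R → R ≤ R0 →
        ∑ j ∈ J, ‖∑' x, b j x * Wt R τ (nb x)‖ ^ 2 ≤ B * R * (1 + |τ|) ^ A) →
      ∑ j ∈ J, ‖∑' x, a j x * Wt Y t (na x)‖ ^ 2 ≤ C * (1 + |t|) ^ (A + 8 * n * r) * Y *
        (B * (1 + Real.log R0) ^ 2 +
          J.card * B0 ^ 2 * (1 + R0 ^ 3 * (Qm ^ 2 / (Y * R0)) ^ (2 * n))) := by
  obtain ⟨C1, hC1, h1⟩ := mel_one r hn
  obtain ⟨C2, hC2, h2⟩ := mlB_main r A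
  refine ⟨C1 * (C2 + 1), by positivity,
    fun J a na b nb Q e Qm Y R0 B B0 t hY hR hB hB0 hJ hS => ?_⟩
  have h3 := h2 J b nb Q Y R0 B B0 t hY hR hB
    (fun j hj => ⟨(hJ j hj).2.1, (hJ j hj).2.2.1⟩) hS
  refine (Finset.sum_le_sum fun j hj => ?_).trans (b := ∑ j ∈ J, C1 *
    (‖∑' x, b j x * ((Q j : ℂ)⁻¹ * mlH r Y t (nb x / Q j ^ 2)) *
      melO (Set.Ioc 0 (Real.log R0)) (Real.log (nb x))‖ ^ 2 + (1 + |t|) ^ (8 * n * r) * Y *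
        (B0 ^ 2 * (1 + R0 ^ 3 * (Qm ^ 2 / (Y * R0)) ^ (2 * n))))) ?_
  · obtain ⟨⟨Ca, ha⟩, hb, q0, q1, he, hV⟩ := hJ j hj
    exact h1 _ _ _ _ _ _ _ _ _ _ _ Ca hY hR hB0 ha hb q0 q1 he hV
  rw [← Finset.mul_sum, Finset.sum_add_distrib, Finset.sum_const, nsmul_eq_mul, mul_assoc C1,
    mul_assoc C1, mul_assoc C1]
  refine mul_le_mul_of_nonneg_left ?_ hC1.le
  have hl : 0 ≤ Real.log R0 := Real.log_nonneg hR
  have hR0 : 0 < R0 := by linarith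
  have ht : 1 ≤ 1 + |t| := le_add_of_nonneg_right (abs_nonneg _)
  have a1 : (1 + |t|) ^ A ≤ (1 + |t|) ^ (A + 8 * n * r) :=
    pow_le_pow_right₀ ht (Nat.le_add_right _ _)
  have a2 : (1 + |t|) ^ (8 * n * r) ≤ (1 + |t|) ^ (A + 8 * n * r) :=
    pow_le_pow_right₀ ht (Nat.le_add_left _ _)
  calc _ ≤ (C2 + 1) * (1 + |t|) ^ (A + 8 * n * r) * Y * (B * (1 + Real.log R0) ^ 2) +
        (C2 + 1) * (J.card * ((1 + |t|) ^ (A + 8 * n * r) * Y *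
          (B0 ^ 2 * (1 + R0 ^ 3 * (Qm ^ 2 / (Y * R0)) ^ (2 * n))))) := by
        refine add_le_add (h3.trans ?_) ?_
        · gcongr <;> linarith
        · refine le_trans ?_ (le_mul_of_one_le_left (by positivity) (by linarith))
          gcongr
    _ = _ := by ring

end Vale.Agent.P319B
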