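import Vale.Agent.P319B.Gauss
import Vale.Agent.P319B.Count

/-! Structure of the sums Tsq, Tth and of the dual sums. -/

namespace Vale.Agent.P319B

open Complex NumberField
open scoped Classical ComplexConjugate
open Vale.Agent.P026 (w kk fk)

variable {F : Type} [Field F] [NumberField F] [Ctx F]

theorem st_ab_le_N {x : R F} (h : x ≠ 0) : ab x ≤ N x := by
  rw [← ab_sq, sq]
  exact le_mul_of_one_le_right (ab_nonneg x) (one_le_ab h)
theorem st_w_pos (x : ℝ) : 0 < w x := Real.exp_pos _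
theorem st_alph (o : Bool) {e : R F} (h : ¬ P1 e) : alph o e = 0 := if_neg fun h' => h h'.1
theorem st_bet (o : Bool) {d : R F} (h : ¬ P1 d) : bet o d = 0 := if_neg h
/-- The weight of the zeta function at two. -/
noncomputable def stZ (c : R F) : ℝ := if P1 c then N c ^ (-(2 : ℝ)) else 0
theorem stZ_nonneg (c : R F) : 0 ≤ stZ c := by
  unfold stZ
  split_ifs
  exacts [Real.rpow_nonneg (N_nonneg c) _, le_rfl]
theorem stZ_summable : Summable (stZ (F := F)) := summable_N_rpow (by norm_num)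
theorem stZ_eq {c : R F} (h : P1 c) : stZ c = (N c ^ 2)⁻¹ := by
  rw [stZ, if_pos h, Real.rpow_neg (N_nonneg c), Real.rpow_two]
theorem stZ_two : Summable fun p : R F × R F => stZ p.1 * stZ p.2 :=
  stZ_summable.mul_of_nonneg stZ_summable stZ_nonneg stZ_nonneg

theorem st_pt (o : Bool) (e d : R F) :
    ‖alph o e * bet o d‖ / N (e * d ^ 3) ^ 2 ≤ stZ e * stZ d := by
  by_cases he : P1 e
  · by_cases hd : P1 d
    · have h1 := N_pos he.ne_zero
      have h2 := one_le_N hd.ne_zero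
      have h3 : ‖alph o e * bet o d‖ ≤ N d ^ 4 := by
        rw [norm_mul]
        exact (mul_le_of_le_one_left (norm_nonneg _) (norm_alph_le o e)).trans
          ((norm_bet_le o d).trans ((st_ab_le_N hd.ne_zero).trans (le_self_pow₀ h2 (by norm_num))))
      rw [stZ_eq he, stZ_eq hd, N_mul, N_pow]
      refine (div_le_div_of_nonneg_right h3 (sq_nonneg _)).trans_eq ?_
      field_simp
    · rw [st_bet o hd, mul_zero, norm_zero, zero_div]
      exact mul_nonneg (stZ_nonneg _) (stZ_nonneg _)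
  · rw [st_alph o he, zero_mul, norm_zero, zero_div]
    exact mul_nonneg (stZ_nonneg _) (stZ_nonneg _)

theorem st_norm_Wt (X t x : ℝ) : ‖Wt X t x‖ = w (x / X) := by
  rw [Wt, norm_mul, mul_comm I, norm_exp_ofReal_mul_I, mul_one, norm_real,
    Real.norm_of_nonneg (st_w_pos _).le]

theorem st_Wt_mul {X m x : ℝ} (hm : 0 < m) (hx : 0 < x) (t : ℝ) :
    Wt X t (m * x) = cexp (I * ((t * Real.log m : ℝ) : ℂ)) * Wt (X / m) t x := by
  rw [Wt, Wt, Real.log_mul hm.ne' hx.ne', mul_add, ofReal_add, mul_add, Complex.exp_add,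
    div_div_eq_mul_div, mul_comm x m]
  ring

/-- Series with a size condition converge against the weight. -/
theorem st_summable {J : Type} {a : J → ℂ} {n : J → ℝ} (h1 : ∀ j, a j ≠ 0 → 1 ≤ n j)
    (h2 : Summable fun j => ‖a j‖ / n j ^ 2) {X : ℝ} (hX : 0 < X) (t : ℝ) :
    Summable fun j => a j * Wt X t (n j) := by
  refine (h2.mul_left (Real.exp ((-2) ^ 2 / 4) * X ^ 2)).of_norm_bounded fun j => ?_
  by_cases h : a j = 0
  · simp [h]
  have h3 := one_pos.trans_le (h1 j h)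
  have h4 := P026.w_le_rpow (-2) (div_pos h3 hX)
  rw [norm_mul, st_norm_Wt]
  refine (mul_le_mul_of_nonneg_left h4 (norm_nonneg _)).trans_eq ?_
  rw [Real.rpow_neg (div_pos h3 hX).le, Real.rpow_two]
  field_simp

theorem st_one_le {o : Bool} {e d : R F} (h : alph o e * bet o d ≠ 0) : 1 ≤ N (e * d ^ 3) :=
  one_le_N (mul_ne_zero (alph_ne_zero (left_ne_zero_of_mul h)).ne_zero
    (pow_ne_zero 3 (bet_ne_zero (right_ne_zero_of_mul h)).ne_zero))

/-- Size of the primal series. -/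
theorem sz_primal (o : Bool) {G : R F → ℂ} {B : ℝ} (hG : ∀ x, ‖G x‖ ≤ B) :
    ∃ Ca : ℝ, Sz (fun p : R F × R F => alph o p.1 * bet o p.2 * G (p.1 * p.2 ^ 3))
      (fun p => N (p.1 * p.2 ^ 3)) Ca := by
  refine ⟨_, fun p h => st_one_le (left_ne_zero_of_mul h), ?_, le_rfl⟩
  refine (stZ_two.mul_left B).of_nonneg_of_le (fun p => by positivity) fun p => ?_
  rw [norm_mul, mul_comm, mul_div_assoc]
  exact mul_le_mul (hG _) (st_pt o _ _) (by positivity) ((norm_nonneg _).trans (hG 0))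

theorem st_norm_sq (o : Bool) {G : R F → ℂ} {B : ℝ} (hG : ∀ x, ‖G x‖ ≤ B) (Y t : ℝ) (e : R F) :
    ‖alph o e * G e * W Y t e‖ ≤ B * (if P1 e then N e ^ (0 : ℝ) * w (N e / Y) else 0) := by
  split_ifs with h
  · rw [norm_mul, norm_mul, norm_W, Real.rpow_zero, one_mul]
    refine mul_le_mul_of_nonneg_right ?_ (st_w_pos _).le
    exact (mul_le_of_le_one_left (norm_nonneg _) (norm_alph_le o e)).trans (hG e)
  · simp [st_alph o h]
theorem summable_Tsq (o : Bool) {G : R F → ℂ} {B : ℝ} (hG : ∀ x, ‖G x‖ ≤ B) {Y : ℝ} (hY : 0 < Y)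
    (t : ℝ) : Summable (fun e : R F => alph o e * G e * W Y t e) :=
  ((summable_w 0 hY).mul_left B).of_norm_bounded (st_norm_sq o hG Y t)
theorem summable_Tth (o : Bool) {G : R F → ℂ} {B : ℝ} (hG : ∀ x, ‖G x‖ ≤ B) {Y : ℝ} (hY : 0 < Y)
    (t : ℝ) : Summable (fun p : R F × R F =>
      alph o p.1 * bet o p.2 * G (p.1 * p.2 ^ 3) * W Y t (p.1 * p.2 ^ 3)) :=
  let ⟨_, h1, h2, _⟩ := sz_primal o hG
  st_summable h1 h2 hY t
theorem Tsq_congr (o : Bool) {G H : R F → ℂ} (h : ∀ e, P0 e → G e = H e) (Y t : ℝ) :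
    Tsq o G Y t = Tsq o H Y t := by
  refine tsum_congr fun e => ?_
  by_cases he : P0 e
  · rw [h e he]
  · simp [alph, he]
theorem Tth_congr (o : Bool) {G H : R F → ℂ} (h : ∀ e, P1 e → G e = H e) (Y t : ℝ) :
    Tth o G Y t = Tth o H Y t := by
  refine tsum_congr fun p => ?_
  by_cases he : P1 p.1
  · by_cases hd : P1 p.2
    · rw [h _ (he.mul (hd.pow 3))]
    · simp [st_bet o hd]
  · simp [st_alph o he]
theorem Tsq_const_mul (o : Bool) (z : ℂ) (G : R F → ℂ) (Y t : ℝ) :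
    Tsq o (fun e => z * G e) Y t = z * Tsq o G Y t := by
  rw [Tsq, Tsq, ← tsum_mul_left]
  exact tsum_congr fun e => by ring
theorem Tth_const_mul (o : Bool) (z : ℂ) (G : R F → ℂ) (Y t : ℝ) :
    Tth o (fun e => z * G e) Y t = z * Tth o G Y t := by
  rw [Tth, Tth, ← tsum_mul_left]
  exact tsum_congr fun e => by ring
theorem Tsq_sum (o : Bool) {ι : Type} (s : Finset ι) {G : ι → R F → ℂ} {B : ℝ}
    (hG : ∀ i ∈ s, ∀ x, ‖G i x‖ ≤ B) {Y : ℝ} (hY : 0 < Y) (t : ℝ) :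
    Tsq o (fun e => ∑ i ∈ s, G i e) Y t = ∑ i ∈ s, Tsq o (G i) Y t := by
  unfold Tsq
  rw [← Summable.tsum_finsetSum fun i hi => summable_Tsq o (hG i hi) hY t]
  exact tsum_congr fun e => by rw [Finset.mul_sum, Finset.sum_mul]
theorem Tth_sum (o : Bool) {ι : Type} (s : Finset ι) {G : ι → R F → ℂ} {B : ℝ}
    (hG : ∀ i ∈ s, ∀ x, ‖G i x‖ ≤ B) {Y : ℝ} (hY : 0 < Y) (t : ℝ) :
    Tth o (fun e => ∑ i ∈ s, G i e) Y t = ∑ i ∈ s, Tth o (G i) Y t := by
  unfold Tth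
  rw [← Summable.tsum_finsetSum fun i hi => summable_Tth o (hG i hi) hY t]
  exact tsum_congr fun e => by rw [Finset.mul_sum, Finset.sum_mul]
theorem Tsq_triv (A : ℝ) (hA : 1 ≤ A) : ∃ C : ℝ, 0 < C ∧ ∀ (o : Bool) (G : R F → ℂ), Bd1 G →
    ∀ Y t : ℝ, 0 < Y → ‖Tsq o G Y t‖ ≤ C * (if Y ≤ 1 then Y ^ A else Y) := by
  obtain ⟨C1, h1, H1⟩ := tsum_w_le (F := F) (k := 0) (by norm_num)
  obtain ⟨C2, h2, H2⟩ := tsum_w_small (F := F) 0 A
  refine ⟨C1 + C2, by positivity, fun o G hG Y t hY => ?_⟩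
  have h : ‖Tsq o G Y t‖ ≤ ∑' c : R F, (if P1 c then N c ^ (0 : ℝ) * w (N c / Y) else 0) :=
    tsum_of_norm_bounded (summable_w 0 hY).hasSum fun e => by
      simpa only [one_mul] using st_norm_sq o hG Y t e
  split_ifs with hY1
  · have := Real.rpow_pos_of_pos hY A
    nlinarith [H2 Y hY hY1]
  · have := H1 Y hY
    rw [zero_add, Real.rpow_one] at this
    nlinarith
theorem st_fiber (o : Bool) {G : R F → ℂ} {B : ℝ} (hG : ∀ x, ‖G x‖ ≤ B) {Y : ℝ} (hY : 0 < Y)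
    (t : ℝ) {m : ℝ} (hm : 0 < m) (z : ℂ) :
    HasSum (fun e : R F => z * (alph o e * G e * Wt Y t (m * N e)))
      (z * cexp (I * ((t * Real.log m : ℝ) : ℂ)) * Tsq o G (Y / m) t) := by
  have h := (summable_Tsq o hG (div_pos hY hm) t).hasSum.mul_left
    (z * cexp (I * ((t * Real.log m : ℝ) : ℂ)))
  refine (congrArg (HasSum · _) (funext fun e => ?_)).mp h
  by_cases he : P1 e
  · rw [st_Wt_mul hm (N_pos he.ne_zero), W_eq_Wt]
    ring
  · simp [st_alph o he]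
/-- Expanding the cube part. -/
theorem Tth_hasSum (o : Bool) {G : R F → ℂ} (hG : Bd1 G) {Y : ℝ} (hY : 0 < Y) (t : ℝ) :
    HasSum (fun d : R F => bet o d * nit t (d ^ 3) * Tsq o (fun e => G (e * d ^ 3)) (Y / N d ^ 3) t)
      (Tth o G Y t) := by
  have h := (Equiv.prodComm (R F) (R F)).hasSum_iff.2 (summable_Tth o hG hY t).hasSum
  refine h.prod_fiberwise fun d => ?_
  by_cases hd : P1 d
  · have h1 := st_fiber o (G := fun e => G (e * d ^ 3)) (fun x => hG _) hY t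
      (N_pos (pow_ne_zero 3 hd.ne_zero)) (bet o d)
    rw [← N_pow]
    refine (congrArg (HasSum · _) (funext fun e => ?_)).mp h1
    simp only [Function.comp, Equiv.prodComm_apply, Prod.swap, W_eq_Wt, N_mul, mul_comm (N e)]
    ring
  · simp [st_bet o hd]
theorem st_term_le {C A Y t : ℝ} (hC : 0 < C) (hA : 1 ≤ A) (hY : 0 < Y) (o : Bool) (d : R F)
    {z : ℂ}
    (hz : d ≠ 0 → ‖z‖ ≤ C * (if Y / N d ^ 3 ≤ 1 then (Y / N d ^ 3) ^ A else Y / N d ^ 3)) :
    ‖bet o d * nit t (d ^ 3) * z‖ ≤ C * (if Y ≤ 1 then Y ^ A else Y) * stZ d := by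
  by_cases hP : P1 d
  swap
  · simp [st_bet o hP, stZ, hP]
  have hd := hP.ne_zero
  have h1 := one_le_N hd
  have h0 := N_pos hd
  have h3 : 1 ≤ N d ^ 3 := one_le_pow₀ h1
  have key : (if Y / N d ^ 3 ≤ 1 then (Y / N d ^ 3) ^ A else Y / N d ^ 3) ≤
      (if Y ≤ 1 then Y ^ A else Y) / N d ^ 3 := by
    by_cases hY1 : Y ≤ 1
    · rw [if_pos hY1, if_pos ((div_le_self hY.le h3).trans hY1),
        Real.div_rpow hY.le (by positivity)]
      refine div_le_div_of_nonneg_left (Real.rpow_pos_of_pos hY A).le (by positivity) ?_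
      simpa using Real.rpow_le_rpow_of_exponent_le h3 hA
    · rw [if_neg hY1]
      split_ifs with h
      · simpa using Real.rpow_le_rpow_of_exponent_ge (by positivity) h hA
      · exact le_rfl
  rw [norm_mul, norm_mul, norm_nit, mul_one, stZ_eq hP]
  calc ‖bet o d‖ * ‖z‖ ≤ N d * (C * ((if Y ≤ 1 then Y ^ A else Y) / N d ^ 3)) :=
        mul_le_mul ((norm_bet_le o d).trans (st_ab_le_N hd))
          ((hz hd).trans (mul_le_mul_of_nonneg_left key hC.le)) (norm_nonneg _) h0.le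
    _ = _ := by field_simp
theorem Tth_triv (A : ℝ) (hA : 1 ≤ A) : ∃ C : ℝ, 0 < C ∧ ∀ (o : Bool) (G : R F → ℂ), Bd1 G →
    ∀ Y t : ℝ, 0 < Y → ‖Tth o G Y t‖ ≤ C * (if Y ≤ 1 then Y ^ A else Y) := by
  obtain ⟨C, hC, H⟩ := Tsq_triv (F := F) A hA
  have h0 : 0 ≤ ∑' c : R F, stZ c := tsum_nonneg stZ_nonneg
  refine ⟨C * (1 + ∑' c : R F, stZ c), by positivity, fun o G hG Y t hY => ?_⟩
  have hb : 0 < (if Y ≤ 1 then Y ^ A else Y) := by
    split_ifs
    · exact Real.rpow_pos_of_pos hY A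
    · exact hY
  have h := (Tth_hasSum o hG hY t).norm_le_of_bounded
    (stZ_summable.hasSum.mul_left (C * (if Y ≤ 1 then Y ^ A else Y))) fun d =>
      st_term_le hC hA hY o d fun hd =>
        H o _ (fun x => hG _) _ t (div_pos hY (pow_pos (N_pos hd) 3))
  nlinarith [mul_pos hC hb]
/-- Moebius inversion for a sequence supported on normalised elements. -/
theorem st_moebius {g : R F → ℂ} {C : ℝ} (h0 : ∀ n, ¬ P1 n → g n = 0)
    (hg : ∀ n, ‖g n‖ ≤ C * stZ n) :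
    HasSum (fun p : R F × R F => mu0 p.1 * g (p.1 * p.2)) (g 1) := by
  have h1 : Summable (fun p : R F × R F => mu0 p.1 * g (p.1 * p.2)) := by
    refine (stZ_two.mul_left C).of_norm_bounded fun p => ?_
    by_cases ha : P1 p.1
    · by_cases hb : P1 p.2
      · rw [norm_mul, stZ_eq ha, stZ_eq hb, ← mul_inv, ← mul_pow, ← N_mul, ← stZ_eq (ha.mul hb)]
        exact (mul_le_of_le_one_left (norm_nonneg _) (norm_mu0_le _)).trans (hg _)
      · simp [h0 _ fun h => hb (ha.of_mul h), stZ, hb]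
    · simp [show mu0 p.1 = 0 from if_neg fun h => ha h.1, stZ, ha]
  have h2 := ((Equiv.sigmaFiberEquiv fun p : R F × R F => p.1 * p.2).hasSum_iff.2
    h1.hasSum).sigma (g := fun n => if n = 1 then g 1 else 0) fun n => by
      by_cases hn : P1 n
      · have e : (if n = 1 then g 1 else 0) = ∑ d ∈ divs n, mu0 d * g n := by
          rw [← Finset.sum_mul, sum_mu0_P1 hn]
          split_ifs with h <;> simp [h]
        have h3 : HasSum (fun d : R F => if d ∣ n then mu0 d * g n else 0)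
            (∑ d ∈ divs n, mu0 d * g n) := by
          rw [← Finset.sum_congr rfl fun d (hd : d ∈ divs n) =>
            (if_pos ((mem_divs hn.ne_zero).1 hd).2 :
              (if d ∣ n then mu0 d * g n else 0) = mu0 d * g n)]
          refine hasSum_sum_of_ne_finset_zero fun d hd => ?_
          split_ifs with h
          · rw [show mu0 d = 0 from if_neg fun k => hd ((mem_divs hn.ne_zero).2 ⟨k, h⟩), zero_mul]
          · rfl
        have h4 : Function.Injective (fun a : {p : R F × R F // p.1 * p.2 = n} => a.1.1) := by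
          rintro ⟨⟨a, b⟩, h⟩ ⟨⟨a', b'⟩, h'⟩ (rfl : a = a')
          obtain rfl : b = b' := mul_left_cancel₀
            (left_ne_zero_of_mul (h.trans_ne hn.ne_zero)) (h.trans h'.symm)
          rfl
        rw [e]
        refine (congrArg (HasSum · _) (funext fun a => ?_)).mp ((h4.hasSum_iff fun d hd =>
          if_neg fun ⟨b, hb⟩ => hd ⟨⟨(d, b), hb.symm⟩, rfl⟩).2 h3)
        obtain ⟨⟨a, b⟩, rfl⟩ := a
        exact if_pos (dvd_mul_right _ _)
      · rw [if_neg fun h : n = 1 => hn (h ▸ P1.one)]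
        refine (congrArg (HasSum · _) (funext fun a => ?_)).mp hasSum_zero
        obtain ⟨⟨a, b⟩, rfl⟩ := a
        exact ((congrArg (mu0 a * ·) (h0 _ hn)).trans (mul_zero _)).symm
  rw [← h2.unique (hasSum_ite_eq 1 (g 1))]
  exact h1.hasSum
/-- Removing the cube part. -/
theorem Tsq_hasSum (o : Bool) {G : R F → ℂ} (hG : Bd1 G) {Y : ℝ} (hY : 0 < Y) (t : ℝ) :
    HasSum (fun d : R F =>
      mu0 d * bet o d * nit t (d ^ 3) * Tth o (fun e => G (e * d ^ 3)) (Y / N d ^ 3) t)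
      (Tsq o G Y t) := by
  obtain ⟨C, hC, H⟩ := Tsq_triv (F := F) 1 le_rfl
  have h := st_moebius (g := fun d =>
    bet o d * nit t (d ^ 3) * Tsq o (fun e => G (e * d ^ 3)) (Y / N d ^ 3) t)
    (fun n hn => by simp [st_bet o hn]) fun d => st_term_le hC le_rfl hY o d fun hd =>
      H o _ (fun x => hG _) _ t (div_pos hY (pow_pos (N_pos hd) 3))
  have e : bet o (1 : R F) * nit t ((1 : R F) ^ 3) * Tsq o (fun e => G (e * 1 ^ 3))
      (Y / N (1 : R F) ^ 3) t = Tsq o G Y t := by simp [bet_one, nit, N_unit isUnit_one]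
  rw [e] at h
  refine h.prod_fiberwise fun d => ?_
  by_cases hd : P0 d
  · have h1 := (Tth_hasSum o (G := fun e => G (e * d ^ 3)) (fun x => hG _)
      (div_pos hY (pow_pos (N_pos hd.ne_zero) 3)) t).mul_left (mu0 d * bet o d * nit t (d ^ 3))
    refine (congrArg (HasSum · _) (funext fun c => ?_)).mp h1
    by_cases hc : P1 c
    · simp only [bet_mul o hd.1, mul_pow, N_mul, div_div, mul_assoc, mul_comm (c ^ 3),
        nit_mul t (pow_ne_zero 3 hd.ne_zero) (pow_ne_zero 3 hc.ne_zero)]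
      ring
    · simp [bet_mul o hd.1, st_bet o hc]
  · simp [mu0, hd]

theorem st_dual_pt {Sg : Type} {S : Set Sg} {n : Sg → ℝ} (h1 : ∀ σ ∈ S, 1 ≤ n σ) (o : Bool)
    {β : Sg → ℂ} {G : Sg → R F → R F → ℂ} {B : ℝ} (hβ : ∀ σ, β σ ≠ 0 → σ ∈ S)
    (hB : ∀ σ, ‖β σ‖ ≤ B * n σ ^ (1 / 6 : ℝ)) (hG : ∀ σ e d, ‖G σ d e‖ ≤ 1) (x : Sg × R F × R F) :
    ‖β x.1 * alph o x.2.1 * bet o x.2.2 * G x.1 x.2.2 x.2.1‖ / (n x.1 * N (x.2.1 * x.2.2 ^ 3)) ^ 2 ≤
      |B| * (S.indicator (fun σ => n σ ^ (-(1 : ℝ))) x.1 * (stZ x.2.1 * stZ x.2.2)) := by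
  obtain ⟨σ, e, d⟩ := x
  have h0 := mul_nonneg (stZ_nonneg e) (stZ_nonneg d)
  by_cases h : β σ = 0
  · simp only [h, zero_mul, norm_zero, zero_div]
    exact mul_nonneg (abs_nonneg B) (mul_nonneg (Set.indicator_nonneg (fun a ha =>
      Real.rpow_nonneg (zero_le_one.trans (h1 a ha)) _) _) h0)
  have h2 := h1 σ (hβ σ h)
  have h3 := one_pos.trans_le h2
  have h4 : ‖β σ‖ ≤ |B| * n σ := (hB σ).trans (mul_le_mul (le_abs_self B) (by
    simpa using Real.rpow_le_rpow_of_exponent_le h2 (by norm_num : (1 / 6 : ℝ) ≤ 1))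
      (Real.rpow_nonneg h3.le _) (abs_nonneg B))
  simp only [Set.indicator_of_mem (hβ σ h), Real.rpow_neg_one]
  calc _ = ‖G σ d e‖ * (‖β σ‖ / n σ ^ 2 * (‖alph o e * bet o d‖ / N (e * d ^ 3) ^ 2)) := by
        simp only [norm_mul]
        ring
    _ ≤ 1 * (|B| * n σ / n σ ^ 2 * (stZ e * stZ d)) := by
        gcongr
        exacts [hG σ e d, st_pt o e d]
    _ = _ := by field_simp

theorem st_dual_one {Sg : Type} {S : Set Sg} {n : Sg → ℝ} (h1 : ∀ σ ∈ S, 1 ≤ n σ) (o : Bool)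
    {β : Sg → ℂ} {G : Sg → R F → R F → ℂ} (hβ : ∀ σ, β σ ≠ 0 → σ ∈ S) (x : Sg × R F × R F)
    (h : β x.1 * alph o x.2.1 * bet o x.2.2 * G x.1 x.2.2 x.2.1 ≠ 0) :
    1 ≤ n x.1 * N (x.2.1 * x.2.2 ^ 3) := by
  have h2 := left_ne_zero_of_mul h
  rw [mul_assoc] at h2
  exact one_le_mul_of_one_le_of_one_le (h1 _ (hβ _ (left_ne_zero_of_mul h2)))
    (st_one_le (right_ne_zero_of_mul h2))

theorem st_dual_maj {Sg : Type} {S : Set Sg} {n : Sg → ℝ} (h1 : ∀ σ ∈ S, 1 ≤ n σ)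
    (hs : Summable (S.indicator fun σ => n σ ^ (-(1 : ℝ)))) : Summable fun x : Sg × R F × R F =>
      S.indicator (fun σ => n σ ^ (-(1 : ℝ))) x.1 * (stZ x.2.1 * stZ x.2.2) :=
  hs.mul_of_nonneg stZ_two (Set.indicator_nonneg fun a ha =>
    Real.rpow_nonneg (zero_le_one.trans (h1 a ha)) _)
    fun p => mul_nonneg (stZ_nonneg p.1) (stZ_nonneg p.2)

/-- Size of the dual series. -/
theorem sz_dual {Sg : Type} (S : Set Sg) (n : Sg → ℝ) (h1 : ∀ σ ∈ S, 1 ≤ n σ)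
    (hs : Summable (S.indicator fun σ => n σ ^ (-(1 : ℝ)))) : ∃ C : ℝ, 0 < C ∧
    ∀ (o : Bool) (β : Sg → ℂ) (G : Sg → R F → R F → ℂ) (B : ℝ), 0 ≤ B → (∀ σ, β σ ≠ 0 → σ ∈ S) →
      (∀ σ, ‖β σ‖ ≤ B * n σ ^ (1 / 6 : ℝ)) → (∀ σ e d, ‖G σ d e‖ ≤ 1) →
      Sz (fun x : Sg × R F × R F => β x.1 * alph o x.2.1 * bet o x.2.2 * G x.1 x.2.2 x.2.1)
        (fun x => n x.1 * N (x.2.1 * x.2.2 ^ 3)) (C * B) := by
  have hm := st_dual_maj (F := F) h1 hs
  refine ⟨|∑' x : Sg × R F × R F,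
    S.indicator (fun σ => n σ ^ (-(1 : ℝ))) x.1 * (stZ x.2.1 * stZ x.2.2)| + 1, by positivity,
    fun o β G B h0 hβ hB hG => ?_⟩
  have h2 := (hm.mul_left |B|).of_nonneg_of_le (fun x => by positivity)
    (st_dual_pt h1 o hβ hB hG)
  refine ⟨st_dual_one h1 o hβ, h2,
    (h2.tsum_le_tsum (st_dual_pt h1 o hβ hB hG) (hm.mul_left |B|)).trans ?_⟩
  rw [tsum_mul_left, abs_of_nonneg h0, mul_comm]
  exact mul_le_mul_of_nonneg_right ((le_abs_self _).trans (le_add_of_nonneg_right zero_le_one)) h0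
/-- The dual sum in terms of Tsq. -/
theorem dual_hasSum {Sg : Type} (S : Set Sg) (n : Sg → ℝ) (h1 : ∀ σ ∈ S, 1 ≤ n σ)
    (hs : Summable (S.indicator fun σ => n σ ^ (-(1 : ℝ)))) (o : Bool) {β : Sg → ℂ}
    {G : Sg → R F → R F → ℂ} {B : ℝ} (hβ : ∀ σ, β σ ≠ 0 → σ ∈ S)
    (hB : ∀ σ, ‖β σ‖ ≤ B * n σ ^ (1 / 6 : ℝ)) (hG : ∀ σ e d, ‖G σ d e‖ ≤ 1) {X : ℝ} (hX : 0 < X)
    (t : ℝ) :
    HasSum (fun p : Sg × R F => β p.1 * bet o p.2 *
        cexp (I * ((t * Real.log (n p.1 * N p.2 ^ 3) : ℝ) : ℂ)) *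
          Tsq o (G p.1 p.2) (X / (n p.1 * N p.2 ^ 3)) t)
      (∑' x : Sg × R F × R F, β x.1 * alph o x.2.1 * bet o x.2.2 * G x.1 x.2.2 x.2.1 *
        Wt X t (n x.1 * N (x.2.1 * x.2.2 ^ 3))) := by
  have h2 := st_summable (st_dual_one h1 o hβ) (((st_dual_maj h1 hs).mul_left |B|).of_nonneg_of_le
    (fun x => by positivity) (st_dual_pt h1 o hβ hB hG)) hX t
  have h3 := ((Equiv.prodAssoc Sg (R F) (R F)).trans
    ((Equiv.refl Sg).prodCongr (Equiv.prodComm (R F) (R F)))).hasSum_iff.2 h2.hasSum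
  refine h3.prod_fiberwise fun p => ?_
  obtain ⟨σ, d⟩ := p
  by_cases h : β σ = 0
  · simp [h, hasSum_zero]
  by_cases hd : P1 d
  · have h4 := st_fiber o (G := G σ d) (fun x => hG σ x d) hX t
      (mul_pos (one_pos.trans_le (h1 σ (hβ σ h))) (pow_pos (N_pos hd.ne_zero) 3)) (β σ * bet o d)
    refine (congrArg (HasSum · _) (funext fun e => ?_)).mp h4
    show _ = β σ * alph o e * bet o d * G σ d e * Wt X t (n σ * N (e * d ^ 3))
    rw [N_mul, N_pow, mul_comm (N e), ← mul_assoc (n σ)]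
    ring
  · simp [st_bet o hd, hasSum_zero]

end Vale.Agent.P319B
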