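import Vale.Agent.P319B.V0F
import Vale.Agent.P319B.Mel
import Vale.Agent.P319B.Struct

/-! The individual bound. -/

namespace Vale.Agent.P319B

open Complex NumberField
open scoped Classical ComplexConjugate
open Vale.Agent.P026 (w kk fk)

variable {F : Type} [Field F] [NumberField F] [Ctx F]

theorem ib_ab (r : R F) : ab r = N r ^ (1 / 2 : ℝ) := Real.sqrt_eq_rpow _

/-- The bound for one class. -/
theorem ib_cls (T : Theta F) (o : Bool) : ∃ C : ℝ, 0 < C ∧ ∀ (q : R F) (G : R F → ℂ) (κ : Cl F),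
    q ≠ 0 → Per q G → Bd1 G → ∀ Y t : ℝ, N q ^ 2 ≤ Y →
      ‖Tth o (fun x => clsI κ x * G x) Y t‖ ≤ C * (1 + |t|) ^ (8 * rr F) * N q * √Y := by
  obtain ⟨C2, hC2, hV⟩ := V2 (rr F) 0 2 le_rfl
  obtain ⟨Cw, hCw, hw⟩ := norm_tsum_Wt_le
  obtain ⟨Cd, hCd, hd⟩ := card_dvs_le (F := F) (e := 1 / 2) (by norm_num)
  obtain ⟨C, S, n, hC, hn1, hn2, hF⟩ := V0F T
  obtain ⟨Cs, hCs, hsz⟩ := sz_dual (F := F) S n hn1 (hn2 1 one_pos)
  refine ⟨Cd * (√(C2 * (Cw ^ 2 + 1 + C ^ 8)) * (Cs * C)), by positivity,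
    fun q G κ hq hP hB Y t hY => ?_⟩
  have hq1 := one_le_N hq
  have hY0 : 0 < Y := lt_of_lt_of_le (by positivity) hY
  have hab := ab_nonneg q
  obtain ⟨Fi, β, Gd, hG, hi⟩ := hF o q κ {1} G hq hP hB
    (fun h hh => by rw [Set.mem_singleton_iff.1 hh]; exact ⟨P0.one, isCoprime_one_left⟩)
    (fun h hh h' hh' => by rw [Set.mem_singleton_iff.1 hh, Set.mem_singleton_iff.1 hh'])
    (Or.inl Set.subsingleton_singleton)
  have hb : ∀ i ∈ dvs q, ∀ x, ‖clsI κ x * Fi i x * chi 1 x 1‖ ≤ ab q := fun i hi' x => by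
    rw [chi_one_right, mul_one, norm_mul]
    exact (mul_le_of_le_one_left (norm_nonneg _) (norm_clsI_le κ x)).trans ((hi i hi').1 x)
  have e1 : Tth o (fun x => clsI κ x * G x) Y t =
      ∑ i ∈ dvs q, Tth o (fun x => clsI κ x * Fi i x * chi 1 x 1) Y t := by
    rw [← Tth_sum o (dvs q) hb hY0 t]
    refine Tth_congr o (fun x hx => ?_) Y t
    by_cases hc : cls (x : F) = κ
    · rw [hG x hx hc, Finset.mul_sum]
      exact Finset.sum_congr rfl fun i _ => by rw [chi_one_right, mul_one]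
    · rw [clsI, if_neg hc]
      simp
  have e2 : ∀ i ∈ dvs q, ‖Tth o (fun x => clsI κ x * Fi i x * chi 1 x 1) Y t‖ ≤
      √(C2 * (Cw ^ 2 + 1 + C ^ 8)) * (Cs * C) * (1 + |t|) ^ (8 * rr F) * ab q * √Y := by
    intro i hi'
    obtain ⟨-, h2, h3, h4, h5⟩ := hi i hi'
    obtain ⟨Q, ε, hQ0, hQ, hε, hfe⟩ := h5 1 rfl
    rw [N_one, mul_one] at hQ
    have hz := hsz (!o) (β i) (fun σ d e => Gd i σ d e * quad (e * d ^ 3) 1) (C * ab q)
      (by positivity) h2 h3 (fun σ e d => by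
        rw [quad_one_right, mul_one]; exact (h4 σ d).2 e)
    have key := hV ({()} : Finset Unit)
      (fun _ (p : R F × R F) => alph o p.1 * bet o p.2 *
        (clsI κ (p.1 * p.2 ^ 3) * Fi i (p.1 * p.2 ^ 3) * chi 1 (p.1 * p.2 ^ 3) 1))
      (fun p => N (p.1 * p.2 ^ 3))
      (fun _ (x : (R F × Cl F) × R F × R F) => β i x.1 * alph (!o) x.2.1 * bet (!o) x.2.2 *
        (Gd i x.1 x.2.2 x.2.1 * quad (x.2.1 * x.2.2 ^ 3) 1))
      (fun x => n x.1 * N (x.2.1 * x.2.2 ^ 3)) (fun _ => Q) (fun _ => ε) (C * N q) Y 1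
      ((Cw * (Cs * (C * ab q))) ^ 2) (Cs * (C * ab q)) t hY0 le_rfl (by positivity)
      (by positivity)
      (fun _ _ => ⟨sz_primal o (G := fun x => clsI κ x * Fi i x * chi 1 x 1) (hb i hi'), hz,
        hQ0, hQ, hε, hfe⟩)
      (fun X τ hR hR' => by
        obtain rfl : X = 1 := le_antisymm hR' hR
        rw [Finset.sum_singleton, pow_zero, mul_one, mul_one]
        have h6 := hw _ _ _ hz 1 τ one_pos
        rw [one_pow, mul_one] at h6
        exact pow_le_pow_left₀ (norm_nonneg _) h6 2)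
    rw [Finset.sum_singleton, Real.log_one, Finset.card_singleton] at key
    refine le_of_sq_le_sq (le_trans key ?_) (by positivity)
    have q0 : (C * N q) ^ 2 / (Y * 1) ≤ C ^ 2 := by
      rw [mul_one, div_le_iff₀ hY0, mul_pow]
      exact mul_le_mul_of_nonneg_left hY (sq_nonneg _)
    have q1 : ((C * N q) ^ 2 / (Y * 1)) ^ (2 * 2) ≤ C ^ 8 :=
      (pow_le_pow_left₀ (by positivity) q0 _).trans (le_of_eq (by ring))
    have q3 : (Cw * (Cs * (C * ab q))) ^ 2 * (1 + 0) ^ 2 + ((1 : ℕ) : ℝ) * (Cs * (C * ab q)) ^ 2 *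
        (1 + 1 ^ 3 * ((C * N q) ^ 2 / (Y * 1)) ^ (2 * 2)) ≤
          (Cw ^ 2 + 1 + C ^ 8) * (Cs * (C * ab q)) ^ 2 := by
      have q4 := mul_le_mul_of_nonneg_left q1 (sq_nonneg (Cs * (C * ab q)))
      push_cast
      nlinarith
    refine (mul_le_mul_of_nonneg_left q3 (by positivity)).trans (le_of_eq ?_)
    simp only [mul_pow]
    rw [Real.sq_sqrt (by positivity), Real.sq_sqrt hY0.le, ← pow_mul,
      show 0 + 8 * 2 * rr F = 8 * rr F * 2 by ring]
    ring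
  rw [e1]
  refine (norm_sum_le _ _).trans ((Finset.sum_le_card_nsmul _ _ _ e2).trans ?_)
  rw [nsmul_eq_mul]
  have hc : ((dvs q).card : ℝ) ≤ Cd * ab q := by
    rw [ib_ab]
    exact hd q hq
  refine (mul_le_mul_of_nonneg_right hc (by positivity)).trans (le_of_eq ?_)
  rw [← ab_sq]
  ring

/-- The Voronoi bound for a long sum. -/
theorem ib_vor (T : Theta F) (o : Bool) : ∃ C : ℝ, 0 < C ∧ ∀ (q : R F) (G : R F → ℂ),
    q ≠ 0 → Per q G → Bd1 G → ∀ Y t : ℝ, N q ^ 2 ≤ Y →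
      ‖Tth o G Y t‖ ≤ C * (1 + |t|) ^ (8 * rr F) * N q * √Y := by
  obtain ⟨C, hC, h⟩ := ib_cls T o
  have hc : (0 : ℝ) < Fintype.card (Cl F) := Nat.cast_pos.2 Fintype.card_pos
  refine ⟨Fintype.card (Cl F) * C, by positivity, fun q G hq hP hB Y t hY => ?_⟩
  have hq1 := one_le_N hq
  have hY0 : 0 < Y := lt_of_lt_of_le (by positivity) hY
  have e1 : Tth o G Y t = ∑ κ : Cl F, Tth o (fun x => clsI κ x * G x) Y t := by
    rw [← Tth_sum o Finset.univ (G := fun κ x => clsI κ x * G x) (B := 1) (fun κ _ x => by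
      rw [norm_mul]; exact mul_le_one₀ (norm_clsI_le κ x) (norm_nonneg _) (hB x)) hY0 t]
    refine Tth_congr o (fun x _ => ?_) Y t
    rw [← Finset.sum_mul, sum_clsI, one_mul]
  rw [e1]
  refine (norm_sum_le _ _).trans ((Finset.sum_le_card_nsmul _ _ _
    fun κ _ => h q G κ hq hP hB Y t hY).trans (le_of_eq ?_))
  rw [nsmul_eq_mul, Finset.card_univ]
  ring

/-- The bound for the full theta sum. -/
theorem ib_th (T : Theta F) (o : Bool) {e : ℝ} (he : 0 < e) : ∃ C : ℝ, 0 < C ∧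
    ∀ (q : R F) (G : R F → ℂ), q ≠ 0 → Per q G → Bd1 G → ∀ Y t : ℝ, 0 < Y →
      ‖Tth o G Y t‖ ≤ C * (1 + |t|) ^ (8 * rr F) * N q * Y ^ (1 / 2 + e) := by
  obtain ⟨C1, hC1, h1⟩ := ib_vor T o
  obtain ⟨C2, hC2, h2⟩ := Tth_triv (F := F) (1 + e) (by linarith)
  refine ⟨C2 + C1, by positivity, fun q G hq hP hB Y t hY => ?_⟩
  have hq1 := one_le_N hq
  have ht : 1 ≤ (1 + |t|) ^ (8 * rr F) := one_le_pow₀ (by linarith [abs_nonneg t])
  have triv := h2 o G hB Y t hY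
  have hp : 0 < Y ^ (1 / 2 + e) := Real.rpow_pos_of_pos hY _
  have aux : ∀ x : ℝ, 0 ≤ x → x ≤ N q * Y ^ (1 / 2 + e) →
      C2 * x ≤ (C2 + C1) * (1 + |t|) ^ (8 * rr F) * N q * Y ^ (1 / 2 + e) := by
    intro x hx h
    rw [mul_assoc ((C2 + C1) * _)]
    refine mul_le_mul (le_trans ?_ (le_mul_of_one_le_right (by positivity) ht)) h hx
      (by positivity)
    linarith
  by_cases hY1 : Y ≤ 1
  · rw [if_pos hY1] at triv
    refine triv.trans (aux _ (by positivity) ?_)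
    exact (Real.rpow_le_rpow_of_exponent_ge hY hY1 (by linarith)).trans
      (le_mul_of_one_le_left hp.le hq1)
  rw [if_neg hY1] at triv
  have hs : √Y ≤ Y ^ (1 / 2 + e) := by
    rw [Real.sqrt_eq_rpow]
    exact Real.rpow_le_rpow_of_exponent_le (not_le.1 hY1).le (by linarith)
  by_cases hY2 : N q ^ 2 ≤ Y
  · refine (h1 q G hq hP hB Y t hY2).trans ?_
    gcongr
    linarith
  · refine triv.trans (aux _ hY.le ?_)
    have h3 : √Y ≤ N q := Real.sqrt_le_iff.2 ⟨by positivity, (not_le.1 hY2).le⟩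
    calc Y = √Y * √Y := (Real.mul_self_sqrt hY.le).symm
      _ ≤ _ := mul_le_mul h3 hs (Real.sqrt_nonneg _) (by positivity)

theorem IB (T : Theta F) (o : Bool) {e : ℝ} (he : 0 < e) : ∃ (C : ℝ) (A : ℕ), 0 < C ∧
    ∀ (q : R F) (G : R F → ℂ), q ≠ 0 → Per q G → Bd1 G → ∀ Y t : ℝ, 0 < Y →
      ‖Tsq o G Y t‖ ≤ C * (1 + |t|) ^ A * N q * Y ^ (1 / 2 + e) := by
  obtain ⟨C, hC, h⟩ := ib_th T o he
  have hs := summable_N_rpow (F := F) (s := 1 + 3 * e) (by linarith)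
  have hZ : 0 ≤ ∑' c : R F, if P1 c then N c ^ (-(1 + 3 * e)) else 0 :=
    tsum_nonneg fun c => cnt_ite_nonneg (Real.rpow_nonneg (N_nonneg _) _)
  refine ⟨C * ((∑' c : R F, if P1 c then N c ^ (-(1 + 3 * e)) else 0) + 1), 8 * rr F,
    by positivity, fun q G hq hP hB Y t hY => ?_⟩
  have hq0 := N_nonneg q
  have hK : 0 ≤ C * (1 + |t|) ^ (8 * rr F) * N q * Y ^ (1 / 2 + e) := by positivity
  refine le_trans ((Tsq_hasSum o hB hY t).norm_le_of_bounded
    (hs.hasSum.mul_left (C * (1 + |t|) ^ (8 * rr F) * N q * Y ^ (1 / 2 + e))) fun d => ?_) ?_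
  · by_cases hd : P0 d
    · have hN := N_pos hd.ne_zero
      have k := h q (fun x => G (x * d ^ 3)) hq (hP.comp_mul' (pow_ne_zero 3 hd.ne_zero))
        (fun x => hB _) (Y / N d ^ 3) t (by positivity)
      rw [norm_mul, norm_mul, norm_mul, norm_nit, mul_one, if_pos hd.1]
      have k2 : ‖mu0 d‖ * ‖bet o d‖ ≤ ab d :=
        (mul_le_of_le_one_left (norm_nonneg _) (norm_mu0_le d)).trans (norm_bet_le o d)
      refine (mul_le_mul k2 k (norm_nonneg _) (ab_nonneg _)).trans (le_of_eq ?_)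
      have e1 : N d ^ (-(1 + 3 * e)) = ab d / (N d ^ 3) ^ (1 / 2 + e) := by
        rw [ib_ab, ← Real.rpow_natCast, ← Real.rpow_mul hN.le, ← Real.rpow_sub hN]
        refine congrArg _ ?_
        push_cast
        ring
      rw [e1, Real.div_rpow hY.le (by positivity)]
      ring
    · rw [not_not.1 (mt mu0_ne_zero.1 hd), zero_mul, zero_mul, zero_mul, norm_zero]
      exact mul_nonneg hK (cnt_ite_nonneg (Real.rpow_nonneg (N_nonneg _) _))
  · nlinarith

end Vale.Agent.P319B
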