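import Mathlib

/-! Definitions for the determinant symbol: orientations of finite modules. -/

namespace Vale.Agent.P319B

open scoped Classical

noncomputable section

variable {A : Type} [CommRing A] {W W' : Type} [AddCommGroup W] [Module A W] [AddCommGroup W']
  [Module A W']

/-- o is an orientation of Λ / Λ'. -/
def IsOr (ω : A) (Λ Λ' : Submodule A W) (o : W → ZMod 3) : Prop :=
  ∀ x ∈ Λ, x ∉ Λ' → o (ω • x) = o x + 1 ∧ ∀ y ∈ Λ', o (x + y) = o x
/-- The difference of two orientations. -/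
def dOr (Λ Λ' : Submodule A W) (o o' : W → ZMod 3) : ZMod 3 :=
  ∑ᶠ z : W ⧸ Λ', if z.out ∈ Λ ∧ z.out ∉ Λ' ∧ o' z.out = 0 then o z.out else 0
/-- A reference orientation. -/
def refOr (ω : A) (Λ Λ' : Submodule A W) : W → ZMod 3 :=
  if h : ∃ o, IsOr ω Λ Λ' o then h.choose else 0
/-- Gluing of orientations along Λ'. -/
def glue (Λ' : Submodule A W) (o1 o2 : W → ZMod 3) (x : W) : ZMod 3 := if x ∈ Λ' then o1 x else o2 x
/-- The cocycle of a chain. -/
def cc (ω : A) (Λ1 Λ2 Λ3 : Submodule A W) : ZMod 3 :=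
  dOr Λ1 Λ3 (refOr ω Λ1 Λ3) (glue Λ2 (refOr ω Λ2 Λ3) (refOr ω Λ1 Λ2))
/-- The transport defect of a map. -/
def trO (ω : A) (g : W →ₗ[A] W') (Λ Λ' : Submodule A W) (N N' : Submodule A W') : ZMod 3 :=
  dOr Λ Λ' (fun x => refOr ω N N' (g x)) (refOr ω Λ Λ')
/-- Λ' has finite index in Λ. -/
def Fi (Λ Λ' : Submodule A W) : Prop := Λ' ≤ Λ ∧ Λ'.toAddSubgroup.relIndex Λ.toAddSubgroup ≠ 0
/-- g induces a bijection from Λ / Λ' to N / N'. -/
def Iso (g : W →ₗ[A] W') (Λ Λ' : Submodule A W) (N N' : Submodule A W') : Prop :=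
  (∀ x ∈ Λ, g x ∈ N) ∧ (∀ x ∈ Λ, g x ∈ N' ↔ x ∈ Λ') ∧ ∀ y ∈ N, ∃ x ∈ Λ, g x - y ∈ N'
/-- Injective with finite cokernel. -/
def Ok (α : W →ₗ[A] W') : Prop := Function.Injective α ∧ Fi ⊤ (LinearMap.range α)
/-- The determinant symbol of two commuting endomorphisms. -/
def symE (ω : A) (α β : W →ₗ[A] W) : ZMod 3 :=
  trO ω α ⊤ (LinearMap.range β) (LinearMap.range α) (LinearMap.range (α * β))
    + cc ω ⊤ (LinearMap.range α) (LinearMap.range (α * β))
    - trO ω β ⊤ (LinearMap.range α) (LinearMap.range β) (LinearMap.range (α * β))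
    - cc ω ⊤ (LinearMap.range β) (LinearMap.range (α * β))
/-- The cube root of unity in a ring where 3 is invertible. -/
structure Cb (ω : A) : Prop where
  eq : ω ^ 2 + ω + 1 = 0
  three : IsUnit (3 : A)
/-- The standing assumptions on the base ring. -/
structure Base (ω : A) : Prop extends Cb ω where
  fin : ∀ m : A, m ≠ 0 → Finite (A ⧸ Ideal.span {m})

variable {S : Type} [CommRing S] [Algebra A S]

/-- The characterisation of the symbol on the units of an algebra. -/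
structure IsSym (ω : A) (s : Sˣ → Sˣ → ZMod 3) : Prop where
  mul_left : ∀ x x' y, s (x * x') y = s x y + s x' y
  mul_right : ∀ x y y', s x (y * y') = s x y + s x y'
  eq : ∀ (Λ : Submodule A S), Λ.FG → (∀ z : S, ∃ m : A, m ≠ 0 ∧ m • z ∈ Λ) → ∀ (x y : Sˣ)
    (hx : ∀ z ∈ Λ, LinearMap.mul A S x z ∈ Λ) (hy : ∀ z ∈ Λ, LinearMap.mul A S y z ∈ Λ),
    s x y = symE ω ((LinearMap.mul A S x).restrict hx) ((LinearMap.mul A S y).restrict hy)
/-- The symbol on an algebra. -/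
def symS (ω : A) (x y : S) : ZMod 3 :=
  if h : (∃ s : Sˣ → Sˣ → ZMod 3, IsSym ω s) ∧ IsUnit x ∧ IsUnit y then
    h.1.choose h.2.1.unit h.2.2.unit else 0
/-- Convergence of a sequence in the M-adic sense. -/
def Cv {K : Type} [Field K] (Kl : Subring K) (M : K) (x : ℕ → K) (l : K) : Prop :=
  ∀ k : ℕ, ∀ᶠ n in Filter.atTop, (x n - l) / M ^ k ∈ Kl

end

end Vale.Agent.P319B
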