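import Vale.Agent.P319B.Defs
import Vale.Agent.P319B.OrD

/-! The base field of the cubic reciprocity law. -/

namespace Vale.Agent.P319B

open Vale.Agent.P026

noncomputable section

/-- The Eisenstein field. -/
abbrev KE : Type := FractionRing Eis
/-- Its ring of M integers. -/
abbrev AE (M : ℕ) : Type := Rr KE M
/-- The cube root of unity. -/
def omE (M : ℕ) : AE M := ⟨algebraMap Eis KE Eis.om, 0, by
  refine ⟨Polynomial.X ^ 2 + Polynomial.X + 1, by monicity!, ?_⟩
  have h := congrArg (algebraMap Eis KE) om_sq_add
  simpa using h⟩

end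

end Vale.Agent.P319B
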