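import Vale.Agent.P319B.Defs

/-! The kernel kp and its Mellin transform. -/

namespace Vale.Agent.P319B

open Complex NumberField MeasureTheory
open scoped Classical ComplexConjugate
open Vale.Agent.P026 (w kk fk)

theorem kp_nonneg {y : ℝ} (hy : 0 ≤ y) : 0 ≤ kp y :=
  mul_nonneg (Real.rpow_nonneg hy _) (P026.kk_pos _).le
theorem kp_pos {y : ℝ} (hy : 0 < y) : 0 < kp y :=
  mul_pos (Real.rpow_pos_of_pos hy _) (P026.kk_pos _)
theorem continuous_kp : Continuous kp :=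
  (Real.continuous_rpow_const (by norm_num)).mul
    (P026.continuous_kk.comp (continuous_const.mul continuous_id))
theorem kp_kap {y : ℝ} (hy : 0 ≤ y) : kp y =
    (2 * Real.pi / P026.c0) ^ (-(2 / 3) : ℝ) * P026.kap (2 * Real.pi / P026.c0 * y) := by
  have hc := P026.c0_pos
  have h : 0 < 2 * Real.pi / P026.c0 := by positivity
  rw [kp, P026.kap, Real.mul_rpow h.le hy, ← mul_assoc, ← mul_assoc, ← Real.rpow_add h,
    neg_add_cancel, Real.rpow_zero, one_mul, ← mul_assoc, mul_div_cancel₀ _ hc.ne']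
theorem kp_le (n : ℕ) : ∃ C : ℝ, 0 < C ∧ ∀ y : ℝ, 0 < y → kp y ≤ C / y ^ n := by
  have hc := P026.c0_pos
  obtain ⟨C, hC, h⟩ := P026.kap_le n
  refine ⟨(2 * Real.pi / P026.c0) ^ (-(2 / 3) : ℝ) * (C / (2 * Real.pi / P026.c0) ^ n),
    by positivity, fun y hy => ?_⟩
  rw [kp_kap hy.le, mul_div_assoc _ _ (y ^ n), div_div, ← mul_pow]
  exact mul_le_mul_of_nonneg_left (h _ (by positivity)) (by positivity)
theorem kp_le' (n : ℕ) : ∃ C : ℝ, 0 < C ∧ ∀ y : ℝ, 0 ≤ y → kp y ≤ C / (1 + y) ^ n := by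
  obtain ⟨C0, hC0, h0⟩ := kp_le 0
  obtain ⟨C1, hC1, h1⟩ := kp_le n
  refine ⟨(C0 + C1) * 2 ^ n, by positivity, fun y hy => ?_⟩
  rcases hy.eq_or_lt with rfl | hy
  · rw [kp, Real.zero_rpow (by norm_num), zero_mul]
    positivity
  rw [le_div_iff₀ (by positivity)]
  have hk := kp_nonneg hy.le
  rcases le_total y 1 with h | h
  · have a1 := h0 y hy
    rw [pow_zero, div_one] at a1
    gcongr <;> linarith
  · have a1 := h1 y hy
    rw [le_div_iff₀ (by positivity)] at a1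
    calc kp y * (1 + y) ^ n ≤ kp y * (y * 2) ^ n := by gcongr; linarith
      _ = kp y * y ^ n * 2 ^ n := by rw [mul_pow, mul_assoc]
      _ ≤ _ := by gcongr; linarith
theorem mellin_kp {u : ℂ} (hu : 0 < u.re) : HasMellin (fun y : ℝ => (kp y : ℂ)) (2 * u) (GG u) := by
  have hs : 0 < (2 * u + 2 / 3).re := by
    simp; linarith
  have hc : 0 < 2 * Real.pi := by positivity
  obtain ⟨h1, h2⟩ := P026.kp_mellin_kk hs
  have hE : Set.EqOn (fun t : ℝ => (t : ℂ) ^ (2 * u - 1) • (kp t : ℂ))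
      (fun t : ℝ => (t : ℂ) ^ (2 * u - 1) • ((t : ℂ) ^ (2 / 3 : ℂ) • (kk (2 * Real.pi * t) : ℂ)))
      (Set.Ioi 0) := by
    intro t ht
    have ht' : 0 < t := ht
    beta_reduce
    unfold kp
    rw [ofReal_mul, ofReal_cpow ht'.le, smul_eq_mul (_ ^ (2 / 3 : ℂ))]
    norm_num
  constructor
  · have a1 := (MellinConvergent.comp_mul_left (f := fun y : ℝ => (kk y : ℂ)) hc).2 h1
    have a2 := (MellinConvergent.cpow_smul (f := fun y : ℝ => (kk (2 * Real.pi * y) : ℂ))).2 a1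
    exact IntegrableOn.congr_fun a2 hE.symm measurableSet_Ioi
  · have a1 := mellin_comp_mul_left (fun y : ℝ => (kk y : ℂ)) (2 * u + 2 / 3) hc
    have a2 := mellin_cpow_smul (fun y : ℝ => (kk (2 * Real.pi * y) : ℂ)) (2 * u) (2 / 3)
    have a3 : mellin (fun y : ℝ => (kp y : ℂ)) (2 * u) =
        mellin (fun t : ℝ => (t : ℂ) ^ (2 / 3 : ℂ) • (kk (2 * Real.pi * t) : ℂ)) (2 * u) :=
      setIntegral_congr_fun measurableSet_Ioi hE
    rw [a3, a2, a1, h2, smul_eq_mul, show (2 * u + 2 / 3) / 2 = u + 1 / 3 by ring,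
      show u + 1 / 3 + 1 / 3 = u + 2 / 3 by ring,
      show -(2 * u + 2 / 3) = -(2 * u) - 2 / 3 by ring, GG]
    ring
theorem kk_eq_kp {a D E : ℝ} (ha : 0 < a) (hD : 0 < D) (hE : 0 < E) :
    D ^ (-(2 / 3) : ℝ) * E ^ (-(1 / 3) : ℝ) * kk (2 * Real.pi * a * (√E / D)) =
      a ^ (-(2 / 3) : ℝ) * (E ^ (-(2 / 3) : ℝ) * kp (a * (√E / D))) := by
  have h1 : a ^ (-(2 / 3) : ℝ) * a ^ (2 / 3 : ℝ) = 1 := by
    rw [← Real.rpow_add ha, neg_add_cancel, Real.rpow_zero]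
  have h2 : E ^ (-(1 / 3) : ℝ) = E ^ (-(2 / 3) : ℝ) * √E ^ (2 / 3 : ℝ) := by
    rw [Real.sqrt_eq_rpow, ← Real.rpow_mul hE.le, ← Real.rpow_add hE]
    norm_num
  rw [kp, Real.mul_rpow ha.le (by positivity), Real.div_rpow (by positivity) hD.le, h2,
    Real.rpow_neg hD.le, mul_assoc (2 * Real.pi)]
  linear_combination (-(E ^ (-(2 / 3) : ℝ) * √E ^ (2 / 3 : ℝ) * (D ^ (2 / 3 : ℝ))⁻¹ *
    kk (2 * Real.pi * (a * (√E / D))))) * h1

end Vale.Agent.P319B
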