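import Mathlib

/-! Abstract mean square lemmas. -/

namespace Vale.Agent.P319B

open MeasureTheory Filter Topology
open scoped ComplexConjugate ENNReal

theorem l2c_sq (a b : ℂ) : ‖a + b‖ₑ ^ 2 ≤ 2 * ‖a‖ₑ ^ 2 + 2 * ‖b‖ₑ ^ 2 := by
  have h3 : ‖a + b‖ ^ 2 ≤ 2 * ‖a‖ ^ 2 + 2 * ‖b‖ ^ 2 := by
    have := pow_le_pow_left₀ (norm_nonneg _) (norm_add_le a b) 2
    nlinarith [sq_nonneg (‖a‖ - ‖b‖)]
  rw [← ofReal_norm, ← ofReal_norm, ← ofReal_norm, ← ENNReal.ofReal_pow (norm_nonneg _),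
    ← ENNReal.ofReal_pow (norm_nonneg _), ← ENNReal.ofReal_pow (norm_nonneg _)]
  refine le_trans (ENNReal.ofReal_le_ofReal h3) ?_
  rw [ENNReal.ofReal_add (by positivity) (by positivity), ENNReal.ofReal_mul (by norm_num),
    ENNReal.ofReal_mul (by norm_num)]
  simp

variable {X : Type*} [MeasurableSpace X] {μ : Measure X} {T : Type*} {l : Filter T}

theorem l2c_two {A B C : X → ℝ≥0∞} (hA : Measurable A) (h : ∀ᵐ x ∂μ, C x ≤ 2 * A x + 2 * B x) :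
    ∫⁻ x, C x ∂μ ≤ 2 * ∫⁻ x, A x ∂μ + 2 * ∫⁻ x, B x ∂μ := by
  rw [← lintegral_const_mul' _ _ (by simp), ← lintegral_const_mul' _ _ (by simp),
    ← lintegral_add_left (hA.const_mul 2)]
  exact lintegral_mono_ae h

theorem l2c_squeeze {A B C : T → ℝ≥0∞} (hA : Tendsto A l (𝓝 0)) (hB : Tendsto B l (𝓝 0))
    (h : ∀ᶠ t in l, C t ≤ 2 * A t + 2 * B t) : Tendsto C l (𝓝 0) := by
  have h3 := (ENNReal.Tendsto.const_mul (a := 2) hA (Or.inr (by simp))).add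
    (ENNReal.Tendsto.const_mul (a := 2) hB (Or.inr (by simp)))
  simp only [mul_zero, add_zero] at h3
  exact tendsto_of_tendsto_of_tendsto_of_le_of_le' tendsto_const_nhds h3
    (Eventually.of_forall fun _ => bot_le) h

theorem l2c_norm_sq (f : Lp ℂ 2 μ) : ‖f‖ ^ 2 = ∫ Q, ‖f Q‖ ^ 2 ∂μ := by
  rw [← inner_self_eq_norm_sq (𝕜 := ℂ), L2.inner_def, ← integral_re (L2.integrable_inner f f)]
  congr 1
  funext Q
  exact inner_self_eq_norm_sq (𝕜 := ℂ) _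

theorem l2c_lint (f : Lp ℂ 2 μ) : ∫⁻ Q, ‖f Q‖ₑ ^ 2 ∂μ = ENNReal.ofReal (‖f‖ ^ 2) := by
  rw [l2c_norm_sq, ofReal_integral_eq_lintegral_ofReal
    ((memLp_two_iff_integrable_sq_norm (Lp.aestronglyMeasurable f)).1 (Lp.memLp f))
    (Eventually.of_forall fun Q => by positivity)]
  congr 1
  funext Q
  rw [ENNReal.ofReal_pow (norm_nonneg _), ofReal_norm]

theorem l2c_cauchy {H : Type*} [NormedAddCommGroup H] [InnerProductSpace ℂ H] [CompleteSpace H]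
    [l.NeBot] {f : T → H} {c : ℂ}
    (h : Tendsto (fun p : T × T => inner ℂ (f p.2) (f p.1)) (l ×ˢ l) (𝓝 c)) :
    ∃ g, Tendsto f l (𝓝 g) ∧ inner ℂ g g = c := by
  have t1 : Tendsto (fun p : T × T => p.1) (l ×ˢ l) l := tendsto_fst
  have t2 : Tendsto (fun p : T × T => p.2) (l ×ˢ l) l := tendsto_snd
  have h5 := (((h.comp (t1.prodMk t1)).sub (h.comp (t2.prodMk t1))).sub h).add
    (h.comp (t2.prodMk t2))
  have h6 : Tendsto (fun p : T × T => √‖inner ℂ (f p.1 - f p.2) (f p.1 - f p.2)‖) (l ×ˢ l)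
      (𝓝 0) := by
    simp only [inner_sub_sub_self]
    simpa using h5.norm.sqrt
  obtain ⟨g, hg⟩ := cauchy_map_iff_exists_tendsto.1 (show Cauchy (map f l) by
    rw [cauchy_map_iff', Metric.uniformity_basis_dist.tendsto_right_iff]
    intro ε hε
    filter_upwards [h6.eventually (gt_mem_nhds hε)] with p hp
    rw [inner_self_eq_norm_sq_to_K] at hp
    simpa [dist_eq_norm] using hp)
  exact ⟨g, hg, tendsto_nhds_unique ((hg.comp t2).inner (hg.comp t1)) h⟩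

theorem l2c_limit [l.NeBot] {E : T → X → ℂ} (hm : ∀ t, Measurable (E t)) {P : T → Prop}
    (hP : ∀ᶠ t in l, P t) (hi : ∀ t, P t → Integrable (fun Q => conj (E t Q) * E t Q) μ) {c : ℂ}
    (hc : c ≠ 0)
    (h : Tendsto (fun p : T × T => ∫ Q, conj (E p.2 Q) * E p.1 Q ∂μ) (l ×ˢ l) (𝓝 c)) :
    ∃ θ : X → ℂ, Measurable θ ∧ Tendsto (fun t => ∫⁻ Q, ‖E t Q - θ Q‖ₑ ^ 2 ∂μ) l (𝓝 0) ∧
      ¬ θ =ᵐ[μ] 0 := by
  classical
  have hL : ∀ t, P t → MemLp (E t) 2 μ := fun t ht => by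
    rw [memLp_two_iff_integrable_sq_norm (hm t).aestronglyMeasurable]
    simpa [sq] using (hi t ht).norm
  let f : T → Lp ℂ 2 μ := fun t => if h : P t then (hL t h).toLp _ else 0
  have hf : ∀ t, P t → f t =ᵐ[μ] E t := fun t ht => by
    simp only [f, dif_pos ht]
    exact MemLp.coeFn_toLp _
  obtain ⟨g, hg, hgc⟩ := l2c_cauchy (f := f) (h.congr' (by
    filter_upwards [prod_mem_prod hP hP] with p hp
    rw [L2.inner_def]
    refine integral_congr_ae ?_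
    filter_upwards [hf _ hp.1, hf _ hp.2] with Q h1 h2
    rw [h1, h2, RCLike.inner_apply']))
  have hm' := Lp.aestronglyMeasurable g
  have hθ : g =ᵐ[μ] hm'.mk g := hm'.ae_eq_mk
  refine ⟨hm'.mk g, hm'.measurable_mk, ?_, fun h0 => hc ?_⟩
  · have h3 := ENNReal.tendsto_ofReal ((tendsto_iff_norm_sub_tendsto_zero.1 hg).pow 2)
    simp only [ne_eq, OfNat.ofNat_ne_zero, not_false_eq_true, zero_pow, ENNReal.ofReal_zero] at h3
    refine h3.congr' ?_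
    filter_upwards [hP] with t ht
    rw [← l2c_lint]
    refine lintegral_congr_ae ?_
    filter_upwards [Lp.coeFn_sub (f t) g, hf t ht, hθ] with Q h1 h2 h3
    rw [h1, Pi.sub_apply, h2, h3]
  · rw [← hgc, (Lp.eq_zero_iff_ae_eq_zero).2 (hθ.trans h0), inner_zero_left]

theorem l2c_var {ι : Type*} (s : Finset ι) (E : ι → ℂ) {n : ℝ} (hn : (s.card : ℝ) = n)
    (h0 : n ≠ 0) : ∑ l ∈ s, ‖E l - ((n⁻¹ : ℝ) : ℂ) * ∑ l ∈ s, E l‖ ^ 2 =
      ∑ l ∈ s, ‖E l‖ ^ 2 - n⁻¹ * ‖∑ l ∈ s, E l‖ ^ 2 := by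
  have hn' : (s.card : ℂ) = n := by exact_mod_cast hn
  have h0' : (n : ℂ) ≠ 0 := by exact_mod_cast h0
  have hq : ∀ z : ℂ, (‖z‖ : ℂ) ^ 2 = z * conj z := fun z => (Complex.mul_conj' z).symm
  refine Complex.ofReal_injective ?_
  push_cast
  simp only [hq, map_sub, map_mul, map_inv₀, Complex.conj_ofReal]
  set S := ∑ l ∈ s, E l with hS
  have : ∀ l, (E l - (n : ℂ)⁻¹ * S) * (conj (E l) - (n : ℂ)⁻¹ * conj S) =
      E l * conj (E l) - E l * (conj S / n) - conj (E l) * (S / n) + S * conj S / n ^ 2 := by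
    intro l; ring
  simp only [this, Finset.sum_add_distrib, Finset.sum_sub_distrib, ← Finset.sum_mul, ← map_sum,
    ← hS, Finset.sum_const, nsmul_eq_mul, hn']
  field_simp
  ring

theorem l2c_memLp {f : X → ℂ} (hm : Measurable f) (h : ∫⁻ x, ‖f x‖ₑ ^ 2 ∂μ < ⊤) : MemLp f 2 μ := by
  rw [memLp_two_iff_integrable_sq_norm hm.aestronglyMeasurable]
  refine ⟨(hm.norm.pow_const 2).aestronglyMeasurable, ?_⟩
  simpa [HasFiniteIntegral] using h

end Vale.Agent.P319B
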