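import Vale.Agent.P319B.L2B
import Vale.Agent.P319B.L2C

/-! Existence of the theta function of the Kubota symbol. -/

namespace Vale.Agent.P319B

open Complex NumberField MeasureTheory Filter Topology
open scoped Classical ComplexConjugate
open Vale.Agent.P026 (w kk fk)

variable {F : Type} [Field F] [NumberField F] [Ctx F]

theorem l2d_lt {e : ℕ} {β : HF F → ENNReal} (hβ : IsBeta e β) : ∀ᵐ Q ∂(nu F), β Q < ⊤ :=
  Eventually.of_forall fun Q => lt_of_le_of_lt (hβ.le_one Q) ENNReal.one_lt_top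

theorem l2d_box {e : ℕ} {β : HF F → ENNReal} (hβ : IsBeta e β) {T : Type} {l : Filter T}
    {G : T → HF F → ENNReal} (hm : ∀ t, Measurable (G t))
    (hl : Tendsto (fun t => ∫⁻ Q, β Q * G t Q ∂(nu F)) l (𝓝 0)) {K : Set (HF F)}
    (hK : IsCompact K) (hs : K ⊆ slab F) : Tendsto (fun t => ∫⁻ Q in K, G t Q) l (𝓝 0) := by
  obtain ⟨c, hc, hβK⟩ := hβ.low K hK hs
  have h0 : ENNReal.ofReal c ≠ 0 := by simpa using hc
  have h3 := ENNReal.Tendsto.const_mul (a := (ENNReal.ofReal c)⁻¹) hl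
    (Or.inr (ENNReal.inv_ne_top.2 h0))
  rw [mul_zero] at h3
  refine tendsto_of_tendsto_of_tendsto_of_le_of_le tendsto_const_nhds h3 (fun _ => bot_le)
    fun t => ?_
  refine (ENNReal.mul_le_iff_le_inv h0 ENNReal.ofReal_ne_top).1 ?_
  rw [← lintegral_const_mul _ (hm t)]
  exact (setLIntegral_mono' hK.measurableSet fun Q hQ => mul_le_mul_left (hβK Q hQ) _).trans
    (lintegral_mono_set hs)

theorem l2d_lines {e : ℕ} (he : 3 ≤ e) {p : R F} (hp : Prime p) {t : Io F → ℝ} (ht : ∀ v, 0 < t v)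
    {Q : HF F} (hQ : PosQ Q) : ∑ x ∈ Lns p, nEs (lin p x (k0 e)) t Q = nEs (k0 e) t Q := by
  rw [← nEs_sum _ (fun x _ => (adm_k0 he 0).1.lin p x) ht hQ]
  congr 1
  funext c d
  by_cases h : k0 e c d = 0
  · simp [lin, h]
  · obtain ⟨l, ⟨h1, h2⟩, h3⟩ := existsUnique_Lns hp (l2b_prim (x := (c, d)) (by omega) hp h)
    exact (Finset.sum_eq_single_of_mem l h1 fun x hx hne =>
      if_neg fun h4 => hne (h3 x ⟨hx, h4⟩)).trans (if_pos h2)

theorem l2d_var {e : ℕ} (he : 3 ≤ e) {β : HF F → ENNReal} (hβ : IsBeta e β) {c : ℝ} {p : R F}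
    (hp : Prime p) (i1 : ∀ t : Io F → ℝ, (∀ v, 0 < t v) → Integrable (fun Q =>
      ((β Q).toReal : ℂ) * (conj (nEs (k0 e) t Q) * nEs (k0 e) t Q)) (nu F))
    (l1 : Tendsto (fun t : Io F → ℝ => ∫ Q, ((β Q).toReal : ℂ) *
      (conj (nEs (k0 e) t Q) * nEs (k0 e) t Q) ∂(nu F)) (Fz F) (𝓝 (c : ℂ)))
    (i2 : ∀ t : Io F → ℝ, (∀ v, 0 < t v) → Integrable (fun Q =>
        (β Q).toReal * ∑ x ∈ Lns p, ‖nEs (lin p x (k0 e)) t Q‖ ^ 2) (nu F))
    (l2 : Tendsto (fun t : Io F → ℝ => ∫ Q, (β Q).toReal *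
        ∑ x ∈ Lns p, ‖nEs (lin p x (k0 e)) t Q‖ ^ 2 ∂(nu F)) (Fz F) (𝓝 (c / (N p + 1)))) :
    Tendsto (fun t => ∫⁻ Q, β Q * ENNReal.ofReal (∑ x ∈ Lns p, ‖nEs (lin p x (k0 e)) t Q -
      (((N p + 1)⁻¹ : ℝ) : ℂ) * nEs (k0 e) t Q‖ ^ 2) ∂(nu F)) (Fz F) (𝓝 0) := by
  have hN : N p + 1 ≠ 0 := by have := N_nonneg p; positivity
  have e1 : ∀ t Q, ((β Q).toReal : ℂ) * (conj (nEs (k0 e) t Q) * nEs (k0 e) t Q) =
      (((β Q).toReal * ‖nEs (k0 e) t Q‖ ^ 2 : ℝ) : ℂ) := fun t Q => by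
    rw [Complex.conj_mul']; push_cast; rfl
  simp only [e1, integral_complex_ofReal] at i1 l1
  have l3 := ENNReal.tendsto_ofReal
    (l2.sub (((Complex.continuous_re.tendsto _).comp l1).const_mul (N p + 1)⁻¹))
  rw [Complex.ofReal_re, inv_mul_eq_div, sub_self, ENNReal.ofReal_zero] at l3
  refine l3.congr' ?_
  filter_upwards [eventually_Fz_pos] with t ht
  have i3 : Integrable (fun Q => (β Q).toReal * ‖nEs (k0 e) t Q‖ ^ 2) (nu F) := by
    simpa only [RCLike.re_to_complex, Complex.ofReal_re] using (i1 t ht).re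
  have hae : (fun Q => (β Q).toReal * ∑ x ∈ Lns p, ‖nEs (lin p x (k0 e)) t Q‖ ^ 2 -
      (N p + 1)⁻¹ * ((β Q).toReal * ‖nEs (k0 e) t Q‖ ^ 2)) =ᵐ[nu F] fun Q => (β Q).toReal *
      ∑ x ∈ Lns p, ‖nEs (lin p x (k0 e)) t Q - (((N p + 1)⁻¹ : ℝ) : ℂ) * nEs (k0 e) t Q‖ ^ 2 := by
    filter_upwards [ae_restrict_mem measurableSet_slab] with Q hQ
    rw [← l2d_lines he hp ht (posQ_of_mem hQ), l2c_var _ _ (card_Lns hp) hN]
    ring
  rw [Function.comp, Complex.ofReal_re, ← integral_const_mul, ← integral_sub (i2 t ht)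
    (i3.const_mul _), integral_congr_ae hae, ofReal_integral_eq_lintegral_ofReal
    (((i2 t ht).sub (i3.const_mul _)).congr hae) (Eventually.of_forall fun Q => by positivity)]
  refine lintegral_congr fun Q => ?_
  rw [ENNReal.ofReal_mul ENNReal.toReal_nonneg, ENNReal.ofReal_toReal
    (lt_of_le_of_lt (hβ.le_one Q) ENNReal.one_lt_top).ne]

theorem l2d_ptw {ι : Type} {s : Finset ι} {x : ι} (hx : x ∈ s) (E : ι → ℂ) (a b : ℂ) {c : ℝ}
    (h0 : 0 ≤ c) (h1 : c ≤ 1) : ‖E x - c * b‖ₑ ^ 2 ≤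
      2 * ‖a - b‖ₑ ^ 2 + 2 * ENNReal.ofReal (∑ x ∈ s, ‖E x - c * a‖ ^ 2) := by
  rw [show E x - c * b = c * (a - b) + (E x - c * a) by ring]
  refine (l2c_sq _ _).trans (add_le_add (mul_le_mul_right (pow_le_pow_left' ?_ 2) _)
    (mul_le_mul_right ?_ _))
  · rw [← ofReal_norm, ← ofReal_norm, norm_mul, Complex.norm_real, Real.norm_of_nonneg h0]
    exact ENNReal.ofReal_le_ofReal (mul_le_of_le_one_left (norm_nonneg _) h1)
  · rw [← ofReal_norm, ← ENNReal.ofReal_pow (norm_nonneg _)]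
    exact ENNReal.ofReal_le_ofReal (Finset.single_le_sum (f := fun x => ‖E x - c * a‖ ^ 2)
      (fun _ _ => by positivity) hx)

theorem l2d_line {e : ℕ} {β : HF F → ENNReal} (hβ : IsBeta e β) {k : R F → R F → ℂ} {θ : HF F → ℂ}
    (hθ : Measurable θ) (hconv : Conv k θ) {p : R F} (hp : Prime p)
    (hv : Tendsto (fun t => ∫⁻ Q, β Q * ENNReal.ofReal (∑ x ∈ Lns p, ‖nEs (lin p x k) t Q -
      (((N p + 1)⁻¹ : ℝ) : ℂ) * nEs k t Q‖ ^ 2) ∂(nu F)) (Fz F) (𝓝 0)) {l : R F × R F}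
    (hl : ¬ (p ∣ l.1 ∧ p ∣ l.2)) : Conv (lin p l k) (fun Q => (((N p + 1)⁻¹ : ℝ) : ℂ) * θ Q) := by
  intro K hK hs
  obtain ⟨x, ⟨h1, h2⟩, -⟩ := existsUnique_Lns hp hl
  rw [lin_congr hp hl (prim_of_mem_Lns hp h1) h2]
  have hN := N_nonneg p
  have hm : ∀ t, Measurable fun Q => ENNReal.ofReal (∑ x ∈ Lns p, ‖nEs (lin p x k) t Q -
      (((N p + 1)⁻¹ : ℝ) : ℂ) * nEs k t Q‖ ^ 2) := fun t =>
    (Finset.measurable_sum _ fun x _ => ((measurable_nEs (lin p x k) t).sub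
      ((measurable_nEs k t).const_mul _)).norm.pow_const 2).ennreal_ofReal
  exact l2c_squeeze (hconv K hK hs) (l2d_box hβ hm hv hK hs) (Eventually.of_forall fun t =>
    l2c_two (((measurable_nEs k t).sub hθ).enorm.pow_const 2) (Eventually.of_forall fun Q =>
      l2d_ptw h1 (fun x => nEs (lin p x k) t Q) _ _ (by positivity)
        (inv_le_one_of_one_le₀ (by linarith))))

theorem l2d_limit {e : ℕ} {β : HF F → ENNReal} (hβ : IsBeta e β) {k : R F → R F → ℂ} {c : ℝ}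
    (hc : 0 < c) (i1 : ∀ t : Io F → ℝ, (∀ v, 0 < t v) → Integrable (fun Q =>
      ((β Q).toReal : ℂ) * (conj (nEs k t Q) * nEs k t Q)) (nu F))
    (l1 : Tendsto (fun p : (Io F → ℝ) × (Io F → ℝ) => ∫ Q, ((β Q).toReal : ℂ) *
      (conj (nEs k p.2 Q) * nEs k p.1 Q) ∂(nu F)) (Fz F ×ˢ Fz F) (𝓝 (c : ℂ))) :
    ∃ θ : HF F → ℂ, Measurable θ ∧ Conv k θ ∧ ¬ θ =ᵐ[nu F] 0 := by
  obtain ⟨θ, hθ, hl, h0⟩ := l2c_limit (μ := (nu F).withDensity β) (l := Fz F) (measurable_nEs k)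
    (P := fun t => ∀ v, 0 < t v) eventually_Fz_pos (fun t ht => by
      rw [integrable_withDensity_iff_integrable_smul' hβ.meas (l2d_lt hβ)]
      simpa only [Complex.real_smul] using i1 t ht)
    (c := c) (by exact_mod_cast hc.ne') (by
      simpa only [integral_withDensity_eq_integral_toReal_smul hβ.meas (l2d_lt hβ),
        Complex.real_smul] using l1)
  have hm : ∀ t, Measurable fun Q => ‖nEs k t Q - θ Q‖ₑ ^ 2 := fun t =>
    ((measurable_nEs _ t).sub hθ).enorm.pow_const 2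
  simp only [lintegral_withDensity_eq_lintegral_mul _ hβ.meas (hm _), Pi.mul_apply] at hl
  exact ⟨θ, hθ, fun K hK hs => l2d_box hβ hm hl hK hs,
    fun h => h0 ((withDensity_absolutelyContinuous _ _).ae_le h)⟩

theorem good_k0 {e : ℕ} (he : 3 ≤ e) :
    ∃ θ : HF F → ℂ, IsLim (k0 e) θ ∧ ¬ θ =ᵐ[nu F] 0 := by
  obtain ⟨β, hβ⟩ := exists_beta (F := F) (e := e) (by omega)
  obtain ⟨c, hc, i1, l1, hp⟩ := l2_inner he hβ
  obtain ⟨θ, hθ, hconv, h0⟩ := l2d_limit hβ hc (fun t ht => i1 t t ht ht) l1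
  have l2 := l1.comp (tendsto_id.prodMk tendsto_id)
  simp only [Function.comp_def, id] at l2
  exact ⟨θ, ⟨hθ, hconv, fun p l hpp hl => l2d_line hβ hθ hconv hpp
    (l2d_var he hβ hpp (fun t ht => i1 t t ht ht) l2 (hp p hpp).1 (hp p hpp).2) hl⟩, h0⟩

end Vale.Agent.P319B
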