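import Vale.Agent.P319B.L2AA
import Vale.Agent.P319B.Four
import Vale.Agent.P319B.Basic

/-! The two terms of the unfolded integral. -/

namespace Vale.Agent.P319B

open Complex NumberField MeasureTheory
open scoped Classical ComplexConjugate

variable {F : Type} [Field F] [NumberField F] [Ctx F]

theorem l2a_T0 {G : Subgroup Fˣ} {γ : (Io F → ℝ) → ℝ} (hγ : IsUP G γ) :
    ∃ C : ℝ, 0 ≤ C ∧ ∀ κ : R F → ℂ, (∀ d, ‖κ d‖ ≤ 1) →
      (∀ d, κ d ≠ 0 → (d : F) ≠ 0 ∧ IsIntegral ℤ (d : F)) →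
      ∀ t s : Io F → ℝ, (∀ v, 0 < t v) → (∀ v, 0 < s v) →
      IntegrableOn (fun p : (Io F → ℝ) × (Io F → ℝ) => ∑' d : R F, κ d * (((∏ v, p.1 v) *
        Real.exp (-∑ v, (s v + t v * sqv (d : F) v) * p.1 v) * l2aW γ p.2 : ℝ) : ℂ)) (DE F) ∧
      ‖∫ p in DE F, ∑' d : R F, κ d * (((∏ v, p.1 v) *
        Real.exp (-∑ v, (s v + t v * sqv (d : F) v) * p.1 v) * l2aW γ p.2 : ℝ) : ℂ)‖ ≤
        C / ((∏ v, t v) * ∏ v, s v) := by
  obtain ⟨C, hC, hb⟩ := box_sum (F := F) one_ne_zero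
  set W : ℝ := ∫ E in l2aE F, l2aW γ E with hW
  have hW0 : 0 ≤ W := integral_nonneg fun E => hγ.nonneg _
  refine ⟨C * W, by positivity, fun κ h1 h2 t s ht hs => ?_⟩
  have ha : ∀ (d : R F) v, 0 < s v + t v * sqv (d : F) v := fun d v =>
    add_pos_of_pos_of_nonneg (hs v) (mul_nonneg (ht v).le (sqv_nonneg _ v))
  set f : R F → (Io F → ℝ) × (Io F → ℝ) → ℝ := fun d p => (∏ v, p.1 v) *
    Real.exp (-∑ v, (s v + t v * sqv (d : F) v) * p.1 v) * l2aW γ p.2 with hf
  have hi : ∀ d, Integrable (f d) (volume.restrict (DE F)) := fun d => by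
    rw [l2a_DE]
    exact (l2a_D1 (ha d)).1.mul_prod (l2a_E hγ)
  have hI : ∀ d, ∫ p in DE F, f d p = (∏ v, ((s v + t v * sqv (d : F) v) ^ 2)⁻¹) * W := fun d => by
    rw [l2a_DE, ← (l2a_D1 (ha d)).2, hW, ← integral_prod_mul]
  have hi' : ∀ d, Integrable (fun p => κ d * (f d p : ℂ)) (volume.restrict (DE F)) := fun d =>
    (hi d).ofReal.const_mul _
  obtain ⟨hs1, hs2⟩ := hb (fun v => t v / s v) fun v => div_pos (ht v) (hs v)
  set h : F → ℝ := fun x => if x ≠ 0 ∧ IsIntegral ℤ (((1 : ℕ) : F) * x) then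
    ∏ v, ((1 + t v / s v * sqv x v) ^ 2)⁻¹ else 0 with hh
  have hh0 : ∀ x, 0 ≤ h x := fun x => by
    simp only [hh]
    split_ifs
    · exact Finset.prod_nonneg fun v _ => by positivity
    · exact le_rfl
  have hP : 0 < ∏ v, s v := Finset.prod_pos fun v _ => hs v
  have hQ : 0 < ∏ v, t v := Finset.prod_pos fun v _ => ht v
  have hle : ∀ d : R F, ∫ p in DE F, ‖κ d * (f d p : ℂ)‖ ≤ W / (∏ v, s v) ^ 2 * h d := by
    intro d
    by_cases h0 : κ d = 0
    · simp only [h0, zero_mul, norm_zero, integral_zero]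
      exact mul_nonneg (by positivity) (hh0 _)
    have e1 : ∫ p in DE F, ‖κ d * (f d p : ℂ)‖ = ‖κ d‖ * ∫ p in DE F, f d p := by
      rw [← integral_const_mul]
      refine setIntegral_congr_fun measurableSet_DE fun p hp => ?_
      have : 0 ≤ f d p := mul_nonneg (mul_nonneg (Finset.prod_nonneg fun v _ => (hp.1 v).le)
        (Real.exp_pos _).le) (hγ.nonneg _)
      simp only [norm_mul, Complex.norm_real, Real.norm_of_nonneg this]
    have e2 : h d = (∏ v, s v) ^ 2 * ∏ v, ((s v + t v * sqv (d : F) v) ^ 2)⁻¹ := by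
      simp only [hh]
      rw [if_pos ⟨(h2 d h0).1, by simpa using (h2 d h0).2⟩, ← Finset.prod_pow,
        ← Finset.prod_mul_distrib]
      refine Finset.prod_congr rfl fun v _ => ?_
      have := (hs v).ne'
      have := (ha d v).ne'
      field_simp
    have e3 : 0 ≤ (∏ v, ((s v + t v * sqv (d : F) v) ^ 2)⁻¹) * W :=
      mul_nonneg (Finset.prod_nonneg fun v _ => by positivity) hW0
    rw [e1, e2, hI]
    refine (mul_le_of_le_one_left e3 (h1 d)).trans (le_of_eq ?_)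
    field_simp
  have hsR : Summable fun d : R F => W / (∏ v, s v) ^ 2 * h d :=
    (hs1.comp_injective Subtype.val_injective).mul_left _
  have hsum : Summable fun d : R F => ∫ p in DE F, ‖κ d * (f d p : ℂ)‖ :=
    Summable.of_nonneg_of_le (fun d => integral_nonneg fun p => norm_nonneg _) hle hsR
  refine ⟨l2a_tsum hi' hsum, ?_⟩
  rw [← integral_tsum_of_summable_integral_norm hi' hsum]
  refine (tsum_of_norm_bounded hsR.hasSum fun d =>
    (norm_integral_le_integral_norm _).trans (hle d)).trans ?_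
  rw [tsum_mul_left]
  have e4 : ∑' d : R F, h d ≤ C / ∏ v, t v / s v :=
    (tsum_comp_le_tsum_of_inj hs1 hh0 Subtype.val_injective).trans hs2
  refine (mul_le_mul_of_nonneg_left e4 (by positivity)).trans (le_of_eq ?_)
  rw [Finset.prod_div_distrib]
  field_simp

theorem l2a_coef {e : ℕ} (he : 3 ≤ e) {χ : R F → ℂ} (hχ : ∀ u x, IsUnit u → χ (u * x) = χ x)
    {u x : R F} (hu : IsUnit u) (hx : x ≠ 0) (h : Lo e ((u * x : R F) : F)) :
    aK (fun c d => χ c * k0 e c d) e 0 (u * x) =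
      χ x * (gauss (fun y => cub y x) x 0 / (N x : ℂ)) := by
  rw [aK_mul_left, aK_k0 he (mul_ne_zero hu.ne_zero hx), if_pos h, gauss_cub_zero_unit hu hx,
    hχ u x hu, N_mul, N_unit hu, one_mul]

theorem l2a_fI : ∃ C : ℝ, ∀ y : ℝ, 0 < y →
    fI F y ≤ C * min (y ^ (-(1 / 2) : ℝ)) (y ^ (-(3 / 2) : ℝ)) := by
  obtain ⟨C1, h1⟩ := fI_le (F := F) (σ := 1 / 2) (by norm_num)
  obtain ⟨C2, h2⟩ := fI_le (F := F) (σ := 3 / 2) (by norm_num)
  refine ⟨max C1 C2, fun y hy => ?_⟩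
  rcases le_total (y ^ (-(1 / 2) : ℝ)) (y ^ (-(3 / 2) : ℝ)) with h | h
  · rw [min_eq_left h]
    exact (h1 y hy).trans (mul_le_mul_of_nonneg_right (le_max_left _ _) (by positivity))
  · rw [min_eq_right h]
    exact (h2 y hy).trans (mul_le_mul_of_nonneg_right (le_max_right _ _) (by positivity))

theorem l2a_T1 {e : ℕ} (he : 3 ≤ e) {γ : (Io F → ℝ) → ℝ} (hγ : IsUP (Eu F e) γ) {χ : R F → ℂ}
    (hb : Bd1 χ) (hχ : ∀ u x, IsUnit u → χ (u * x) = χ x) {t s : Io F → ℝ} (ht : ∀ v, 0 < t v)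
    (hs : ∀ v, 0 < s v) :
    IntegrableOn (fun p => ∑' c : R F, aK (fun c d => χ c * k0 e c d) e 0 c *
      (l2aG γ s (fun v => t v * sqv (c : F) v) p : ℂ)) (DE F) ∧
    ((((∏ v, t v) * ∏ v, s v) ^ (1 / 3 : ℝ) * ∏ v, s v : ℝ) : ℂ) *
      ∫ p in DE F, ∑' c : R F, aK (fun c d => χ c * k0 e c d) e 0 c *
        (l2aG γ s (fun v => t v * sqv (c : F) v) p : ℂ) =
      Tz e χ (fI F) ((∏ v, t v) * ∏ v, s v) := by
  have he1 : 1 ≤ e := le_trans (by norm_num) he
  have hG := unitGrp_Eu (F := F) he1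
  set a := aK (fun c d => χ c * k0 e c d) e 0 with ha
  obtain ⟨ha0, -, B, hB⟩ : BdA a := bdA_aK ((adm_k0 he e).mul_left hb) (zero_mem _)
  have hP : 0 < ∏ v, s v := Finset.prod_pos fun v _ => hs v
  have hQ : 0 < ∏ v, t v := Finset.prod_pos fun v _ => ht v
  set x := (∏ v, t v) * ∏ v, s v with hx
  have hx0 : 0 < x := mul_pos hQ hP
  have hT := isTr_SU (F := F) he1 (Lo e) fun z u hu => ⟨fun h => by
    have := h.mul_left (hu.inv he1).mem
    rwa [inv_mul_cancel_left₀ (hu.ne_zero he1)] at this, fun h => h.mul_left hu.mem⟩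
  obtain ⟨φ, hφ⟩ := hT.exists_equiv
  set K : R F → ℝ := fun c => ∫ p in DE F, l2aG γ s (fun v => t v * sqv (c : F) v) p with hK
  have hK0 : ∀ c, 0 ≤ K c := fun c => integral_nonneg fun p => l2a_G0 hγ _ _ p
  let ι := fun q => (⟨φ q, (φ q).2.2.1⟩ : R F)
  have hι : Function.Injective ι := fun q q' h =>
    φ.injective (Subtype.ext (congrArg (fun z : R F => (z : F)) h))
  have hr : ∀ c, c ∉ Set.range ι → a c = 0 := by
    intro c hc
    by_contra h
    have h0 : c ≠ 0 := fun h0 => h (h0 ▸ ha0)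
    have h1 : Lo e (c : F) := by
      by_contra h1
      exact h (by rw [ha, aK_mul_left, aK_k0 he h0, if_neg h1, mul_zero])
    obtain ⟨q, hq⟩ := φ.surjective ⟨c, nrm_coe_ne h0, c.2, h1⟩
    have hq' : (φ q : F) = c := congrArg Subtype.val hq
    exact hc ⟨q, Subtype.ext hq'⟩
  have haι : ∀ q, a (ι q) =
      χ q.1.1.1 * (gauss (fun y => cub y q.1.1.1) q.1.1.1 0 / (N q.1.1.1 : ℂ)) := by
    intro q
    obtain ⟨y, hy, -, hy2⟩ := (mem_Eu he1).1 q.2.2
    have e1 : ι q = y * q.1.1.2 * q.1.1.1 := Subtype.ext (by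
      change (φ q : F) = _
      rw [hφ, ← hy2]
      push_cast
      ring)
    have e2 : Lo e ((ι q : R F) : F) := (φ q).2.2.2
    rw [e1] at e2 ⊢
    exact l2a_coef he hχ (hy.mul (SU_unit q.1.2.2.1)) q.1.2.1.ne_zero e2
  have hν : ∀ j, ((ι (j, 1) : R F) : F) = (j.1.2 : F) * j.1.1 := fun j => by
    change (φ (j, 1) : F) = _
    rw [hφ]
    simp
  have hν0 : ∀ j, ((ι (j, 1) : R F) : F) ≠ 0 := fun j => (φ (j, 1)).2.1
  have hH : ∀ j, HasSum (fun u => K (ι (j, u)))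
      ((∏ v, s v)⁻¹ * fI F (x * Nin ((j.1.2 : F) * j.1.1))) := by
    intro j
    have h := (l2a_unf hG hγ hs (y := fun v => t v * sqv ((j.1.2 : F) * j.1.1) v)
      fun v => mul_pos (ht v) (sqv_pos (hν j ▸ hν0 j) v)).2
    rw [Finset.prod_mul_distrib, mul_right_comm] at h
    have e1 : ∀ u, ((ι (j, u) : R F) : F) = ((u : Fˣ) : F) * ((j.1.2 : F) * j.1.1) := fun u => hφ _
    simpa only [hK, e1, sqv_mul _ ((j.1.2 : F) * j.1.1), mul_comm (sqv _ _) (sqv ((j.1.2 : F) * j.1.1) _),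
      mul_assoc, hx, Nin] using h
  obtain ⟨C, hC⟩ := l2a_fI (F := F)
  obtain ⟨C', -, hC'⟩ := tsum_tr_le hG one_ne_zero
  have hmin := (hC' _ _ hT (fun z hz => ⟨hz.1, by simpa using int_of_mem hz.2.1 hz.2.2.mem⟩)
    x hx0).1
  have hS : Summable fun q => ‖a (ι q)‖ * K (ι q) := by
    refine (summable_prod_of_nonneg fun q => mul_nonneg (norm_nonneg _) (hK0 _)).2
      ⟨fun j => ?_, ?_⟩
    · simp only [haι]
      exact (hH j).summable.mul_left _
    · refine Summable.of_nonneg_of_le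
        (fun j => tsum_nonneg fun u => mul_nonneg (norm_nonneg _) (hK0 _)) (fun j => ?_)
        (hmin.mul_left (B * ((∏ v, s v)⁻¹ * C)))
      have h1 := hB (ι (j, 1))
      have h2 := mul_pos hx0 (Nin_pos (hν j ▸ hν0 j))
      simp only [haι] at h1 ⊢
      rw [((hH j).mul_left _).tsum_eq, mul_assoc B, mul_assoc _ C]
      exact mul_le_mul h1 (mul_le_mul_of_nonneg_left (hC _ h2) (by positivity))
        (mul_nonneg (by positivity) (fI_pos h2).le) ((norm_nonneg _).trans h1)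
  have hi : ∀ c : R F, Integrable (fun p => a c * (l2aG γ s (fun v => t v * sqv (c : F) v) p : ℂ))
      (volume.restrict (DE F)) := by
    intro c
    by_cases h0 : c = 0
    · simp [h0, ha0]
    · exact (l2a_unf hG hγ hs fun v => mul_pos (ht v) (sqv_pos (nrm_coe_ne h0) v)).1.ofReal.const_mul _
  have hn : ∀ c : R F, ∫ p in DE F, ‖a c * (l2aG γ s (fun v => t v * sqv (c : F) v) p : ℂ)‖ =
      ‖a c‖ * K c := by
    intro c
    simp only [norm_mul, Complex.norm_real, Real.norm_of_nonneg (l2a_G0 hγ _ _ _)]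
    exact integral_const_mul _ _
  have hsum : Summable fun c : R F =>
      ∫ p in DE F, ‖a c * (l2aG γ s (fun v => t v * sqv (c : F) v) p : ℂ)‖ := by
    simp only [hn]
    exact (hι.summable_iff fun c hc => by rw [hr c hc, norm_zero, zero_mul]).1 hS
  refine ⟨l2a_tsum hi hsum, ?_⟩
  rw [← integral_tsum_of_summable_integral_norm hi hsum]
  have e1 : ∀ c : R F, ∫ p in DE F, a c * (l2aG γ s (fun v => t v * sqv (c : F) v) p : ℂ) =
      a c * (K c : ℂ) := fun c => by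
    rw [integral_const_mul, integral_complex_ofReal]
  have hS' : Summable fun q => a (ι q) * (K (ι q) : ℂ) := by
    refine Summable.of_norm ?_
    simpa only [norm_mul, Complex.norm_real, Real.norm_of_nonneg (hK0 _)] using hS
  rw [tsum_congr e1, ← hι.tsum_eq (f := fun c => a c * (K c : ℂ)) (fun c hc => by
    by_contra h
    exact hc (mul_eq_zero_of_left (hr c h) _)), hS'.tsum_prod, Tz, ofReal_mul, mul_assoc,
    ← tsum_mul_left]
  refine congrArg _ ?_
  have e2 := tsum_subtype {p : R F × R F | P1 p.1 ∧ p.2 ∈ SU F e ∧ Lo e ((p.2 : F) * p.1)}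
    fun p => χ p.1 * (gauss (fun y => cub y p.1) p.1 0 / (N p.1 : ℂ)) *
      (fI F (x * Nin ((p.2 : F) * p.1)) : ℂ)
  simp only [Set.indicator_apply, Set.mem_ofPred_eq] at e2
  rw [← e2]
  refine tsum_congr fun j => ?_
  simp only [haι]
  rw [((Complex.hasSum_ofReal.2 (hH j)).mul_left _).tsum_eq]
  have : ((∏ v, s v : ℝ) : ℂ) ≠ 0 := ofReal_ne_zero.2 hP.ne'
  rw [ofReal_mul, ofReal_inv]
  field_simp

end Vale.Agent.P319B
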