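import Vale.Agent.P319B.Four
import Vale.Agent.P319B.FI
import Vale.Agent.P319B.L2AB

/-! The unfolded integral. -/

namespace Vale.Agent.P319B

open Complex NumberField MeasureTheory
open scoped Classical ComplexConjugate
open Vale.Agent.P026 (w kk fk)

variable {F : Type} [Field F] [NumberField F] [Ctx F]

theorem measurable_Fm (e : ℕ) {γ : (Io F → ℝ) → ℝ} (hγ : Measurable γ) (k : R F → R F → ℂ)
    (t t' : Io F → ℝ) : Measurable (Fm e γ k t t') := by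
  unfold Fm indQ
  refine (Complex.measurable_ofReal.comp (Measurable.mul (Measurable.mul ?_ ?_) ?_)).mul
    ((measurable_Es k).comp (continuous_sc t).measurable)
  · exact (measurable_const.indicator (measurableSet_FD _)).comp (by fun_prop)
  · exact hγ.comp (measurable_pi_lambda _ fun v =>
      (geo1_cont.measurable.comp (measurable_pi_apply v)).log)
  · fun_prop

theorem l2a_pt (e : ℕ) (γ : (Io F → ℝ) → ℝ) (k : R F → R F → ℂ) (t s : Io F → ℝ)
    {D : Io F → ℝ} (hD : ∀ v, 0 < D v) (E : Io F → ℝ) (z : Io F → ℂ) :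
    Fm e γ k t s (pt z D E) = (FD (Lb F e)).indicator (fun z =>
      ((l2aW γ E * Real.exp (-∑ v, s v * D v) : ℝ) : ℂ) * Es k (sc t (pt z D E))) z := by
  have h1 : (fun v => (pt z D E v).2.1 / ((pt z D E v).2.2 : ℂ)) = z := funext fun v =>
    mul_div_cancel_left₀ (z v) (ofReal_ne_zero.2 (hD v).ne')
  unfold Fm indQ
  rw [h1]
  simp only [dlt_pt z hD]
  by_cases h : z ∈ FD (Lb F e)
  · rw [Set.indicator_of_mem h, Set.indicator_of_mem h, one_mul]
    rfl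
  · rw [Set.indicator_of_notMem h, Set.indicator_of_notMem h, zero_mul, zero_mul, ofReal_zero,
      zero_mul]

theorem l2a_Es {k : R F → R F → ℂ} {B : ℝ} {A : ℕ} (hB : ∀ c d, ‖k c d‖ ≤ B)
    (hA : ∀ c d, k c d ≠ 0 → Hi A (c : F) ∧ Hi A (d : F)) (h0 : k 0 0 = 0) (Q : HF F) :
    ‖Es k Q‖ₑ ≤ ENNReal.ofReal B * ∑' x : R F × R F,
      (if x ≠ 0 ∧ Hi A (x.1 : F) ∧ Hi A (x.2 : F) then
        ENNReal.ofReal (Real.exp (-hv Q x)) else 0) := by
  rw [← ENNReal.tsum_mul_left]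
  refine enorm_tsum_le_tsum_enorm.trans (ENNReal.tsum_le_tsum fun x => ?_)
  by_cases h : k x.1 x.2 = 0
  · simp [h]
  rw [if_pos ⟨fun hx => h (by rw [hx]; exact h0), hA _ _ h⟩, ← ofReal_norm,
    ← ENNReal.ofReal_mul ((norm_nonneg _).trans (hB 0 0)), norm_mul, Complex.norm_real,
    Real.norm_of_nonneg (Real.exp_pos _).le]
  exact ENNReal.ofReal_le_ofReal (mul_le_mul_of_nonneg_right (hB _ _) (Real.exp_pos _).le)

theorem integrable_Fm {e : ℕ} (he : 1 ≤ e) {γ : (Io F → ℝ) → ℝ} (hγ : IsUP (Eu F e) γ)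
    {k : R F → R F → ℂ} (hk : Bdd k) (h0 : k 0 0 = 0) {t t' : Io F → ℝ} (ht : ∀ v, 0 < t v)
    (ht' : ∀ v, 0 < t' v) : Integrable (Fm e γ k t t') (nu F) := by
  have _ := he
  obtain ⟨⟨B, hB⟩, A, hA⟩ := hk
  obtain ⟨C, hC, hb⟩ := four_abs (F := F) A e
  have hB0 : 0 ≤ B := (norm_nonneg _).trans (hB 0 0)
  have hm := measurable_Fm e hγ.meas k t t'
  refine ⟨hm.aestronglyMeasurable, ?_⟩
  have hi : Integrable (fun p : (Io F → ℝ) × (Io F → ℝ) => B * C *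
      ((∏ v, t v)⁻¹ * (Real.exp (-∑ v, t' v * p.1 v) * l2aW γ p.2) + (∏ v, t v ^ 2)⁻¹ *
        ((∏ v, p.1 v) * Real.exp (-∑ v, t' v * p.1 v) * l2aW γ p.2))) (volume.restrict (DE F)) := by
    rw [l2a_DE]
    exact ((((l2a_D0 ht').mul_prod (l2a_E hγ)).const_mul _).add
      (((l2a_D1 ht').1.mul_prod (l2a_E hγ)).const_mul _)).const_mul _
  rw [HasFiniteIntegral, lintegral_pt hm.enorm]
  refine lt_of_le_of_lt (setLIntegral_mono' measurableSet_DE fun p hp => ?_) hi.lintegral_lt_top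
  have hW : 0 ≤ l2aW γ p.2 * Real.exp (-∑ v, t' v * p.1 v) :=
    mul_nonneg (hγ.nonneg _) (Real.exp_pos _).le
  have hD : 0 < ∏ v, p.1 v := Finset.prod_pos fun v _ => hp.1 v
  have hT : 0 < ∏ v, t v := Finset.prod_pos fun v _ => ht v
  have hT2 : 0 < ∏ v, t v ^ 2 := Finset.prod_pos fun v _ => pow_pos (ht v) 2
  have h1 : ∫⁻ z, ‖Fm e γ k t t' (pt z p.1 p.2)‖ₑ ≤
      ENNReal.ofReal (l2aW γ p.2 * Real.exp (-∑ v, t' v * p.1 v)) * (ENNReal.ofReal B *
        ENNReal.ofReal (C * ((∏ v, t v * p.1 v)⁻¹ + (∏ v, t v ^ 2 * p.2 v)⁻¹))) := by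
    simp only [l2a_pt e γ k t t' hp.1, enorm_indicator_eq_indicator_enorm]
    rw [lintegral_indicator (measurableSet_FD _)]
    refine le_trans ?_ (mul_le_mul_right (mul_le_mul_right (hb t p.1 p.2 ht hp.1 hp.2.1) _) _)
    rw [← lintegral_const_mul' _ _ ENNReal.ofReal_ne_top,
      ← lintegral_const_mul' _ _ ENNReal.ofReal_ne_top]
    refine lintegral_mono fun z => ?_
    rw [enorm_mul, ← ofReal_norm, Complex.norm_real, Real.norm_of_nonneg hW]
    exact mul_le_mul_right (l2a_Es hB hA h0 _) _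
  refine (mul_le_mul_right h1 _).trans ?_
  rw [← ENNReal.ofReal_mul hB0, ← ENNReal.ofReal_mul hW, ← ENNReal.ofReal_mul hD.le]
  refine ENNReal.ofReal_le_ofReal ?_
  have h2 : (∏ v, t v ^ 2 * p.2 v)⁻¹ ≤ (∏ v, t v ^ 2)⁻¹ := by
    rw [Finset.prod_mul_distrib]
    exact inv_anti₀ hT2 (le_mul_of_one_le_right hT2.le hp.2.2.1)
  refine (mul_le_mul_of_nonneg_left (mul_le_mul_of_nonneg_left (mul_le_mul_of_nonneg_left
    (mul_le_mul_of_nonneg_left (add_le_add_right h2 _) hC.le) hB0) hW) hD.le).trans (le_of_eq ?_)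
  rw [Finset.prod_mul_distrib]
  field_simp

theorem l2a_fib {e : ℕ} (γ : (Io F → ℝ) → ℝ) {k : R F → R F → ℂ} (hk : Adm k e)
    {t : Io F → ℝ} (ht : ∀ v, 0 < t v) (s : Io F → ℝ) {p : (Io F → ℝ) × (Io F → ℝ)}
    (hp : p ∈ DE F) :
    (((∏ v, t v) ^ (4 / 3 : ℝ) : ℝ) : ℂ) *
      (((∏ v, p.1 v : ℝ) : ℂ) * ∫ z, Fm e γ k t s (pt z p.1 p.2)) =
      (((∏ v, t v) ^ (4 / 3 : ℝ) * cov (Lb F e) : ℝ) : ℂ) * ∑' d : R F, k 0 d * (((∏ v, p.1 v) *
        Real.exp (-∑ v, (s v + t v * sqv (d : F) v) * p.1 v) * l2aW γ p.2 : ℝ) : ℂ) +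
      (Real.pi : ℂ) ^ rr F * (((∏ v, t v) ^ (1 / 3 : ℝ) : ℝ) : ℂ) * ∑' c : R F, aK k e 0 c *
        (l2aG γ s (fun v => t v * sqv (c : F) v) p : ℂ) := by
  have h := four_coef hk ht hp.1 hp.2.1 (r := 0) (zero_mem _)
  have h0 : ∀ z : Io F → ℂ, eA (emb ((0 : R F) : F)) z = 1 := fun z => by
    rw [ZeroMemClass.coe_zero, emb_zero, eA_comm, eA_zero]
  simp only [h0, map_one, mul_one, nEs, integral_const_mul, if_true, Rsum] at h
  simp only [l2a_pt e γ k t s hp.1]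
  rw [integral_indicator (measurableSet_FD _), integral_const_mul]
  set X : ℂ := ((∏ v, p.1 v : ℝ) : ℂ) * ((l2aW γ p.2 * Real.exp (-∑ v, s v * p.1 v) : ℝ) : ℂ)
    with hX
  have e0 : ∑' d : R F, k 0 d * (((∏ v, p.1 v) *
      Real.exp (-∑ v, (s v + t v * sqv (d : F) v) * p.1 v) * l2aW γ p.2 : ℝ) : ℂ) =
      X * ∑' d : R F, k 0 d * (Real.exp (-∑ v, t v * p.1 v * sqv (d : F) v) : ℂ) := by
    rw [← tsum_mul_left]
    refine tsum_congr fun d => ?_
    have : -∑ v, (s v + t v * sqv (d : F) v) * p.1 v =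
        -∑ v, s v * p.1 v + -∑ v, t v * p.1 v * sqv (d : F) v := by
      rw [← neg_add, ← Finset.sum_add_distrib]
      exact congrArg _ (Finset.sum_congr rfl fun v _ => by ring)
    rw [this, Real.exp_add, hX]
    simp only [ofReal_mul]
    ring
  have e1 : ∑' c : R F, aK k e 0 c * (l2aG γ s (fun v => t v * sqv (c : F) v) p : ℂ) =
      X * ∑' c : R F, aK k e 0 c * fkV ((0 : R F) : F) p.1 p.2 (fun v => t v * sqv (c : F) v) := by
    rw [← tsum_mul_left]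
    refine tsum_congr fun c => ?_
    have hD : ((∏ v, p.1 v : ℝ) : ℂ) ≠ 0 :=
      ofReal_ne_zero.2 (Finset.prod_pos fun v _ => hp.1 v).ne'
    have : fkV ((0 : R F) : F) p.1 p.2 (fun v => t v * sqv (c : F) v) = ((∏ v, p.1 v : ℝ) : ℂ)⁻¹ *
        (Real.exp (-∑ v, t v * sqv (c : F) v * p.2 v / p.1 v) : ℂ) := by
      rw [← ofReal_inv, ← ofReal_mul, ← Finset.sum_neg_distrib, Real.exp_sum,
        ← Finset.prod_inv_distrib, ← Finset.prod_mul_distrib, ofReal_prod]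
      refine Finset.prod_congr rfl fun v _ => ?_
      simp [fk]
    rw [this, hX, l2aG, sub_eq_add_neg, Real.exp_add]
    simp only [ofReal_mul]
    field_simp
  rw [e0, e1]
  linear_combination X * h

theorem fm_int {e : ℕ} (he : 3 ≤ e) {γ : (Io F → ℝ) → ℝ} (hγ : IsUP (Eu F e) γ) :
    ∃ C : ℝ, ∀ χ : R F → ℂ, Bd1 χ → (∀ u x, IsUnit u → χ (u * x) = χ x) →
      ∀ t t' : Io F → ℝ, (∀ v, 0 < t v) → (∀ v, 0 < t' v) →
        ‖(((∏ v, t v) ^ (4 / 3 : ℝ) * (∏ v, t' v) ^ (4 / 3 : ℝ) : ℝ) : ℂ) *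
            (∫ Q, Fm e γ (fun c d => χ c * k0 e c d) t t' Q ∂(nu F)) -
          (Real.pi : ℂ) ^ rr F * Tz e χ (fI F) ((∏ v, t v) * ∏ v, t' v)‖ ≤
          C * ((∏ v, t v) * ∏ v, t' v) ^ (1 / 3 : ℝ) := by
  have he1 : 1 ≤ e := le_trans (by norm_num) he
  obtain ⟨C, hC0, hC⟩ := l2a_T0 hγ
  refine ⟨cov (Lb F e) * C, fun χ hb hχ t s ht hs => ?_⟩
  have hk := (adm_k0 he e).mul_left hb
  obtain ⟨i0, b0⟩ := hC (fun d => χ 0 * k0 e 0 d) (fun d => by
    rw [norm_mul]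
    exact mul_le_one₀ (hb 0) (norm_nonneg _) (norm_k0_le e 0 d)) (fun d hd => by
    have h := right_ne_zero_of_mul hd
    rw [k0_zero_left he1] at h
    have h' : InU e (d : F) := by
      by_contra h'
      exact h (if_neg fun h2 => h' h2.2)
    exact ⟨h'.ne_zero he1, int_of_mem d.2 h'.mem⟩) t s ht hs
  obtain ⟨i1, b1⟩ := l2a_T1 he hγ hb hχ ht hs
  have hP : 0 < ∏ v, s v := Finset.prod_pos fun v _ => hs v
  have hQ : 0 < ∏ v, t v := Finset.prod_pos fun v _ => ht v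
  have hc := cov_pos (isLat_Lb (F := F) e)
  have h43 : ∀ {y : ℝ}, 0 < y → y ^ (4 / 3 : ℝ) = y ^ (1 / 3 : ℝ) * y := fun hy => by
    rw [← Real.rpow_add_one hy.ne']
    norm_num
  have h1 := (integral_pt (measurable_Fm e hγ.meas _ t s) (integrable_Fm he1 hγ hk.1
    (by rw [k0_zero_zero he1, mul_zero]) ht hs)).2
  have h2 := setIntegral_congr_fun (μ := volume) measurableSet_DE
    fun p hp => l2a_fib γ hk ht s (p := p) hp
  rw [integral_const_mul, ← h1, integral_add (i0.const_mul _) (i1.const_mul _),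
    integral_const_mul, integral_const_mul] at h2
  rw [← b1, ofReal_mul, mul_comm (((∏ v, t v) ^ (4 / 3 : ℝ) : ℝ) : ℂ), mul_assoc, h2, mul_add,
    Real.mul_rpow hQ.le hP.le]
  rw [add_sub_assoc, sub_eq_zero.2 (by rw [h43 hP]; push_cast; ring), add_zero, norm_mul, norm_mul,
    Complex.norm_real, Complex.norm_real, Real.norm_of_nonneg (by positivity),
    Real.norm_of_nonneg (by positivity)]
  refine (mul_le_mul_of_nonneg_left (mul_le_mul_of_nonneg_left b0 (by positivity))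
    (by positivity)).trans (le_of_eq ?_)
  rw [h43 hP, h43 hQ]
  field_simp

end Vale.Agent.P319B
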