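import Vale.Agent.P319B.FI
import Vale.Agent.P319B.Units

/-! Analytic lemmas for the unfolded integral. -/

namespace Vale.Agent.P319B

open Complex NumberField MeasureTheory
open scoped Classical ComplexConjugate

theorem l2a_tsum {X J : Type} [MeasurableSpace X] {μ : Measure X} [Countable J] {f : J → X → ℂ}
    (hi : ∀ j, Integrable (f j) μ) (hs : Summable fun j => ∫ x, ‖f j x‖ ∂μ) :
    Integrable (fun x => ∑' j, f j x) μ := by
  refine ⟨(AEMeasurable.tsum fun j => (hi j).1.aemeasurable).aestronglyMeasurable, ?_⟩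
  have h1 : ∫⁻ x, ‖∑' j, f j x‖ₑ ∂μ ≤ ∑' j, ∫⁻ x, ‖f j x‖ₑ ∂μ := by
    rw [← lintegral_tsum fun j => (hi j).1.enorm]
    exact lintegral_mono fun x => enorm_tsum_le_tsum_enorm
  refine h1.trans_lt ?_
  simp_rw [← ofReal_integral_norm_eq_lintegral_enorm (hi _)]
  rw [← ENNReal.ofReal_tsum_of_nonneg (fun j => integral_nonneg fun x => norm_nonneg _) hs]
  exact ENNReal.ofReal_lt_top

theorem l2a_map {J : Type} [Fintype J] {a : J → ℝ} (ha : ∀ v, 0 < a v) :
    Measure.map (fun x : J → ℝ => a * x) volume = ENNReal.ofReal (∏ v, a v)⁻¹ • volume := by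
  have hp : 0 < ∏ v, a v := Finset.prod_pos fun v _ => ha v
  have h := Real.map_matrix_volume_pi_eq_smul_volume_pi (M := Matrix.diagonal a)
    (by rw [Matrix.det_diagonal]; exact hp.ne')
  rw [Matrix.det_diagonal, abs_of_pos (inv_pos.2 hp)] at h
  rw [← h]
  refine congrArg (fun g => Measure.map g volume) (funext fun x => funext fun v => ?_)
  simp [Matrix.mulVec_diagonal]

theorem l2a_one {a : ℝ} (ha : 0 < a) :
    IntegrableOn (fun x : ℝ => x * Real.exp (-(a * x))) (Set.Ioi 0) ∧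
      ∫ x in Set.Ioi (0 : ℝ), x * Real.exp (-(a * x)) = (a ^ 2)⁻¹ := by
  have h := Real.integral_rpow_mul_exp_neg_mul_Ioi (a := 2) (r := a) two_pos ha
  have h2 : ∫ x in Set.Ioi (0 : ℝ), x * Real.exp (-(a * x)) = (a ^ 2)⁻¹ := by
    norm_num at h
    simpa using h
  exact ⟨Integrable.of_integral_ne_zero (by rw [h2]; positivity), h2⟩

variable {F : Type} [Field F] [NumberField F] [Ctx0 F]

variable (F) in
/-- The positive cone. -/
def l2aD : Set (Io F → ℝ) := {D | ∀ v, 0 < D v}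
variable (F) in
/-- The determinant domain. -/
def l2aE : Set (Io F → ℝ) := {E | (∀ v, 0 < E v) ∧ 1 ≤ ∏ v, E v ∧ ∏ v, E v ≤ 2}

theorem l2a_DE : (volume.restrict (DE F) : Measure ((Io F → ℝ) × (Io F → ℝ))) =
    (volume.restrict (l2aD F)).prod (volume.restrict (l2aE F)) := by
  rw [Measure.prod_restrict]
  rfl

theorem l2a_Dpi : (volume.restrict (l2aD F) : Measure (Io F → ℝ)) =
    Measure.pi fun _ => volume.restrict (Set.Ioi (0 : ℝ)) := by
  rw [← Measure.restrict_pi_pi]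
  refine congrArg _ (Set.ext fun x => ?_)
  simp [l2aD]

theorem l2a_D1 {a : Io F → ℝ} (ha : ∀ v, 0 < a v) :
    IntegrableOn (fun D : Io F → ℝ => (∏ v, D v) * Real.exp (-∑ v, a v * D v)) (l2aD F) ∧
      ∫ D in l2aD F, (∏ v, D v) * Real.exp (-∑ v, a v * D v) = ∏ v, (a v ^ 2)⁻¹ := by
  have e : (fun D : Io F → ℝ => (∏ v, D v) * Real.exp (-∑ v, a v * D v)) =
      fun D => ∏ v, D v * Real.exp (-(a v * D v)) := by
    funext D
    rw [Finset.prod_mul_distrib, ← Real.exp_sum, Finset.sum_neg_distrib]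
  rw [IntegrableOn, e, l2a_Dpi]
  refine ⟨Integrable.fintype_prod (f := fun v (x : ℝ) => x * Real.exp (-(a v * x)))
    fun v => (l2a_one (ha v)).1, ?_⟩
  rw [integral_fintype_prod_eq_prod (fun v (x : ℝ) => x * Real.exp (-(a v * x)))]
  exact Finset.prod_congr rfl fun v _ => (l2a_one (ha v)).2

theorem l2a_D0 {a : Io F → ℝ} (ha : ∀ v, 0 < a v) :
    IntegrableOn (fun D : Io F → ℝ => Real.exp (-∑ v, a v * D v)) (l2aD F) := by
  have e : (fun D : Io F → ℝ => Real.exp (-∑ v, a v * D v)) =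
      fun D => ∏ v, Real.exp (-(a v) * D v) := by
    funext D
    rw [← Real.exp_sum, ← Finset.sum_neg_distrib]
    simp only [neg_mul]
  rw [IntegrableOn, e, l2a_Dpi]
  exact Integrable.fintype_prod (f := fun v (x : ℝ) => Real.exp (-(a v) * x))
    fun v => exp_neg_integrableOn_Ioi 0 (ha v)

theorem l2a_mE : MeasurableSet (l2aE F) := by
  unfold l2aE
  measurability

/-- The weight in the determinant variables. -/
noncomputable def l2aW (γ : (Io F → ℝ) → ℝ) (E : Io F → ℝ) : ℝ := γ fun v => Real.log (E v)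

theorem l2a_mW {γ : (Io F → ℝ) → ℝ} (hγ : Measurable γ) : Measurable (l2aW γ) :=
  hγ.comp (measurable_pi_lambda _ fun v => (measurable_pi_apply v).log)

theorem l2a_E {G : Subgroup Fˣ} {γ : (Io F → ℝ) → ℝ} (hγ : IsUP G γ) :
    IntegrableOn (l2aW γ) (l2aE F) := by
  obtain ⟨T, hT⟩ := hγ.supp
  have hi : IntegrableOn (fun _ : Io F → ℝ => (1 : ℝ))
      (Set.Icc (0 : Io F → ℝ) fun _ => Real.exp (Real.log 2 + T)) :=
    integrableOn_const (isCompact_Icc.measure_lt_top.ne)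
  refine ((hi.integrable_indicator measurableSet_Icc).integrableOn).mono'
    (l2a_mW hγ.meas).aestronglyMeasurable ?_
  refine (ae_restrict_iff' l2a_mE).2 (Filter.Eventually.of_forall fun E hE => ?_)
  rw [Real.norm_of_nonneg (show 0 ≤ l2aW γ E from hγ.nonneg _)]
  by_cases h : l2aW γ E = 0
  · rw [h]
    exact Set.indicator_nonneg (fun _ _ => zero_le_one) _
  rw [Set.indicator_of_mem]
  · exact hγ.le_one _
  refine ⟨fun v => (hE.1 v).le, fun v => ?_⟩
  have h1 := (abs_le.1 (un_bal (hT _ h) v)).2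
  have h2 : ∑ v, Real.log (E v) ≤ Real.log 2 := by
    rw [← Real.log_prod fun v _ => (hE.1 v).ne']
    exact Real.log_le_log (by linarith [hE.2.1]) hE.2.2
  have hr : (1 : ℝ) ≤ rr F := by exact_mod_cast rr_pos
  have hl : 0 ≤ Real.log 2 := Real.log_nonneg one_le_two
  have h3 : Real.log (E v) ≤ Real.log 2 + T := by
    refine le_of_mul_le_mul_left ?_ (by linarith : (0 : ℝ) < rr F)
    nlinarith
  exact (Real.log_le_iff_le_exp (hE.1 v)).1 h3

theorem l2a_scale {a b : Io F → ℝ} (ha : ∀ v, 0 < a v) (hb : ∀ v, 0 < b v) (h1 : ∏ v, b v = 1)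
    {f : (Io F → ℝ) × (Io F → ℝ) → ENNReal} (hf : Measurable f) :
    ∫⁻ p in DE F, f (a * p.1, b * p.2) = ENNReal.ofReal (∏ v, a v)⁻¹ * ∫⁻ p in DE F, f p := by
  have hm : ∀ c : Io F → ℝ, Measurable fun x : Io F → ℝ => c * x := fun c =>
    measurable_const.mul measurable_id
  have hΦ : Measure.map (Prod.map (fun x : Io F → ℝ => a * x) fun x : Io F → ℝ => b * x)
      (volume : Measure ((Io F → ℝ) × (Io F → ℝ))) = ENNReal.ofReal (∏ v, a v)⁻¹ • volume := by
    rw [Measure.volume_eq_prod, ← Measure.map_prod_map _ _ (hm a) (hm b), l2a_map ha, l2a_map hb,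
      h1, inv_one, ENNReal.ofReal_one, one_smul, Measure.prod_smul_left]
  rw [← lintegral_indicator measurableSet_DE, ← lintegral_indicator measurableSet_DE,
    ← smul_eq_mul, ← lintegral_smul_measure, ← hΦ,
    lintegral_map (hf.indicator measurableSet_DE) ((hm a).prodMap (hm b))]
  refine lintegral_congr fun p => ?_
  have : Prod.map (fun x : Io F → ℝ => a * x) (fun x : Io F → ℝ => b * x) p ∈ DE F ↔ p ∈ DE F := by
    simp only [DE, Set.mem_ofPred_eq, Prod.map_fst, Prod.map_snd, Pi.mul_apply,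
      Finset.prod_mul_distrib, h1, one_mul, mul_pos_iff_of_pos_left (ha _),
      mul_pos_iff_of_pos_left (hb _)]
  by_cases h : p ∈ DE F
  · rw [Set.indicator_of_mem h, Set.indicator_of_mem (this.2 h)]
    rfl
  · rw [Set.indicator_of_notMem h, Set.indicator_of_notMem (mt this.1 h)]

/-- The integrand of the main term. -/
noncomputable def l2aG (γ : (Io F → ℝ) → ℝ) (s y : Io F → ℝ) (p : (Io F → ℝ) × (Io F → ℝ)) : ℝ :=
  l2aW γ p.2 * Real.exp (-(∑ v, s v * p.1 v) - ∑ v, y v * p.2 v / p.1 v)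

theorem l2a_mG {γ : (Io F → ℝ) → ℝ} (hγ : Measurable γ) (s y : Io F → ℝ) :
    Measurable (l2aG γ s y) := by
  unfold l2aG
  exact ((l2a_mW hγ).comp measurable_snd).mul (by fun_prop)

theorem l2a_G0 {G : Subgroup Fˣ} {γ : (Io F → ℝ) → ℝ} (hγ : IsUP G γ) (s y : Io F → ℝ)
    (p : (Io F → ℝ) × (Io F → ℝ)) : 0 ≤ l2aG γ s y p :=
  mul_nonneg (hγ.nonneg _) (Real.exp_pos _).le

theorem l2a_unf0 {G : Subgroup Fˣ} (hG : UnitGrp G) {γ : (Io F → ℝ) → ℝ} (hγ : IsUP G γ)
    {s y : Io F → ℝ} (hs : ∀ v, 0 < s v) (hy : ∀ v, 0 < y v) :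
    ∑' u : G, ∫⁻ p in DE F,
      ENNReal.ofReal (l2aG γ s (fun v => y v * sqv ((u : Fˣ) : F) v) p) =
      ENNReal.ofReal ((∏ v, s v)⁻¹ * fI F ((∏ v, y v) * ∏ v, s v)) := by
  have := un_countable G
  set g : (Io F → ℝ) × (Io F → ℝ) → ℝ := fun p =>
    Real.exp (-(∑ v, p.1 v) - ∑ v, y v * s v * p.2 v / p.1 v) with hg
  have hgm : Measurable g := by rw [hg]; fun_prop
  set f : G → (Io F → ℝ) × (Io F → ℝ) → ENNReal := fun u p => ENNReal.ofReal
    (γ ((fun v => Real.log (p.2 v)) + lg (((u⁻¹ : G) : Fˣ) : F)) * g p) with hf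
  have hfm : ∀ u, Measurable (f u) := fun u =>
    ((hγ.meas.comp ((measurable_pi_lambda _ fun v =>
      ((measurable_pi_apply v).comp measurable_snd).log).add measurable_const)).mul
        hgm).ennreal_ofReal
  have h1 : ∀ u : G, ∫⁻ p in DE F,
      ENNReal.ofReal (l2aG γ s (fun v => y v * sqv ((u : Fˣ) : F) v) p) =
      ENNReal.ofReal (∏ v, s v)⁻¹ * ∫⁻ p in DE F, f u p := by
    intro u
    have hu : ∀ v, 0 < sqv ((u : Fˣ) : F) v := sqv_pos (Units.ne_zero _)
    rw [← l2a_scale hs hu (unitGrp_Nin hG u) (hfm u)]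
    refine setLIntegral_congr_fun measurableSet_DE fun p hp => ?_
    simp only [hf, hg, l2aG, l2aW, Pi.mul_apply]
    refine congrArg ENNReal.ofReal (congrArg₂ (· * ·) (congrArg γ (funext fun v => ?_))
      (congrArg (fun z => Real.exp (-(∑ v, s v * p.1 v) - z)) (Finset.sum_congr rfl fun v _ => ?_)))
    · rw [un_lg_inv, Pi.add_apply, Real.log_mul (hu v).ne' (hp.2.1 v).ne', Pi.neg_apply, lg]
      ring
    · have := (hs v).ne'
      have := (hp.1 v).ne'
      field_simp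
  have hys : ∀ v, 0 < y v * s v := fun v => mul_pos (hy v) (hs v)
  obtain ⟨hi, he⟩ := fI_eq hys
  rw [tsum_congr h1, ENNReal.tsum_mul_left, ← lintegral_tsum fun u => (hfm u).aemeasurable,
    ENNReal.ofReal_mul (inv_nonneg.2 (Finset.prod_nonneg fun v _ => (hs v).le)),
    ← Finset.prod_mul_distrib, ← he, ofReal_integral_eq_lintegral_ofReal hi
      (Filter.Eventually.of_forall fun p => (Real.exp_pos _).le)]
  refine congrArg _ (lintegral_congr fun p => ?_)
  have h2 := (un_inv hγ fun v => Real.log (p.2 v)).mul_right (g p)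
  rw [hf, ← ENNReal.ofReal_tsum_of_nonneg
    (fun u => mul_nonneg (hγ.nonneg _) (Real.exp_pos _).le) h2.summable, h2.tsum_eq, one_mul]

theorem l2a_unf {G : Subgroup Fˣ} (hG : UnitGrp G) {γ : (Io F → ℝ) → ℝ} (hγ : IsUP G γ)
    {s y : Io F → ℝ} (hs : ∀ v, 0 < s v) (hy : ∀ v, 0 < y v) :
    IntegrableOn (l2aG γ s y) (DE F) ∧
    HasSum (fun u : G => ∫ p in DE F, l2aG γ s (fun v => y v * sqv ((u : Fˣ) : F) v) p)
      ((∏ v, s v)⁻¹ * fI F ((∏ v, y v) * ∏ v, s v)) := by
  have h := l2a_unf0 hG hγ hs hy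
  have hne := h.trans_ne ENNReal.ofReal_ne_top
  have hp : ∀ {y : Io F → ℝ}, (∀ v, 0 < y v) → 0 < ∏ v, y v := fun hy =>
    Finset.prod_pos fun v _ => hy v
  constructor
  · have h1 := ENNReal.ne_top_of_tsum_ne_top hne 1
    simp only [OneMemClass.coe_one, Units.val_one, sqv_one, mul_one] at h1
    exact (lintegral_ofReal_ne_top_iff_integrable (l2a_mG hγ.meas s y).aestronglyMeasurable
      (Filter.Eventually.of_forall (l2a_G0 hγ s y))).1 h1
  · have h2 := ENNReal.hasSum_toReal hne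
    rw [← ENNReal.tsum_toReal_eq (ENNReal.ne_top_of_tsum_ne_top hne), h, ENNReal.toReal_ofReal
      (mul_nonneg (inv_nonneg.2 (hp hs).le) (fI_pos (mul_pos (hp hy) (hp hs))).le)] at h2
    simpa only [integral_eq_lintegral_of_nonneg_ae (Filter.Eventually.of_forall (l2a_G0 hγ s _))
      (l2a_mG hγ.meas s _).aestronglyMeasurable] using h2

end Vale.Agent.P319B
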