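import Vale.Agent.P319B.L2A
import Vale.Agent.P319B.Asym

/-! Inner products of the normalised series. -/

namespace Vale.Agent.P319B

open Complex NumberField MeasureTheory Filter Topology
open scoped Classical ComplexConjugate
open Vale.Agent.P026 (w kk fk)

variable {F : Type} [Field F] [NumberField F] [Ctx F]

theorem l2b_nonneg {e : ℕ} {γ : (Io F → ℝ) → ℝ} (hγ : IsUP (Eu F e) γ) (Q : HF F) :
    0 ≤ indQ e γ Q :=
  mul_nonneg (Set.indicator_nonneg (fun _ _ => zero_le_one) _) (hγ.nonneg _)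

theorem l2b_pair {e : ℕ} {γ : (Io F → ℝ) → ℝ} (hγ : IsUP (Eu F e) γ) (z : Io F → ℂ)
    (x : Io F → ℝ) :
    HasSum (fun p : Eu F e × Lb F e =>
      (FD (Lb F e)).indicator (fun _ => (1 : ℝ)) (emb ((p.1 : Fˣ) : F) * z + emb (p.2 : F)) *
        γ (x + lg ((p.1 : Fˣ) : F))) 1 := by
  have inner : ∀ u : Eu F e, HasSum (fun y : Lb F e =>
      (FD (Lb F e)).indicator (fun _ => (1 : ℝ)) (emb ((u : Fˣ) : F) * z + emb (y : F)) *
        γ (x + lg ((u : Fˣ) : F))) (γ (x + lg ((u : Fˣ) : F))) := by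
    intro u
    obtain ⟨y0, h0, h1⟩ := existsUnique_FD (isLat_Lb (F := F) e) (emb ((u : Fˣ) : F) * z)
    have := hasSum_single (f := fun y : Lb F e =>
      (FD (Lb F e)).indicator (fun _ => (1 : ℝ)) (emb ((u : Fˣ) : F) * z + emb (y : F)) *
        γ (x + lg ((u : Fˣ) : F))) y0 (fun y hy => by
          rw [Set.indicator_of_notMem (fun h => hy (h1 y h)), zero_mul])
    simpa only [Set.indicator_of_mem h0, one_mul] using this
  have hs : Summable fun u : Eu F e => γ (x + lg ((u : Fˣ) : F)) :=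
    summable_of_hasFiniteSupport (hγ.fin x)
  have outer : HasSum (fun u : Eu F e => γ (x + lg ((u : Fˣ) : F))) 1 := hγ.sum x ▸ hs.hasSum
  have hsum : Summable (fun p : Eu F e × Lb F e =>
      (FD (Lb F e)).indicator (fun _ => (1 : ℝ)) (emb ((p.1 : Fˣ) : F) * z + emb (p.2 : F)) *
        γ (x + lg ((p.1 : Fˣ) : F))) := by
    rw [summable_prod_of_nonneg (fun p =>
      mul_nonneg (Set.indicator_nonneg (fun _ _ => zero_le_one) _) (hγ.nonneg _))]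
    refine ⟨fun u => (inner u).summable, ?_⟩
    simp only [(inner _).tsum_eq]
    exact hs
  have h2 := hsum.hasSum
  have h3 := h2.prod_fiberwise inner
  rw [← outer.unique h3] at h2
  exact h2

theorem l2b_ex {e : ℕ} (he : 1 ≤ e) (p : Eu F e × Lb F e) : ∃ g : GM F, g ∈ Ge F e ∧ g.c = 0 ∧
    g.d = 1 ∧ (g.a : F) = ((p.1 : Fˣ) : F) ∧ (g.b : F) = (p.2 : F) := by
  obtain ⟨x, hx, h1, h2⟩ := (mem_Eu he).1 p.1.2
  obtain ⟨h3, h4⟩ := mem_Lb.1 p.2.2
  refine ⟨⟨x, ⟨p.2, h3⟩, 0, 1, hx.unit, by simp⟩, (mem_Ge he).2 ⟨h1, h4, ?_, ?_⟩, rfl, rfl, h2, rfl⟩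
  · exact Lo.zero e
  · exact InU.one e

theorem l2b_ext {g h : GM F} (ha : g.a = h.a) (hb : g.b = h.b) (hc : g.c = h.c) (hd : g.d = h.d) :
    g = h := by
  refine GM.ext ha hb hc hd (Units.ext ?_)
  rw [← g.det, ← h.det, ha, hb, hc, hd]

theorem l2b_ind {e : ℕ} (γ : (Io F → ℝ) → ℝ) {g : GM F} (hc : g.c = 0) (hd : g.d = 1) {Q : HF F}
    (hQ : PosQ Q) : indQ e γ (act g Q) =
      (FD (Lb F e)).indicator (fun _ => (1 : ℝ))
        (emb (g.a : F) * (fun v => (Q v).2.1 / ((Q v).2.2 : ℂ)) + emb (g.b : F)) *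
      γ ((fun v => Real.log (dlt (Q v))) + lg (g.a : F)) := by
  have ha : (g.a : F) ≠ 0 := by
    have h1 := g.det
    rw [hc, hd, mul_one, mul_zero, sub_zero] at h1
    have h2 : g.a ≠ 0 := by rw [h1]; exact g.u.ne_zero
    exact fun h => h2 (Subtype.ext h)
  have hD : ∀ v, 0 < (Q v).2.2 := fun v => (hQ v).1
  have h := act_upper_pt hc hd (fun v => (Q v).2.1 / ((Q v).2.2 : ℂ)) hD (fun v => dlt (Q v))
  rw [← eq_pt hQ] at h
  unfold indQ
  congr 2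
  · funext v
    rw [h]
    have : ((Q v).2.2 : ℂ) ≠ 0 := by exact_mod_cast (hD v).ne'
    simp only [pt, P026.pt]
    rw [mul_div_cancel_left₀ _ this]
  · funext v
    rw [h, dlt_pt _ hD, Real.log_mul (sqv_pos ha v).ne' (hQ v).2.ne', add_comm]
    rfl

/-- The fibre of the bottom row map. -/
theorem l2b_fibre {e : ℕ} (he : 1 ≤ e) {γ : (Io F → ℝ) → ℝ} (hγ : IsUP (Eu F e) γ) {Q : HF F}
    (hQ : PosQ Q) (g0 : Ge F e) :
    HasSum (fun g : {g : Ge F e // ((g : GM F).c, (g : GM F).d) = ((g0 : GM F).c, (g0 : GM F).d)} =>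
      indQ e γ (act (g.1 : GM F) Q)) 1 := by
  choose U hU using l2b_ex (F := F) he
  let φ : Eu F e × Lb F e →
      {g : Ge F e // ((g : GM F).c, (g : GM F).d) = ((g0 : GM F).c, (g0 : GM F).d)} :=
    fun p => ⟨⟨U p * g0, (Ge F e).mul_mem (hU p).1 g0.2⟩, by
      simp [(hU p).2.1, (hU p).2.2.1]⟩
  have hinj : Function.Injective φ := by
    intro p p' h
    have h1 : U p * (g0 : GM F) = U p' * g0 := congrArg (fun g => (g.1 : GM F)) h
    have h2 : U p = U p' := mul_right_cancel h1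
    refine Prod.ext (Subtype.ext (Units.ext ?_)) (Subtype.ext ?_)
    · rw [← (hU p).2.2.2.1, ← (hU p').2.2.2.1, h2]
    · rw [← (hU p).2.2.2.2, ← (hU p').2.2.2.2, h2]
  have hsurj : Function.Surjective φ := by
    rintro ⟨g, hg⟩
    simp only [Prod.mk.injEq] at hg
    have hm : (g : GM F) * (g0 : GM F)⁻¹ ∈ Ge F e := (Ge F e).mul_mem g.2 ((Ge F e).inv_mem g0.2)
    set s := (g : GM F) * (g0 : GM F)⁻¹ with hs
    have d0 := (g0 : GM F).det
    have d1 := (g0 : GM F).u.inv_mul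
    have hc : s.c = 0 := by
      simp only [hs, GM.mul_c, GM.inv_a, GM.inv_c]; rw [hg.1, hg.2]; ring
    have hd : s.d = 1 := by
      simp only [hs, GM.mul_d, GM.inv_b, GM.inv_d]; rw [hg.1, hg.2]
      linear_combination (↑(g0 : GM F).u⁻¹ : R F) * d0 + d1
    have hau : s.a = s.u := by
      have h1 := s.det
      rwa [hc, hd, mul_one, mul_zero, sub_zero] at h1
    have hcg := (mem_Ge he).1 hm
    have ha0 : (s.a : F) ≠ 0 := hcg.1.ne_zero he
    have hE : Units.mk0 (s.a : F) ha0 ∈ Eu F e :=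
      (mem_Eu he).2 ⟨s.a, hau ▸ s.u.isUnit, hcg.1, rfl⟩
    have hL : (s.b : F) ∈ Lb F e := mem_Lb.2 ⟨s.b.2, hcg.2.1⟩
    refine ⟨(⟨_, hE⟩, ⟨_, hL⟩), Subtype.ext (Subtype.ext ?_)⟩
    have h1 : U (⟨_, hE⟩, ⟨_, hL⟩) = s := by
      obtain ⟨-, a1, a2, a3, a4⟩ := hU (⟨_, hE⟩, ⟨_, hL⟩)
      exact l2b_ext (Subtype.ext a3) (Subtype.ext a4) (a1.trans hc.symm) (a2.trans hd.symm)
    show U (⟨_, hE⟩, ⟨_, hL⟩) * (g0 : GM F) = g
    rw [h1, hs]; group
  rw [← (Equiv.ofBijective φ ⟨hinj, hsurj⟩).hasSum_iff]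
  have hact := hQ.act (g0 : GM F)
  have := l2b_pair hγ (fun v => (act (g0 : GM F) Q v).2.1 / ((act (g0 : GM F) Q v).2.2 : ℂ))
    (fun v => Real.log (dlt (act (g0 : GM F) Q v)))
  have e1 : ((fun g : {g : Ge F e //
      ((g : GM F).c, (g : GM F).d) = ((g0 : GM F).c, (g0 : GM F).d)} =>
        indQ e γ (act (g.1 : GM F) Q)) ∘ (Equiv.ofBijective φ ⟨hinj, hsurj⟩)) =
      fun p : Eu F e × Lb F e => (FD (Lb F e)).indicator (fun _ => (1 : ℝ))
        (emb ((p.1 : Fˣ) : F) * (fun v => (act (g0 : GM F) Q v).2.1 /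
          ((act (g0 : GM F) Q v).2.2 : ℂ)) + emb (p.2 : F)) *
        γ ((fun v => Real.log (dlt (act (g0 : GM F) Q v))) + lg ((p.1 : Fˣ) : F)) := by
    funext p
    show indQ e γ (act (U p * (g0 : GM F)) Q) = _
    rw [act_mul, l2b_ind γ (hU p).2.1 (hU p).2.2.1 hact, (hU p).2.2.2.1, (hU p).2.2.2.2]
  rw [e1]
  exact this

theorem l2b_unfold {e : ℕ} (he : 1 ≤ e) {γ : (Io F → ℝ) → ℝ} (hγ : IsUP (Eu F e) γ) {Q : HF F}
    (hQ : PosQ Q) {H : R F × R F → ℂ} (hs : Summable H)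
    (hH : ∀ x, H x ≠ 0 → k0 e x.1 x.2 ≠ 0) :
    HasSum (fun g : Ge F e => (indQ e γ (act g Q) : ℂ) * H ((g : GM F).c, (g : GM F).d))
      (∑' x, H x) := by
  let f : Ge F e → R F × R F := fun g => ((g : GM F).c, (g : GM F).d)
  have fib : ∀ x : R F × R F, H x ≠ 0 →
      HasSum (fun g : {g : Ge F e // f g = x} => indQ e γ (act (g.1 : GM F) Q)) 1 := by
    intro x hx
    obtain ⟨g, hg, -, h1, h2⟩ := k0_ne_zero he (hH x hx)
    have := l2b_fibre he hγ hQ ⟨g, hg⟩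
    have e : x = (g.c, g.d) := by ext1 <;> simp [h1, h2]
    subst e
    exact this
  have fibC : ∀ x : R F × R F,
      HasSum (fun g : {g : Ge F e // f g = x} => (indQ e γ (act (g.1 : GM F) Q) : ℂ) * H x)
        (H x) := by
    intro x
    by_cases hx : H x = 0
    · simp [hx, hasSum_zero]
    · have := (Complex.hasSum_ofReal.2 (fib x hx)).mul_right (H x)
      simpa using this
  have fibN : ∀ x : R F × R F,
      HasSum (fun g : {g : Ge F e // f g = x} => indQ e γ (act (g.1 : GM F) Q) * ‖H x‖) ‖H x‖ := by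
    intro x
    by_cases hx : H x = 0
    · simp [hx, hasSum_zero]
    · simpa using (fib x hx).mul_right ‖H x‖
  rw [← (Equiv.sigmaFiberEquiv f).hasSum_iff]
  have e1 : ((fun g : Ge F e => (indQ e γ (act g Q) : ℂ) * H ((g : GM F).c, (g : GM F).d)) ∘
      (Equiv.sigmaFiberEquiv f)) = fun p : (x : R F × R F) × {g : Ge F e // f g = x} =>
        (indQ e γ (act (p.2.1 : GM F) Q) : ℂ) * H p.1 := by
    funext p
    obtain ⟨x, g, rfl⟩ := p
    rfl
  rw [e1]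
  have hsum : Summable fun p : (x : R F × R F) × {g : Ge F e // f g = x} =>
        (indQ e γ (act (p.2.1 : GM F) Q) : ℂ) * H p.1 := by
    apply Summable.of_norm
    have e2 : (fun p : (x : R F × R F) × {g : Ge F e // f g = x} =>
        ‖(indQ e γ (act (p.2.1 : GM F) Q) : ℂ) * H p.1‖) =
          fun p => indQ e γ (act (p.2.1 : GM F) Q) * ‖H p.1‖ := by
      funext p
      rw [norm_mul, Complex.norm_real, Real.norm_of_nonneg (l2b_nonneg hγ _)]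
    rw [e2, summable_sigma_of_nonneg (fun p => mul_nonneg (l2b_nonneg hγ _) (norm_nonneg _))]
    refine ⟨fun x => (fibN x).summable, ?_⟩
    simp only [(fibN _).tsum_eq]
    exact hs.norm
  exact HasSum.sigma_of_hasSum hs.hasSum fibC hsum

theorem l2b_conj_Es (k : R F → R F → ℂ) (Q : HF F) :
    conj (Es k Q) = ∑' x : R F × R F, conj (k x.1 x.2) * (Real.exp (-hv Q x) : ℂ) := by
  unfold Es
  rw [Complex.conj_tsum]
  simp only [map_mul, Complex.conj_ofReal]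

theorem l2b_summable_conj {k : R F → R F → ℂ} (hk : Bdd k) {Q : HF F} (hQ : PosQ Q) :
    Summable (fun x : R F × R F => conj (k x.1 x.2) * (Real.exp (-hv Q x) : ℂ)) := by
  refine Summable.of_norm ((summable_Es hk hQ).norm.congr fun x => ?_)
  simp only [norm_mul, RCLike.norm_conj]

theorem l2b_Fm (e : ℕ) (γ : (Io F → ℝ) → ℝ) (k : R F → R F → ℂ) (t t' : Io F → ℝ) (g : GM F)
    (Q : HF F) : Fm e γ k t t' (act g Q) = (indQ e γ (act g Q) : ℂ) *
      (Es (trl k g) (sc t Q) * (Real.exp (-hv (sc t' Q) (g.c, g.d)) : ℂ)) := by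
  unfold Fm
  rw [← act_sc, Es_act, hv_sc]
  simp only [act_D]
  push_cast
  ring

theorem l2b_sum_F {e : ℕ} (he : 3 ≤ e) {γ : (Io F → ℝ) → ℝ} (hγ : IsUP (Eu F e) γ) {Q : HF F}
    (hQ : PosQ Q) (t : Io F → ℝ) {t' : Io F → ℝ} (ht' : ∀ v, 0 < t' v) :
    ∑' g : Ge F e, Fm e γ (k0 e) t t' (act g Q) =
      conj (Es (k0 e) (sc t' Q)) * Es (k0 e) (sc t Q) := by
  have h := l2b_unfold (by omega : 1 ≤ e) hγ hQ (H := fun x => Es (k0 e) (sc t Q) *
      (conj (k0 e x.1 x.2) * (Real.exp (-hv (sc t' Q) x) : ℂ)))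
    ((l2b_summable_conj (adm_k0 he 0).1 (hQ.sc ht')).mul_left _) (fun x hx h0 => hx (by simp [h0]))
  rw [tsum_mul_left, ← l2b_conj_Es] at h
  rw [mul_comm, ← h.tsum_eq]
  congr 1
  funext g
  rw [l2b_Fm, trl_k0 he g.2, Es_smul]
  ring

theorem l2b_prim {e : ℕ} (he : 1 ≤ e) {p : R F} (hp : Prime p) {x : R F × R F}
    (h : k0 e x.1 x.2 ≠ 0) : ¬ (p ∣ x.1 ∧ p ∣ x.2) := fun h' =>
  hp.not_isUnit ((k0_coprime he h).isUnit_of_dvd' h'.1 h'.2)

theorem l2b_lin_smul (p : R F) (l : R F × R F) (z : ℂ) (k : R F → R F → ℂ) :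
    lin p l (fun c d => z * k c d) = fun c d => z * lin p l k c d := by
  funext c d
  unfold lin
  split_ifs <;> simp

theorem l2b_norm_le {e : ℕ} (he : 3 ≤ e) (p : R F) (l : R F × R F) {Q : HF F} (hQ : PosQ Q) :
    ‖Es (lin p l (k0 e)) Q‖ ≤ ∑' x : R F × R F, ‖k0 e x.1 x.2 * (Real.exp (-hv Q x) : ℂ)‖ := by
  refine tsum_of_norm_bounded (summable_Es (adm_k0 he 0).1 hQ).norm.hasSum (fun x => ?_)
  unfold lin
  split_ifs
  · exact le_rfl
  · simp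

theorem l2b_sum_lin {e : ℕ} (he : 3 ≤ e) {γ : (Io F → ℝ) → ℝ} (hγ : IsUP (Eu F e) γ) {p : R F}
    (hp : Prime p) {Q : HF F} (hQ : PosQ Q) {t : Io F → ℝ} (ht : ∀ v, 0 < t v) :
    ∑' g : Ge F e, Fm e γ (lin p (0, 1) (k0 e)) t t (act g Q) =
      ∑ l ∈ Lns p, Es (lin p l (k0 e)) (sc t Q) * conj (Es (lin p l (k0 e)) (sc t Q)) := by
  have h1e : 1 ≤ e := by omega
  have hb := (adm_k0 (F := F) he 0).1
  have hQ' := hQ.sc ht
  have hs : Summable (fun x : R F × R F => Es (lin p x (k0 e)) (sc t Q) *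
      (conj (k0 e x.1 x.2) * (Real.exp (-hv (sc t Q) x) : ℂ))) := by
    refine Summable.of_norm_bounded (g := fun x =>
      (∑' x : R F × R F, ‖k0 e x.1 x.2 * (Real.exp (-hv (sc t Q) x) : ℂ)‖) *
      ‖conj (k0 e x.1 x.2) * (Real.exp (-hv (sc t Q) x) : ℂ)‖)
      ((l2b_summable_conj hb hQ').norm.mul_left _) (fun x => ?_)
    rw [norm_mul]
    exact mul_le_mul_of_nonneg_right (l2b_norm_le he p x hQ') (norm_nonneg _)
  have h := l2b_unfold h1e hγ hQ hs (fun x hx h0 => hx (by simp [h0]))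
  have e1 : ∑' g : Ge F e, Fm e γ (lin p (0, 1) (k0 e)) t t (act g Q) = ∑' x : R F × R F,
      Es (lin p x (k0 e)) (sc t Q) * (conj (k0 e x.1 x.2) * (Real.exp (-hv (sc t Q) x) : ℂ)) := by
    rw [← h.tsum_eq]
    congr 1
    funext g
    have e2 : trl (lin p (0, 1) (k0 e)) (g : GM F) =
        lin p ((g : GM F).c, (g : GM F).d) (trl (k0 e) g) := by
      rw [lin_trl, ← row_zero_one, ← row_mul, mul_inv_cancel, row_one]
    rw [l2b_Fm, e2, trl_k0 he g.2, l2b_lin_smul, Es_smul]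
    ring
  rw [e1]
  simp only [l2b_conj_Es, ← tsum_mul_left]
  rw [← Summable.tsum_finsetSum
    (fun l _ => (l2b_summable_conj (hb.lin p l) hQ').mul_left _)]
  congr 1
  funext x
  by_cases h0 : k0 e x.1 x.2 = 0
  · simp [lin, h0]
  · have hx := l2b_prim h1e hp h0
    obtain ⟨l, ⟨a1, a2⟩, a3⟩ := existsUnique_Lns hp hx
    rw [Finset.sum_eq_single_of_mem l a1]
    · rw [lin_congr hp hx (prim_of_mem_Lns hp a1) a2]
      simp only [lin, if_pos a2]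
    · intro l' hl' hne
      have : ¬ p ∣ x.1 * l'.2 - x.2 * l'.1 := fun h' => hne (a3 l' ⟨hl', h'⟩)
      simp [lin, this]

theorem l2b_lim {e : ℕ} (he : 3 ≤ e) {γ : (Io F → ℝ) → ℝ} (hγ : IsUP (Eu F e) γ) {χ : R F → ℂ}
    (h1 : Bd1 χ) (h2 : ∀ u x, IsUnit u → χ (u * x) = χ x) {l : ℂ}
    (hl : Tendsto (Tz e χ (fI F)) (𝓝[>] 0) (𝓝 l)) :
    Tendsto (fun p : (Io F → ℝ) × (Io F → ℝ) =>
      (((∏ v, p.1 v) ^ (4 / 3 : ℝ) * (∏ v, p.2 v) ^ (4 / 3 : ℝ) : ℝ) : ℂ) *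
        ∫ Q, Fm e γ (fun c d => χ c * k0 e c d) p.1 p.2 Q ∂(nu F)) (Fz F ×ˢ Fz F)
      (𝓝 ((Real.pi : ℂ) ^ rr F * l)) := by
  obtain ⟨C, hC⟩ := fm_int he hγ
  have t1 := (hl.comp (tendsto_prod_Fz2 (F := F))).const_mul ((Real.pi : ℂ) ^ rr F)
  have t2 : Tendsto (fun p : (Io F → ℝ) × (Io F → ℝ) =>
      C * ((∏ v, p.1 v) * ∏ v, p.2 v) ^ (1 / 3 : ℝ)) (Fz F ×ˢ Fz F) (𝓝 0) := by
    have := ((Real.continuous_rpow_const (by norm_num : (0 : ℝ) ≤ 1 / 3)).tendsto 0).comp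
      ((tendsto_prod_Fz2 (F := F)).mono_right nhdsWithin_le_nhds)
    rw [Real.zero_rpow (by norm_num)] at this
    simpa using this.const_mul C
  have t3 := squeeze_zero_norm' (f := fun p : (Io F → ℝ) × (Io F → ℝ) =>
      (((∏ v, p.1 v) ^ (4 / 3 : ℝ) * (∏ v, p.2 v) ^ (4 / 3 : ℝ) : ℝ) : ℂ) *
        (∫ Q, Fm e γ (fun c d => χ c * k0 e c d) p.1 p.2 Q ∂(nu F)) -
          (Real.pi : ℂ) ^ rr F * Tz e χ (fI F) ((∏ v, p.1 v) * ∏ v, p.2 v))
    (by
      filter_upwards [prod_mem_prod eventually_Fz_pos eventually_Fz_pos] with p hp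
      exact hC χ h1 h2 p.1 p.2 hp.1 hp.2) t2
  have t4 := t3.add t1
  simpa using t4

theorem l2_inner {e : ℕ} (he : 3 ≤ e) {β : HF F → ENNReal} (hβ : IsBeta e β) : ∃ l : ℝ, 0 < l ∧
    (∀ t t' : Io F → ℝ, (∀ v, 0 < t v) → (∀ v, 0 < t' v) → Integrable (fun Q =>
      ((β Q).toReal : ℂ) * (conj (nEs (k0 e) t' Q) * nEs (k0 e) t Q)) (nu F)) ∧
    Tendsto (fun p : (Io F → ℝ) × (Io F → ℝ) => ∫ Q, ((β Q).toReal : ℂ) *
      (conj (nEs (k0 e) p.2 Q) * nEs (k0 e) p.1 Q) ∂(nu F)) (Fz F ×ˢ Fz F) (𝓝 (l : ℂ)) ∧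
    ∀ p : R F, Prime p →
      (∀ t : Io F → ℝ, (∀ v, 0 < t v) → Integrable (fun Q =>
        (β Q).toReal * ∑ x ∈ Lns p, ‖nEs (lin p x (k0 e)) t Q‖ ^ 2) (nu F)) ∧
      Tendsto (fun t : Io F → ℝ => ∫ Q, (β Q).toReal *
        ∑ x ∈ Lns p, ‖nEs (lin p x (k0 e)) t Q‖ ^ 2 ∂(nu F)) (Fz F) (𝓝 (l / (N p + 1))) := by
  have h1e : 1 ≤ e := by omega
  obtain ⟨γ, hγ⟩ := exists_isUP (unitGrp_Eu (F := F) h1e)
  obtain ⟨l, hl, ha, hb⟩ := asym (F := F) h1e (f := fI F) (fun y hy => fI_pos hy) fI_antitoneOn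
    (fun σ hσ => fI_le hσ)
  have hbd := (adm_k0 (F := F) he 0).1
  have hae : ∀ᵐ Q ∂(nu F), Q ∈ slab F := ae_restrict_mem measurableSet_slab
  have pair : ∀ t t' : Io F → ℝ, (∀ v, 0 < t v) → (∀ v, 0 < t' v) → Integrable (fun Q =>
      ((β Q).toReal : ℂ) * (conj (nEs (k0 e) t' Q) * nEs (k0 e) t Q)) (nu F) ∧
      ∫ Q, ((β Q).toReal : ℂ) * (conj (nEs (k0 e) t' Q) * nEs (k0 e) t Q) ∂(nu F) =
        (((∏ v, t v) ^ (4 / 3 : ℝ) * (∏ v, t' v) ^ (4 / 3 : ℝ) : ℝ) : ℂ) *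
          ∫ Q, Fm e γ (k0 e) t t' Q ∂(nu F) := by
    intro t t' ht ht'
    obtain ⟨i1, e1⟩ := integral_unfold h1e hβ (measurable_Fm e hγ.meas (k0 e) t t')
      (integrable_Fm h1e hγ hbd (k0_zero_zero h1e) ht ht')
    have h : (fun Q => (((∏ v, t v) ^ (4 / 3 : ℝ) * (∏ v, t' v) ^ (4 / 3 : ℝ) : ℝ) : ℂ) *
        (((β Q).toReal : ℂ) * ∑' g : Ge F e, Fm e γ (k0 e) t t' (act g Q))) =ᵐ[nu F]
        fun Q => ((β Q).toReal : ℂ) * (conj (nEs (k0 e) t' Q) * nEs (k0 e) t Q) := by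
      filter_upwards [hae] with Q hQ
      rw [l2b_sum_F he hγ (posQ_of_mem hQ) t ht']
      simp only [nEs, map_mul, Complex.conj_ofReal]
      push_cast; ring
    refine ⟨(i1.const_mul _).congr h, ?_⟩
    rw [← integral_congr_ae h, integral_const_mul, e1]
  refine ⟨Real.pi ^ rr F * l, by positivity, fun t t' ht ht' => (pair t t' ht ht').1, ?_,
    fun p hp => ?_⟩
  · have h := l2b_lim he hγ (χ := fun _ => 1) (fun _ => by simp) (fun _ _ _ => rfl) ha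
    simp only [one_mul] at h
    push_cast
    refine h.congr' ?_
    filter_upwards [prod_mem_prod eventually_Fz_pos eventually_Fz_pos] with q hq
    exact (pair q.1 q.2 hq.1 hq.2).2.symm
  have line : ∀ t : Io F → ℝ, (∀ v, 0 < t v) → Integrable (fun Q => (((β Q).toReal *
      ∑ x ∈ Lns p, ‖nEs (lin p x (k0 e)) t Q‖ ^ 2 : ℝ) : ℂ)) (nu F) ∧
      ∫ Q, (((β Q).toReal * ∑ x ∈ Lns p, ‖nEs (lin p x (k0 e)) t Q‖ ^ 2 : ℝ) : ℂ) ∂(nu F) =
        (((∏ v, t v) ^ (4 / 3 : ℝ) * (∏ v, t v) ^ (4 / 3 : ℝ) : ℝ) : ℂ) *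
          ∫ Q, Fm e γ (lin p (0, 1) (k0 e)) t t Q ∂(nu F) := by
    intro t ht
    obtain ⟨i1, e1⟩ := integral_unfold h1e hβ
      (measurable_Fm e hγ.meas (lin p (0, 1) (k0 e)) t t)
      (integrable_Fm h1e hγ (hbd.lin p (0, 1)) (by simp [lin, k0_zero_zero h1e]) ht ht)
    have h : (fun Q => (((∏ v, t v) ^ (4 / 3 : ℝ) * (∏ v, t v) ^ (4 / 3 : ℝ) : ℝ) : ℂ) *
        (((β Q).toReal : ℂ) * ∑' g : Ge F e, Fm e γ (lin p (0, 1) (k0 e)) t t (act g Q))) =ᵐ[nu F]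
        fun Q => (((β Q).toReal * ∑ x ∈ Lns p, ‖nEs (lin p x (k0 e)) t Q‖ ^ 2 : ℝ) : ℂ) := by
      filter_upwards [hae] with Q hQ
      rw [l2b_sum_lin he hγ hp (posQ_of_mem hQ) ht, Complex.ofReal_mul (β Q).toReal,
        Complex.ofReal_sum, mul_left_comm, Finset.mul_sum]
      congr 1
      refine Finset.sum_congr rfl fun x _ => ?_
      rw [← Complex.normSq_eq_norm_sq, ← Complex.mul_conj]
      simp only [nEs, map_mul, Complex.conj_ofReal]
      push_cast; ring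
    refine ⟨(i1.const_mul _).congr h, ?_⟩
    rw [← integral_congr_ae h, integral_const_mul, e1]
  refine ⟨fun t ht => by
    simpa only [RCLike.re_to_complex, Complex.ofReal_re] using (line t ht).1.re, ?_⟩
  have h := l2b_lim he hγ (χ := fun x => if p ∣ x then 1 else 0)
    (fun x => by beta_reduce; split_ifs <;> simp) (fun u x hu => by simp only [hu.dvd_mul_left]) (hb p hp)
  rw [← lin_zero_one] at h
  have h2 := (Complex.continuous_re.tendsto _).comp (h.comp (tendsto_id.prodMk tendsto_id))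
  have e3 : ((Real.pi : ℂ) ^ rr F * ((l / (N p + 1) : ℝ) : ℂ)).re =
      Real.pi ^ rr F * l / (N p + 1) := by
    rw [← Complex.ofReal_pow, ← Complex.ofReal_mul, Complex.ofReal_re]; ring
  rw [e3] at h2
  refine h2.congr' ?_
  filter_upwards [eventually_Fz_pos] with t ht
  simp only [Function.comp, id]
  rw [← (line t ht).2, integral_complex_ofReal, Complex.ofReal_re]

end Vale.Agent.P319B
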