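import Vale.Agent.P319B.LCA

/-! Local constancy of the symbol. -/

namespace Vale.Agent.P319B

open scoped Classical

open Polynomial

variable {A : Type} [CommRing A] [IsDomain A] [IsPrincipalIdealRing A] {ω : A}
  {K : Type} [Field K] [CharZero K] [Algebra A K] [IsFractionRing A K]

/-- The algebra of pairs (sequence, limit). -/
def lcRing {K : Type} [Field K] (Kl : Subring K) {M : K} (hM0 : M ≠ 0)
    (hHi : ∀ x : K, ∃ k : ℕ, M ^ k * x ∈ Kl) : Subalgebra K ((ℕ → K) × K) where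
  carrier := {z | Cv Kl M z.1 z.2}
  mul_mem' := fun {x y} hx hy k => by
    obtain ⟨i, hi⟩ := hHi x.2
    obtain ⟨j, hj⟩ := hHi y.2
    filter_upwards [hx k, hy 0, hx (k + j), hy (k + i)] with n h1 h2 h3 h4
    have := add_mem (add_mem (mul_mem h1 h2) (mul_mem hj h3)) (mul_mem hi h4)
    have e : ((x * y).1 n - (x * y).2) / M ^ k = (x.1 n - x.2) / M ^ k * ((y.1 n - y.2) / M ^ 0)
        + M ^ j * y.2 * ((x.1 n - x.2) / M ^ (k + j))
        + M ^ i * x.2 * ((y.1 n - y.2) / M ^ (k + i)) := by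
      simp only [Prod.fst_mul, Prod.snd_mul, Pi.mul_apply]
      field_simp
      ring
    rwa [e]
  add_mem' := fun {x y} hx hy k => by
    filter_upwards [hx k, hy k] with n h1 h2
    have := add_mem h1 h2
    rwa [← add_div, ← add_sub_add_comm] at this
  algebraMap_mem' := fun c k => Filter.Eventually.of_forall fun n => by
    simp [Prod.algebraMap_apply]

theorem lc_ratio {K : Type} [Field K] {Kl : Subring K} {M : K} (hM0 : M ≠ 0)
    (hHi : ∀ x : K, ∃ k : ℕ, M ^ k * x ∈ Kl) {x : ℕ → K} {l : K} (h : Cv Kl M x l) (hl : l ≠ 0) :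
    Cv Kl M (fun n => x n / l) 1 := fun k => by
  obtain ⟨j, hj⟩ := hHi l⁻¹
  filter_upwards [h (k + j)] with n hn
  have e : (x n / l - 1) / M ^ k = M ^ j * l⁻¹ * ((x n - l) / M ^ (k + j)) := by
    field_simp
    ring
  rw [e]
  exact mul_mem hj hn

theorem lc_inv {K : Type} [Field K] {Kl : Subring K} {M : K} (hM0 : M ≠ 0)
    (hHi : ∀ x : K, ∃ k : ℕ, M ^ k * x ∈ Kl) (hU : ∀ x ∈ Kl, ∃ y ∈ Kl, (1 + M * x) * y = 1)
    {x : ℕ → K} {l : K} (h : Cv Kl M x l) (hl : l ≠ 0) :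
    (∀ᶠ n in Filter.atTop, x n ≠ 0) ∧ Cv Kl M (fun n => (x n)⁻¹) l⁻¹ := by
  have key : ∀ᶠ n in Filter.atTop, x n ≠ 0 ∧ l / x n ∈ Kl := by
    filter_upwards [lc_ratio hM0 hHi h hl 1] with n hn
    obtain ⟨y, hy, e⟩ := hU _ hn
    rw [pow_one, mul_div_cancel₀ _ hM0, add_sub_cancel] at e
    refine ⟨fun h0 => by simp [h0] at e, ?_⟩
    rwa [← inv_div, ← eq_inv_of_mul_eq_one_right e]
  refine ⟨key.mono fun n hn => hn.1, fun k => ?_⟩
  obtain ⟨j, hj⟩ := hHi l⁻¹
  filter_upwards [key, lc_ratio hM0 hHi h hl (k + j)] with n h1 h2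
  have e : ((x n)⁻¹ - l⁻¹) / M ^ k =
      -(M ^ j * l⁻¹ * (l / x n) * ((x n / l - 1) / M ^ (k + j))) := by
    have := h1.1
    field_simp
    ring
  rw [e]
  exact neg_mem (mul_mem (mul_mem hj h1.2) h2)

theorem lc_final (hω : Base ω) (Kl : Subring K) {M : K} (hM0 : M ≠ 0) (hM : M ∈ Kl)
    (hHi : ∀ x : K, ∃ k : ℕ, M ^ k * x ∈ Kl) (hU : ∀ x ∈ Kl, ∃ y ∈ Kl, (1 + M * x) * y = 1)
    {k0 : ℕ} (hB : ∀ x y : K, x ≠ 0 → y ≠ 0 → (x - 1) / M ^ k0 ∈ Kl → symS ω x y = 0)
    {S : Type} [Field S] [Algebra A S] [Algebra K S] [IsScalarTower A K S] [Module.Finite K S]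
    {J : Type} [Fintype J] (b : Module.Basis J K S) (x : ℕ → S)
    (hx : ∀ i, Cv Kl M (fun n => b.repr (x n - 1) i) 0) {y : S} (hy : y ≠ 0) :
    ∀ᶠ n in Filter.atTop, symS ω (x n) y = 0 := by
  set D := lcRing Kl hM0 hHi with hD
  let ev : ℕ → D →+* K := fun n =>
    (Pi.evalRingHom (fun _ => K) n).comp ((RingHom.fst _ _).comp D.val.toRingHom)
  let lim : D →+* K := (RingHom.snd _ _).comp D.val.toRingHom
  have one : ∀ c : D, lim c ≠ 0 → ∀ᶠ n in Filter.atTop, ev n c ≠ 0 ∧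
      ∀ z : K, z ≠ 0 → symS ω (ev n c) z = symS ω (lim c) z := fun c hc => by
    filter_upwards [(lc_inv hM0 hHi hU c.2 hc).1, lc_ratio hM0 hHi c.2 hc k0] with n h1 h2
    refine ⟨h1, fun z hz => ?_⟩
    have h3 : ev n c / lim c ≠ 0 := div_ne_zero h1 hc
    rw [← div_mul_cancel₀ (ev n c) hc, symS_mul_left K hω h3.isUnit hc.isUnit hz.isUnit,
      hB _ _ h3 hz h2, zero_add]
  have H : LcSeq ω (algebraMap K D) ev lim := ⟨fun n => rfl, rfl, fun c hc => by
      obtain ⟨h1, h2⟩ := lc_inv hM0 hHi hU c.2 hc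
      exact ⟨⟨(fun n => (c.1.1 n)⁻¹, c.1.2⁻¹), h2⟩, mul_inv_cancel₀ hc,
        h1.mono fun n hn => mul_inv_cancel₀ hn⟩, fun c d hc hd => by
      filter_upwards [one c hc, one d hd] with n h1 h2
      rw [h1.2 _ h2.1, symS_swap K hω, h2.2 _ hc, ← symS_swap K hω]⟩
  let pb := Field.powerBasisOfFiniteOfSeparable K S
  set f := minpoly K pb.gen with hf
  have fm : f.Monic := minpoly.monic pb.isIntegral_gen
  have fi : Irreducible f := minpoly.irreducible pb.isIntegral_gen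
  have := fm.finite_adjoinRoot
  let e : AdjoinRoot f ≃ₐ[K] S := AdjoinRoot.equiv' f pb
    (by rw [← hf, AdjoinRoot.aeval_eq, AdjoinRoot.mk_self]) (minpoly.aeval _ _)
  have sj : ∀ z : S, ∃ w : K[X], e (AdjoinRoot.mk f w) = z := fun z => by
    obtain ⟨w, hw⟩ := AdjoinRoot.mk_surjective (e.symm z)
    exact ⟨w, by rw [hw, e.apply_symm_apply]⟩
  choose w hw using sj
  let c : J → D := fun i => ⟨(fun n => b.repr (x n - 1) i, 0), hx i⟩
  let a : D[X] := 1 + ∑ i, C (c i) * (w (b i)).map (algebraMap K D)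
  have cl : ∀ u : K[X], (u.map (algebraMap K D)).map lim = u := fun u => by
    rw [Polynomial.map_map, H.lim_ι, Polynomial.map_id]
  have ce : ∀ n (u : K[X]), (u.map (algebraMap K D)).map (ev n) = u := fun n u => by
    rw [Polynomial.map_map, H.ev_ι, Polynomial.map_id]
  have al : a.map lim = 1 := by
    have : ∀ i, lim (c i) = 0 := fun i => rfl
    simp only [a, Polynomial.map_add, Polynomial.map_one, Polynomial.map_sum, Polynomial.map_mul,
      map_C, this, C_0, zero_mul, Finset.sum_const_zero, add_zero]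
  have ae : ∀ n, e (AdjoinRoot.mk f (a.map (ev n))) = x n := fun n => by
    have : ∀ i, ev n (c i) = b.repr (x n - 1) i := fun i => rfl
    simp only [a, Polynomial.map_add, Polynomial.map_one, Polynomial.map_sum, Polynomial.map_mul,
      map_C, this, ce]
    have s : ∀ (t : K) (u : K[X]), AdjoinRoot.mk f (t • u) = t • AdjoinRoot.mk f u :=
      fun t u => rfl
    simp only [← smul_eq_C_mul, map_add, map_one, map_sum, s, map_smul, hw, b.sum_repr]
    ring
  have cop : IsCoprime f (w y) := (fi.coprime_iff_not_dvd).2 fun h => hy (by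
    rw [← hw y, AdjoinRoot.mk_eq_zero.2 h, map_zero])
  have := H.main hω _ (f.map (algebraMap K D)) a ((w y).map (algebraMap K D)) (fm.map _) rfl
    (by rw [al]; exact isCoprime_one_right) (by rwa [cl, cl])
  filter_upwards [this] with n hn
  rw [ce, ce, cl, cl, al] at hn
  rw [← ae n, ← hw y, symS_equiv K hω e]
  refine hn.trans ?_
  unfold lcSy
  rw [map_one]
  exact symS_one_left K hω _

end Vale.Agent.P319B
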