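import Vale.Agent.P319B.Hex

/-! Local constancy of the symbol: the induction on the degree. -/

namespace Vale.Agent.P319B

open scoped Classical

open Polynomial

variable {A : Type} [CommRing A] [IsDomain A] [IsPrincipalIdealRing A] {ω : A}
  {K : Type} [Field K] [CharZero K] [Algebra A K] [IsFractionRing A K]

/-- The symbol of two polynomials modulo g. -/
noncomputable def lcSy {A : Type} [CommRing A] (ω : A) {K : Type} [Field K] [Algebra A K]
    (g u v : K[X]) : ZMod 3 := symS ω (AdjoinRoot.mk g u) (AdjoinRoot.mk g v)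

theorem lc_unit {K : Type} [Field K] {g u : K[X]} (h : IsCoprime g u) :
    IsUnit (AdjoinRoot.mk g u) := by
  obtain ⟨a, b, e⟩ := h
  have := congrArg (AdjoinRoot.mk g) e
  rw [map_add, map_mul, map_mul, AdjoinRoot.mk_self, mul_zero, zero_add, map_one] at this
  exact IsUnit.of_mul_eq_one_right _ this

theorem lc_mul_left (hω : Base ω) {g u u' v : K[X]} (hg : g.Monic) (hu : IsCoprime g u)
    (hu' : IsCoprime g u') (hv : IsCoprime g v) :
    lcSy ω g (u * u') v = lcSy ω g u v + lcSy ω g u' v := by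
  have := hg.finite_adjoinRoot
  unfold lcSy
  rw [map_mul]
  exact symS_mul_left K hω (lc_unit hu) (lc_unit hu') (lc_unit hv)

theorem lc_swap (hω : Base ω) {g : K[X]} (hg : g.Monic) (u v : K[X]) :
    lcSy ω g v u = -lcSy ω g u v := by
  have := hg.finite_adjoinRoot
  exact symS_swap K hω _ _

omit [IsDomain A] [IsPrincipalIdealRing A] [CharZero K] [IsFractionRing A K] in
theorem lc_mod (ω : A) (g u v : K[X]) : lcSy ω g u v = lcSy ω g (u %ₘ g) (v %ₘ g) := by
  unfold lcSy
  rw [AdjoinRoot.mk_eq_mk.2 (dvd_modByMonic_sub u g), AdjoinRoot.mk_eq_mk.2 (dvd_modByMonic_sub v g)]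

theorem lc_C (hω : Base ω) {g v : K[X]} (hg : g.Monic) {c : K} (hc : c ≠ 0) (hv : IsCoprime g v) :
    lcSy ω g (C c) v = symS ω c (resultant g v) := by
  have := hg.finite_adjoinRoot
  unfold lcSy
  rw [← norm_eq_resultant K hg, ← symS_scalar K hω hc (lc_unit hv)]
  rfl

theorem lc_cop_C {K : Type} [Field K] (g : K[X]) {c : K} (hc : c ≠ 0) : IsCoprime g (C c) :=
  ⟨0, C c⁻¹, by rw [zero_mul, zero_add, ← C_mul, inv_mul_cancel₀ hc, C_1]⟩

theorem lc_formula (hω : Base ω) {g P Q : K[X]} (hg : g.Monic) (hP : P.Monic) (hQ : Q.Monic)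
    {p q : K} (hp : p ≠ 0) (hq : q ≠ 0) (h1 : IsCoprime g P) (h2 : IsCoprime P Q)
    (h3 : IsCoprime g Q) :
    lcSy ω g (C p * P) (C q * Q) = symS ω p (resultant g (C q * Q)) - symS ω q (resultant g P)
      - lcSy ω P Q g - lcSy ω Q g P := by
  have c := (lc_cop_C g hq).mul_right h3
  have hx : lcSy ω g P Q + lcSy ω P Q g + lcSy ω Q g P = 0 := hex hω hg hP hQ h1 h2 h3.symm
  rw [lc_mul_left hω hg (lc_cop_C g hp) h1 c, lc_C hω hg hp c, lc_swap hω hg (C q * Q) P,
    lc_mul_left hω hg (lc_cop_C g hq) h3 h1, lc_C hω hg hq h1, lc_swap hω hg P Q]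
  linear_combination hx

theorem lc_res {D K : Type} [CommRing D] [Field K] (φ : D →+* K) {f : D[X]} (hf : f.Monic)
    (v : D[X]) : resultant (f.map φ) (v.map φ) = φ (resultant f v) := by
  obtain ⟨k, hk⟩ := Nat.exists_eq_add_of_le (natDegree_map_le (f := φ) (p := v))
  rw [← resultant_map_map, hk, resultant_add_right_deg _ _ _ _ _ le_rfl, ← hf.natDegree_map φ,
    (hf.map φ).coeff_natDegree, one_pow, one_mul]

omit [CharZero K] in
theorem lc_cop_mod {f u : K[X]} (h : IsCoprime f u) : IsCoprime f (u %ₘ f) := by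
  rw [modByMonic_eq_sub_mul_div, sub_eq_add_neg, ← mul_neg]
  exact h.add_mul_left_right _

theorem lc_avoid {f a g : K[X]} {m : ℕ} (hf : f.Monic) (hm : f.natDegree = m + 1)
    (ha : IsCoprime f a) (hg : g ≠ 0) : ∃ c : K[X], IsCoprime f c ∧ (c %ₘ f).coeff m ≠ 0 ∧
      ((a * c) %ₘ f).coeff m ≠ 0 ∧ IsCoprime g (c %ₘ f) ∧ IsCoprime g ((a * c) %ₘ f) := by
  have hd : f.degree = (m + 1 : ℕ) := by rw [degree_eq_natDegree hf.ne_zero, hm]
  have h0 : f * g ≠ 0 := mul_ne_zero hf.ne_zero hg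
  set L : Bool → K[X] →ₗ[K] K[X] := fun t =>
    modByMonicHom f ∘ₗ LinearMap.mul K K[X] (if t then a else 1) with hL
  have hs : ∀ t (w : K[X]), w.degree < f.degree → ∃ c, L t c = w := fun t w hw => by
    have : IsCoprime f (if t then a else 1) := by
      split_ifs
      · exact ha
      · exact isCoprime_one_right
    obtain ⟨u, v, e⟩ := this
    refine ⟨v * w, (modByMonic_eq_of_dvd_sub hf ?_).trans ((modByMonic_eq_self_iff hf).2 hw)⟩
    exact ⟨-u * w, by rw [LinearMap.mul_apply']; linear_combination w * e⟩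
  set U : Option {π // π ∈ (UniqueFactorizationMonoid.factors (f * g)).toFinset} →
      Submodule K K[X] := fun o => o.elim (LinearMap.ker (lcoeff K m))
        fun π => (Ideal.span {π.1}).restrictScalars K with hU
  have key : ∃ c, ∀ t o, L t c ∉ U o := by
    by_contra h
    push Not at h
    obtain ⟨i, hi⟩ := Subspace.exists_eq_top_of_iUnion_eq_univ
      (p := fun i : Bool × Option _ => (U i.2).comap (L i.1)) (Set.eq_univ_of_forall fun c => by
        obtain ⟨t, o, e⟩ := h c
        exact Set.mem_iUnion.2 ⟨(t, o), e⟩)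
    obtain ⟨t, _ | π⟩ := i
    · obtain ⟨c, hc⟩ := hs t (X ^ m) (by rw [degree_X_pow, hd]; exact_mod_cast Nat.lt_succ_self m)
      have : L t c ∈ U none := hi.ge (Submodule.mem_top (x := c))
      simp [hc, hU] at this
    · obtain ⟨c, hc⟩ := hs t 1 (by rw [degree_one, hd]; exact_mod_cast Nat.succ_pos m)
      have : L t c ∈ U (some π) := hi.ge (Submodule.mem_top (x := c))
      rw [hc] at this
      exact (UniqueFactorizationMonoid.irreducible_of_factor _
        (Multiset.mem_toFinset.1 π.2)).not_dvd_one (Ideal.mem_span_singleton.1 this)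
  obtain ⟨c, hc⟩ := key
  have cop : ∀ t, IsCoprime (f * g) (L t c) := fun t =>
    isCoprime_of_irreducible_dvd (fun h => h0 h.1) fun z hz h1 h2 => by
      obtain ⟨π, h3, h4⟩ := UniqueFactorizationMonoid.exists_mem_factors_of_dvd h0 hz h1
      exact hc t (some ⟨π, Multiset.mem_toFinset.2 h3⟩)
        (Ideal.mem_span_singleton.2 (h4.symm.dvd.trans h2))
  have e1 : L false c = c %ₘ f := by simp [hL]
  have e2 : L true c = (a * c) %ₘ f := by simp [hL]
  refine ⟨c, ?_, e1 ▸ hc false none, e2 ▸ hc true none, e1 ▸ (cop false).of_mul_left_right,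
    e2 ▸ (cop true).of_mul_left_right⟩
  have := (e1 ▸ (cop false).of_mul_left_left).add_mul_left_right (c /ₘ f)
  rwa [modByMonic_add_div] at this

/-- A ring of convergent sequences. -/
structure LcSeq {A : Type} [CommRing A] (ω : A) {K : Type} [Field K] [Algebra A K] {D : Type}
    [CommRing D] (ι : K →+* D) (ev : ℕ → D →+* K) (lim : D →+* K) : Prop where
  ev_ι : ∀ n, (ev n).comp ι = RingHom.id K
  lim_ι : lim.comp ι = RingHom.id K
  inv : ∀ c, lim c ≠ 0 → ∃ c', lim c * lim c' = 1 ∧ ∀ᶠ n in Filter.atTop, ev n c * ev n c' = 1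
  sym : ∀ c d, lim c ≠ 0 → lim d ≠ 0 →
    ∀ᶠ n in Filter.atTop, symS ω (ev n c) (ev n d) = symS ω (lim c) (lim d)

variable {D : Type} [CommRing D] {ι : K →+* D} {ev : ℕ → D →+* K} {lim : D →+* K}

omit [IsDomain A] [IsPrincipalIdealRing A] [CharZero K] [IsFractionRing A K] in
theorem LcSeq.cop (H : LcSeq ω ι ev lim) {f a : D[X]} (hf : f.Monic)
    (h : IsCoprime (f.map lim) (a.map lim)) :
    ∀ᶠ n in Filter.atTop, IsCoprime (f.map (ev n)) (a.map (ev n)) := by
  rw [← isUnit_resultant_iff_isCoprime (hf.map _), lc_res lim hf] at h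
  obtain ⟨c, -, hc⟩ := H.inv _ h.ne_zero
  filter_upwards [hc] with n hn
  rw [← isUnit_resultant_iff_isCoprime (hf.map _), lc_res _ hf]
  exact IsUnit.of_mul_eq_one _ hn

omit [IsDomain A] [IsPrincipalIdealRing A] [CharZero K] [IsFractionRing A K] in
theorem LcSeq.decomp (H : LcSeq ω ι ev lim) {f : D[X]} {m : ℕ} (hf : f.Monic)
    (hm : f.natDegree = m + 1) {p : D[X]} (hp : (p.map lim %ₘ f.map lim).coeff m ≠ 0) :
    ∃ (p0 : D) (P : D[X]), P.Monic ∧ P.natDegree = m ∧ lim p0 ≠ 0 ∧
      p.map lim %ₘ f.map lim = C (lim p0) * P.map lim ∧ ∀ᶠ n in Filter.atTop, ev n p0 ≠ 0 ∧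
        p.map (ev n) %ₘ f.map (ev n) = C (ev n p0) * P.map (ev n) := by
  have := lim.domain_nontrivial
  rw [← map_modByMonic _ hf, coeff_map] at hp
  obtain ⟨c, h1, h2⟩ := H.inv _ hp
  set r := p %ₘ f with hr
  have hd : (C c * (r - C (r.coeff m) * X ^ m)).degree < (m : WithBot ℕ) := by
    refine (degree_lt_iff_coeff_zero _ _).2 fun k hk => ?_
    rw [coeff_C_mul, coeff_sub, coeff_C_mul_X_pow]
    split_ifs with e
    · rw [e, sub_self, mul_zero]
    · have : r.degree < (k : WithBot ℕ) := by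
        refine (degree_modByMonic_lt p hf).trans_le ?_
        rw [degree_eq_natDegree hf.ne_zero, hm]
        exact_mod_cast lt_of_le_of_ne hk (Ne.symm e)
      rw [coeff_eq_zero_of_degree_lt this, sub_zero, mul_zero]
  have key : ∀ φ : D →+* K, φ (r.coeff m) * φ c = 1 → p.map φ %ₘ f.map φ =
      C (φ (r.coeff m)) * (X ^ m + C c * (r - C (r.coeff m) * X ^ m)).map φ := fun φ h => by
    have e : (C (φ (r.coeff m)) : K[X]) * C (φ c) = 1 := by rw [← C_mul, h, C_1]
    rw [← map_modByMonic _ hf, ← hr]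
    simp only [Polynomial.map_add, Polynomial.map_mul, Polynomial.map_sub, Polynomial.map_pow,
      map_X, map_C]
    linear_combination (-(r.map φ - C (φ (r.coeff m)) * X ^ m)) * e
  refine ⟨r.coeff m, _, monic_X_pow_add hd, ?_, hp, key lim h1, ?_⟩
  · rw [natDegree_add_eq_left_of_degree_lt (by rwa [degree_X_pow]), natDegree_X_pow]
  · filter_upwards [h2] with n hn
    exact ⟨left_ne_zero_of_mul_eq_one hn, key _ hn⟩

theorem LcSeq.main (hω : Base ω) (H : LcSeq ω ι ev lim) (m : ℕ) : ∀ f a b : D[X], f.Monic →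
    f.natDegree = m → IsCoprime (f.map lim) (a.map lim) → IsCoprime (f.map lim) (b.map lim) →
    ∀ᶠ n in Filter.atTop, lcSy ω (f.map (ev n)) (a.map (ev n)) (b.map (ev n)) =
      lcSy ω (f.map lim) (a.map lim) (b.map lim) := by
  induction m with
  | zero =>
    intro f a b hf hm _ _
    obtain rfl := eq_one_of_monic_natDegree_zero hf hm
    have key : ∀ u v : K[X], lcSy ω 1 u v = 0 := fun u v => by
      have := (monic_one (R := K)).finite_adjoinRoot
      unfold lcSy
      rw [AdjoinRoot.mk_eq_mk.2 (one_dvd (u - v))]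
      exact symS_self K hω _
    simp only [Polynomial.map_one, key, Filter.eventually_true]
  | succ m ih =>
    intro f a b hf hm ha hb
    have good : ∀ p q : D[X], IsCoprime (f.map lim) (p.map lim) →
        IsCoprime (f.map lim) (q.map lim) → (p.map lim %ₘ f.map lim).coeff m ≠ 0 →
        (q.map lim %ₘ f.map lim).coeff m ≠ 0 →
        IsCoprime (p.map lim %ₘ f.map lim) (q.map lim %ₘ f.map lim) →
        ∀ᶠ n in Filter.atTop, lcSy ω (f.map (ev n)) (p.map (ev n)) (q.map (ev n)) =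
          lcSy ω (f.map lim) (p.map lim) (q.map lim) := by
      intro p q hp hq h1 h2 h3
      obtain ⟨p0, P, P1, P2, P3, P4, P5⟩ := H.decomp hf hm h1
      obtain ⟨q0, Q, Q1, Q2, Q3, Q4, Q5⟩ := H.decomp hf hm h2
      have c1 : IsCoprime (f.map lim) (P.map lim) := (P4 ▸ lc_cop_mod hp).of_mul_right_right
      have c3' : IsCoprime (f.map lim) (C (lim q0) * Q.map lim) := Q4 ▸ lc_cop_mod hq
      have c3 := c3'.of_mul_right_right
      have c2 : IsCoprime (P.map lim) (Q.map lim) := by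
        rw [P4, Q4] at h3
        exact h3.of_mul_left_right.of_mul_right_right
      have r1 : ∀ φ : D →+* K, resultant (f.map φ) (C (φ q0) * Q.map φ) =
          φ (resultant f (C q0 * Q)) := fun φ => by
        rw [← lc_res φ hf, Polynomial.map_mul, map_C]
      have n1 : lim (resultant f (C q0 * Q)) ≠ 0 := r1 lim ▸ resultant_ne_zero _ _ c3'
      have n2 : lim (resultant f P) ≠ 0 := lc_res lim hf P ▸ resultant_ne_zero _ _ c1
      filter_upwards [P5, Q5, H.cop hf c1, H.cop P1 c2, H.cop hf c3, H.sym _ _ P3 n1,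
        H.sym _ _ Q3 n2, ih P Q f P1 P2 c2 c1.symm, ih Q f P Q1 Q2 c3.symm c2.symm]
        with n e1 e2 e3 e4 e5 e6 e7 e8 e9
      rw [lc_mod ω (f.map (ev n)), lc_mod ω (f.map lim), e1.2, e2.2, P4, Q4,
        lc_formula hω (hf.map _) (P1.map _) (Q1.map _) e1.1 e2.1 e3 e4 e5,
        lc_formula hω (hf.map _) (P1.map _) (Q1.map _) P3 Q3 c1 c2 c3, r1, r1, lc_res _ hf,
        lc_res _ hf, e6, e7, e8, e9]
    have hF := hf.map lim
    have hm' : (f.map lim).natDegree = m + 1 := (hf.natDegree_map lim).trans hm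
    have cl : ∀ c : K[X], (c.map ι).map lim = c := fun c => by
      rw [Polynomial.map_map, H.lim_ι, Polynomial.map_id]
    obtain ⟨c, c1, c2, c3, -, -⟩ := lc_avoid hF hm' ha one_ne_zero
    obtain ⟨d, d1, d2, d3, d4, d5⟩ := lc_avoid hF hm' hb
      (g := (c %ₘ f.map lim) * ((a.map lim * c) %ₘ f.map lim))
      (mul_ne_zero (fun h => c2 (by rw [h, coeff_zero])) fun h => c3 (by rw [h, coeff_zero]))
    have ea : (a * c.map ι).map lim = a.map lim * c := by rw [Polynomial.map_mul, cl]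
    have eb : (b * d.map ι).map lim = b.map lim * d := by rw [Polynomial.map_mul, cl]
    have form : ∀ φ : D →+* K, IsCoprime (f.map φ) (a.map φ) → IsCoprime (f.map φ) (b.map φ) →
        IsCoprime (f.map φ) ((c.map ι).map φ) → IsCoprime (f.map φ) ((d.map ι).map φ) →
        lcSy ω (f.map φ) (a.map φ) (b.map φ) =
          lcSy ω (f.map φ) ((a * c.map ι).map φ) ((b * d.map ι).map φ)
          - lcSy ω (f.map φ) ((a * c.map ι).map φ) ((d.map ι).map φ)
          - lcSy ω (f.map φ) ((c.map ι).map φ) ((b * d.map ι).map φ)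
          + lcSy ω (f.map φ) ((c.map ι).map φ) ((d.map ι).map φ) := fun φ h1 h2 h3 h4 => by
      have hφ := hf.map φ
      rw [Polynomial.map_mul, Polynomial.map_mul, lc_mul_left hω hφ h1 h3 (h2.mul_right h4),
        lc_mul_left hω hφ h1 h3 h4, lc_swap hω hφ (b.map φ * _) (a.map φ),
        lc_mul_left hω hφ h2 h4 h1, lc_swap hω hφ (a.map φ) (b.map φ),
        lc_swap hω hφ (a.map φ) ((d.map ι).map φ)]
      ring
    have c1' : IsCoprime (f.map lim) ((c.map ι).map lim) := by rwa [cl]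
    have d1' : IsCoprime (f.map lim) ((d.map ι).map lim) := by rwa [cl]
    filter_upwards [H.cop hf ha, H.cop hf hb, H.cop hf c1', H.cop hf d1',
      good (a * c.map ι) (b * d.map ι) (ea ▸ ha.mul_right c1) (eb ▸ hb.mul_right d1) (ea ▸ c3)
        (eb ▸ d3) (by rw [ea, eb]; exact d5.of_mul_left_right),
      good (a * c.map ι) (d.map ι) (ea ▸ ha.mul_right c1) d1' (ea ▸ c3)
        (by rwa [cl]) (by rw [ea, cl]; exact d4.of_mul_left_right),
      good (c.map ι) (b * d.map ι) c1' (eb ▸ hb.mul_right d1) (by rwa [cl])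
        (eb ▸ d3) (by rw [eb, cl]; exact d5.of_mul_left_left),
      good (c.map ι) (d.map ι) c1' d1' (by rwa [cl]) (by rwa [cl])
        (by rw [cl, cl]; exact d4.of_mul_left_left)] with n e1 e2 e3 e4 e5 e6 e7 e8
    rw [form _ e1 e2 e3 e4, form _ ha hb c1' d1', e5, e6, e7, e8]

end Vale.Agent.P319B
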