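import Vale.Agent.P319B.LemP
import Vale.Agent.P319B.PV

/-! Auxiliary results for the large sieve file: duality and the Gram expansion. -/

namespace Vale.Agent.P319B

open Complex NumberField
open scoped Classical ComplexConjugate

/-- Weighted duality principle. -/
theorem lsA_dual {α γ : Type} (A : Finset α) (B : Finset γ) (T : α → γ → ℂ) (ω v : γ → ℝ)
    (hω : ∀ c ∈ B, 0 ≤ ω c) (hv : ∀ c ∈ B, 0 ≤ v c) {Δ : ℝ} (hΔ : 0 ≤ Δ)
    (H : ∀ g : α → ℂ, ∑ c ∈ B, ω c * ‖∑ h ∈ A, g h * T h c‖ ^ 2 ≤ Δ * ∑ h ∈ A, ‖g h‖ ^ 2)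
    (b : γ → ℂ) (hb : ∀ c ∈ B, ‖b c‖ ^ 2 ≤ v c * ω c) :
    ∑ h ∈ A, ‖∑ c ∈ B, b c * T h c‖ ^ 2 ≤ Δ * ∑ c ∈ B, v c := by
  set S : α → ℂ := fun h => ∑ c ∈ B, b c * T h c with hS
  set Q : ℝ := ∑ h ∈ A, ‖S h‖ ^ 2 with hQ
  have hQ0 : 0 ≤ Q := Finset.sum_nonneg fun _ _ => by positivity
  have hV0 : 0 ≤ ∑ c ∈ B, v c := Finset.sum_nonneg hv
  set U : γ → ℂ := fun c => ∑ h ∈ A, conj (S h) * T h c with hU
  have e1 : (Q : ℂ) = ∑ c ∈ B, b c * U c := by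
    simp only [hQ, hU, Finset.mul_sum]
    rw [Finset.sum_comm]
    push_cast
    refine Finset.sum_congr rfl fun h _ => ?_
    rw [← Complex.conj_mul' (S h)]
    conv_lhs => rw [show S h = ∑ c ∈ B, b c * T h c from rfl]
    rw [Finset.mul_sum]
    refine Finset.sum_congr rfl fun c _ => ?_
    simp only [hS]
    ring
  have e2 : Q ≤ ∑ c ∈ B, ‖b c‖ * ‖U c‖ := by
    have : Q = ‖(Q : ℂ)‖ := by rw [Complex.norm_real, Real.norm_of_nonneg hQ0]
    rw [this, e1]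
    refine (norm_sum_le _ _).trans (le_of_eq ?_)
    simp only [norm_mul]
  have e3 : (∑ c ∈ B, ‖b c‖ * ‖U c‖) ^ 2 ≤ (∑ c ∈ B, v c) * ∑ c ∈ B, ω c * ‖U c‖ ^ 2 := by
    refine Finset.sum_sq_le_sum_mul_sum_of_sq_le_mul B hv
      (fun c hc => mul_nonneg (hω c hc) (sq_nonneg _)) fun c hc => ?_
    rw [mul_pow, ← mul_assoc]
    exact mul_le_mul_of_nonneg_right (hb c hc) (sq_nonneg _)
  have e4 : ∑ c ∈ B, ω c * ‖U c‖ ^ 2 ≤ Δ * Q := by
    have := H (fun h => conj (S h))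
    simpa only [Complex.norm_conj] using this
  have e5 : Q ^ 2 ≤ (∑ c ∈ B, v c) * (Δ * Q) :=
    (pow_le_pow_left₀ hQ0 e2 2).trans (e3.trans (mul_le_mul_of_nonneg_left e4 hV0))
  rcases hQ0.eq_or_lt with h0 | h0
  · rw [← h0]; positivity
  · have : Q * Q ≤ (Δ * ∑ c ∈ B, v c) * Q := by nlinarith
    exact le_of_mul_le_mul_right this h0

variable {F : Type} [Field F] [NumberField F] [Ctx F]

/-- The majorant. -/
noncomputable def lsV (X : ℝ) (c : R F) : ℝ := if P1 c then Vk F (N c / X) else 0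

theorem lsV_nonneg (X : ℝ) (c : R F) : 0 ≤ lsV X c := by
  unfold lsV
  split_ifs
  · exact Vk_nonneg _
  · exact le_rfl

theorem lsA_summable {G : R F → ℂ} (hG : ∀ c, ‖G c‖ ≤ 1) {X : ℝ} (hX : 0 < X) :
    Summable (fun c : R F => G c * (lsV X c : ℂ)) := by
  refine Summable.of_norm_bounded (summable_Vk hX) fun c => ?_
  rw [norm_mul, Complex.norm_real, Real.norm_of_nonneg (lsV_nonneg X c)]
  exact mul_le_of_le_one_left (lsV_nonneg X c) (hG c)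

theorem lsA_tsum : ∃ C : ℝ, 0 < C ∧ ∀ X : ℝ, 0 < X → ∑' c : R F, lsV X c ≤ C * X := by
  obtain ⟨C, hC, H⟩ := Vk_le_min (F := F)
  obtain ⟨C1, hC1, H1⟩ := sum_ball_rpow (F := F) (s := 1 / 2) (by norm_num)
  obtain ⟨C2, hC2, H2⟩ := tail_N_rpow (F := F) (s := 3 / 2) (by norm_num)
  refine ⟨C * (C1 + C2), by positivity, fun X hX => ?_⟩
  have s1 : HasSum (fun c : R F => if c ∈ ball F X then N c ^ (-(1 / 2) : ℝ) else 0)
      (∑ c ∈ ball F X, N c ^ (-(1 / 2) : ℝ)) := by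
    have := hasSum_sum_of_ne_finset_zero (s := ball F X) (L := .unconditional _)
      (f := fun c : R F => if c ∈ ball F X then N c ^ (-(1 / 2) : ℝ) else 0) fun c hc => if_neg hc
    rwa [Finset.sum_congr rfl fun c hc => if_pos hc] at this
  have s2 : Summable (fun c : R F => if P1 c ∧ X < N c then N c ^ (-(3 / 2) : ℝ) else 0) := by
    refine Summable.of_nonneg_of_le (fun c => ?_) (fun c => ?_)
      (summable_N_rpow (F := F) (s := 3 / 2) (by norm_num))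
    · split_ifs
      · exact Real.rpow_nonneg (N_nonneg c) _
      · exact le_rfl
    · by_cases h : P1 c ∧ X < N c
      · rw [if_pos h, if_pos h.1]
      · rw [if_neg h]
        split_ifs
        · exact Real.rpow_nonneg (N_nonneg c) _
        · exact le_rfl
  have s3 := (s1.mul_left (C * X ^ (1 / 2 : ℝ))).add (s2.hasSum.mul_left (C * X ^ (3 / 2 : ℝ)))
  refine (hasSum_le (fun c => ?_) (summable_Vk hX).hasSum s3).trans ?_
  · by_cases hc : P1 c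
    · have hN := N_pos hc.ne_zero
      have h1 := H (N c / X) (div_pos hN hX)
      have e : ∀ s : ℝ, (N c / X) ^ (-s) = X ^ s * N c ^ (-s) := fun s => by
        rw [Real.div_rpow hN.le hX.le, Real.rpow_neg hX.le, div_inv_eq_mul, mul_comm]
      rw [e, e] at h1
      rw [if_pos hc]
      by_cases h : N c ≤ X
      · rw [if_pos (mem_ball.2 ⟨hc, h⟩), if_neg (fun h' => h'.2.not_ge h), mul_zero, add_zero,
          mul_assoc]
        exact h1.trans (mul_le_mul_of_nonneg_left (min_le_left _ _) hC.le)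
      · rw [if_neg (fun h' => h (mem_ball.1 h').2), if_pos ⟨hc, not_le.1 h⟩, mul_zero, zero_add,
          mul_assoc]
        exact h1.trans (mul_le_mul_of_nonneg_left (min_le_right _ _) hC.le)
    · rw [if_neg hc, if_neg (fun h' => hc (mem_ball.1 h').1), if_neg (fun h' => hc h'.1)]
      simp
  · have t1 := H1 X hX
    have t2 := H2 X hX
    have e1 : X ^ (1 / 2 : ℝ) * X ^ (1 - 1 / 2 : ℝ) = X := by
      rw [← Real.rpow_add hX]
      norm_num
    have e2 : X ^ (3 / 2 : ℝ) * X ^ (1 - 3 / 2 : ℝ) = X := by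
      rw [← Real.rpow_add hX]
      norm_num
    calc _ ≤ C * X ^ (1 / 2 : ℝ) * (C1 * X ^ (1 - 1 / 2 : ℝ)) +
          C * X ^ (3 / 2 : ℝ) * (C2 * X ^ (1 - 3 / 2 : ℝ)) := by gcongr
      _ = C * C1 * (X ^ (1 / 2 : ℝ) * X ^ (1 - 1 / 2 : ℝ)) +
          C * C2 * (X ^ (3 / 2 : ℝ) * X ^ (1 - 3 / 2 : ℝ)) := by ring
      _ = _ := by rw [e1, e2]; ring

theorem lsA_qq (h1 h2 c : R F) : ‖quad h1 c * quad h2 c‖ ≤ 1 := by
  rw [norm_mul]
  exact mul_le_one₀ (norm_quad_le _ _) (norm_nonneg _) (norm_quad_le _ _)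

/-- Gram expansion with the majorant. -/
theorem lsA_gram (A : Finset (R F)) (x : R F → ℂ) {X : ℝ} (hX : 0 < X) (B : Finset (R F))
    (hB : B ⊆ ball F X) :
    ∑ c ∈ B, ‖∑ h ∈ A, x h * quad h c‖ ^ 2 ≤ (Vk F 1)⁻¹ * ∑ h1 ∈ A, ∑ h2 ∈ A,
      ‖x h1‖ * ‖x h2‖ * ‖∑' c, quad h1 c * quad h2 c * (lsV X c : ℂ)‖ := by
  have hV := Vk_pos (F := F) one_pos
  have H : HasSum (fun c => ∑ h1 ∈ A, ∑ h2 ∈ A, x h1 * conj (x h2) * (quad h1 c * quad h2 c *
      (lsV X c : ℂ))) (∑ h1 ∈ A, ∑ h2 ∈ A, x h1 * conj (x h2) *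
        ∑' c, quad h1 c * quad h2 c * (lsV X c : ℂ)) :=
    hasSum_sum fun h1 _ => hasSum_sum fun h2 _ =>
      (lsA_summable (lsA_qq h1 h2) hX).hasSum.mul_left _
  have e1 : ∀ c, (∑ h1 ∈ A, ∑ h2 ∈ A, x h1 * conj (x h2) * (quad h1 c * quad h2 c *
      (lsV X c : ℂ))) = ((‖∑ h ∈ A, x h * quad h c‖ ^ 2 * lsV X c : ℝ) : ℂ) := by
    intro c
    rw [Complex.ofReal_mul, Complex.ofReal_pow, ← Complex.mul_conj', map_sum, Finset.sum_mul_sum,
      Finset.sum_mul]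
    refine Finset.sum_congr rfl fun h1 _ => ?_
    rw [Finset.sum_mul]
    refine Finset.sum_congr rfl fun h2 _ => ?_
    rw [map_mul, conj_quad]
    ring
  simp only [e1] at H
  have H2 := Complex.hasSum_re H
  simp only [Complex.ofReal_re] at H2
  have H3 := sum_le_hasSum B (fun c _ => mul_nonneg (sq_nonneg _) (lsV_nonneg X c)) H2
  have H4 : ∑ c ∈ B, ‖∑ h ∈ A, x h * quad h c‖ ^ 2 ≤ (Vk F 1)⁻¹ *
      ∑ c ∈ B, ‖∑ h ∈ A, x h * quad h c‖ ^ 2 * lsV X c := by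
    rw [Finset.mul_sum]
    refine Finset.sum_le_sum fun c hc => ?_
    obtain ⟨k1, k2⟩ := mem_ball.1 (hB hc)
    rw [mul_left_comm]
    refine le_mul_of_one_le_right (sq_nonneg _) ?_
    rw [lsV, if_pos k1, inv_mul_eq_div, one_le_div hV]
    exact Vk_antitoneOn (div_pos (N_pos k1.ne_zero) hX) (Set.mem_Ioi.2 one_pos)
      ((div_le_one hX).2 k2)
  refine H4.trans (mul_le_mul_of_nonneg_left (H3.trans ?_) (inv_pos.2 hV).le)
  refine (Complex.re_le_norm _).trans ((norm_sum_le _ _).trans ?_)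
  refine Finset.sum_le_sum fun h1 _ => (norm_sum_le _ _).trans (le_of_eq ?_)
  simp only [norm_mul, Complex.norm_conj]

theorem lsA_quad_sq {m c : R F} (hc : c ≠ 0) : quad m c ^ 2 = cop m c := by
  unfold cop
  split_ifs with h
  · exact quad_sq h.symm
  · rw [(quad_eq_zero hc).2 (fun h' => h h'.symm)]
    ring

theorem lsA_diag : ∃ C : ℝ, 0 < C ∧ ∀ (h1 h2 : R F) (X : ℝ), 0 < X →
    ‖∑' c, quad h1 c * quad h2 c * (lsV X c : ℂ)‖ ≤ C * X := by
  obtain ⟨C, hC, hE⟩ := lsA_tsum (F := F)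
  refine ⟨C, hC, fun h1 h2 X hX => ?_⟩
  refine (tsum_of_norm_bounded (summable_Vk hX).hasSum fun c => ?_).trans (hE X hX)
  rw [norm_mul, Complex.norm_real, Real.norm_of_nonneg (lsV_nonneg X c)]
  exact mul_le_of_le_one_left (lsV_nonneg X c) (lsA_qq h1 h2 c)

theorem lsA_pv : ∃ C : ℝ, 0 < C ∧ ∀ k l : R F, P0 k → k ≠ 1 → l ≠ 0 → ∀ X : ℝ, 0 < X →
    ‖∑' c, cop l c * quad k c * (lsV X c : ℂ)‖ ≤ C * (divs l).card * ab k := by
  obtain ⟨C, hC, H⟩ := pv (F := F)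
  have hcard : (0 : ℝ) < Fintype.card (Cl F) := by exact_mod_cast Fintype.card_pos
  refine ⟨Fintype.card (Cl F) * C, by positivity, fun k l hk h1 hl X hX => ?_⟩
  have e0 : ∀ (κ : Cl F) (c : R F), (if P1 c then clsI κ c * cop l c * quad c k else 0) *
      (Vk F (N c / X) : ℂ) = clsI κ c * cop l c * quad c k * (lsV X c : ℂ) := by
    intro κ c
    unfold lsV
    split_ifs <;> simp
  have e1 : ∀ c, cop l c * quad k c * (lsV X c : ℂ) =
      ∑ κ : Cl F, B2 (k : F) (rep κ) * (clsI κ c * cop l c * quad c k * (lsV X c : ℂ)) := by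
    intro c
    by_cases hc : P1 c
    · rw [Finset.sum_eq_single (cls (c : F)) (fun κ _ h => by simp [clsI, h.symm]) (by simp),
        quad_recip hk.ne_zero hc.ne_zero, clsI, if_pos rfl,
        B2_cls_right _ hc.coe_ne (rep_ne _) (cls_rep _).symm]
      ring
    · simp [lsV, hc]
  have hs : ∀ κ : Cl F, Summable fun c => clsI κ c * cop l c * quad c k * (lsV X c : ℂ) := by
    intro κ
    refine lsA_summable (fun c => ?_) hX
    rw [norm_mul, norm_mul]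
    exact mul_le_one₀ (mul_le_one₀ (norm_clsI_le _ _) (norm_nonneg _) (norm_cop_le _ _))
      (norm_nonneg _) (norm_quad_le _ _)
  rw [tsum_congr e1, Summable.tsum_finsetSum (fun κ _ => (hs κ).mul_left _)]
  refine (norm_sum_le _ _).trans ?_
  rw [mul_assoc, mul_assoc, ← nsmul_eq_mul, ← Finset.card_univ, ← Finset.sum_const]
  refine Finset.sum_le_sum fun κ _ => ?_
  rw [tsum_mul_left, norm_mul, norm_B2, one_mul, ← mul_assoc, ← tsum_congr (e0 κ)]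
  exact H k l κ hk h1 hl X hX

theorem lsA_off {e : ℝ} (he : 0 < e) : ∃ C : ℝ, 0 < C ∧ ∀ k1 k2 l1 l2 : R F,
    P0 k1 → P0 k2 → k1 ≠ k2 → l1 ≠ 0 → l2 ≠ 0 → ∀ L X : ℝ, 0 < X →
    N (k1 * l1 ^ 2) ≤ L → N (k2 * l2 ^ 2) ≤ L →
    ‖∑' c, quad (k1 * l1 ^ 2) c * quad (k2 * l2 ^ 2) c * (lsV X c : ℂ)‖ ≤
        C * L ^ e * (ab (k1 * l1 ^ 2) * ab (k2 * l2 ^ 2)) := by
  obtain ⟨C, hC, H⟩ := lsA_pv (F := F)
  obtain ⟨C', hC', H'⟩ := card_divs_le (F := F) (half_pos he)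
  refine ⟨C * C', by positivity, ?_⟩
  intro k1 k2 l1 l2 hk1 hk2 hne hl1 hl2 L X hX hL1 hL2
  obtain ⟨g, x, hg, hx, rfl, ⟨y, rfl⟩, hcop, -⟩ := exists_gcd_P0 hk1 hk2.ne_zero
  have hy : P0 y := (P0.of_mul hg.1 hk2).2.1
  have hk : P0 (x * y) := hx.mul hy hcop.of_mul_right_right
  have hk1' : x * y ≠ 1 := by
    intro h
    have hx1 : x = 1 := hx.1.eq_one_of_isUnit (IsUnit.of_mul_eq_one _ h)
    rw [hx1, one_mul] at h
    exact hne (by rw [hx1, h])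
  have hl : g * l1 * l2 ≠ 0 := mul_ne_zero (mul_ne_zero hg.ne_zero hl1) hl2
  have e1 : ∀ c, quad (g * x * l1 ^ 2) c * quad (g * y * l2 ^ 2) c * (lsV X c : ℂ) =
      cop (g * l1 * l2) c * quad (x * y) c * (lsV X c : ℂ) := by
    intro c
    by_cases hc : P1 c
    · rw [← quad_mul_left, show g * x * l1 ^ 2 * (g * y * l2 ^ 2) =
        (g * l1 * l2) ^ 2 * (x * y) by ring, quad_mul_left, quad_pow_left, lsA_quad_sq hc.ne_zero]
    · simp [lsV, hc]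
  rw [tsum_congr e1]
  refine (H _ _ hk hk1' hl X hX).trans ?_
  have n1 : g * x * l1 ^ 2 ≠ 0 := mul_ne_zero hk1.ne_zero (pow_ne_zero _ hl1)
  have n2 : g * y * l2 ^ 2 ≠ 0 := mul_ne_zero hk2.ne_zero (pow_ne_zero _ hl2)
  have hL0 : 0 ≤ L := (N_nonneg _).trans hL1
  have b1 : N (g * l1 * l2) ≤ L ^ 2 := by
    have t1 : N (g * l1) ≤ L := (N_le_of_dvd n1 ⟨x * l1, by ring⟩).trans hL1
    have t2 : N l2 ≤ L := (N_le_of_dvd n2 ⟨g * y * l2, by ring⟩).trans hL2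
    rw [N_mul, sq]
    exact mul_le_mul t1 t2 (N_nonneg _) hL0
  have b2 : ((divs (g * l1 * l2)).card : ℝ) ≤ C' * L ^ e := by
    refine (H' _ hl).trans (mul_le_mul_of_nonneg_left ?_ hC'.le)
    refine (Real.rpow_le_rpow (N_nonneg _) b1 (half_pos he).le).trans (le_of_eq ?_)
    rw [← Real.rpow_natCast, ← Real.rpow_mul hL0]
    congr 1
    push_cast
    ring
  have b3 : ab (x * y) ≤ ab (g * x * l1 ^ 2) * ab (g * y * l2 ^ 2) := by
    rw [← ab_mul]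
    exact Real.sqrt_le_sqrt (N_le_of_dvd (mul_ne_zero n1 n2) ⟨(g * l1 * l2) ^ 2, by ring⟩)
  have b4 := ab_nonneg (x * y)
  calc _ ≤ C * (C' * L ^ e) * (ab (g * x * l1 ^ 2) * ab (g * y * l2 ^ 2)) := by gcongr
    _ = _ := by ring

end Vale.Agent.P319B
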