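import Vale.Agent.P319B.LSA

/-! The weak large sieve inequality obtained from the smoothed character sum bound. -/

namespace Vale.Agent.P319B

open Complex NumberField
open scoped Classical ComplexConjugate

variable {F : Type} [Field F] [NumberField F] [Ctx F]

theorem lsB_sum_ab : ∃ C : ℝ, 0 < C ∧ ∀ L : ℝ, 0 ≤ L → ∑ h ∈ ball F L, ab h ≤ C * (L * √L) := by
  obtain ⟨C, hC, H⟩ := card_ball_le (F := F)
  refine ⟨C, hC, fun L hL => ?_⟩
  calc ∑ h ∈ ball F L, ab h ≤ ∑ h ∈ ball F L, √L :=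
        Finset.sum_le_sum fun h hh => Real.sqrt_le_sqrt (mem_ball.1 hh).2
    _ = (ball F L).card * √L := by rw [Finset.sum_const, nsmul_eq_mul]
    _ ≤ C * L * √L := mul_le_mul_of_nonneg_right (H L hL) (Real.sqrt_nonneg _)
    _ = _ := by ring

theorem lsB_dual {e : ℝ} (he : 0 < e) : ∃ C : ℝ, 0 < C ∧ ∀ K L : ℝ, 0 < K → 0 < L →
    ∀ g : R F → ℂ, ∑ c ∈ (ball F K).filter P0,
      1 * ‖∑ h ∈ ball F L, g h * ((((√(ab h))⁻¹ : ℝ) : ℂ) * quad h c)‖ ^ 2 ≤
        C * L ^ e * (K + L * √L) * ∑ h ∈ ball F L, ‖g h‖ ^ 2 := by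
  obtain ⟨C1, hC1, H1⟩ := lsA_diag (F := F)
  obtain ⟨C2, hC2, H2⟩ := lsA_off (F := F) he
  obtain ⟨C3, hC3, H3⟩ := sum_ball_inv (F := F) he
  obtain ⟨C4, hC4, H4⟩ := lsB_sum_ab (F := F)
  have hE : 0 < (Vk F 1)⁻¹ := inv_pos.2 (Vk_pos one_pos)
  choose! k l hk hl hh using fun (h : R F) (hh : P1 h) => exists_kernel hh
  refine ⟨(Vk F 1)⁻¹ * (C1 * C3 + C2 * C4), by positivity, fun K L hK hL g => ?_⟩
  set ρ : R F → ℝ := fun h => (√(ab h))⁻¹ with hρ
  have hρ0 : ∀ h, 0 ≤ ρ h := fun h => by simp only [hρ]; positivity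
  have hρ2 : ∀ h, ρ h ^ 2 = (ab h)⁻¹ := fun h => by
    simp only [hρ]; rw [inv_pow, Real.sq_sqrt (ab_nonneg h)]
  have hρ3 : ∀ h, (ρ h * ab h) ^ 2 = ab h := fun h => by
    rw [mul_pow, hρ2]
    rcases (ab_nonneg h).eq_or_lt with h0 | h0
    · rw [← h0]; simp
    · field_simp
  set G : ℝ := ∑ h ∈ ball F L, ‖g h‖ ^ 2 with hG
  have hG0 : 0 ≤ G := Finset.sum_nonneg fun _ _ => by positivity
  have hLe : 0 ≤ L ^ e := by positivity
  have k1 : ∀ k0 : R F, ∑ h ∈ ball F L, (if k h = k0 then ρ h ^ 2 else 0) ≤ C3 * L ^ e := by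
    intro k0
    rw [← Finset.sum_filter]
    have hinj : Set.InjOn l ((ball F L).filter (fun h => k h = k0)) := by
      intro h1 m1 h2 m2 h12
      rw [Finset.mem_coe, Finset.mem_filter] at m1 m2
      rw [hh h1 (mem_ball.1 m1.1).1, hh h2 (mem_ball.1 m2.1).1, m1.2, m2.2, h12]
    calc ∑ h ∈ (ball F L).filter (fun h => k h = k0), ρ h ^ 2
        ≤ ∑ h ∈ (ball F L).filter (fun h => k h = k0), (N (l h))⁻¹ := by
          refine Finset.sum_le_sum fun h m => ?_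
          have h0 := (mem_ball.1 (Finset.mem_filter.1 m).1).1
          rw [hρ2]
          refine inv_anti₀ (N_pos (hl h h0).ne_zero) ?_
          rw [← ab_sq, ← ab_pow]
          refine Real.sqrt_le_sqrt (N_le_of_dvd h0.ne_zero ⟨k h, ?_⟩)
          rw [mul_comm]
          exact hh h h0
      _ = ∑ p ∈ ((ball F L).filter (fun h => k h = k0)).image l, (N p)⁻¹ :=
          (Finset.sum_image (f := fun p : R F => (N p)⁻¹) hinj).symm
      _ ≤ ∑ p ∈ ball F L, (N p)⁻¹ := by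
          refine Finset.sum_le_sum_of_subset_of_nonneg ?_
            fun p _ _ => inv_nonneg.2 (N_nonneg _)
          intro p hp
          obtain ⟨h, m, rfl⟩ := Finset.mem_image.1 hp
          have h0 := mem_ball.1 (Finset.mem_filter.1 m).1
          refine mem_ball.2 ⟨hl h h0.1, le_trans ?_ h0.2⟩
          refine N_le_of_dvd h0.1.ne_zero ⟨k h * l h, ?_⟩
          have := hh h h0.1
          linear_combination this
      _ ≤ _ := H3 L hL
  have step1 : ∑ c ∈ (ball F K).filter P0,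
      1 * ‖∑ h ∈ ball F L, g h * ((ρ h : ℂ) * quad h c)‖ ^ 2 =
      ∑ c ∈ (ball F K).filter P0, ‖∑ h ∈ ball F L, (g h * ρ h) * quad h c‖ ^ 2 := by
    simp only [one_mul, mul_assoc]
  rw [step1]
  refine (lsA_gram (ball F L) (fun h => g h * ρ h) hK _ (Finset.filter_subset _ _)).trans ?_
  have step2 : ∀ h1 ∈ ball F L, ∀ h2 ∈ ball F L, ‖g h1 * ρ h1‖ * ‖g h2 * ρ h2‖ *
      ‖∑' c, quad h1 c * quad h2 c * (lsV K c : ℂ)‖ ≤
      C1 * K / 2 * (‖g h1‖ ^ 2 * (if k h2 = k h1 then ρ h2 ^ 2 else 0) +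
        ‖g h2‖ ^ 2 * (if k h1 = k h2 then ρ h1 ^ 2 else 0)) +
      C2 * L ^ e * ((‖g h1‖ * (ρ h1 * ab h1)) * (‖g h2‖ * (ρ h2 * ab h2))) := by
    intro h1 m1 h2 m2
    have m1' := mem_ball.1 m1
    have m2' := mem_ball.1 m2
    rw [norm_mul, norm_mul, Complex.norm_real, Complex.norm_real, Real.norm_of_nonneg (hρ0 _),
      Real.norm_of_nonneg (hρ0 _)]
    have r1 := hρ0 h1
    have r2 := hρ0 h2
    have r3 := ab_nonneg h1
    have r4 := ab_nonneg h2
    by_cases hk12 : k h1 = k h2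
    · rw [if_pos hk12, if_pos hk12.symm]
      refine le_add_of_le_of_nonneg ?_ (by positivity)
      refine (mul_le_mul_of_nonneg_left (H1 h1 h2 K hK) (by positivity)).trans ?_
      have t := two_mul_le_add_sq (‖g h1‖ * ρ h2) (‖g h2‖ * ρ h1)
      have t2 : 0 ≤ C1 * K / 2 := by positivity
      have t3 := mul_le_mul_of_nonneg_left t t2
      nlinarith
    · rw [if_neg hk12, if_neg (fun h => hk12 h.symm)]
      have t := H2 (k h1) (k h2) (l h1) (l h2) (hk h1 m1'.1) (hk h2 m2'.1) hk12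
        (hl h1 m1'.1).ne_zero (hl h2 m2'.1).ne_zero
        L K hK (by rw [← hh h1 m1'.1]; exact m1'.2) (by rw [← hh h2 m2'.1]; exact m2'.2)
      rw [← hh h1 m1'.1, ← hh h2 m2'.1] at t
      refine (mul_le_mul_of_nonneg_left t (by positivity)).trans (le_of_eq ?_)
      ring
  have step3 : ∑ h1 ∈ ball F L, ∑ h2 ∈ ball F L,
      ‖g h1‖ ^ 2 * (if k h2 = k h1 then ρ h2 ^ 2 else 0) ≤ C3 * L ^ e * G := by
    rw [hG, Finset.mul_sum]
    refine Finset.sum_le_sum fun h1 _ => ?_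
    rw [← Finset.mul_sum, mul_comm]
    exact mul_le_mul_of_nonneg_right (k1 _) (sq_nonneg _)
  have step4 : ∑ h1 ∈ ball F L, ∑ h2 ∈ ball F L,
      ‖g h2‖ ^ 2 * (if k h1 = k h2 then ρ h1 ^ 2 else 0) ≤ C3 * L ^ e * G := by
    rw [Finset.sum_comm]
    exact step3
  have step5 : ∑ h1 ∈ ball F L, ∑ h2 ∈ ball F L,
      (‖g h1‖ * (ρ h1 * ab h1)) * (‖g h2‖ * (ρ h2 * ab h2)) ≤ G * (C4 * (L * √L)) := by
    rw [← Finset.sum_mul_sum, ← sq]
    refine (Finset.sum_mul_sq_le_sq_mul_sq _ _ _).trans ?_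
    simp only [hρ3]
    exact mul_le_mul_of_nonneg_left (H4 L hL.le) hG0
  have step6 := Finset.sum_le_sum fun h1 m1 => Finset.sum_le_sum fun h2 m2 => step2 h1 m1 h2 m2
  simp only [Finset.sum_add_distrib, ← Finset.mul_sum, mul_add] at step6
  simp only [← Finset.mul_sum] at step3 step4 step5
  have hs0 : 0 ≤ L * √L := by positivity
  calc _ ≤ (Vk F 1)⁻¹ * (C1 * K / 2 * (C3 * L ^ e * G) +
        C1 * K / 2 * (C3 * L ^ e * G) + C2 * L ^ e * (G * (C4 * (L * √L)))) := by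
        refine mul_le_mul_of_nonneg_left (step6.trans ?_) hE.le
        gcongr
    _ = (Vk F 1)⁻¹ * L ^ e * G * (C1 * C3 * K + C2 * C4 * (L * √L)) := by ring
    _ ≤ (Vk F 1)⁻¹ * L ^ e * G * ((C1 * C3 + C2 * C4) * (K + L * √L)) := by
        refine mul_le_mul_of_nonneg_left ?_ (by positivity)
        have t1 : 0 ≤ C1 * C3 * (L * √L) := by positivity
        have t2 : 0 ≤ C2 * C4 * K := by positivity
        nlinarith
    _ = _ := by ring

/-- The weak large sieve inequality with the weight 1 / |h|. -/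
theorem lsB_w {e : ℝ} (he : 0 < e) : ∃ C : ℝ, 0 < C ∧ ∀ K L : ℝ, 0 < K → 0 < L →
    ∀ b : R F → ℂ, ∑ h ∈ ball F L, (ab h)⁻¹ * ‖∑ c ∈ (ball F K).filter P0, b c * quad h c‖ ^ 2 ≤
      C * L ^ e * (K + L * √L) * ∑ c ∈ (ball F K).filter P0, ‖b c‖ ^ 2 := by
  obtain ⟨C, hC, H⟩ := lsB_dual (F := F) he
  refine ⟨C, hC, fun K L hK hL b => ?_⟩
  have := lsA_dual (ball F L) ((ball F K).filter P0)
    (fun h c => (((√(ab h))⁻¹ : ℝ) : ℂ) * quad h c) (fun _ => 1) (fun c => ‖b c‖ ^ 2)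
    (fun _ _ => zero_le_one) (fun _ _ => sq_nonneg _) (by positivity) (H K L hK hL) b
    (fun c _ => by rw [mul_one])
  refine le_trans (le_of_eq ?_) this
  refine Finset.sum_congr rfl fun h _ => ?_
  have e1 : ∑ c ∈ (ball F K).filter P0, b c * ((((√(ab h))⁻¹ : ℝ) : ℂ) * quad h c) =
      (((√(ab h))⁻¹ : ℝ) : ℂ) * ∑ c ∈ (ball F K).filter P0, b c * quad h c := by
    rw [Finset.mul_sum]
    exact Finset.sum_congr rfl fun c _ => by ring
  rw [e1, norm_mul, mul_pow, Complex.norm_real, Real.norm_of_nonneg (by positivity), inv_pow,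
    Real.sq_sqrt (ab_nonneg h)]

end Vale.Agent.P319B
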