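import Vale.Agent.P319B.LemP1

/-! The self-dual Poisson inequality. -/

namespace Vale.Agent.P319B

open Complex NumberField
open scoped Classical ComplexConjugate
open Vale.Agent.P026 (w kk fk)

variable {F : Type} [Field F] [NumberField F] [Ctx F]

theorem lemP2 {σ : ℝ} (hσ : 0 < σ) (hσ' : σ ≤ 1 / 2) (A J : ℕ) (hJ : 2 ≤ J) : ∃ C : ℝ, 0 < C ∧
    ∀ (j j' : ℕ), 3 ∣ j + j' → ∀ (a : R F → ℂ), (∀ c, a c ≠ 0 → P0 c) → Bd1 a →
      ∀ Y M L t B : ℝ, 0 < Y → 0 < M → 0 < L → 0 ≤ B →
      (∀ (κ : Cl F) (Y' t' : ℝ), Y / 2 ≤ Y' → Y' ≤ Y →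
        QQ j' (fun c => a c * clsI κ c * Gt j c * W Y' t' c) (L * Y ^ 2 / M)
          ≤ B * (1 + |t'|) ^ A) →
      QQ j (fun c => a c * W Y t c) M ≤ C * (1 + |t|) ^ A *
        (M * Y + M / Y * (Y ^ 2 / M) ^ σ * B + Y ^ 3 * L ^ (1 - (J : ℝ))) := by
  obtain ⟨C1, hC1, h1⟩ := lemP1 (F := F) hσ A J hJ
  obtain ⟨C0, hC0, h0⟩ := tsum_w_le (F := F) (k := 0) (by norm_num)
  obtain ⟨C2, hC2, h2⟩ := tsum_w_le (F := F) (k := (J : ℝ) - 1 / 2)
    (by have := Nat.cast_nonneg (α := ℝ) J; linarith)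
  set E : ℝ := Real.exp ((σ - 1 / 2) ^ 2 / 4) with hE
  have E0 : 0 < E := Real.exp_pos _
  have cp : (0 : ℝ) < Fintype.card (Cl F) := Nat.cast_pos.2 Fintype.card_pos
  refine ⟨(Fintype.card (Cl F) : ℝ) ^ 2 * C1 * (C0 + E ^ 2 + C2 ^ 2), by positivity, ?_⟩
  intro j j' hj a ha hb Y M L t B hY hM hL hB hQ
  have a0 : a 0 = 0 := by by_contra x; exact (ha 0 x).ne_zero rfl
  have bi : ∀ i, Bd1 fun c => a c * clsI i c := fun i c => by
    rw [norm_mul]
    refine mul_le_one₀ (hb c) (norm_nonneg _) ?_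
    unfold clsI; split_ifs <;> simp
  have ai : ∀ (i : Cl F) c, a c * clsI i c ≠ 0 → P1 c := fun i c x =>
    (ha c (left_ne_zero_of_mul x)).1
  have si : ∀ (i : Cl F) (k : ℕ), Summable fun c => ‖a c * clsI i c * W Y t c‖ * N c ^ k :=
    fun i k => by
      have := lq_sum_W (a := fun c => a c * clsI i c) (ai i) (bi i) P1.one hY t k
      simpa only [one_mul, Real.rpow_natCast] using this
  have t1 : (1 : ℝ) ≤ (1 + |t|) ^ A := one_le_pow₀ (by linarith [abs_nonneg t])
  set x1 := M * Y with hx1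
  set x2 := M / Y * (Y ^ 2 / M) ^ σ * B with hx2
  set x3 := Y ^ 3 * L ^ (1 - (J : ℝ)) with hx3
  have p1 : 0 ≤ x1 := by positivity
  have p2 : 0 ≤ x2 := by positivity
  have p3 : 0 ≤ x3 := by positivity
  have key : ∀ i, QQ j (fun c => a c * clsI i c * W Y t c) M ≤
      C1 * (C0 + E ^ 2 + C2 ^ 2) * (1 + |t|) ^ A * (x1 + x2 + x3) := fun i => by
    have hh := h1 j j' hj (fun c => a c * clsI i c * W Y t c) i
      (fun c x => ⟨ha c fun y => x (by simp [y]), by
        by_contra y; exact x (by simp [clsI, y])⟩) (si i) M (L * Y ^ 2 / M)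
      ((Y ^ (σ - 1 / 2) * E) ^ 2 * B * (1 + |t|) ^ A) (C2 * Y ^ ((J : ℝ) - 1 / 2 + 1)) hM
      (by positivity) (by positivity) (by positivity) ?_ ?_
    · refine hh.trans ?_
      have q1 : ∑' c, ‖a c * clsI i c * W Y t c‖ ^ 2 ≤ C0 * Y := by
        have q := lq_tsum_W (a := fun c => a c * clsI i c) (ai i) (bi i) P1.one hY t 0
        simp only [one_mul, N_one, div_one, Real.rpow_zero, mul_one] at q
        have q' := h0 Y hY
        simp only [Real.rpow_zero, one_mul, zero_add, Real.rpow_one] at q'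
        have s0 : Summable fun c => ‖a c * clsI i c * W Y t c‖ := by simpa using si i 0
        have le : ∀ c, ‖a c * clsI i c * W Y t c‖ ^ 2 ≤ ‖a c * clsI i c * W Y t c‖ := fun c => by
          refine pow_le_of_le_one (norm_nonneg _) ?_ two_ne_zero
          rw [norm_mul, norm_W]
          exact mul_le_one₀ (bi i c) (P026.w_pos _).le (P026.w_le_one _)
        exact ((s0.of_nonneg_of_le (fun c => sq_nonneg _) le).tsum_le_tsum le s0).trans (q.trans q')
      have q2 : M ^ (1 - σ) * ((Y ^ (σ - 1 / 2) * E) ^ 2 * B * (1 + |t|) ^ A) =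
          E ^ 2 * (1 + |t|) ^ A * x2 := by
        have : (Y ^ (σ - 1 / 2)) ^ 2 = (Y ^ 2) ^ σ / Y := by
          rw [← Real.rpow_mul_natCast hY.le, ← Real.rpow_natCast_mul hY.le,
            ← Real.rpow_sub_one hY.ne']
          congr 1; push_cast; ring
        rw [hx2, mul_pow, this, Real.div_rpow (sq_nonneg Y) hM.le, Real.rpow_sub hM, Real.rpow_one]
        ring
      have q3 : M ^ (1 - (J : ℝ)) * (L * Y ^ 2 / M) ^ (1 - (J : ℝ)) *
          (C2 * Y ^ ((J : ℝ) - 1 / 2 + 1)) ^ 2 = C2 ^ 2 * x3 := by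
        have : (Y ^ 2) ^ (1 - (J : ℝ)) * (Y ^ ((J : ℝ) - 1 / 2 + 1)) ^ 2 = Y ^ 3 := by
          rw [← Real.rpow_mul_natCast hY.le, ← Real.rpow_natCast_mul hY.le, ← Real.rpow_add hY,
            ← Real.rpow_natCast]
          congr 1; push_cast; ring
        rw [← Real.mul_rpow hM.le (by positivity), mul_div_cancel₀ _ hM.ne',
          Real.mul_rpow hL.le (sq_nonneg Y), hx3, ← this]
        ring
      rw [q2, q3, mul_assoc C1, mul_assoc C1]
      refine mul_le_mul_of_nonneg_left ?_ hC1.le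
      have q4 : M * ∑' c, ‖a c * clsI i c * W Y t c‖ ^ 2 ≤ C0 * (1 + |t|) ^ A * x1 :=
        (mul_le_mul_of_nonneg_left q1 hM.le).trans (by
          rw [mul_left_comm, mul_assoc]
          exact mul_le_mul_of_nonneg_left (le_mul_of_one_le_left p1 t1) hC0.le)
      have q5 : C2 ^ 2 * x3 ≤ C2 ^ 2 * (1 + |t|) ^ A * x3 := by
        rw [mul_assoc]
        exact mul_le_mul_of_nonneg_left (le_mul_of_one_le_left p3 t1) (sq_nonneg _)
      have q6 : 0 ≤ (1 + |t|) ^ A * (C0 * (x2 + x3) + E ^ 2 * (x1 + x3) + C2 ^ 2 * (x1 + x2)) := by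
        positivity
      linarith
    · intro u
      have ex : 1 ≤ Real.exp ((1 / 2 - σ) / 2) := Real.one_le_exp (by linarith)
      have ex2 : Real.exp ((1 / 2 - σ) / 2) ≤ 2 := by
        have := Real.exp_bound_div_one_sub_of_interval (x := (1 / 2 - σ) / 2) (by linarith)
          (by linarith)
        exact this.trans (by rw [div_le_iff₀ (by linarith)]; linarith)
      have hq := hQ i (Y / Real.exp ((1 / 2 - σ) / 2)) (t + u)
        (div_le_div_of_nonneg_left hY.le (Real.exp_pos _) ex2) (div_le_self hY.le ex)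
      have id : ∀ c, a c * clsI i c * W Y t c * Gt j c * ((N c ^ (σ - 1 / 2) : ℝ) : ℂ) * nit u c =
          ((Y ^ (σ - 1 / 2) * E : ℝ) : ℂ) *
            (a c * clsI i c * Gt j c * W (Y / Real.exp ((1 / 2 - σ) / 2)) (t + u) c) := fun c => by
        by_cases x : c = 0
        · simp [x, a0]
        have r := P026.rpow_mul_w (σ - 1 / 2) (div_pos (N_pos x) hY)
        have r2 : N c / Y / Real.exp ((σ - 1 / 2) / 2) = N c / (Y / Real.exp ((1 / 2 - σ) / 2)) := by
          rw [show (σ - 1 / 2) / 2 = -((1 / 2 - σ) / 2) by ring, Real.exp_neg]; field_simp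
        have r3 : N c ^ (σ - 1 / 2) * w (N c / Y) =
            Y ^ (σ - 1 / 2) * E * w (N c / (Y / Real.exp ((1 / 2 - σ) / 2))) := by
          rw [← r2, mul_assoc, hE, ← r, ← mul_assoc, ← Real.mul_rpow hY.le (div_pos (N_pos x) hY).le,
            mul_div_cancel₀ _ hY.ne']
        have r4 := congrArg (fun x : ℝ => (x : ℂ)) r3
        simp only [ofReal_mul] at r4
        simp only [W, nit_add, ofReal_mul]
        linear_combination a c * clsI i c * Gt j c * nit t c * nit u c * r4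
      have tri : (1 + |t + u|) ^ A ≤ (1 + |t|) ^ A * (1 + |u|) ^ A := by
        rw [← mul_pow]
        refine pow_le_pow_left₀ (by positivity) ?_ A
        nlinarith [abs_add_le t u, mul_nonneg (abs_nonneg t) (abs_nonneg u)]
      have hq2 := mul_le_mul_of_nonneg_left (hq.trans (mul_le_mul_of_nonneg_left tri hB))
        (sq_nonneg (Y ^ (σ - 1 / 2) * E))
      refine le_trans ?_ (hq2.trans (le_of_eq (by ring)))
      rw [QQ, Finset.mul_sum]
      refine Finset.sum_le_sum fun h hh => ?_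
      rw [Finset.mul_sum]
      refine Finset.sum_le_sum fun D _ => ?_
      simp only [id, mul_assoc ((Y ^ (σ - 1 / 2) * E : ℝ) : ℂ)]
      rw [tsum_mul_left, norm_mul, Complex.norm_real, Real.norm_of_nonneg (by positivity), mul_pow,
        mul_left_comm, mul_assoc (N D)]
      refine mul_le_mul_of_nonneg_left (mul_le_mul_of_nonneg_left
        (mul_le_of_le_one_left (sq_nonneg _) ?_) (N_nonneg D)) (sq_nonneg _)
      exact Real.rpow_le_one_of_one_le_of_nonpos (one_le_N (mem_ball.1 hh).1.ne_zero) (by linarith)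
    · intro D hD
      have n := N_pos hD.ne_zero
      refine (lq_tsum_W (a := fun c => a c * clsI i c) (ai i) (bi i) hD.1 hY t
        _).trans ((mul_le_mul_of_nonneg_left (h2 _ (div_pos hY n)) (Real.rpow_nonneg n.le _)).trans ?_)
      rw [Real.div_rpow hY.le n.le, Real.rpow_add_one n.ne']
      have r := Real.rpow_pos_of_pos n ((J : ℝ) - 1 / 2)
      have b := one_le_ab hD.ne_zero
      calc _ = C2 * Y ^ ((J : ℝ) - 1 / 2 + 1) / N D := by field_simp
        _ ≤ _ := div_le_div_of_nonneg_left (by positivity) (by linarith) (by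
          rw [← ab_sq]; nlinarith)
  have e : (fun c => a c * W Y t c) = fun c => ∑ i : Cl F, a c * clsI i c * W Y t c := by
    funext c
    rw [← Finset.sum_mul, ← Finset.mul_sum, sum_clsI, mul_one]
  rw [e]
  refine (lq_QQ_sum j Finset.univ (fun i => by simpa using si i 0) M).trans ?_
  have := Finset.sum_le_card_nsmul Finset.univ _ _ fun i _ => key i
  rw [nsmul_eq_mul, Finset.card_univ] at this
  rw [Finset.card_univ]
  exact (mul_le_mul_of_nonneg_left this cp.le).trans (le_of_eq (by ring))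

end Vale.Agent.P319B
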