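import Vale.Agent.P319B.LemP1B

/-! Bounds for the dual terms in the self-dual Poisson inequality. -/

namespace Vale.Agent.P319B

open Complex NumberField MeasureTheory
open scoped Classical ComplexConjugate

theorem l1_gauss_int (A : ℕ) : Integrable fun u : ℝ => Real.exp (-(u ^ 2 / 4)) * (1 + |u|) ^ A := by
  refine ((integrable_exp_neg_mul_sq (b := 1 / 8) (by norm_num)).const_mul
    (Real.exp (2 * A ^ 2))).mono' (by fun_prop) (Filter.Eventually.of_forall fun u => ?_)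
  rw [Real.norm_of_nonneg (by positivity), ← Real.exp_add]
  refine (mul_le_mul_of_nonneg_left (pow_le_pow_left₀ (by positivity)
    ((add_comm _ _).trans_le (Real.add_one_le_exp |u|)) A) (Real.exp_pos _).le).trans ?_
  rw [← Real.exp_nat_mul, ← Real.exp_add, Real.exp_le_exp, ← sq_abs u]
  nlinarith [sq_nonneg (|u| - 4 * A)]

/-- The Mellin kernel. -/
noncomputable def l1E (H : ℝ → ℂ) (σ y u : ℝ) : ℂ :=
  H u * ((y ^ (-σ) : ℝ) : ℂ) * cexp (I * ((-u * Real.log y : ℝ) : ℂ))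

theorem l1_norm_E (H : ℝ → ℂ) (σ : ℝ) {y : ℝ} (hy : 0 ≤ y) (u : ℝ) :
    ‖l1E H σ y u‖ = ‖H u‖ * y ^ (-σ) := by
  rw [l1E, norm_mul, norm_mul, norm_exp_I_mul_ofReal, mul_one, Complex.norm_real,
    Real.norm_of_nonneg (Real.rpow_nonneg hy _)]

theorem l1_int_E {H : ℝ → ℂ} (hH : Continuous H) {g : ℝ → ℝ} (hg : Integrable g)
    (h : ∀ u, ‖H u‖ ≤ g u) (σ : ℝ) {y : ℝ} (hy : 0 ≤ y) : Integrable (l1E H σ y) := by
  refine (hg.mul_const (y ^ (-σ))).mono' ?_ (Filter.Eventually.of_forall fun u => ?_)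
  · exact ((hH.mul continuous_const).mul (by fun_prop)).aestronglyMeasurable
  · rw [l1_norm_E H σ hy]
    exact mul_le_mul_of_nonneg_right (h u) (Real.rpow_nonneg hy _)

theorem l1_E_eq (H : ℝ → ℂ) (σ : ℝ) {y : ℝ} (hy : 0 < y) (u : ℝ) :
    H u * (y : ℂ) ^ (-(σ + u * I)) = l1E H σ y u := by
  rw [l1E, cpow_def_of_ne_zero (by exact_mod_cast hy.ne'), Real.rpow_def_of_pos hy,
    ← ofReal_log hy.le, ofReal_exp, mul_assoc, ← Complex.exp_add]
  congr 2
  push_cast; ring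

variable {F : Type} [Field F] [NumberField F] [Ctx F]

theorem l1_swap (K : ℝ) (Φ : R F → R F → ℝ) :
    ∑ h ∈ ball F K, ∑ D ∈ l1D h, Φ h D =
      ∑ D ∈ (ball F K).filter P0, ∑ h ∈ ball F (K / N D ^ 2), Φ (h * D ^ 2) D := by
  rw [Finset.sum_sigma', Finset.sum_sigma']
  symm
  refine Finset.sum_bij (fun x _ => ⟨x.2 * x.1 ^ 2, x.1⟩) ?_ ?_ ?_ fun _ _ => rfl
  · rintro ⟨D, h⟩ hx
    simp only [Finset.mem_sigma, Finset.mem_filter, mem_ball] at hx ⊢
    obtain ⟨⟨⟨D0, -⟩, hD⟩, h0, hK⟩ := hx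
    have n0 := h0.mul (D0.pow 2)
    refine ⟨⟨n0, ?_⟩, (l1_mem_D n0.ne_zero).2 ⟨hD, dvd_mul_left _ _⟩⟩
    rwa [N_mul, N_pow, ← le_div_iff₀ (pow_pos (N_pos D0.ne_zero) 2)]
  · rintro ⟨D, h⟩ hx ⟨D', h'⟩ - e
    simp only [Finset.mem_sigma, Finset.mem_filter, mem_ball] at hx
    simp only [Sigma.mk.injEq, heq_eq_eq] at e ⊢
    obtain ⟨e1, rfl⟩ := e
    exact ⟨rfl, mul_right_cancel₀ (pow_ne_zero 2 hx.1.1.1.ne_zero) e1⟩
  · rintro ⟨h, D⟩ hx
    simp only [Finset.mem_sigma, mem_ball] at hx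
    obtain ⟨⟨h0, hK⟩, hD'⟩ := hx
    obtain ⟨hD, h', rfl⟩ := (l1_mem_D h0.ne_zero).1 hD'
    refine ⟨⟨D, h'⟩, ?_, by simp only [mul_comm]⟩
    simp only [Finset.mem_sigma, Finset.mem_filter, mem_ball]
    refine ⟨⟨⟨hD.1, le_trans (N_le_of_dvd h0.ne_zero ?_) hK⟩, hD⟩, (hD.1.pow 2).of_mul h0, ?_⟩
    · exact (dvd_pow_self D two_ne_zero).mul_right _
    · rwa [le_div_iff₀ (pow_pos (N_pos hD.ne_zero) 2), mul_comm, ← N_pow, ← N_mul]

theorem l1_tail {s : ℝ} (hs : 1 < s) : ∃ C : ℝ, 0 < C ∧ ∀ x K : ℝ, 0 < x →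
    ∑ h ∈ ball F K, ∑ _D ∈ l1D h, (if x < N h then N h ^ (-s) else 0) ≤ C * x ^ (1 - s) := by
  obtain ⟨C, hC, h⟩ := tail_N_rpow (F := F) hs
  have s2 := summable_N_rpow (F := F) one_lt_two
  have p0 : ∀ (t : ℝ) (c : R F) (Q : Prop) [Decidable Q], 0 ≤ if Q then N c ^ t else 0 :=
    fun t c Q _ => ite_nonneg (Real.rpow_nonneg (N_nonneg c) _) le_rfl
  have z0 : 0 ≤ ∑' c : R F, if P1 c then N c ^ (-2 : ℝ) else 0 := tsum_nonneg fun c => p0 _ _ _
  refine ⟨C * (1 + ∑' c : R F, if P1 c then N c ^ (-2 : ℝ) else 0), by positivity,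
    fun x K hx => ?_⟩
  rw [l1_swap K fun h _ => if x < N h then N h ^ (-s) else 0]
  have key : ∀ D ∈ (ball F K).filter P0, ∑ h ∈ ball F (K / N D ^ 2),
      (if x < N (h * D ^ 2) then N (h * D ^ 2) ^ (-s) else 0) ≤
        C * x ^ (1 - s) * if P1 D then N D ^ (-2 : ℝ) else 0 := fun D hD => by
    have n := N_pos (Finset.mem_filter.1 hD).2.ne_zero
    have n2 := pow_pos n 2
    have e : ∀ h ∈ ball F (K / N D ^ 2), (if x < N (h * D ^ 2) then N (h * D ^ 2) ^ (-s) else 0) =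
        (if P1 h ∧ x / N D ^ 2 < N h then N h ^ (-s) else 0) * (N D ^ 2) ^ (-s) := fun h hh => by
      simp only [N_mul, N_pow, Real.mul_rpow (N_nonneg h) n2.le, div_lt_iff₀ n2, ite_mul, zero_mul,
        (mem_ball.1 hh).1, true_and]
    rw [Finset.sum_congr rfl e, ← Finset.sum_mul, if_pos (Finset.mem_filter.1 hD).2.1]
    have sm : Summable fun c : R F => if P1 c ∧ x / N D ^ 2 < N c then N c ^ (-s) else 0 :=
      (summable_N_rpow hs).of_nonneg_of_le (fun c => p0 _ c _) fun c => by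
        by_cases h1 : P1 c ∧ x / N D ^ 2 < N c
        · rw [if_pos h1, if_pos h1.1]
        · rw [if_neg h1]; exact p0 _ _ _
    have b := (sm.sum_le_tsum (ball F (K / N D ^ 2)) fun c _ => p0 _ c _).trans
      (h _ (div_pos hx n2))
    refine (mul_le_mul_of_nonneg_right b (Real.rpow_nonneg n2.le _)).trans (le_of_eq ?_)
    rw [Real.div_rpow hx.le n2.le, mul_assoc, mul_assoc, div_mul_eq_mul_div, mul_div_assoc,
      ← Real.rpow_sub n2, show -s - (1 - s) = -1 by ring, Real.rpow_neg_one, Real.rpow_neg n.le,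
      Real.rpow_two]
  refine (Finset.sum_le_sum key).trans ?_
  rw [← Finset.mul_sum]
  have := s2.sum_le_tsum ((ball F K).filter P0) fun c _ => p0 _ _ _
  have x0 : 0 ≤ C * x ^ (1 - s) := by positivity
  nlinarith

theorem l1_rpow_half {c : R F} (hc : c ≠ 0) (r : ℝ) : N c ^ (r - 1 / 2) = N c ^ r / ab c := by
  rw [Real.rpow_sub (N_pos hc), ab, Real.sqrt_eq_rpow]

theorem l1_sum_rpow {a : R F → ℂ} (ha : ∀ c, a c ≠ 0 → P0 c)
    (hs : ∀ k : ℕ, Summable (fun c => ‖a c‖ * N c ^ k)) (r : ℝ) :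
    Summable fun c => ‖a c‖ * N c ^ r := by
  refine (hs ⌈r⌉₊).of_nonneg_of_le
    (fun c => mul_nonneg (norm_nonneg _) (Real.rpow_nonneg (N_nonneg c) _)) fun c => ?_
  by_cases x : a c = 0
  · simp [x]
  refine mul_le_mul_of_nonneg_left ?_ (norm_nonneg _)
  rw [← Real.rpow_natCast]
  exact Real.rpow_le_rpow_of_exponent_le (one_le_N (ha c x).ne_zero) (Nat.le_ceil r)

theorem l1_T_far (j j' J : ℕ) {a : R F → ℂ} (ha : ∀ c, a c ≠ 0 → P0 c)
    (hs : ∀ k : ℕ, Summable (fun c => ‖a c‖ * N c ^ k)) {ρ : F} (hρ : ρ ≠ 0) {κ B C : ℝ} (hκ : 0 < κ) (hC : 0 < C)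
    (hP : ∀ z : F, z ≠ 0 → ∀ y : ℝ, 0 < y → Ph2 z y ≤ C * y ^ (-(J : ℝ)))
    (hB : ∀ D, P0 D → ∑' c, ‖a (D * c)‖ * N (D * c) ^ ((J : ℝ) - 1 / 2) ≤ B / ab D)
    {h : R F} (hh' : P1 h) : ‖∑' p, l1G j j' a ρ κ h p‖ ≤
      C * κ ^ (-(J : ℝ)) * B ^ 2 * ∑ _D ∈ l1D h, N h ^ (-(J : ℝ)) := by
  have hh := hh'.ne_zero
  set f : R F → ℝ := fun c => ‖a c‖ * N c ^ ((J : ℝ) - 1 / 2) with hf
  set k : R F → R F → ℝ := fun D c => f c * if D ∣ c then 1 else 0 with hk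
  have f0 : ∀ c, 0 ≤ f c := fun c => mul_nonneg (norm_nonneg _) (Real.rpow_nonneg (N_nonneg c) _)
  have k0 : ∀ D c, 0 ≤ k D c := fun D c => mul_nonneg (f0 c) (by split_ifs <;> norm_num)
  have sk : ∀ D, Summable fun c => ‖k D c‖ := fun D =>
    (l1_sum_rpow ha hs _).of_nonneg_of_le (fun _ => norm_nonneg _) fun c => by
      rw [Real.norm_of_nonneg (k0 D c)]
      exact mul_le_of_le_one_right (f0 c) (by split_ifs <;> norm_num)
  have X := mul_pos hκ (N_pos hh)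
  set c1 : ℝ := C / (κ * N h) ^ J with hc1
  have c0 : 0 ≤ c1 := by positivity
  have hsum : HasSum (fun p : R F × R F => ∑ D ∈ l1D h, c1 * N D * (k D p.1 * k D p.2))
      (∑ D ∈ l1D h, c1 * N D * ((∑' c, k D c) * ∑' c, k D c)) := by
    refine hasSum_sum fun D _ => HasSum.mul_left _ ?_
    rw [tsum_mul_tsum_of_summable_norm (sk D) (sk D)]
    exact (summable_mul_of_summable_norm (sk D) (sk D)).hasSum
  refine (tsum_of_norm_bounded hsum fun p => ?_).trans ?_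
  · have g0 : 0 ≤ ∑ D ∈ l1D h, c1 * N D * (k D p.1 * k D p.2) := Finset.sum_nonneg fun D _ =>
      mul_nonneg (mul_nonneg c0 (N_nonneg D)) (mul_nonneg (k0 _ _) (k0 _ _))
    by_cases x : a p.1 = 0
    · simpa [l1G, l1A, x] using g0
    by_cases y : a p.2 = 0
    · simpa [l1G, l1A, y] using g0
    have h1 := (ha _ x).ne_zero
    have h2 := (ha _ y).ne_zero
    have n1 := N_pos h1
    have n2 := N_pos h2
    have e1 : Ph2 ((h : F) / ρ) (κ * N h / N (p.1 * p.2)) ≤ c1 * (N p.1 ^ J * N p.2 ^ J) := by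
      have y0 : 0 < κ * N h / N (p.1 * p.2) := div_pos X (N_pos (mul_ne_zero h1 h2))
      refine (hP _ (div_ne_zero hh'.coe_ne hρ) _ y0).trans (le_of_eq ?_)
      rw [Real.rpow_neg y0.le, Real.rpow_natCast, hc1, N_mul, div_pow, mul_pow (N p.1)]; field_simp
    have e2 : ‖l1K j' p.1 p.2 h‖ ≤ ∑ D ∈ l1D h, N D * ((if D ∣ p.1 then 1 else 0) *
        (if D ∣ p.2 then 1 else 0)) := by
      rw [l1K_ne j' h1 hh]
      refine (norm_sum_le _ _).trans (Finset.sum_le_sum fun D _ => ?_)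
      rw [norm_mul, norm_mul, Complex.norm_conj, Complex.norm_real, Real.norm_of_nonneg (N_nonneg D)]
      refine mul_le_mul_of_nonneg_left ?_ (N_nonneg D)
      split_ifs <;> simp
      exact mul_le_one₀ (norm_chi_le _ _ _) (norm_nonneg _) (norm_chi_le _ _ _)
    simp only [l1G, norm_mul, Complex.norm_conj, Complex.norm_real,
      if_pos hh', Real.norm_of_nonneg (Ph2_nonneg _ _), l1_norm_A j ha]
    have b1 := ab_pos h1
    have b2 := ab_pos h2
    refine (mul_le_mul (mul_le_mul_of_nonneg_left e2 (by positivity)) e1 (Ph2_nonneg _ _)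
      (mul_nonneg (by positivity) ((norm_nonneg _).trans e2))).trans (le_of_eq ?_)
    rw [Finset.mul_sum, Finset.sum_mul]
    refine Finset.sum_congr rfl fun D _ => ?_
    simp only [hk, hf, l1_rpow_half h1, l1_rpow_half h2, Real.rpow_natCast]
    ring
  · rw [Finset.mul_sum]
    refine Finset.sum_le_sum fun D hD => ?_
    have hD' := ((l1_mem_D hh).1 hD).1
    have t : ∑' c, k D c ≤ B / ab D := by
      have := l1_tsum_div hD'.ne_zero f fun _ => (1 : ℝ)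
      simp only [mul_one] at this
      exact (le_of_eq this).trans (hB D hD')
    have t0 : 0 ≤ ∑' c, k D c := tsum_nonneg (k0 D)
    have b := ab_pos hD'.ne_zero
    refine (mul_le_mul_of_nonneg_left (mul_le_mul t t t0 (t0.trans t))
      (mul_nonneg c0 (N_nonneg D))).trans (le_of_eq ?_)
    rw [hc1, Real.rpow_neg hκ.le, Real.rpow_neg (N_nonneg h), Real.rpow_natCast,
      Real.rpow_natCast, ← ab_sq D, mul_pow]
    have := N_pos hh
    field_simp

theorem l1_conj_nit (u : ℝ) (c : R F) : conj (nit (-u) c) = nit u c := by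
  rw [nit, nit, ← Complex.exp_conj, map_mul, conj_I, conj_ofReal]
  congr 1; push_cast; ring

theorem l1_E_div (H : ℝ → ℂ) (σ u : ℝ) {X : ℝ} (hX : 0 < X) {c d : R F} (hc : c ≠ 0) (hd : d ≠ 0) :
    l1E H σ (X / N (c * d)) u = l1E H σ X u * (((N c ^ σ : ℝ) : ℂ) * nit u c) *
      (((N d ^ σ : ℝ) : ℂ) * nit u d) := by
  have n1 := N_pos hc
  have n2 := N_pos hd
  have e1 : (X / N (c * d)) ^ (-σ) = X ^ (-σ) * N c ^ σ * N d ^ σ := by
    rw [N_mul, Real.div_rpow hX.le (mul_pos n1 n2).le, Real.rpow_neg (mul_pos n1 n2).le,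
      Real.mul_rpow n1.le n2.le, div_inv_eq_mul, mul_assoc]
  have e2 : cexp (I * ((-u * Real.log (X / N (c * d)) : ℝ) : ℂ)) =
      cexp (I * ((-u * Real.log X : ℝ) : ℂ)) * nit u c * nit u d := by
    rw [nit, nit, ← Complex.exp_add, ← Complex.exp_add, N_mul,
      Real.log_div hX.ne' (mul_pos n1 n2).ne', Real.log_mul n1.ne' n2.ne']
    congr 1; push_cast; ring
  rw [l1E, l1E, e1, e2, ofReal_mul, ofReal_mul]; ring

theorem l1_T_near (σ : ℝ) (A j j' : ℕ) {a : R F → ℂ} (ha : ∀ c, a c ≠ 0 → P0 c)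
    (hs : ∀ k : ℕ, Summable (fun c => ‖a c‖ * N c ^ k)) {ρ : F} (hρ : ρ ≠ 0) {κ K B : ℝ} (hκ : 0 < κ)
    {g : ℝ → ℝ} (ig : Integrable g) (ig' : Integrable fun u => g u * (1 + |u|) ^ A)
    {H : F → ℝ → ℂ} (hH : ∀ z : F, z ≠ 0 → Continuous (H z) ∧ (∀ u, ‖H z u‖ ≤ g u) ∧
      ∀ y : ℝ, 0 < y → (Ph2 z y : ℂ) = ∫ u : ℝ, H z u * (y : ℂ) ^ (-(σ + u * I)))
    (hB : ∀ u : ℝ, ∑ h ∈ ball F K, ∑ D ∈ l1D h,
      N D * N h ^ (-σ) * ‖∑' c, a (D * c) * Gt j (D * c) *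
        ((N (D * c) ^ (σ - 1 / 2) : ℝ) : ℂ) * nit u (D * c) * chi j' h c‖ ^ 2
          ≤ B * (1 + |u|) ^ A) :
    ‖∑ h ∈ ball F K, ∑' p, l1G j j' a ρ κ h p‖ ≤
      (∫ u : ℝ, g u * (1 + |u|) ^ A) * κ ^ (-σ) * B := by
  obtain ⟨C, hC, hK⟩ := l1_norm_K (F := F)
  have hz : ∀ h ∈ ball F K, (h : F) / ρ ≠ 0 := fun h hh => div_ne_zero (mem_ball.1 hh).1.coe_ne hρ
  have g0 : ∀ u, 0 ≤ g u := fun u => (norm_nonneg _).trans ((hH ρ hρ).2.1 u)
  have a0 : a 0 = 0 := by by_contra x; exact (ha 0 x).ne_zero rfl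
  set φ : R F × R F → ℝ → ℂ := fun p u => ∑ h ∈ ball F K,
    l1A j a p.1 * conj (l1A j a p.2) * l1K j' p.1 p.2 h *
      l1E (H (h / ρ)) σ (κ * N h / N (p.1 * p.2)) u with hφ
  have y0 : ∀ h c : R F, 0 ≤ κ * N h / N c := fun h c =>
    div_nonneg (mul_nonneg hκ.le (N_nonneg h)) (N_nonneg c)
  have iφ : ∀ p, Integrable (φ p) := fun p =>
    integrable_finsetSum _ fun h hh => (l1_int_E (hH _ (hz h hh)).1 ig (hH _ (hz h hh)).2.1 σ
      (y0 _ _)).const_mul _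
  have eφ : ∀ p, ∫ u, φ p u = ∑ h ∈ ball F K, l1G j j' a ρ κ h p := fun p => by
    by_cases x : a p.1 = 0
    · simp [hφ, l1G, l1A, x]
    by_cases y : a p.2 = 0
    · simp [hφ, l1G, l1A, y]
    simp only [hφ]
    rw [integral_finsetSum _ fun h hh => (l1_int_E (hH _ (hz h hh)).1 ig (hH _ (hz h hh)).2.1 σ
      (y0 _ _)).const_mul _]
    refine Finset.sum_congr rfl fun h hh => ?_
    have y1 := div_pos (mul_pos hκ (N_pos (mem_ball.1 hh).1.ne_zero))
      (N_pos (mul_ne_zero (ha _ x).ne_zero (ha _ y).ne_zero))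
    rw [integral_const_mul, l1G, if_pos (mem_ball.1 hh).1, (hH _ (hz h hh)).2.2 _ y1]
    simp only [l1_E_eq _ σ y1]
  have sφ : Summable fun p => ∫ u, ‖φ p u‖ := by
    have s1 := summable_mul_of_summable_norm (l1_sum_rpow ha hs (2 + σ)).norm
      (l1_sum_rpow ha hs σ).norm
    refine (s1.mul_left ((∫ u : ℝ, g u) *
      ∑ h ∈ ball F K, C * (κ * N h) ^ (-σ))).of_nonneg_of_le
      (fun p => integral_nonneg fun _ => norm_nonneg _) fun p => ?_
    by_cases x : a p.1 = 0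
    · simp [hφ, l1A, x]
    by_cases y : a p.2 = 0
    · simp [hφ, l1A, y]
    have h1 := (ha _ x).ne_zero
    have h2 := (ha _ y).ne_zero
    rw [mul_assoc, ← integral_mul_const]
    refine integral_mono (iφ p).norm (ig.mul_const _) fun u => ?_
    simp only [hφ, Finset.sum_mul, Finset.mul_sum]
    refine (norm_sum_le _ _).trans (Finset.sum_le_sum fun h hh => ?_)
    have X := mul_pos hκ (N_pos (mem_ball.1 hh).1.ne_zero)
    have n1 := N_pos h1
    have n2 := N_pos h2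
    rw [l1_E_div _ σ u X h1 h2]
    simp only [norm_mul, Complex.norm_conj, Complex.norm_real, norm_nit, l1_norm_E _ σ X.le,
      Real.norm_of_nonneg (Real.rpow_nonneg (N_nonneg _) σ)]
    calc _ ≤ ‖a p.1‖ * ‖a p.2‖ * (C * N p.1 ^ 2) * (g u * (κ * N h) ^ (-σ) *
          (N p.1 ^ σ * 1) * (N p.2 ^ σ * 1)) := by
          gcongr
          · exact l1_norm_A_le j ha _
          · exact l1_norm_A_le j ha _
          · exact hK _ _ _ _
          · exact (hH _ (hz h hh)).2.1 u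
      _ = _ := by rw [Real.rpow_add n1, Real.rpow_two]; ring
  set b : ℝ → R F → ℂ := fun u c => a c * Gt j c * ((N c ^ (σ - 1 / 2) : ℝ) : ℂ) * nit u c with hb
  have sb : ∀ u, Summable fun c => ‖b u c‖ := fun u =>
    (l1_sum_rpow ha hs (σ - 1 / 2)).congr fun c => by
      by_cases x : a c = 0
      · simp [hb, x]
      · simp only [hb, norm_mul, norm_nit, norm_Gt j (ha c x).2, Complex.norm_real, mul_one,
          Real.norm_of_nonneg (Real.rpow_nonneg (N_nonneg _) _)]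
  set S : ℝ → R F → R F → ℂ := fun u h D => ∑' c, b u (D * c) * chi j' h c with hS
  have tφ : ∀ u, ∑' p, φ p u = ∑ h ∈ ball F K, l1E (H (h / ρ)) σ (κ * N h) u *
      ∑ D ∈ l1D h, (N D : ℂ) * (S u h D * conj (S (-u) h D)) := fun u => by
    refine HasSum.tsum_eq (hasSum_sum fun h hh => ?_)
    have h0 := (mem_ball.1 hh).1.ne_zero
    have e : (fun p : R F × R F => l1A j a p.1 * conj (l1A j a p.2) * l1K j' p.1 p.2 h *
        l1E (H (h / ρ)) σ (κ * N h / N (p.1 * p.2)) u) = fun p => l1E (H (h / ρ)) σ (κ * N h) u *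
          (b u p.1 * conj (b (-u) p.2) * l1K j' p.1 p.2 h) := by
      funext p
      by_cases x : a p.1 = 0
      · simp [hb, l1A, x]
      by_cases y : a p.2 = 0
      · simp [hb, l1A, y]
      have h1 := (ha _ x).ne_zero
      have h2 := (ha _ y).ne_zero
      rw [l1_E_div _ σ u (mul_pos hκ (N_pos h0)) h1 h2]
      simp only [hb, l1A, l1_rpow_half h1, l1_rpow_half h2, map_mul, map_div₀, conj_ofReal,
        l1_conj_nit, ofReal_div]
      ring
    rw [e]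
    exact (l1_hasSum_K j' h0 (by simp [hb, a0]) (sb u) (sb (-u))).mul_left _
  have bd : ∀ u, ‖∑' p, φ p u‖ ≤ g u * (1 + |u|) ^ A * (κ ^ (-σ) * B) := fun u => by
    have h1 : ∑ h ∈ ball F K, ∑ D ∈ l1D h, N D * N h ^ (-σ) * ‖S u h D‖ ^ 2 ≤ _ := hB u
    have h2 : ∑ h ∈ ball F K, ∑ D ∈ l1D h, N D * N h ^ (-σ) * ‖S (-u) h D‖ ^ 2 ≤ _ := hB (-u)
    rw [abs_neg] at h2
    have g0 : 0 ≤ g u * κ ^ (-σ) / 2 := by have := g0 u; positivity
    have h3 := mul_le_mul_of_nonneg_left (add_le_add h1 h2) g0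
    rw [tφ]
    refine le_trans ?_ (h3.trans (le_of_eq (by ring)))
    rw [← Finset.sum_add_distrib, Finset.mul_sum]
    refine (norm_sum_le _ _).trans (Finset.sum_le_sum fun h hh => ?_)
    rw [norm_mul, l1_norm_E _ σ (mul_nonneg hκ.le (N_nonneg h)), Real.mul_rpow hκ.le (N_nonneg h),
      ← Finset.sum_add_distrib, Finset.mul_sum]
    have r0 := Real.rpow_nonneg (N_nonneg h) (-σ)
    refine (mul_le_mul (mul_le_mul_of_nonneg_right ((hH _ (hz h hh)).2.1 u) (by positivity))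
      (norm_sum_le _ _) (norm_nonneg _) (by linarith [mul_nonneg g0 r0])).trans ?_
    rw [Finset.mul_sum]
    refine Finset.sum_le_sum fun D _ => ?_
    rw [norm_mul, norm_mul, Complex.norm_conj, Complex.norm_real, Real.norm_of_nonneg (N_nonneg D)]
    have h4 := mul_le_mul_of_nonneg_left (two_mul_le_add_sq ‖S u h D‖ ‖S (-u) h D‖)
      (mul_nonneg g0 (mul_nonneg (N_nonneg D) r0))
    exact le_trans (le_of_eq (by ring)) (h4.trans (le_of_eq (by ring)))
  have fin := norm_integral_le_of_norm_le (ig'.mul_const (κ ^ (-σ) * B))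
    (Filter.Eventually.of_forall bd)
  have sG := (l1_summable_G j j' ha hs hρ hκ).prod_symm
  rw [← integral_tsum_of_summable_integral_norm iφ sφ, integral_mul_const] at fin
  simp only [eφ] at fin
  rw [Summable.tsum_finsetSum (f := fun h p => l1G j j' a ρ κ h p) fun h _ => sG.prod_factor h]
    at fin
  linarith

theorem l1_tsum_le {m : R F → ℝ} {C : ℝ} (m0 : ∀ h, 0 ≤ m h) (mz : ∀ h, m h ≠ 0 → P1 h)
    (hm : ∀ K, ∑ h ∈ ball F K, m h ≤ C) : Summable m ∧ ∑' h, m h ≤ C := by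
  have key : ∀ u : Finset (R F), ∑ h ∈ u, m h ≤ C := fun u => by
    rw [← Finset.sum_filter_ne_zero]
    refine le_trans (Finset.sum_le_sum_of_subset_of_nonneg (fun h hh => ?_) fun h _ _ => m0 h)
      (hm (∑ h ∈ u, N h))
    obtain ⟨hu, h0⟩ := Finset.mem_filter.1 hh
    exact mem_ball.2 ⟨mz h h0, Finset.single_le_sum (fun c _ => N_nonneg c) hu⟩
  have s := summable_of_sum_le m0 key
  exact ⟨s, s.tsum_le_of_sum_le key⟩

end Vale.Agent.P319B
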