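import Vale.Agent.P319B.Gauss
import Vale.Agent.P319B.Count

/-! Basic facts on the second moment QQ. -/

namespace Vale.Agent.P319B

open Complex NumberField
open scoped Classical ComplexConjugate
open Vale.Agent.P026 (w kk fk)

variable {F : Type} [Field F] [NumberField F] [Ctx F]

theorem lq_mem_D {h D : R F} (hh : h ≠ 0) :
    D ∈ (divs h).filter (fun D => D ^ 2 ∣ h) ↔ P0 D ∧ D ^ 2 ∣ h := by
  simp only [Finset.mem_filter, mem_divs hh]
  exact ⟨fun x => ⟨x.1.1, x.2⟩, fun x => ⟨⟨x.1, (dvd_pow_self D two_ne_zero).trans x.2⟩, x.2⟩⟩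

theorem lq_swap (K : ℝ) (G : R F → R F → ℝ) :
    ∑ h ∈ ball F K, ∑ D ∈ (divs h).filter (fun D => D ^ 2 ∣ h), G h D =
      ∑ D ∈ (ball F K).filter P0, ∑ h ∈ ball F (K / N D ^ 2), G (h * D ^ 2) D := by
  rw [Finset.sum_sigma', Finset.sum_sigma']
  symm
  refine Finset.sum_bij (fun x _ => ⟨x.2 * x.1 ^ 2, x.1⟩) ?_ ?_ ?_ fun _ _ => rfl
  · rintro ⟨D, h⟩ hx
    rw [Finset.mem_sigma, Finset.mem_filter, mem_ball, mem_ball] at hx
    obtain ⟨⟨⟨D0, -⟩, hD⟩, h0, hK⟩ := hx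
    have n0 : P1 (h * D ^ 2) := h0.mul (D0.pow 2)
    refine Finset.mem_sigma.2 ⟨mem_ball.2 ⟨n0, ?_⟩, (lq_mem_D n0.ne_zero).2 ⟨hD, dvd_mul_left _ _⟩⟩
    rwa [N_mul, N_pow, ← le_div_iff₀ (pow_pos (N_pos D0.ne_zero) 2)]
  · rintro ⟨D, h⟩ hx ⟨D', h'⟩ - e
    rw [Finset.mem_sigma, Finset.mem_filter, mem_ball, mem_ball] at hx
    simp only [Sigma.mk.injEq, heq_eq_eq] at e ⊢
    obtain ⟨e1, rfl⟩ := e
    exact ⟨rfl, mul_right_cancel₀ (pow_ne_zero 2 hx.1.1.1.ne_zero) e1⟩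
  · rintro ⟨h, D⟩ hx
    rw [Finset.mem_sigma, mem_ball] at hx
    dsimp only at hx
    obtain ⟨⟨h0, hK⟩, hD'⟩ := hx
    obtain ⟨hD, h', rfl⟩ := (lq_mem_D h0.ne_zero).1 hD'
    refine ⟨⟨D, h'⟩, ?_, by simp only [mul_comm]⟩
    rw [Finset.mem_sigma, Finset.mem_filter, mem_ball, mem_ball]
    refine ⟨⟨⟨hD.1, le_trans (N_le_of_dvd h0.ne_zero ?_) hK⟩, hD⟩, (hD.1.pow 2).of_mul h0, ?_⟩
    · exact (dvd_pow_self D two_ne_zero).mul_right _
    · rwa [le_div_iff₀ (pow_pos (N_pos hD.ne_zero) 2), mul_comm, ← N_pow, ← N_mul]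

theorem QQ_nonneg (j : ℕ) (a : R F → ℂ) (K : ℝ) : 0 ≤ QQ j a K :=
  Finset.sum_nonneg fun _ _ => Finset.sum_nonneg fun D _ => mul_nonneg (N_nonneg D) (sq_nonneg _)
theorem QQ_mono (j : ℕ) (a : R F → ℂ) {K L : ℝ} (h : K ≤ L) : QQ j a K ≤ QQ j a L :=
  Finset.sum_le_sum_of_subset_of_nonneg (ball_mono h) fun _ _ _ =>
    Finset.sum_nonneg fun D _ => mul_nonneg (N_nonneg D) (sq_nonneg _)
/-- The terms with D = 1. -/
theorem le_QQ (j : ℕ) (a : R F → ℂ) (K : ℝ) :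
    ∑ h ∈ ball F K, ‖∑' c, a c * chi j h c‖ ^ 2 ≤ QQ j a K := by
  refine Finset.sum_le_sum fun h hh => ?_
  have := Finset.single_le_sum (f := fun D => N D * ‖∑' c, a (D * c) * chi j h c‖ ^ 2)
    (fun D _ => mul_nonneg (N_nonneg D) (sq_nonneg _))
    ((lq_mem_D (mem_ball.1 hh).1.ne_zero).2 ⟨P0.one, by simp⟩)
  simpa only [N_one, one_mul] using this
/-- Reordering of the double sum. -/
theorem QQ_eq (j : ℕ) (a : R F → ℂ) (K : ℝ) :
    QQ j a K = ∑ D ∈ (ball F K).filter P0, ∑ h ∈ ball F (K / N D ^ 2),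
      N D * ‖∑' c, a (D * c) * chi j (h * D ^ 2) c‖ ^ 2 :=
  lq_swap K fun h D => N D * ‖∑' c, a (D * c) * chi j h c‖ ^ 2

theorem lq_QQ_sum {ι : Type} (j : ℕ) (s : Finset ι) {a : ι → R F → ℂ}
    (hs : ∀ i, Summable fun c => ‖a i c‖) (K : ℝ) :
    QQ j (fun c => ∑ i ∈ s, a i c) K ≤ s.card * ∑ i ∈ s, QQ j (a i) K := by
  simp only [QQ]
  rw [Finset.sum_comm, Finset.mul_sum]
  refine Finset.sum_le_sum fun h hh => ?_
  rw [Finset.sum_comm, Finset.mul_sum]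
  refine Finset.sum_le_sum fun D hD => ?_
  have D0 := ((lq_mem_D (mem_ball.1 hh).1.ne_zero).1 hD).1.ne_zero
  have sm : ∀ i, Summable fun c => a i (D * c) * chi j h c := fun i =>
    Summable.of_norm_bounded ((hs i).comp_injective (mul_right_injective₀ D0)) fun c => by
      rw [norm_mul]; exact mul_le_of_le_one_right (norm_nonneg _) (norm_chi_le _ _ _)
  simp only [Finset.sum_mul]
  rw [Summable.tsum_finsetSum fun i _ => sm i, ← Finset.mul_sum, mul_left_comm]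
  refine mul_le_mul_of_nonneg_left ?_ (N_nonneg D)
  exact (pow_le_pow_left₀ (norm_nonneg _) (norm_sum_le _ _) 2).trans sq_sum_le_card_mul_sum_sq

theorem lq_key {a : R F → ℂ} (a0 : ∀ c, a c ≠ 0 → P1 c) (ha : Bd1 a) {D : R F} (hD : P1 D)
    (Y t k : ℝ) (c : R F) : ‖a (D * c) * W Y t (D * c)‖ * N (D * c) ^ k ≤
      N D ^ k * if P1 c then N c ^ k * w (N c / (Y / N D)) else 0 := by
  have n := N_pos hD.ne_zero
  split_ifs with x
  · rw [norm_mul, norm_W, N_mul, Real.mul_rpow n.le (N_nonneg c), div_div_eq_mul_div,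
      mul_comm (N c) (N D)]
    have h1 := mul_le_of_le_one_left (P026.w_pos (N D * N c / Y)).le (ha (D * c))
    refine (mul_le_mul_of_nonneg_right h1 (mul_nonneg (Real.rpow_nonneg n.le _)
      (Real.rpow_nonneg (N_nonneg c) _))).trans (le_of_eq (by ring))
  · have : a (D * c) = 0 := by_contra fun y => x (hD.of_mul (a0 _ y))
    simp [this]

theorem lq_sum_W {a : R F → ℂ} (a0 : ∀ c, a c ≠ 0 → P1 c) (ha : Bd1 a) {D : R F} (hD : P1 D)
    {Y : ℝ} (hY : 0 < Y) (t k : ℝ) :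
    Summable fun c => ‖a (D * c) * W Y t (D * c)‖ * N (D * c) ^ k :=
  ((summable_w k (div_pos hY (N_pos hD.ne_zero))).mul_left _).of_nonneg_of_le
    (fun _ => mul_nonneg (norm_nonneg _) (Real.rpow_nonneg (N_nonneg _) _)) (lq_key a0 ha hD Y t k)

/-- Sum of the weight over the multiples of D. -/
theorem lq_tsum_W {a : R F → ℂ} (a0 : ∀ c, a c ≠ 0 → P1 c) (ha : Bd1 a) {D : R F} (hD : P1 D)
    {Y : ℝ} (hY : 0 < Y) (t k : ℝ) : ∑' c, ‖a (D * c) * W Y t (D * c)‖ * N (D * c) ^ k ≤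
      N D ^ k * ∑' c : R F, (if P1 c then N c ^ k * w (N c / (Y / N D)) else 0) := by
  rw [← tsum_mul_left]
  exact (lq_sum_W a0 ha hD hY t k).tsum_le_tsum (lq_key a0 ha hD Y t k)
    ((summable_w k (div_pos hY (N_pos hD.ne_zero))).mul_left _)

/-- Trivial bound. -/
theorem QQ_triv (A : ℝ) (hA : 2 ≤ A) : ∃ C : ℝ, 0 < C ∧ ∀ (j : ℕ) (a : R F → ℂ),
    (∀ c, a c ≠ 0 → P1 c) → Bd1 a → ∀ Y M t : ℝ, 0 < Y → 0 < M →
      QQ j (fun c => a c * W Y t c) M ≤ C * M * (if Y ≤ 1 then Y ^ A else Y ^ 2) := by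
  obtain ⟨C0, hC0, h0⟩ := tsum_w_le (F := F) (k := 0) (by norm_num)
  obtain ⟨C1, hC1, h1⟩ := tsum_w_small (F := F) 0 (A / 2)
  obtain ⟨Cb, hCb, hb⟩ := card_ball_le (F := F)
  have s3 := summable_N_rpow (F := F) (s := 3) (by norm_num)
  have z1 : ∀ c : R F, 0 ≤ if P1 c then N c ^ (-3 : ℝ) else 0 := fun c =>
    cnt_ite_nonneg (Real.rpow_nonneg (N_nonneg c) _)
  set Z : ℝ := ∑' c : R F, if P1 c then N c ^ (-3 : ℝ) else 0 with hZ
  have z0 : 0 ≤ Z := tsum_nonneg z1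
  refine ⟨Cb * (C0 ^ 2 + C1 ^ 2) * (1 + Z), by positivity, ?_⟩
  intro j a a0 ha Y M t hY hM
  set V : ℝ := if Y ≤ 1 then Y ^ A else Y ^ 2 with hV
  have V0 : 0 ≤ V := by rw [hV]; split_ifs <;> positivity
  have key : ∀ D ∈ (ball F M).filter P0, ∑ h ∈ ball F (M / N D ^ 2),
      N D * ‖∑' c, a (D * c) * W Y t (D * c) * chi j (h * D ^ 2) c‖ ^ 2 ≤
        Cb * (C0 ^ 2 + C1 ^ 2) * M * V * if P1 D then N D ^ (-3 : ℝ) else 0 := fun D hD => by
    have D1 := (Finset.mem_filter.1 hD).2.1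
    have D0 := D1.ne_zero
    have n := N_pos D0
    have n1 := one_le_N D0
    have b1 := lq_tsum_W a0 ha D1 hY t 0
    have sm := lq_sum_W a0 ha D1 hY t 0
    simp only [Real.rpow_zero, mul_one, one_mul] at b1 h0 h1 sm
    set S := ∑' c : R F, (if P1 c then w (N c / (Y / N D)) else 0) with hS
    have S0 : 0 ≤ S := (tsum_nonneg fun _ => norm_nonneg _).trans b1
    have b2 : S ^ 2 ≤ (C0 ^ 2 + C1 ^ 2) * V / N D ^ 2 := by
      rw [hV]
      split_ifs with x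
      · have b := h1 _ (div_pos hY n) ((div_le_self hY.le n1).trans x)
        refine (pow_le_pow_left₀ S0 b 2).trans ?_
        rw [mul_pow, ← Real.rpow_mul_natCast (div_pos hY n).le, Nat.cast_ofNat,
          div_mul_cancel₀ _ two_ne_zero, Real.div_rpow hY.le n.le, mul_div_assoc]
        refine mul_le_mul (by nlinarith) (div_le_div_of_nonneg_left (by positivity) (by positivity) ?_)
          (by positivity) (by positivity)
        rw [← Real.rpow_two]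
        exact Real.rpow_le_rpow_of_exponent_le n1 hA
      · have b := h0 _ (div_pos hY n)
        rw [zero_add, Real.rpow_one] at b
        refine (pow_le_pow_left₀ S0 b 2).trans ?_
        rw [mul_pow, div_pow, mul_div_assoc]
        exact mul_le_mul_of_nonneg_right (by nlinarith) (by positivity)
    have b3 : ∀ h ∈ ball F (M / N D ^ 2),
        N D * ‖∑' c, a (D * c) * W Y t (D * c) * chi j (h * D ^ 2) c‖ ^ 2 ≤
          N D * ((C0 ^ 2 + C1 ^ 2) * V / N D ^ 2) := fun h _ => by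
      refine mul_le_mul_of_nonneg_left ((pow_le_pow_left₀ (norm_nonneg _)
        ((tsum_of_norm_bounded sm.hasSum fun c => ?_).trans b1) 2).trans b2) n.le
      rw [norm_mul]; exact mul_le_of_le_one_right (norm_nonneg _) (norm_chi_le _ _ _)
    refine (Finset.sum_le_card_nsmul _ _ _ b3).trans ?_
    rw [nsmul_eq_mul]
    refine (mul_le_mul_of_nonneg_right (hb _ (by positivity)) (by positivity)).trans
      (le_of_eq ?_)
    rw [if_pos D1, Real.rpow_neg n.le, show (3 : ℝ) = (3 : ℕ) by norm_num, Real.rpow_natCast]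
    field_simp
  rw [QQ_eq]
  refine (Finset.sum_le_sum key).trans ?_
  rw [← Finset.mul_sum]
  have := s3.sum_le_tsum ((ball F M).filter P0) fun c _ => z1 c
  have x0 : 0 ≤ Cb * (C0 ^ 2 + C1 ^ 2) * M * V := by positivity
  rw [← hZ] at this
  nlinarith

end Vale.Agent.P319B
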