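import Vale.Agent.P319B.PB
import Vale.Agent.P319B.LemQ
import Vale.Agent.P319B.LemP1C

/-! The self-dual Poisson inequality, exact form. -/

namespace Vale.Agent.P319B

open Complex NumberField
open scoped Classical ComplexConjugate
open Vale.Agent.P026 (w kk fk)

variable {F : Type} [Field F] [NumberField F] [Ctx F]

theorem lemP1 {σ : ℝ} (hσ : 0 < σ) (A J : ℕ) (hJ : 2 ≤ J) : ∃ C : ℝ, 0 < C ∧
    ∀ (j j' : ℕ), 3 ∣ j + j' → ∀ (a : R F → ℂ) (κ : Cl F),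
      (∀ c, a c ≠ 0 → P0 c ∧ cls (c : F) = κ) →
      (∀ k : ℕ, Summable (fun c => ‖a c‖ * N c ^ k)) →
      ∀ M K1 B1 B2 : ℝ, 0 < M → 0 < K1 → 0 ≤ B1 → 0 ≤ B2 →
      (∀ u : ℝ, ∑ h ∈ ball F K1, ∑ D ∈ (divs h).filter (fun D => D ^ 2 ∣ h),
        N D * N h ^ (-σ) * ‖∑' c, a (D * c) * Gt j (D * c) *
          ((N (D * c) ^ (σ - 1 / 2) : ℝ) : ℂ) * nit u (D * c) * chi j' h c‖ ^ 2
            ≤ B1 * (1 + |u|) ^ A) →
      (∀ D, P0 D → ∑' c, ‖a (D * c)‖ * N (D * c) ^ ((J : ℝ) - 1 / 2) ≤ B2 / ab D) →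
      QQ j a M ≤ C * (M * ∑' c, ‖a c‖ ^ 2 + M ^ (1 - σ) * B1
        + M ^ (1 - (J : ℝ)) * K1 ^ (1 - (J : ℝ)) * B2 ^ 2) := by
  have hJ' : (1 : ℝ) < J := by exact_mod_cast hJ
  obtain ⟨Ct, hCt, ht⟩ := l1_tail (F := F) hJ'
  obtain ⟨C0, k, hC0, hk, hex⟩ := l1_exact (F := F)
  obtain ⟨CJ, hCJ, hP⟩ := Ph2_le (F := F) (zero_lt_one.trans hJ')
  obtain ⟨Cm, hCm, hH⟩ := Ph2_mellin (F := F) hσ
  choose! H hH using hH
  set G : ℝ := ∫ u : ℝ, Cm * Real.exp (-(u ^ 2 / 4)) * (1 + |u|) ^ A with hG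
  have G0 : 0 ≤ G := MeasureTheory.integral_nonneg fun u => by positivity
  refine ⟨C0 * (1 + k + G + CJ * Ct), by positivity, ?_⟩
  intro j j' hj a κ ha hs M K1 B1 B2 hM hK hB1 hB2 h1 h2
  have ha' : ∀ c, a c ≠ 0 → P0 c := fun c x => (ha c x).1
  have hρ := mul_ne_zero (rep_ne κ) (rep_ne κ)
  have ex := hex hj ha hs hM
  set T : R F → ℂ := fun h => ∑' p, l1G j j' a (rep κ * rep κ) M h p with hT
  set c3 : ℝ := CJ * M ^ (-(J : ℝ)) * B2 ^ 2 with hc3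
  have c30 : 0 ≤ c3 := by positivity
  obtain ⟨sm, bm⟩ := l1_tsum_le (C := c3 * (Ct * K1 ^ (1 - (J : ℝ))))
    (m := fun h : R F => if P1 h then c3 * ∑ _D ∈ l1D h,
      (if K1 < N h then N h ^ (-(J : ℝ)) else 0) else 0)
    (fun h => ite_nonneg (mul_nonneg c30 (Finset.sum_nonneg fun _ _ =>
      ite_nonneg (Real.rpow_nonneg (N_nonneg h) _) le_rfl)) le_rfl)
    (fun h x => by_contra fun y => x (if_neg y)) fun K => by
      rw [Finset.sum_congr rfl fun h hh => if_pos (mem_ball.1 hh).1, ← Finset.mul_sum]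
      exact mul_le_mul_of_nonneg_left (ht K1 K hK) c30
  have T0 : ∀ h, ¬ P1 h → T h = 0 := fun h x => by simp [hT, l1G, x]
  have bg : ∀ h, ‖if K1 < N h then T h else 0‖ ≤ if P1 h then
      c3 * ∑ _D ∈ l1D h, (if K1 < N h then N h ^ (-(J : ℝ)) else 0) else 0 := fun h => by
    split_ifs with x y
    · exact l1_T_far j j' J ha' hs hρ hM hCJ hP h2 y
    · simp [T0 h y]
    · simp
    · simp
  have s1 := hasSum_sum_of_ne_finset_zero (L := SummationFilter.unconditional (R F))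
    (s := ball F K1) (f := fun h => if h ∈ ball F K1 then T h else 0) fun h x => if_neg x
  have s2 := (s1.add (Summable.of_norm_bounded sm bg).hasSum).tsum_eq
  have e : ∀ h, (if h ∈ ball F K1 then T h else 0) + (if K1 < N h then T h else 0) = T h :=
    fun h => by
      by_cases x : P1 h
      swap
      · simp [T0 h x]
      by_cases y : K1 < N h
      · simp [x, y, mem_ball]
      · simp [x, y, mem_ball, not_lt.1 y]
  simp only [e] at s2
  rw [Finset.sum_ite_mem, Finset.inter_self] at s2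
  have b1 : ‖∑ h ∈ ball F K1, T h‖ ≤ _ := l1_T_near σ A j j' ha' hs hρ hM
    (g := fun u => Cm * Real.exp (-(u ^ 2 / 4))) (by simpa using (l1_gauss_int 0).const_mul Cm)
    (by simpa only [mul_assoc] using (l1_gauss_int A).const_mul Cm) hH h1
  have b2 := (tsum_of_norm_bounded sm.hasSum bg).trans bm
  have b3 : ‖∑' h, T h‖ ≤ _ := s2 ▸ (norm_add_le _ _).trans (add_le_add b1 b2)
  have S0 : 0 ≤ ∑' c, ‖a c‖ ^ 2 := tsum_nonneg fun c => sq_nonneg _
  have b4 := ex.trans (mul_le_mul_of_nonneg_left (add_le_add_right b3 _) (by positivity))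
  rw [← hG, hc3] at b4
  have r1 : M ^ (1 - σ) = M * M ^ (-σ) := by rw [sub_eq_add_neg, Real.rpow_add hM, Real.rpow_one]
  have r2 : M ^ (1 - (J : ℝ)) = M * M ^ (-(J : ℝ)) := by
    rw [sub_eq_add_neg, Real.rpow_add hM, Real.rpow_one]
  refine b4.trans ?_
  rw [r1, r2]
  set x1 := M * ∑' c, ‖a c‖ ^ 2 with hx1
  set x2 := M * M ^ (-σ) * B1 with hx2
  set x3 := M * M ^ (-(J : ℝ)) * K1 ^ (1 - (J : ℝ)) * B2 ^ 2 with hx3
  have p1 : 0 ≤ x1 := by positivity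
  have p2 : 0 ≤ x2 := by positivity
  have p3 : 0 ≤ x3 := by positivity
  have c20 : 0 ≤ CJ * Ct := by positivity
  calc _ = C0 * (k * x1 + G * x2 + CJ * Ct * x3) := by
        simp only [hx1, hx2, hx3]; ring
    _ ≤ C0 * ((1 + k + G + CJ * Ct) * (x1 + x2 + x3)) := by
        refine mul_le_mul_of_nonneg_left ?_ hC0.le
        nlinarith [mul_nonneg G0 p1, mul_nonneg G0 p3, mul_nonneg c20 p1, mul_nonneg c20 p2,
          mul_nonneg hk p2, mul_nonneg hk p3]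
    _ = _ := by ring

end Vale.Agent.P319B
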