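import Vale.Agent.P319B.UA
import Vale.Agent.P319B.Loc
import Vale.Agent.P319B.Cls
import Vale.Agent.P319B.Count
import Vale.Agent.P319B.Gauss

/-! The Poisson identity over normalised generators. -/

namespace Vale.Agent.P319B

open Complex NumberField MeasureTheory
open scoped Classical ComplexConjugate
open Vale.Agent.P026 (w kk fk)

variable {F : Type} [Field F] [NumberField F] [Ctx F]

theorem pb_ite {p : Prop} [Decidable p] {a : ℝ} (h : 0 ≤ a) : 0 ≤ if p then a else 0 :=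
  ite_nonneg h le_rfl

theorem pb_sum {σ : ℝ} (hσ : 0 < σ) : ∃ C : ℝ, 0 < C ∧ ∀ z : F, z ≠ 0 → ∀ Pr : F → Prop,
    (∀ x, Pr x → Hi 1 x) → ∀ t : ℝ, 0 < t →
    Summable (fun s : R F =>
      if s ∈ SU F 3 ∧ Pr ((s : F) * z) then (t * nf ((s : F) * z)) ^ (-σ) else 0) ∧
    ∑' s : R F, (if s ∈ SU F 3 ∧ Pr ((s : F) * z) then (t * nf ((s : F) * z)) ^ (-σ) else 0) ≤
      C * t ^ (-σ) := by
  obtain ⟨C, hC, h⟩ := SU_sum (F := F) (e := 3) (by norm_num) 1 hσ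
  refine ⟨C, hC, fun z hz Pr hPr t ht => ?_⟩
  have h1 : ∀ s : R F,
      (if s ∈ SU F 3 ∧ Pr ((s : F) * z) then (t * nf ((s : F) * z)) ^ (-σ) else 0) ≤ t ^ (-σ) *
        if s ∈ SU F 3 ∧ Hi 1 ((s : F) * z) then nf ((s : F) * z) ^ (-σ) else 0 := fun s => by
    by_cases hs : s ∈ SU F 3 ∧ Pr ((s : F) * z)
    · rw [if_pos hs, if_pos ⟨hs.1, hPr _ hs.2⟩, Real.mul_rpow ht.le (nf_pos _).le]
    · rw [if_neg hs]
      exact mul_nonneg (Real.rpow_nonneg ht.le _) (pb_ite (Real.rpow_nonneg (nf_pos _).le _))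
  have h2 := (h z hz).1.mul_left (t ^ (-σ))
  have h3 := Summable.of_nonneg_of_le
    (fun s => pb_ite (Real.rpow_nonneg (mul_pos ht (nf_pos _)).le _)) h1 h2
  refine ⟨h3, (h3.tsum_le_tsum h1 h2).trans ?_⟩
  rw [tsum_mul_left, mul_comm]
  exact mul_le_mul_of_nonneg_right (h z hz).2 (Real.rpow_nonneg ht.le _)

theorem pb_bound {σ : ℝ} (hσ : 0 < σ) : ∃ C : ℝ, 0 < C ∧ ∀ z : F, z ≠ 0 → ∀ Pr : F → Prop,
    (∀ x, Pr x → Hi 1 x) → ∀ t : ℝ, 0 < t →
    Summable (fun s : R F =>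
      if s ∈ SU F 3 ∧ Pr ((s : F) * z) then Vk F (t * nf ((s : F) * z)) else 0) ∧
    ∑' s : R F, (if s ∈ SU F 3 ∧ Pr ((s : F) * z) then Vk F (t * nf ((s : F) * z)) else 0) ≤
      C * t ^ (-σ) := by
  obtain ⟨C, hC, h⟩ := pb_sum (F := F) hσ
  have hK : 0 < Real.exp (σ ^ 2 / 4) * (Real.pi ^ (-σ) * Real.Gamma σ) ^ rr F := by
    have := Real.Gamma_pos_of_pos hσ
    positivity
  refine ⟨_, mul_pos hK hC, fun z hz Pr hPr t ht => ?_⟩
  have h1 : ∀ s : R F, (if s ∈ SU F 3 ∧ Pr ((s : F) * z) then Vk F (t * nf ((s : F) * z)) else 0) ≤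
      Real.exp (σ ^ 2 / 4) * (Real.pi ^ (-σ) * Real.Gamma σ) ^ rr F *
        if s ∈ SU F 3 ∧ Pr ((s : F) * z) then (t * nf ((s : F) * z)) ^ (-σ) else 0 := fun s => by
    split_ifs
    · exact Vk_le hσ (mul_pos ht (nf_pos _))
    · rw [mul_zero]
  have h2 := (h z hz Pr hPr t ht).1.mul_left
    (Real.exp (σ ^ 2 / 4) * (Real.pi ^ (-σ) * Real.Gamma σ) ^ rr F)
  have h3 := Summable.of_nonneg_of_le (fun s => pb_ite (Vk_nonneg _)) h1 h2
  refine ⟨h3, (h3.tsum_le_tsum h1 h2).trans ?_⟩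
  rw [tsum_mul_left, mul_assoc _ C]
  exact mul_le_mul_of_nonneg_left (h z hz Pr hPr t ht).2 hK.le

theorem pb_Ph2 (z : F) (y : ℝ) : Ph2 z y = Real.exp (1 / 4) * ∑' s : R F,
    if s ∈ SU F 3 ∧ (s : F) * z ∈ Od F then
      Vk F (4 ^ rr F * Real.exp (1 / 2) * y * nf ((s : F) * z)) else 0 := by
  simp only [Ph2, ← tsum_mul_left, mul_ite, mul_zero]

theorem Ph1_nonneg (z : F) (y : ℝ) : 0 ≤ Ph1 z y :=
  tsum_nonneg fun _ => pb_ite (Vk_nonneg _)
theorem Ph2_nonneg (z : F) (y : ℝ) : 0 ≤ Ph2 z y :=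
  tsum_nonneg fun _ => pb_ite (mul_nonneg (Real.exp_nonneg _) (Vk_nonneg _))
theorem Ph1_low : ∃ c : ℝ, 0 < c ∧ ∀ z : F, z ≠ 0 → ∀ y : ℝ, 0 < y → y ≤ 1 → c ≤ Ph1 z y := by
  obtain ⟨C, hC, h⟩ := SU_small (F := F) (e := 3) (by norm_num) 0
  obtain ⟨C', -, h'⟩ := pb_bound (F := F) one_pos
  refine ⟨Vk F C, Vk_pos hC, fun z hz y hy hy1 => ?_⟩
  obtain ⟨s, s1, s2, s3⟩ := h z hz
  refine le_trans ?_ ((h' z hz (· ∈ Ol F) (fun _ => Hi.of_mem 1) y hy).1.le_tsum s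
    fun _ _ => pb_ite (Vk_nonneg _))
  rw [if_pos ⟨s1, s2.mem⟩]
  exact Vk_antitoneOn (mul_pos hy (nf_pos _)) hC
    ((mul_le_of_le_one_left (nf_pos _).le hy1).trans s3)
theorem Ph1_le {σ : ℝ} (hσ : 0 < σ) : ∃ C : ℝ, 0 < C ∧ ∀ z : F, z ≠ 0 → ∀ y : ℝ, 0 < y →
    Ph1 z y ≤ C * y ^ (-σ) :=
  let ⟨C, hC, h⟩ := pb_bound (F := F) hσ
  ⟨C, hC, fun z hz y hy => (h z hz (· ∈ Ol F) (fun _ => Hi.of_mem 1) y hy).2⟩
theorem Ph2_le {σ : ℝ} (hσ : 0 < σ) : ∃ C : ℝ, 0 < C ∧ ∀ z : F, z ≠ 0 → ∀ y : ℝ, 0 < y →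
    Ph2 z y ≤ C * y ^ (-σ) := by
  obtain ⟨C, hC, h⟩ := pb_bound (F := F) hσ
  refine ⟨Real.exp (1 / 4) * (C * (4 ^ rr F * Real.exp (1 / 2)) ^ (-σ)), by positivity,
    fun z hz y hy => ?_⟩
  have := (h z hz (· ∈ Od F) (fun _ => Hi_of_Od) (4 ^ rr F * Real.exp (1 / 2) * y)
    (by positivity)).2
  rw [Real.mul_rpow (by positivity) hy.le, ← mul_assoc] at this
  rw [pb_Ph2, mul_assoc (Real.exp _) (C * _)]
  exact mul_le_mul_of_nonneg_left this (Real.exp_nonneg _)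

theorem pb_od {x y : F} (h : InU 3 (x / y)) : x ∈ Od F ↔ y ∈ Od F := by
  refine ⟨fun hx => ?_, fun hy => ?_⟩
  · simpa only [div_mul_cancel₀ _ (h.left_ne (by norm_num))] using
      Od_mul (h.symm (by norm_num)).mem hx
  · simpa only [div_mul_cancel₀ _ (h.right_ne (by norm_num))] using Od_mul h.mem hy

theorem pb_su (φ : R F → ℝ) : ∑' s, (if s ∈ SU F 3 then φ s else 0) =
    ∑' q : (R F)ˣ ⧸ (Eu F 3).comap (Units.map (Rr F (Ctx0.M F)).subtype.toMonoidHom),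
      φ (q.out : (R F)ˣ) := by
  rw [← (Units.val_injective.comp Quotient.out_injective).tsum_eq
    (f := fun s => if s ∈ SU F 3 then φ s else 0) fun s hs => (ite_ne_right_iff.1 hs).1]
  exact tsum_congr fun q => if_pos ⟨q, rfl⟩

theorem Ph2_cls {z z' : F} (hz : z ≠ 0) (hz' : z' ≠ 0) (h : cls z = cls z') :
    Ph2 z = Ph2 z' := by
  obtain ⟨u, ⟨⟨u, rfl⟩, -⟩, hu⟩ := (cls_eq_iff hz hz').1 h
  funext y
  simp only [Ph2, ite_and]
  rw [pb_su, pb_su, ← (Equiv.mulRight (QuotientGroup.mk u)).tsum_eq]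
  refine tsum_congr fun q => ?_
  have h1 := (ring_su (e := 3) (by norm_num) (q.out * u) (q * QuotientGroup.mk u).out).1 (by
    rw [QuotientGroup.mk_mul, QuotientGroup.out_eq', QuotientGroup.out_eq'])
  have h2 := h1.mul hu
  have h3 := (isUnit_iff_inv.1 u.isUnit).1
  rw [div_mul_div_comm, Units.val_mul, Subring.coe_mul, mul_left_comm, mul_comm _ (u : F),
    mul_assoc, mul_div_mul_left _ _ h3] at h2
  simp only [Equiv.coe_mulRight, pb_od h2, nf_eq_of_inU (by norm_num) h2]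

/-- The Mellin kernel. -/
noncomputable def pbG (r : ℕ) (σ u : ℝ) : ℂ := ((Real.pi : ℂ) ^ (-(σ + u * I)) *
  Gamma (σ + u * I)) ^ r * ((√Real.pi : ℝ) * cexp ((σ + u * I) ^ 2 / 4))

theorem pb_G {σ : ℝ} (hσ : 0 < σ) (r : ℕ) : Continuous (pbG r σ) ∧ ∃ K : ℝ, 0 < K ∧
    ∀ u, ‖pbG r σ u‖ ≤ K * Real.exp (-(u ^ 2 / 4)) := by
  have hs : ∀ u : ℝ, 0 < (σ + u * I : ℂ).re := fun u => by simpa using hσ
  have hG := Real.Gamma_pos_of_pos hσ
  refine ⟨?_, (Real.pi ^ (-σ) * Real.Gamma σ) ^ r * (√Real.pi * Real.exp (σ ^ 2 / 4)),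
    by positivity, fun u => ?_⟩
  · have : Continuous fun u : ℝ => Gamma (σ + u * I) := continuous_iff_continuousAt.2 fun u =>
      ContinuousAt.comp (f := fun u : ℝ => (σ + u * I : ℂ)) (continuousAt_Gamma _ fun m hm => by
        have := hs u
        rw [hm] at this
        simp at this
        linarith [(Nat.cast_nonneg m : (0 : ℝ) ≤ m)]) (by fun_prop)
    have h3 : Continuous fun u : ℝ => (Real.pi : ℂ) ^ (-(σ + u * I : ℂ)) :=
      Continuous.const_cpow (by fun_prop) (Or.inl (by simp [Real.pi_pos.ne']))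
    unfold pbG
    fun_prop
  · have h3 := P026.melA_norm_Gamma_le (hs u)
    have h4 : (σ + u * I : ℂ).re = σ := by simp
    have h5 : ((σ + u * I : ℂ) ^ 2 / 4).re = σ ^ 2 / 4 + -(u ^ 2 / 4) := by
      simp [sq]
      ring
    rw [h4] at h3
    rw [pbG, norm_mul, norm_mul, norm_pow, norm_mul, norm_cpow_eq_rpow_re_of_pos Real.pi_pos, neg_re,
      h4, Complex.norm_exp, h5, Real.exp_add, norm_real, Real.norm_of_nonneg (Real.sqrt_nonneg _),
      ← mul_assoc (√Real.pi), ← mul_assoc]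
    gcongr

theorem Ph2_mellin {σ : ℝ} (hσ : 0 < σ) : ∃ C : ℝ, 0 < C ∧ ∀ z : F, z ≠ 0 → ∃ H : ℝ → ℂ,
    Continuous H ∧ (∀ u, ‖H u‖ ≤ C * Real.exp (-(u ^ 2 / 4))) ∧ ∀ y : ℝ, 0 < y →
      (Ph2 z y : ℂ) = ∫ u : ℝ, H u * (y : ℂ) ^ (-(σ + u * I)) := by
  obtain ⟨C, hC, h⟩ := pb_sum (F := F) hσ
  obtain ⟨G1, K, hK, G2⟩ := pb_G hσ (rr F)
  set t : ℝ := 4 ^ rr F * Real.exp (1 / 2) with ht
  have t0 : 0 < t := by positivity
  set a : ℝ := Real.exp (1 / 4) / (2 * Real.pi) with ha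
  have a0 : 0 < a := by positivity
  refine ⟨a * K * (C * t ^ (-σ)), by positivity, fun z hz => ?_⟩
  obtain ⟨h1, h2⟩ := h z hz (· ∈ Od F) (fun _ => Hi_of_Od) t t0
  set d : R F → ℝ → ℂ := fun s u => if s ∈ SU F 3 ∧ (s : F) * z ∈ Od F then
    ((t * nf ((s : F) * z) : ℝ) : ℂ) ^ (-(σ + u * I)) else 0 with hd
  have c1 : ∀ {y : ℝ}, 0 < y → Continuous fun u : ℝ => (y : ℂ) ^ (-(σ + u * I : ℂ)) := fun hy =>
    Continuous.const_cpow (by fun_prop) (Or.inl (ofReal_ne_zero.2 hy.ne'))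
  have n1 : ∀ {y : ℝ}, 0 < y → ∀ u : ℝ, ‖(y : ℂ) ^ (-(σ + u * I : ℂ))‖ = y ^ (-σ) := fun hy u => by
    rw [norm_cpow_eq_rpow_re_of_pos hy]
    simp
  have d1 : ∀ s, Continuous (d s) := fun s => by
    simp only [hd]
    split_ifs
    · exact c1 (mul_pos t0 (nf_pos _))
    · exact continuous_const
  have d2 : ∀ s u, ‖d s u‖ =
      if s ∈ SU F 3 ∧ (s : F) * z ∈ Od F then (t * nf ((s : F) * z)) ^ (-σ) else 0 := fun s u => by
    simp only [hd]
    split_ifs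
    · exact n1 (mul_pos t0 (nf_pos _)) u
    · exact norm_zero
  refine ⟨fun u => a * pbG (rr F) σ u * ∑' s, d s u, (continuous_const.mul G1).mul
    (continuous_tsum d1 h1 fun s u => (d2 s u).le), fun u => ?_, fun y hy => ?_⟩
  · rw [norm_mul, norm_mul, norm_real, Real.norm_of_nonneg a0.le, mul_right_comm (a * K),
      mul_assoc a K]
    exact mul_le_mul (mul_le_mul_of_nonneg_left (G2 u) a0.le)
      ((tsum_of_norm_bounded h1.hasSum fun s => (d2 s u).le).trans h2) (norm_nonneg _)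
      (by positivity)
  have i1 : Integrable fun u : ℝ => a * pbG (rr F) σ u * (y : ℂ) ^ (-(σ + u * I : ℂ)) := by
    refine ((integrable_exp_neg_mul_sq (b := 1 / 4) (by norm_num)).const_mul
      (a * K * y ^ (-σ))).mono' ((continuous_const.mul G1).mul (c1 hy)).aestronglyMeasurable
      (Filter.Eventually.of_forall fun u => ?_)
    rw [norm_mul, norm_mul, norm_real, Real.norm_of_nonneg a0.le, n1 hy, mul_right_comm (a * K),
      mul_assoc a K, show -(1 / 4) * u ^ 2 = -(u ^ 2 / 4) by ring]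
    exact mul_le_mul_of_nonneg_right (mul_le_mul_of_nonneg_left (G2 u) a0.le) (by positivity)
  have i2 := integral_tsum_of_summable_integral_norm (μ := volume) (F := fun s (u : ℝ) =>
    a * pbG (rr F) σ u * (y : ℂ) ^ (-(σ + u * I : ℂ)) * d s u)
    (fun s => i1.mul_bdd (d1 s).aestronglyMeasurable (.of_forall fun u => (d2 s u).le)) (by
      simp only [norm_mul _ (d _ _), d2, integral_mul_const]
      exact h1.mul_left _)
  simp only [tsum_mul_left] at i2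
  simp only [mul_right_comm _ (∑' s, d s _)]
  rw [← i2, Ph2, ofReal_tsum]
  refine tsum_congr fun s => ?_
  simp only [hd]
  split_ifs
  · rw [ofReal_mul, Vk_inv hσ (mul_pos (mul_pos t0 hy) (nf_pos _)), ← mul_assoc,
      ← integral_const_mul]
    refine integral_congr_ae (.of_forall fun u => ?_)
    simp only [pbG, ha]
    rw [mul_right_comm t, ofReal_mul (t * _), mul_cpow_ofReal_nonneg (mul_pos t0 (nf_pos _)).le hy.le]
    push_cast
    ring
  · simp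

theorem pb_pairs (Q : R F × R F → Prop) {g : R F → ℂ} {B : ℝ} (hg : ∀ x, ‖g x‖ ≤ B)
    {V : R F × R F → ℝ}
    (hV : Summable fun j : {p : R F × R F // P1 p.1 ∧ p.2 ∈ SU F 3 ∧ Q p} => V j.1) :
    ∑' j : {p : R F × R F // P1 p.1 ∧ p.2 ∈ SU F 3 ∧ Q p}, g j.1.1 * (V j.1 : ℂ) =
      ∑' m, if P1 m then g m *
        ((∑' s, if s ∈ SU F 3 ∧ Q (m, s) then V (m, s) else 0 : ℝ) : ℂ) else 0 := by
  have h1 : Summable fun j : {p : R F × R F // P1 p.1 ∧ p.2 ∈ SU F 3 ∧ Q p} =>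
      g j.1.1 * (V j.1 : ℂ) := (hV.abs.mul_left B).of_norm_bounded fun j => by
    rw [norm_mul, norm_real, Real.norm_eq_abs]
    exact mul_le_mul_of_nonneg_right (hg _) (abs_nonneg _)
  have h2 := (summable_subtype_iff_indicator (s := {p : R F × R F | P1 p.1 ∧ p.2 ∈ SU F 3 ∧ Q p})
    (f := fun p => g p.1 * (V p : ℂ))).1 h1
  refine (tsum_subtype {p : R F × R F | P1 p.1 ∧ p.2 ∈ SU F 3 ∧ Q p}
    fun p => g p.1 * (V p : ℂ)).trans (h2.tsum_prod.trans (tsum_congr fun m => ?_))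
  by_cases hm : P1 m
  · rw [if_pos hm, ofReal_tsum, ← tsum_mul_left]
    refine tsum_congr fun s => ?_
    by_cases hs : s ∈ SU F 3 ∧ Q (m, s)
    · rw [if_pos hs, Set.indicator_of_mem (by exact ⟨hm, hs⟩)]
    · rw [if_neg hs, Set.indicator_of_notMem (fun h => hs h.2), ofReal_zero, mul_zero]
  · rw [if_neg hm]
    exact (tsum_congr fun s => Set.indicator_of_notMem (fun h => hm h.1) _).trans tsum_zero

omit [NumberField F] [Ctx F] in
theorem pb_tr {J : Type} {E : Subgroup Fˣ} {S S' : Set F} {ν : J → F} (h : IsTr E S ν) {c : F}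
    (hc : c ≠ 0) (hS : ∀ x, x ∈ S' ↔ x * c ∈ S) : IsTr E S' fun j => ν j / c := by
  refine ⟨fun j u => (hS _).2 ?_, fun x hx => ?_⟩
  · rw [mul_assoc, div_mul_cancel₀ _ hc]
    exact h.1 j u
  · simpa only [← mul_div_assoc, eq_div_iff hc] using h.2 _ ((hS x).1 hx)

theorem pb_qsum {c : R F} {f : R F → ℂ} (hc : c ≠ 0) (hf : Pe c f) {k : R F}
    (hk : (k : F) / c ∈ Od F) : qsum (lat (c : F) 1)
      (fun x => ext0 f x * (if x ∈ Ol F then 1 else 0) * eT ((k : F) / c * x)) = gauss f c k := by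
  have h1 := qsum_ind_Ol (F := F) (y := 1) (a := 1) (z := 0) one_ne_zero one_ne_zero (by simp)
    (by simp)
  simp only [div_one, zero_mul, psiL_zero, zero_mem, if_true, nf_one, ofReal_one] at h1
  have h2 := qsum_crt hc one_ne_zero (hf.mul (pe_psi c k))
    (φ := fun x => if x ∈ Ol F then 1 else 0) (fun x x' h => if_congr
      ⟨fun h' => by simpa using sub_mem h' h, fun h' => by simpa using add_mem h h'⟩ rfl rfl)
    (a := 0) fun x hx => Hi.of_mem 0 (ite_ne_right_iff.1 hx).1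
  rw [h1, mul_one] at h2
  refine (congrArg _ (funext fun x => ?_)).trans h2
  by_cases h3 : x ∈ Rr F (Ctx0.M F)
  · lift x to R F using h3
    by_cases h4 : (x : F) ∈ Ol F
    · rw [ext0_coe, ext0_coe, if_pos h4, eT_eq_mul, psiL_of_Od (mul_comm (x : F) _ ▸ Od_mul h4 hk),
        psi, Subring.coe_mul, div_mul_eq_mul_div]
      ring
    · simp only [if_neg h4, mul_zero, zero_mul]
  · simp only [ext0_of_not h3, zero_mul]

theorem pb_gauss {c : R F} {f : R F → ℂ} (hc : c ≠ 0) (hf : Pe c f)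
    (hu : ∀ u x, IsUnit u → f (u * x) = f x) {s : R F} (hs : IsUnit s) (h : R F) :
    gauss f c (s * h) = gauss f c h := by
  obtain ⟨v, hv⟩ := hs.exists_left_inv
  rw [gauss, gauss, ← sum_res_affine hc (hf.mul (pe_psi c h)) (s := s) ⟨v, 0, by simp [hv]⟩ 0]
  refine Finset.sum_congr rfl fun x _ => ?_
  rw [add_zero, hu _ _ hs, mul_left_comm, mul_assoc]

theorem pb : ∃ k0 C0 : ℝ, 0 ≤ k0 ∧ 0 < C0 ∧ ∀ (c : R F) (f : R F → ℂ), c ≠ 0 → Pe c f →
    (∀ u x, IsUnit u → f (u * x) = f x) → ∀ X : ℝ, 0 < X →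
      (k0 : ℂ) * f 0 + ∑' m : R F, (if P1 m then f m * (Ph1 (m : F) (N m / X) : ℂ) else 0) =
        ((X / (C0 * N c) : ℝ) : ℂ) * (((Real.exp (1 / 4) * k0 : ℝ) : ℂ) * gauss f c 0 +
          ∑' h : R F, (if P1 h then
            gauss f c h * (Ph2 ((h : F) / c) (X * N h / N c) : ℂ) else 0)) := by
  have h3 : 1 ≤ 3 := by norm_num
  obtain ⟨k0, hk0, h⟩ := ua (unitGrp_Eu (F := F) h3)
  refine ⟨k0, cov (latO F), hk0, cov_pos isLat_latO, fun c f hc hf hu X hX => ?_⟩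
  have c0 : (c : F) ≠ 0 := nrm_coe_ne hc
  have o1 : ∀ z u : F, InU 3 u → (u * z ∈ Ol F ↔ z ∈ Ol F) := fun z u h =>
    ⟨fun h' => by simpa [h.ne_zero h3] using mul_mem (h.inv h3).mem h', mul_mem h.mem⟩
  have o2 : ∀ z u : F, InU 3 u → (u * z / c ∈ Od F ↔ z / c ∈ Od F) := fun z u h => by
    rw [mul_div_assoc]
    exact ⟨fun h' => by simpa [h.ne_zero h3] using Od_mul (h.inv h3).mem h', Od_mul h.mem⟩
  have r1 : ∀ x ∈ lat (c : F) 1, x ∈ Rr F (Ctx0.M F) ∧ x ∈ Ol F := fun x hx =>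
    ⟨by simpa [c0] using mul_mem (mem_lat.1 hx).1 c.2, by simpa using (mem_lat.1 hx).2⟩
  have hB : ∀ x, ‖f x‖ ≤ ∑ y ∈ res c, ‖f y‖ := fun x => by
    obtain ⟨y, hy, h⟩ := exists_res hc x
    rw [hf _ _ h]
    exact Finset.single_le_sum (fun _ _ => norm_nonneg _) hy
  obtain ⟨s1, s2, e⟩ := h (latO F) (lat (c : F) 1)
    (fun x => ext0 f x * if x ∈ Ol F then 1 else 0) _ _ _ isLat_latO (isLat_lat c0 one_ne_zero)
    (fun x hx => int_of_mem (r1 x hx).1 (r1 x hx).2)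
    (fun u x hx => by
      obtain ⟨v, -, v1, v2⟩ := (mem_Eu h3).1 u.2
      rw [← v2, mem_lat, mul_div_assoc, mul_div_assoc]
      exact ⟨mul_mem v.2 (mem_lat.1 hx).1, mul_mem v1.mem (mem_lat.1 hx).2⟩)
    (fun x hx => int_of_mem (by_contra fun h => left_ne_zero_of_mul hx (ext0_of_not h))
      (ite_ne_right_iff.1 (right_ne_zero_of_mul hx)).1)
    (fun x y hxy => by
      obtain ⟨q1, q2⟩ := r1 _ hxy
      have q3 : x ∈ Ol F ↔ y ∈ Ol F :=
        ⟨fun h' => by simpa using sub_mem h' q2, fun h' => by simpa using add_mem q2 h'⟩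
      simp only [q3]
      congr 1
      by_cases hy : y ∈ Rr F (Ctx0.M F)
      · have hx : x ∈ Rr F (Ctx0.M F) := by simpa using add_mem q1 hy
        lift x to R F using hx
        lift y to R F using hy
        rw [ext0_coe, ext0_coe]
        exact hf _ _ ((dvd_iff_div hc).2 (mem_lat.1 hxy).1)
      · rw [ext0_of_not hy, ext0_of_not fun hx => hy (by simpa using sub_mem hx q1)])
    (fun u x => by
      obtain ⟨v, v0, v1, v2⟩ := (mem_Eu h3).1 u.2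
      simp only [← v2, o1 x _ v1]
      congr 1
      by_cases hx : x ∈ Rr F (Ctx0.M F)
      · lift x to R F using hx
        rw [← Subring.coe_mul, ext0_coe, ext0_coe, hu _ _ v0]
      · rw [ext0_of_not hx, ext0_of_not fun h => hx (by
          simpa [v1.ne_zero h3] using mul_mem (isUnit_iff_inv.1 v0).2 h)])
    (isTr_SU h3 (· ∈ Ol F) o1) (fun x hx => ⟨hx.1, int_of_mem hx.2.1 hx.2.2⟩)
    (fun x h0 hx => ⟨h0, by_contra fun h => left_ne_zero_of_mul hx (ext0_of_not h),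
      (ite_ne_right_iff.1 (right_ne_zero_of_mul hx)).1⟩)
    (pb_tr (isTr_SU h3 (· / (c : F) ∈ Od F) o2) c0 fun x => by
      simp [mem_dual_lat c0 one_ne_zero, c0]) X hX
  have n1 : ∀ s m : R F, IsUnit s → NF ((s : F) * m) = N m := fun s m hs => by
    rw [← Subring.coe_mul, ← N, N_mul, N_unit hs, one_mul]
  have z1 := pb_qsum hc hf (k := 0) (by simp)
  simp only [Subring.coe_zero, zero_div, zero_mul, eT_zero, mul_one] at z1
  have e1 : ∑' j : {p : R F × R F // P1 p.1 ∧ p.2 ∈ SU F 3 ∧ (p.2 : F) * p.1 ∈ Ol F},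
      (ext0 f ((j.1.2 : F) * j.1.1) * if (j.1.2 : F) * j.1.1 ∈ Ol F then 1 else 0) *
        (Vk F (Nin ((j.1.2 : F) * j.1.1) / X) : ℂ) =
      ∑' m : R F, (if P1 m then f m * (Ph1 (m : F) (N m / X) : ℂ) else 0) := by
    refine Eq.trans (tsum_congr fun j => ?_) ((pb_pairs (fun p : R F × R F => (p.2 : F) * p.1 ∈ Ol F) hB
      (V := fun p : R F × R F => Vk F (Nin ((p.2 : F) * p.1) / X)) s1).trans (tsum_congr fun m => ?_))
    · rw [if_pos j.2.2.2, mul_one, ← Subring.coe_mul, ext0_coe, hu _ _ (SU_unit j.2.2.1)]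
    · refine if_congr Iff.rfl (congrArg (fun t : ℝ => f m * (t : ℂ)) (tsum_congr fun s => ?_)) rfl
      refine ite_congr rfl (fun hs => ?_) fun _ => rfl
      rw [Nin_eq_NF_mul, n1 _ _ (SU_unit hs.1), mul_div_right_comm]
  have e2 : ∑' j : {p : R F × R F // P1 p.1 ∧ p.2 ∈ SU F 3 ∧ (p.2 : F) * p.1 / c ∈ Od F},
      qsum (lat (c : F) 1) (fun x => (ext0 f x * if x ∈ Ol F then 1 else 0) *
        eT ((j.1.2 : F) * j.1.1 / c * x)) *
        (Vk F (4 ^ rr F * Real.exp (1 / 2) * X * Nin ((j.1.2 : F) * j.1.1 / c)) : ℂ) =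
      ∑' h : R F, ((Real.exp (1 / 4) : ℝ) : ℂ)⁻¹ * (if P1 h then
        gauss f c h * (Ph2 ((h : F) / c) (X * N h / N c) : ℂ) else 0) := by
    refine Eq.trans (tsum_congr fun j => ?_)
      ((pb_pairs (fun p : R F × R F => (p.2 : F) * p.1 / c ∈ Od F) (norm_gauss_le hc hB)
        (V := fun p : R F × R F => Vk F (4 ^ rr F * Real.exp (1 / 2) * X * Nin ((p.2 : F) * p.1 / c))) s2).trans (tsum_congr fun m => ?_))
    · rw [← Subring.coe_mul, pb_qsum hc hf j.2.2.2, pb_gauss hc hf hu (SU_unit j.2.2.1)]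
    · rw [mul_ite, mul_zero, pb_Ph2, ofReal_mul, mul_left_comm,
        inv_mul_cancel_left₀ (ofReal_ne_zero.2 (Real.exp_ne_zero _))]
      refine if_congr Iff.rfl (congrArg (fun t : ℝ => gauss f c m * (t : ℂ))
        (tsum_congr fun s => ?_)) rfl
      simp only [← mul_div_assoc]
      refine ite_congr rfl (fun hs => ?_) fun _ => rfl
      rw [Nin_eq_NF_mul, NF_div, n1 _ _ (SU_unit hs.1), ← N]
      congr 1
      ring
  rw [e1, e2, z1, tsum_mul_left, cov_lat c0 one_ne_zero, nf_one, ← N,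
    show ext0 f 0 = f 0 from ext0_coe f 0, if_pos (zero_mem _), mul_one] at e
  rw [e]
  have := ofReal_ne_zero.2 (Real.exp_ne_zero (1 / 4))
  rw [ofReal_mul, ofReal_mul, mul_one, mul_comm (N c)]
  field_simp

end Vale.Agent.P319B
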