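import Vale.Agent.P319B.LemP1A
import Vale.Agent.P319B.PB

/-! The exact identity behind the self-dual Poisson inequality. -/

namespace Vale.Agent.P319B

open Complex NumberField
open scoped Classical ComplexConjugate

variable {F : Type} [Field F] [NumberField F] [Ctx F]

/-- The admissible D for the frequency h. -/
noncomputable def l1D (h : R F) : Finset (R F) := (divs h).filter (fun D => D ^ 2 ∣ h)

theorem l1_mem_D {h D : R F} (hh : h ≠ 0) : D ∈ l1D h ↔ P0 D ∧ D ^ 2 ∣ h := by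
  simp only [l1D, Finset.mem_filter, mem_divs hh]
  exact ⟨fun x => ⟨x.1.1, x.2⟩, fun x => ⟨⟨x.1, (dvd_pow_self D two_ne_zero).trans x.2⟩, x.2⟩⟩

theorem l1K_ne (j : ℕ) {c1 m : R F} (h1 : c1 ≠ 0) (hm : m ≠ 0) (c2 : R F) :
    l1K j c1 c2 m = ∑ D ∈ l1D m, (N D : ℂ) * ((if D ∣ c1 then chi j m (l1dv c1 D) else 0) *
      conj (if D ∣ c2 then chi j m (l1dv c2 D) else 0)) := by
  have e : ∀ D, (N D : ℂ) * ((if D ∣ c1 then chi j m (l1dv c1 D) else 0) *
      conj (if D ∣ c2 then chi j m (l1dv c2 D) else 0)) = if D ∣ c1 ∧ D ∣ c2 then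
        (N D : ℂ) * (chi j m (l1dv c1 D) * conj (chi j m (l1dv c2 D))) else 0 := fun D => by
    by_cases a : D ∣ c1 <;> by_cases b : D ∣ c2 <;> simp [a, b]
  simp only [e, l1K, ← Finset.sum_filter]
  refine Finset.sum_congr ?_ fun _ _ => rfl
  ext D
  simp only [Finset.mem_filter, mem_divs h1, l1_mem_D hm]
  tauto

theorem l1K_zero (j : ℕ) {c1 c2 : R F} (h1 : P0 c1) (h2 : P0 c2) :
    l1K j c1 c2 0 = if c1 = c2 then (N c1 : ℂ) else 0 := by
  have key : ∀ {D c : R F}, P0 D → P0 c → D ∣ c → D ≠ c → chi j 0 (l1dv c D) = 0 :=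
    fun a b h hne => by
      have h3 := (l1_P0_div a b h).1
      rw [chi_zero_left j h3.ne_zero, if_neg fun y => hne (by
        rw [← l1_div_mul h, h3.1.eq_one_of_isUnit y, mul_one])]
  unfold l1K
  rw [Finset.sum_eq_single_of_mem c1 ((mem_divs h1.ne_zero).2 ⟨h1, dvd_rfl⟩)]
  · rw [l1_div_self h1.ne_zero, chi_one_right]
    by_cases e : c1 = c2
    · subst e
      simp [l1_div_self h1.ne_zero, chi_one_right]
    · rw [if_neg e]
      split_ifs with x
      · simp [key h1 h2 x.1 e]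
      · rfl
  · intro D hD hne
    obtain ⟨a, b⟩ := (mem_divs h1.ne_zero).1 hD
    simp [key a h1 b hne]

theorem l1_norm_K : ∃ C : ℝ, 0 < C ∧ ∀ (j : ℕ) (c1 c2 m : R F), ‖l1K j c1 c2 m‖ ≤ C * N c1 ^ 2 := by
  obtain ⟨C, hC, hb⟩ := card_ball_le (F := F)
  refine ⟨C, hC, fun j c1 c2 m => (norm_sum_le _ _).trans ?_⟩
  have h1 : ∀ D ∈ divs c1, ‖if D ∣ c2 ∧ D ^ 2 ∣ m then (N D : ℂ) *
      (chi j m (l1dv c1 D) * conj (chi j m (l1dv c2 D))) else 0‖ ≤ N c1 := fun D hD => by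
    have hb := (mem_ball.1 (Finset.mem_filter.1 hD).1).2
    split_ifs
    · rw [norm_mul, norm_mul, Complex.norm_conj, Complex.norm_real, Real.norm_of_nonneg (N_nonneg D)]
      exact (mul_le_of_le_one_right (N_nonneg D) (mul_le_one₀ (norm_chi_le _ _ _) (norm_nonneg _)
        (norm_chi_le _ _ _))).trans hb
    · simpa using N_nonneg c1
  refine (Finset.sum_le_card_nsmul _ _ _ h1).trans ?_
  have h2 : ((divs c1).card : ℝ) ≤ C * N c1 :=
    le_trans (by exact_mod_cast Finset.card_filter_le _ _) (hb _ (N_nonneg c1))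
  rw [nsmul_eq_mul]
  nlinarith [N_nonneg c1]

theorem l1_tsum_div {α : Type} [NormedField α] {D : R F} (hD : D ≠ 0) (b g : R F → α) :
    ∑' c, b c * (if D ∣ c then g (l1dv c D) else 0) = ∑' c, b (D * c) * g c := by
  rw [← (mul_right_injective₀ hD).tsum_eq]
  · simp [l1_mul_div hD]
  · intro c hc
    by_contra x
    exact hc (by simp only [if_neg fun (y : D ∣ c) => x (y.imp fun _ e => e.symm), mul_zero])

/-- The bilinear form with kernel K at a nonzero frequency. -/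
theorem l1_hasSum_K (j : ℕ) {m : R F} (hm : m ≠ 0) {b1 b2 : R F → ℂ} (h0 : b1 0 = 0)
    (s1 : Summable fun c => ‖b1 c‖) (s2 : Summable fun c => ‖b2 c‖) :
    HasSum (fun p : R F × R F => b1 p.1 * conj (b2 p.2) * l1K j p.1 p.2 m)
      (∑ D ∈ l1D m, (N D : ℂ) * ((∑' c, b1 (D * c) * chi j m c) *
        conj (∑' c, b2 (D * c) * chi j m c))) := by
  set k : R F → R F → ℂ := fun D c => if D ∣ c then chi j m (l1dv c D) else 0 with hk
  have kb : ∀ D c, ‖k D c‖ ≤ 1 := fun D c => by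
    simp only [hk]; split_ifs
    · exact norm_chi_le _ _ _
    · simp
  have sm : ∀ {b : R F → ℂ}, (Summable fun c => ‖b c‖) → ∀ D, Summable fun c => ‖b c * k D c‖ :=
    fun s D => s.of_nonneg_of_le (fun _ => norm_nonneg _) fun c => by
      rw [norm_mul]; exact mul_le_of_le_one_right (norm_nonneg _) (kb D c)
  have e : (fun p : R F × R F => b1 p.1 * conj (b2 p.2) * l1K j p.1 p.2 m) = fun p =>
      ∑ D ∈ l1D m, (N D : ℂ) * ((b1 p.1 * k D p.1) * conj (b2 p.2 * k D p.2)) := by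
    funext p
    by_cases x : p.1 = 0
    · simp [x, h0]
    · rw [l1K_ne j x hm, Finset.mul_sum]
      exact Finset.sum_congr rfl fun D _ => by simp only [hk, map_mul]; ring
  rw [e]
  refine hasSum_sum fun D hD => HasSum.mul_left _ ?_
  have hD0 := ((l1_mem_D hm).1 hD).1.ne_zero
  have s2' : Summable fun c => ‖conj (b2 c * k D c)‖ := by simpa only [Complex.norm_conj] using sm s2 D
  rw [← l1_tsum_div hD0 b1 (chi j m), ← l1_tsum_div hD0 b2 (chi j m), Complex.conj_tsum,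
    tsum_mul_tsum_of_summable_norm (sm s1 D) s2']
  exact (summable_mul_of_summable_norm (sm s1 D) s2').hasSum

theorem l1_tsum_K_zero (j : ℕ) {b : R F → ℂ} (hb : ∀ c, b c ≠ 0 → P0 c) :
    ∑' p : R F × R F, b p.1 * conj (b p.2) * l1K j p.1 p.2 0 =
      ((∑' c, ‖b c‖ ^ 2 * N c : ℝ) : ℂ) := by
  have inj : Function.Injective fun c : R F => (c, c) := fun _ _ h => (Prod.mk.inj h).1
  rw [← inj.tsum_eq, Complex.ofReal_tsum]
  · refine tsum_congr fun c => ?_
    by_cases x : b c = 0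
    · simp [x]
    · rw [l1K_zero j (hb c x) (hb c x), if_pos rfl, mul_conj, normSq_eq_norm_sq]; push_cast; ring
  · rintro ⟨c1, c2⟩ hp
    have h1 : b c1 ≠ 0 := fun x => hp (by simp [x])
    have h2 : b c2 ≠ 0 := fun x => hp (by simp [x])
    by_cases e : c1 = c2
    · exact ⟨c1, by rw [e]⟩
    · exact (hp (by simp only [l1K_zero j (hb _ h1) (hb _ h2), if_neg e, mul_zero])).elim

/-- The dual coefficients. -/
noncomputable def l1A (j : ℕ) (a : R F → ℂ) (c : R F) : ℂ := a c * Gt j c / (ab c : ℂ)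

/-- The dual term. -/
noncomputable def l1G (j j' : ℕ) (a : R F → ℂ) (ρ : F) (M : ℝ) (h : R F) (p : R F × R F) : ℂ :=
  l1A j a p.1 * conj (l1A j a p.2) * l1K j' p.1 p.2 h *
    ((if P1 h then Ph2 ((h : F) / ρ) (M * N h / N (p.1 * p.2)) else 0 : ℝ) : ℂ)

theorem l1_norm_A (j : ℕ) {a : R F → ℂ} (ha : ∀ c, a c ≠ 0 → P0 c) (c : R F) :
    ‖l1A j a c‖ = ‖a c‖ / ab c := by
  by_cases x : a c = 0
  · simp [l1A, x]
  · rw [l1A, norm_div, norm_mul, norm_Gt j (ha c x).2, Complex.norm_real,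
      Real.norm_of_nonneg (ab_nonneg c), mul_one]

theorem l1_norm_A_le (j : ℕ) {a : R F → ℂ} (ha : ∀ c, a c ≠ 0 → P0 c) (c : R F) :
    ‖l1A j a c‖ ≤ ‖a c‖ := by
  rw [l1_norm_A j ha]
  by_cases x : a c = 0
  · simp [x]
  · exact div_le_self (norm_nonneg _) (one_le_ab (ha c x).ne_zero)

theorem l1_summable_G (j j' : ℕ) {a : R F → ℂ} (ha : ∀ c, a c ≠ 0 → P0 c)
    (hs : ∀ k : ℕ, Summable (fun c => ‖a c‖ * N c ^ k)) {ρ : F} (hρ : ρ ≠ 0) {M : ℝ} (hM : 0 < M) :
    Summable fun q : (R F × R F) × R F => l1G j j' a ρ M q.2 q.1 := by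
  obtain ⟨C, hC, hK⟩ := l1_norm_K (F := F)
  obtain ⟨C2, hC2, hP⟩ := Ph2_le (F := F) two_pos
  have s1 := summable_mul_of_summable_norm (f := fun c => ‖a c‖ * N c ^ 4)
    (g := fun c => ‖a c‖ * N c ^ 2) (hs 4).norm (hs 2).norm
  have s2 := summable_mul_of_summable_norm s1.norm (summable_N_rpow (F := F) one_lt_two).norm
  refine Summable.of_norm_bounded (s2.mul_left (C * C2 / M ^ 2)) fun q => ?_
  by_cases x : a q.1.1 = 0
  · simp [l1G, l1A, x]
  by_cases y : a q.1.2 = 0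
  · simp [l1G, l1A, y]
  by_cases z : P1 q.2
  swap
  · simp [l1G, z]
  have n1 := N_pos (ha _ x).ne_zero
  have n2 := N_pos (ha _ y).ne_zero
  have n3 := N_pos z.ne_zero
  simp only [l1G, if_pos z, norm_mul, Complex.norm_conj, Complex.norm_real,
    Real.norm_of_nonneg (Ph2_nonneg _ _), N_mul]
  calc _ ≤ ‖a q.1.1‖ * ‖a q.1.2‖ * (C * N q.1.1 ^ 2) *
        (C2 * (M * N q.2 / (N q.1.1 * N q.1.2)) ^ (-2 : ℝ)) := by
        gcongr
        · exact Ph2_nonneg _ _
        · exact l1_norm_A_le j ha _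
        · exact l1_norm_A_le j ha _
        · exact hK _ _ _ _
        · exact hP _ (div_ne_zero z.coe_ne hρ) _ (by positivity)
    _ = _ := by
        rw [Real.rpow_neg (by positivity), Real.rpow_neg n3.le, Real.rpow_two, Real.rpow_two]
        field_simp

theorem l1_summable_zero (j : ℕ) {a b : R F → ℂ} (hs : ∀ k : ℕ, Summable (fun c => ‖a c‖ * N c ^ k))
    (hb : ∀ c, ‖b c‖ ≤ ‖a c‖) :
    Summable fun p : R F × R F => b p.1 * conj (b p.2) * l1K j p.1 p.2 0 := by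
  obtain ⟨C, hC, hK⟩ := l1_norm_K (F := F)
  have s1 := summable_mul_of_summable_norm (f := fun c => ‖a c‖ * N c ^ 2)
    (g := fun c => ‖a c‖ * N c ^ 0) (hs 2).norm (hs 0).norm
  refine Summable.of_norm_bounded (s1.mul_left C) fun q => ?_
  rw [norm_mul, norm_mul, Complex.norm_conj]
  calc _ ≤ ‖a q.1‖ * ‖a q.2‖ * (C * N q.1 ^ 2) := by gcongr <;> apply_assumption
    _ = _ := by ring

theorem l1_T_zero (j j' : ℕ) {a : R F → ℂ} (ha : ∀ c, a c ≠ 0 → P0 c) :
    ∑' p : R F × R F, l1A j a p.1 * conj (l1A j a p.2) * l1K j' p.1 p.2 0 =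
      ((∑' c, ‖a c‖ ^ 2 : ℝ) : ℂ) := by
  rw [l1_tsum_K_zero j' (b := l1A j a) fun c x => ha c fun y => x (by simp [l1A, y])]
  congr 1
  refine tsum_congr fun c => ?_
  rw [l1_norm_A j ha]
  by_cases x : a c = 0
  · simp [x]
  · rw [div_pow, ab_sq, div_mul_cancel₀ _ (N_pos (ha c x).ne_zero).ne']

/-- The exact identity, as an inequality. -/
theorem l1_exact : ∃ C k : ℝ, 0 < C ∧ 0 ≤ k ∧ ∀ {j j' : ℕ}, 3 ∣ j + j' → ∀ {a : R F → ℂ} {κ : Cl F},
    (∀ c, a c ≠ 0 → P0 c ∧ cls (c : F) = κ) → (∀ k : ℕ, Summable (fun c => ‖a c‖ * N c ^ k)) →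
    ∀ {M : ℝ}, 0 < M → QQ j a M ≤
      C * M * (k * ∑' c, ‖a c‖ ^ 2 + ‖∑' h, ∑' p, l1G j j' a (rep κ * rep κ) M h p‖) := by
  obtain ⟨k0, C0, hk0, hC0, hpb⟩ := pb (F := F)
  obtain ⟨c1, hc1, hlow⟩ := Ph1_low (F := F)
  obtain ⟨C, hC, hK⟩ := l1_norm_K (F := F)
  obtain ⟨C2, hC2, hP⟩ := Ph1_le (F := F) two_pos
  refine ⟨(c1 * C0)⁻¹, Real.exp (1 / 4) * k0, by positivity, by positivity,
    fun {j j'} hj {a κ} ha hs {M} hM => ?_⟩
  have ha' : ∀ c, a c ≠ 0 → P0 c := fun c x => (ha c x).1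
  have a0 : a 0 = 0 := by by_contra x; exact (ha' 0 x).ne_zero rfl
  have s0 : Summable fun c => ‖a c‖ := by simpa using hs 0
  have hρ := mul_ne_zero (rep_ne κ) (rep_ne κ)
  set e : R F → ℝ := fun m => if P1 m then Ph1 (m : F) (N m / M) else 0 with he
  have e0 : ∀ m, 0 ≤ e m := fun m => by
    simp only [he]; split_ifs; exacts [Ph1_nonneg _ _, le_rfl]
  set Φ : (R F × R F) × R F → ℂ := fun q =>
    a q.1.1 * conj (a q.1.2) * l1K j q.1.1 q.1.2 q.2 * (e q.2 : ℂ) with hF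
  have se : Summable e := by
    refine ((summable_N_rpow (F := F) one_lt_two).mul_left (C2 * M ^ 2)).of_nonneg_of_le e0
      fun m => ?_
    simp only [he]
    split_ifs with x
    · have n := N_pos x.ne_zero
      refine (hP _ x.coe_ne _ (div_pos n hM)).trans (le_of_eq ?_)
      rw [Real.rpow_neg (by positivity), Real.rpow_neg n.le, Real.rpow_two, Real.rpow_two]
      field_simp
    · simp
  have sF : Summable Φ := by
    have s1 := summable_mul_of_summable_norm (f := fun c => ‖a c‖ * N c ^ 2)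
      (g := fun c => ‖a c‖) (hs 2).norm s0.norm
    have s2 := summable_mul_of_summable_norm s1.norm se.norm
    refine Summable.of_norm_bounded (s2.mul_left C) fun q => ?_
    simp only [hF, norm_mul, Complex.norm_conj, Complex.norm_real, Real.norm_of_nonneg (e0 _)]
    calc _ ≤ ‖a q.1.1‖ * ‖a q.1.2‖ * (C * N q.1.1 ^ 2) * e q.2 := by
          gcongr
          exacts [e0 _, hK _ _ _ _]
      _ = _ := by ring
  have sG := l1_summable_G j j' ha' hs hρ hM
  have id1 : ∀ p : R F × R F, k0 * (a p.1 * conj (a p.2) * l1K j p.1 p.2 0) + ∑' m, Φ (p, m) =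
      ((M / C0 : ℝ) : ℂ) * (((Real.exp (1 / 4) * k0 : ℝ) : ℂ) *
        (l1A j a p.1 * conj (l1A j a p.2) * l1K j' p.1 p.2 0) +
          ∑' h, l1G j j' a (rep κ * rep κ) M h p) := by
    intro p
    by_cases x : a p.1 = 0
    · simp [hF, l1G, l1A, x]
    by_cases y : a p.2 = 0
    · simp [hF, l1G, l1A, y]
    have h1 := (ha _ x).1
    have h2 := (ha _ y).1
    have h4 := (ha _ x).2.trans (ha _ y).2.symm
    have ps := hpb _ _ (mul_ne_zero h1.ne_zero h2.ne_zero) (l1_per_K j h1 h2)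
      (l1_unit_K j h1 h2 h4) M hM
    have b1 : (ab p.1 : ℂ) ≠ 0 := by exact_mod_cast (ab_pos h1.ne_zero).ne'
    have b2 : (ab p.2 : ℂ) ≠ 0 := by exact_mod_cast (ab_pos h2.ne_zero).ne'
    have b3 : (C0 : ℂ) ≠ 0 := by exact_mod_cast hC0.ne'
    have n : (N (p.1 * p.2) : ℂ) = (ab p.1 : ℂ) ^ 2 * (ab p.2 : ℂ) ^ 2 := by
      rw [N_mul, ← ab_sq, ← ab_sq]; push_cast; ring
    have q1 : ∑' m, Φ (p, m) = a p.1 * conj (a p.2) * ∑' m : R F,
        (if P1 m then l1K j p.1 p.2 m * (Ph1 (m : F) (N m / M) : ℂ) else 0) := by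
      rw [← tsum_mul_left]
      refine tsum_congr fun m => ?_
      simp only [hF, he]
      split_ifs <;> simp [mul_assoc]
    have q2 : ∑' h, l1G j j' a (rep κ * rep κ) M h p = a p.1 * conj (a p.2) / N (p.1 * p.2) *
        ∑' h : R F, (if P1 h then gauss (l1K j p.1 p.2) (p.1 * p.2) h *
          (Ph2 ((h : F) / (p.1 * p.2 : R F)) (M * N h / N (p.1 * p.2)) : ℂ) else 0) := by
      rw [← tsum_mul_left]
      refine tsum_congr fun h => ?_
      simp only [l1G]
      split_ifs with z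
      · rw [l1_gauss_K hj h1 h2 h4, Ph2_cls (z' := (h : F) / (p.1 * p.2 : R F))
          (div_ne_zero z.coe_ne hρ) (div_ne_zero z.coe_ne (h1.1.mul h2.1).coe_ne) (by
            rw [cls_div z.coe_ne hρ, cls_div z.coe_ne (h1.1.mul h2.1).coe_ne, MulMemClass.coe_mul,
              cls_mul h1.1.coe_ne h2.1.coe_ne, cls_mul (rep_ne κ) (rep_ne κ), cls_rep, (ha _ x).2,
              (ha _ y).2])]
        generalize (Ph2 (F := F) _ _ : ℂ) = E
        simp only [l1A, map_div₀, map_mul, Complex.conj_ofReal, n]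
        field_simp
      · simp
    rw [q1, q2, mul_left_comm, mul_assoc, ← mul_assoc (a p.1), ← mul_add, ps,
      l1_gauss_K hj h1 h2 h4]
    generalize ((Real.exp (1 / 4) * k0 : ℝ) : ℂ) = E
    simp only [l1A, map_div₀, map_mul, Complex.conj_ofReal, ofReal_div, ofReal_mul, n]
    field_simp
  have id2 := tsum_congr (L := SummationFilter.unconditional _) id1
  rw [((l1_summable_zero j hs fun _ => le_rfl).mul_left _).tsum_add sF.prod, tsum_mul_left,
    tsum_mul_left, ((l1_summable_zero j' hs (l1_norm_A_le j ha')).mul_left _).tsum_add sG.prod,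
    tsum_mul_left, l1_tsum_K_zero j ha', l1_T_zero j j' ha',
    ← Summable.tsum_comm (f := fun p m => Φ (p, m)) sF,
    ← Summable.tsum_comm (f := fun p h => l1G j j' a (rep κ * rep κ) M h p) sG] at id2
  set z : R F → ℝ := fun m =>
    (∑ D ∈ l1D m, N D * ‖∑' c, a (D * c) * chi j m c‖ ^ 2) * e m with hz
  have z1 : ∀ m, 0 ≤ ∑ D ∈ l1D m, N D * ‖∑' c, a (D * c) * chi j m c‖ ^ 2 := fun m =>
    Finset.sum_nonneg fun D _ => mul_nonneg (N_nonneg D) (sq_nonneg _)
  have z0 : ∀ m, 0 ≤ z m := fun m => mul_nonneg (z1 m) (e0 m)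
  have id3 : ∀ m, ∑' p, Φ (p, m) = (z m : ℂ) := fun m => by
    simp only [hF, hz, tsum_mul_right]
    by_cases x : P1 m
    · rw [(l1_hasSum_K j x.ne_zero a0 s0 s0).tsum_eq]
      simp only [mul_conj, normSq_eq_norm_sq]; push_cast; ring
    · simp [he, x]
  have sz : Summable z := by
    have := sF.prod_symm.prod
    simp only [Prod.swap, id3] at this
    exact_mod_cast this
  simp only [id3] at id2
  have t0 : 0 ≤ ∑' c, ‖a c‖ ^ 2 * N c := tsum_nonneg fun c => mul_nonneg (sq_nonneg _) (N_nonneg c)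
  have t1 : 0 ≤ ∑' c, ‖a c‖ ^ 2 := tsum_nonneg fun c => sq_nonneg _
  have t2 : 0 ≤ ∑' m, z m := tsum_nonneg z0
  have h5 := congrArg norm id2
  rw [← Complex.ofReal_tsum, ← ofReal_mul, ← ofReal_add, Complex.norm_real,
    Real.norm_of_nonneg (by positivity), norm_mul, Complex.norm_real,
    Real.norm_of_nonneg (by positivity), ← ofReal_mul] at h5
  have h6 := h5.trans_le (mul_le_mul_of_nonneg_left (norm_add_le _ _) (by positivity))
  rw [Complex.norm_real, Real.norm_of_nonneg (by positivity)] at h6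
  have h7 : c1 * QQ j a M ≤ ∑' m, z m := by
    rw [QQ, Finset.mul_sum]
    refine le_trans (Finset.sum_le_sum fun m hm => ?_) (sz.sum_le_tsum (ball F M) fun m _ => z0 m)
    obtain ⟨m0, mM⟩ := mem_ball.1 hm
    simp only [hz, he, if_pos m0]
    rw [mul_comm]
    exact mul_le_mul_of_nonneg_left (hlow _ m0.coe_ne _ (div_pos (N_pos m0.ne_zero) hM)
      ((div_le_one hM).2 mM)) (z1 m)
  rw [mul_inv, mul_assoc, mul_assoc, le_inv_mul_iff₀ hc1, ← mul_assoc, inv_mul_eq_div]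
  linarith [mul_nonneg hk0 t0]

end Vale.Agent.P319B
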