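import Vale.Agent.P319B.Defs
import Vale.Agent.Lib.PrimeSumGRH
import Vale.Agent.P026.Main

/-! Small quadratic non-residues. -/

namespace Vale.Agent.P319B

open Complex NumberField
open scoped Classical ComplexConjugate
open Vale.Agent.P026 (w kk fk)

theorem sqn_psi {p : ℕ} [Fact p.Prime] (h2 : 2 < p) {B : ℕ} (hB : B < p)
    (h : ∀ a : ℕ, a ≤ B → IsSquare (a : ZMod p)) :
    ∃ χ : DirichletCharacter ℂ p, χ ≠ 1 ∧
      ∑ n ∈ Finset.Icc 1 ⌊(B : ℝ)⌋₊, (ArithmeticFunction.vonMangoldt n : ℂ) * χ n =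
        (Chebyshev.psi B : ℂ) := by
  have hc : ringChar (ZMod p) ≠ 2 := by rw [ZMod.ringChar_zmod_n]; omega
  refine ⟨(quadraticChar (ZMod p)).ringHomComp (Int.castRingHom ℂ), fun e => ?_, ?_⟩
  · obtain ⟨a, ha⟩ := FiniteField.exists_nonsquare hc
    have a0 : a ≠ 0 := fun k => ha (k ▸ IsSquare.zero)
    have k := congrArg (fun χ : DirichletCharacter ℂ p => χ a) e
    simp only [MulChar.ringHomComp_apply, quadraticChar_neg_one_iff_not_isSquare.2 ha,
      MulChar.one_apply (Ne.isUnit a0)] at k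
    norm_num at k
  · rw [Chebyshev.psi, Nat.floor_natCast, ofReal_sum]
    refine Finset.sum_congr rfl fun n hn => ?_
    obtain ⟨n1, n2⟩ := Finset.mem_Ioc.1 hn
    have a0 : (n : ZMod p) ≠ 0 := fun k =>
      absurd (Nat.le_of_dvd n1 ((ZMod.natCast_eq_zero_iff n p).1 k)) (by omega)
    rw [MulChar.ringHomComp_apply, (quadraticChar_one_iff_isSquare a0).2 (h n n2)]
    simp

theorem small_qnr' : ∃ C : ℕ, ∀ p : ℕ, p.Prime → 2 < p →
    ∃ a : ℕ, a ≤ (Nat.size p) ^ C ∧ ¬ IsSquare (a : ZMod p) := by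
  obtain ⟨θ, C, -, hθ, hC, h1, h2⟩ := Lib.PS.psi_all P026.qgrh
  obtain ⟨j, hj⟩ := pow_unbounded_of_one_lt (6 * C) (one_lt_two (α := ℝ))
  obtain ⟨k, hk⟩ := exists_nat_ge ((1 + j : ℝ) / (1 - θ))
  refine ⟨k, fun p hp p2 => ?_⟩
  have := Fact.mk hp
  have hc : ringChar (ZMod p) ≠ 2 := by rw [ZMod.ringChar_zmod_n]; omega
  by_contra hn
  have h : ∀ a : ℕ, a ≤ p.size ^ k → IsSquare (a : ZMod p) := fun a ha => by
    by_contra k
    exact hn ⟨a, ha, k⟩
  obtain ⟨s, hs⟩ : ∃ s, s = p.size := ⟨_, rfl⟩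
  have s2 : 2 ≤ s := hs ▸ Nat.lt_size.2 (by omega)
  have ps : p < 2 ^ s := hs ▸ Nat.lt_size_self p
  rw [← hs] at h
  rcases le_or_gt p (s ^ k) with hB | hB
  · obtain ⟨a, ha⟩ := FiniteField.exists_nonsquare hc
    exact ha (by simpa using h a.val ((ZMod.val_lt a).le.trans hB))
  obtain ⟨χ, hχ, e⟩ := sqn_psi p2 hB h
  have s2' : (2 : ℝ) ≤ s := by exact_mod_cast s2
  have s0 : (0 : ℝ) < s := by linarith
  have B1 : (1 : ℝ) ≤ (s ^ k : ℕ) := by exact_mod_cast Nat.one_le_pow k s (by omega)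
  have a1 := h1 p χ hχ _ B1
  have a2 := h2 _ B1
  rw [e, norm_real, Real.norm_of_nonneg (Chebyshev.psi_nonneg _)] at a1
  obtain ⟨B, hBe⟩ : ∃ B : ℝ, B = (s ^ k : ℕ) := ⟨_, rfl⟩
  have Bp : B ≤ p := by rw [hBe]; exact_mod_cast hB.le
  have p1 : (p : ℝ) ≤ 2 ^ s := by exact_mod_cast ps.le
  have p0 : (1 : ℝ) ≤ p := by exact_mod_cast hp.one_le
  rw [← hBe] at a1 a2 B1
  have B0 : 0 < B := by linarith
  have l1 : Real.log (2 * p * B) ≤ 3 * s := by
    have b1 : 2 * p * B ≤ 2 ^ (2 * s + 1) := by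
      have b0 := Bp.trans p1
      calc 2 * p * B ≤ 2 * 2 ^ s * 2 ^ s := by gcongr
        _ = _ := by ring
    refine (Real.log_le_log (by positivity) b1).trans ?_
    rw [Real.log_pow]
    have b2 := Real.log_two_lt_d9
    push_cast
    nlinarith
  have l2 : Real.log (2 * B) ≤ 3 * s :=
    (Real.log_le_log (by positivity) (by nlinarith)).trans l1
  have P0 : 0 < C * B ^ θ := by positivity
  have a3 : B ≤ 6 * C * s * B ^ θ := by
    have b1 := mul_le_mul_of_nonneg_left l1 P0.le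
    have b2 := mul_le_mul_of_nonneg_left l2 P0.le
    have b3 := (abs_le.1 a2).1
    linarith
  have a4 : B ^ (1 - θ) ≤ 6 * C * s := by
    rw [Real.rpow_sub B0, Real.rpow_one, div_le_iff₀ (by positivity)]
    exact a3
  have a5 : (s : ℝ) ^ (1 + j : ℕ) ≤ B ^ (1 - θ) := by
    rw [hBe, Nat.cast_pow, ← Real.rpow_natCast, ← Real.rpow_natCast, ← Real.rpow_mul s0.le]
    refine Real.rpow_le_rpow_of_exponent_le (by linarith) ?_
    rw [div_le_iff₀ (by linarith)] at hk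
    push_cast
    exact hk
  have a6 : (2 : ℝ) ^ j ≤ s ^ j := pow_le_pow_left₀ (by norm_num) s2' j
  rw [pow_add, pow_one] at a5
  nlinarith

end Vale.Agent.P319B
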