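import Vale.Agent.P319B.Count
import Vale.Agent.P026.Fin2B

/-! The Mellin transform of the smoothed Moebius sum. -/

namespace Vale.Agent.P319B

open Complex NumberField MeasureTheory Set Filter Asymptotics
open scoped Classical ComplexConjugate Topology
open Vale.Agent.P026 (w kk fk f2w f2_contw f2_conv w_pos w_le_rpow)

variable {F : Type} [Field F] [NumberField F] [Ctx F]

/-- The smoothed sum as a function of the reciprocal length. -/
noncomputable def zfS (a : R F → ℂ) (x : ℝ) : ℂ := ∑' c, a c * f2w (N c * x)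

theorem zfA_cont {a : R F → ℂ} (ha : Bd1 a) (h0 : ∀ c, ¬ P1 c → a c = 0) :
    ContinuousOn (zfS a) (Ioi 0) := by
  intro x hx
  have x0 : 0 < x / 2 := half_pos hx
  refine ((continuousOn_tsum (s := Ioi (x / 2)) (fun c => ?_)
    ((summable_N_rpow (F := F) (s := 2) one_lt_two).mul_left
      (Real.exp ((-2) ^ 2 / 4) * (x / 2) ^ (-2 : ℝ)))
    fun c y hy => ?_).continuousAt (Ioi_mem_nhds (half_lt_self hx))).continuousWithinAt
  · by_cases hc : P1 c
    · refine continuousOn_const.mul (continuous_ofReal.comp_continuousOn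
        (f2_contw.comp (by fun_prop) fun y hy => mul_pos (N_pos hc.ne_zero) (x0.trans hy)))
    · simpa [h0 c hc] using continuousOn_const
  · split_ifs with hc
    · have y0 : 0 < y := x0.trans hy
      rw [norm_mul, f2w, norm_real, Real.norm_of_nonneg (w_pos _).le]
      refine (mul_le_of_le_one_left (w_pos _).le (ha c)).trans
        ((w_le_rpow (-2) (mul_pos (N_pos hc.ne_zero) y0)).trans ?_)
      rw [Real.mul_rpow (N_nonneg c) y0.le, mul_comm (N c ^ _), mul_assoc]
      exact mul_le_mul_of_nonneg_left (mul_le_mul_of_nonneg_right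
        (Real.rpow_le_rpow_of_nonpos x0 (le_of_lt hy) (by norm_num))
        (Real.rpow_nonneg (N_nonneg c) _)) (Real.exp_pos _).le
    · rw [h0 c hc, zero_mul, norm_zero, mul_zero]

theorem zfA_diff {a : R F → ℂ} (ha : Bd1 a) (h0 : ∀ c, ¬ P1 c → a c = 0) {σ C : ℝ}
    (h : ∀ Y : ℝ, 1 ≤ Y → ‖∑' c, a c * W Y 0 c‖ ≤ C * Y ^ σ) {s : ℂ} (hs : σ < s.re) :
    DifferentiableAt ℂ (mellin (zfS a)) s := by
  obtain ⟨C1, -, h1⟩ := tsum_w_small (F := F) 0 (s.re + 1)
  refine mellin_differentiableAt_of_isBigO_rpow (a := s.re + 1)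
    ((zfA_cont ha h0).locallyIntegrableOn measurableSet_Ioi)
    (IsBigO.of_bound C1 ((eventually_ge_atTop 1).mono fun x hx => ?_)) (by linarith)
    (IsBigO.of_bound C ?_) hs
  · have x0 : 0 < x := by linarith
    have h2 := h1 x⁻¹ (inv_pos.2 x0) (inv_le_one_of_one_le₀ hx)
    rw [Real.norm_of_nonneg (Real.rpow_nonneg x0.le _), Real.rpow_neg x0.le, ← Real.inv_rpow x0.le]
    refine le_trans (tsum_of_norm_bounded (summable_w 0 (inv_pos.2 x0)).hasSum fun c => ?_) h2
    split_ifs with hc
    · rw [norm_mul, f2w, norm_real, Real.norm_of_nonneg (w_pos _).le, Real.rpow_zero,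
        div_inv_eq_mul]
      exact mul_le_mul_of_nonneg_right (ha c) (w_pos _).le
    · rw [h0 c hc, zero_mul, norm_zero]
  · filter_upwards [Ioc_mem_nhdsGT zero_lt_one] with x hx
    have h2 := h x⁻¹ (one_le_inv_iff₀.2 hx)
    rw [Real.norm_of_nonneg (Real.rpow_nonneg hx.1.le _), Real.rpow_neg hx.1.le,
      ← Real.inv_rpow hx.1.le]
    simpa [W, nit, zfS, f2w] using h2

theorem zfA_series {a : R F → ℂ} (ha : Bd1 a) (h0 : ∀ c, ¬ P1 c → a c = 0) {s : ℂ}
    (hs : 1 < s.re) : mellin (zfS a) s = (∑' c, a c * (N c : ℂ) ^ (-s)) * mellin f2w s := by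
  have k := hasSum_integral_of_summable_integral_norm (μ := volume.restrict (Ioi (0 : ℝ)))
    (F := fun (c : R F) (t : ℝ) => a c * ((t : ℂ) ^ (s - 1) • f2w (N c * t))) (fun c => ?_) ?_
  · rw [← tsum_mul_right, mellin, setIntegral_congr_fun measurableSet_Ioi
      (g := fun t : ℝ => ∑' c, a c * ((t : ℂ) ^ (s - 1) • f2w (N c * t))) fun t _ => ?_,
      ← k.tsum_eq]
    · refine tsum_congr fun c => ?_
      by_cases hc : P1 c
      · rw [integral_const_mul, mul_assoc, ← smul_eq_mul _ (mellin _ _),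
          ← mellin_comp_mul_left _ _ (N_pos hc.ne_zero), mellin]
      · simp [h0 c hc]
    · simp only [zfS, smul_eq_mul, ← tsum_mul_left, mul_left_comm]
  · by_cases hc : P1 c
    · exact Integrable.const_mul
        ((MellinConvergent.comp_mul_left (N_pos hc.ne_zero)).2 (f2_conv s)) _
    · simp [h0 c hc]
  · refine ((summable_N_rpow (F := F) hs).mul_right ‖mellin f2w s.re‖).of_norm_bounded fun c => ?_
    split_ifs with hc
    · have e : ((∫ t in Ioi (0 : ℝ), ‖(t : ℂ) ^ (s - 1) • f2w (N c * t)‖ : ℝ) : ℂ) =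
          mellin (fun t => f2w (N c * t)) s.re := by
        rw [mellin, ← integral_complex_ofReal]
        refine setIntegral_congr_fun measurableSet_Ioi fun t ht => ?_
        simp only [f2w, smul_eq_mul, norm_mul, norm_real, Real.norm_of_nonneg (w_pos _).le,
          norm_cpow_eq_rpow_re_of_pos ht, ofReal_mul, ofReal_cpow (le_of_lt ht), sub_re, one_re,
          ofReal_sub, ofReal_one]
      simp only [norm_mul (a c), integral_const_mul]
      rw [norm_mul, ← norm_real (∫ _ in _, _), e, mellin_comp_mul_left _ _ (N_pos hc.ne_zero),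
        norm_smul, norm_cpow_eq_rpow_re_of_pos (N_pos hc.ne_zero), norm_norm]
      exact mul_le_of_le_one_left (by have := N_nonneg c; positivity) (ha c)
    · simp only [h0 c hc, zero_mul, norm_zero, integral_zero, le_refl]

theorem zfA_mu {c : R F} (h : ¬ P0 c) : mu0 c = 0 := not_not.1 (mt mu0_ne_zero.1 h)

/-- Moebius inversion for a multiplicative function. -/
theorem zfA_inv {φ : R F → ℂ} (hφ : ∀ c d, c ≠ 0 → d ≠ 0 → φ (c * d) = φ c * φ d) (h1 : φ 1 = 1)
    (hs : Summable fun c => if P1 c then ‖φ c‖ else 0) :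
    (∑' c, mu0 c * φ c) * (∑' c, if P1 c then φ c else 0) = 1 := by
  have s1 : Summable fun c => ‖mu0 c * φ c‖ := hs.of_nonneg_of_le (fun _ => norm_nonneg _) fun c => by
    split_ifs with hc
    · exact (norm_mul_le _ _).trans (mul_le_of_le_one_left (norm_nonneg _) (norm_mu0_le c))
    · rw [zfA_mu fun h => hc h.1, zero_mul, norm_zero]
  have s2 : Summable fun c => ‖if P1 c then φ c else 0‖ :=
    hs.of_nonneg_of_le (fun _ => norm_nonneg _) fun c => by split_ifs <;> simp
  rw [tsum_mul_tsum_of_summable_norm s1 s2,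
    ← ((summable_mul_of_summable_norm s1 s2).hasSum.tsum_fiberwise fun p => p.1 * p.2).tsum_eq]
  have key : ∀ n : R F, ∑' b : (fun p : R F × R F => p.1 * p.2) ⁻¹' {n},
      mu0 b.1.1 * φ b.1.1 * (if P1 b.1.2 then φ b.1.2 else 0) = if n = 1 then 1 else 0 := by
    intro n
    by_cases hn : P1 n
    · have n0 := hn.ne_zero
      obtain ⟨q, hq⟩ : ∃ q : R F → R F, ∀ d, d ∣ n → d * q d = n :=
        ⟨fun d => if h : d ∣ n then h.choose else 0, fun d h => by
          beta_reduce
          rw [dif_pos h]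
          exact h.choose_spec.symm⟩
      rw [tsum_subtype _ fun p : R F × R F => mu0 p.1 * φ p.1 * (if P1 p.2 then φ p.2 else 0),
        tsum_eq_sum (s := (divs n).image fun d => (d, q d)) fun p hp => ?_,
        Finset.sum_image fun d _ e _ h => (Prod.ext_iff.1 h).1,
        Finset.sum_congr rfl (g := fun d => mu0 d * φ n) fun d hd => ?_, ← Finset.sum_mul,
        sum_mu0_P1 hn]
      · split_ifs with h
        · rw [h, h1, one_mul]
        · exact zero_mul _
      · obtain ⟨a1, a2⟩ := (mem_divs n0).1 hd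
        have e := hq d a2
        have a3 : P1 (q d) := a1.1.of_mul (e.symm ▸ hn)
        rw [Set.indicator_of_mem (by exact e), if_pos a3, mul_assoc,
          ← hφ _ _ a1.ne_zero a3.ne_zero, e]
      · refine Set.indicator_apply_eq_zero.2 fun h => ?_
        have e : p.1 * p.2 = n := h
        rw [zfA_mu fun h0 => hp (Finset.mem_image.2 ⟨p.1, (mem_divs n0).2 ⟨h0, _, e.symm⟩,
          Prod.ext rfl (mul_left_cancel₀ h0.ne_zero ((hq _ ⟨_, e.symm⟩).trans e.symm))⟩),
          zero_mul, zero_mul]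
    · rw [if_neg fun h : n = 1 => hn (by rw [h]; exact P1.one),
        tsum_congr (g := fun _ => 0) fun b => ?_, tsum_zero]
      have e : b.1.1 * b.1.2 = n := b.2
      split_ifs with h
      · rw [zfA_mu fun h0 => hn (e ▸ h0.1.mul h), zero_mul, zero_mul]
      · exact mul_zero _
  simp only [key, tsum_ite_eq]

end Vale.Agent.P319B
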