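import Vale.Agent.P319B.Fin1
import Vale.Agent.P319B.IdS
import Vale.Agent.P319B.ZFreeA

/-! The zero free half plane. -/

namespace Vale.Agent.P319B

open Complex NumberField
open scoped Classical ComplexConjugate
open Vale.Agent.P026 (w kk fk)

variable {F : Type} [Field F] [NumberField F] [Ctx F]

theorem zf_mul {c d : R F} (hc : c ≠ 0) (hd : d ≠ 0) :
    nrmI ((c * d : R F) : F) = nrmI (c : F) * nrmI (d : F) := by
  have h1 : nrmI (c : F) * nrmI (d : F) ≤ nrmI ((c * d : R F) : F) :=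
    Ideal.mul_le.2 fun x hx y hy => by
      rw [mem_nrmI, nrmC_mul, Subring.coe_mul, mul_div_mul_comm]
      exact mul_mem (mem_nrmI.1 hx) (mem_nrmI.1 hy)
  obtain ⟨K, hK⟩ := Ideal.dvd_iff_le.2 h1
  have h2 := N_mul c d
  rw [nrm_N hc, nrm_N hd, nrm_N (mul_ne_zero hc hd), ← Nat.cast_mul, Nat.cast_inj, ← map_mul, hK,
    map_mul, eq_comm, mul_eq_left₀ (nrm_ne_zero (nrmI_coprime _)), Ideal.absNorm_eq_one_iff] at h2
  rw [hK, h2, Ideal.mul_top]

theorem zf_unit {u : R F} (hu : IsUnit u) (x : R F) :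
    nrmI ((u * x : R F) : F) = nrmI (x : F) := by
  obtain ⟨h1, h2⟩ := isUnit_iff_inv.1 hu
  ext y
  rw [mem_nrmI, mem_nrmI, Subring.coe_mul]
  constructor
  · intro h
    have := mul_mem u.2 h
    rwa [← mul_div_assoc, mul_div_mul_left _ _ h1] at this
  · intro h
    have := mul_mem h2 h
    rwa [inv_mul_eq_div, div_div, mul_comm] at this

theorem zf_one : nrmI ((1 : R F) : F) = ⊤ :=
  (Ideal.eq_top_iff_one _).2 (by rw [mem_nrmI]; simp)

theorem zf_cop (c : F) : IsCoprime (nrmI c) (Ideal.span {((Ctx0.M F : ℕ) : 𝓞 F)}) := by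
  obtain ⟨m, h1, h2⟩ := nrmI_nat c
  obtain ⟨u, v, huv⟩ := nrm_bezout h1
  exact Ideal.isCoprime_iff_exists.2 ⟨u * m, Ideal.mul_mem_left _ _ h2, v * (Ctx0.M F : ℕ),
    Ideal.mul_mem_left _ _ (Ideal.mem_span_singleton_self _),
    by exact_mod_cast congrArg (Int.cast : ℤ → 𝓞 F) huv⟩

theorem zf_dvd {c c' : R F} (h : c ≠ 0) (h' : c' ≠ 0) (e : nrmI (c : F) = nrmI (c' : F)) :
    c' ∣ c := by
  obtain ⟨k, hk⟩ := mem_Rr.1 c.2
  obtain ⟨z, hz⟩ := nrmC_ex hk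
  have h0 : z ∈ nrmI (c : F) := by
    rw [mem_nrmI, hz, mul_div_cancel_right₀ _ (nrm_coe_ne h)]
    exact pow_mem (natCast_mem _ _) k
  rw [e, mem_nrmI, hz] at h0
  have h2 := mul_mem (pow_mem MF_inv_mem_R k) h0
  rw [← mul_div_assoc, ← mul_assoc, ← mul_pow, inv_mul_cancel₀ MF_ne, one_pow, one_mul] at h2
  exact (dvd_iff_div h').2 h2

theorem zf_inj {c c' : R F} (h : P1 c) (h' : P1 c') (e : nrmI (c : F) = nrmI (c' : F)) : c = c' :=
  h.eq_of_associated h' (associated_of_dvd_dvd (zf_dvd h'.ne_zero h.ne_zero e.symm)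
    (zf_dvd h.ne_zero h'.ne_zero e))

/-- The extension of an ideal to R. -/
def zfK (J : Ideal (𝓞 F)) : Ideal (R F) where
  carrier := {z | ∃ k : ℕ, ∃ j ∈ J, (j : F) = MF F ^ k * z}
  zero_mem' := ⟨0, 0, zero_mem _, by simp⟩
  add_mem' := by
    rintro x y ⟨k, a, ha, h1⟩ ⟨l, b, hb, h2⟩
    refine ⟨k + l, ((Ctx0.M F ^ l : ℕ) : 𝓞 F) * a + ((Ctx0.M F ^ k : ℕ) : 𝓞 F) * b,
      add_mem (Ideal.mul_mem_left _ _ ha) (Ideal.mul_mem_left _ _ hb), ?_⟩
    rw [nrmC_add, nrmC_mul, nrmC_mul, nrmC_nat, nrmC_nat, h1, h2, MF]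
    push_cast
    ring
  smul_mem' := by
    rintro r x ⟨k, a, ha, h1⟩
    obtain ⟨l, hl⟩ := mem_Rr.1 r.2
    obtain ⟨y, hy⟩ := nrmC_ex hl
    refine ⟨l + k, y * a, Ideal.mul_mem_left _ _ ha, ?_⟩
    rw [nrmC_mul, hy, h1, smul_eq_mul]
    push_cast
    ring

theorem zf_surj {J : Ideal (𝓞 F)} (h0 : J ≠ ⊥)
    (hJ : IsCoprime J (Ideal.span {((Ctx0.M F : ℕ) : 𝓞 F)})) : ∃ c : R F, P1 c ∧ nrmI (c : F) = J := by
  obtain ⟨c0, hc0⟩ := (IsPrincipalIdealRing.principal (zfK J)).principal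
  have key : ∀ x : 𝓞 F, c0 ∣ nrmInc x ↔ x ∈ J := fun x => by
    rw [← Ideal.mem_span_singleton, ← Ideal.submodule_span_eq, ← hc0]
    refine ⟨fun ⟨k, j, hj, h⟩ => ?_, fun h => ⟨0, x, h, by rw [pow_zero, one_mul]; rfl⟩⟩
    have h1 := hJ.pow_right (n := k)
    rw [Ideal.span_singleton_pow] at h1
    obtain ⟨a, ha, b, hb, hab⟩ := Ideal.isCoprime_iff_exists.1 h1
    obtain ⟨t, rfl⟩ := Ideal.mem_span_singleton'.1 hb
    have h2 : j = ((Ctx0.M F : ℕ) : 𝓞 F) ^ k * x := RingOfIntegers.ext (by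
      rw [h, ← Nat.cast_pow, nrmC_mul, nrmC_nat, Nat.cast_pow]; rfl)
    rw [show x = x * a + t * j by rw [h2]; linear_combination (-x) * hab]
    exact add_mem (Ideal.mul_mem_left _ _ ha) (Ideal.mul_mem_left _ _ hj)
  have c1 : c0 ≠ 0 := by
    rintro rfl
    refine h0 ((Submodule.eq_bot_iff _).2 fun x hx => RingOfIntegers.ext ?_)
    have h1 : nrmInc x = 0 := zero_dvd_iff.1 ((key x).2 hx)
    exact congrArg (fun z : R F => (z : F)) h1
  obtain ⟨s, c, hs, hc, rfl⟩ := exists_P1 c1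
  refine ⟨c, hc, ?_⟩
  rw [← zf_unit hs]
  ext x
  rw [← key, dvd_iff_div c1, mem_nrmI]
  rfl

theorem zf_span {a : 𝓞 F} (h : OlU (a : F)) : nrmI ((nrmInc a : R F) : F) = Ideal.span {a} := by
  have h1 : nrmJ (a : F) = ⊤ := (Ideal.eq_top_iff_one _).2 (by
    rw [mem_nrmJ]
    simpa using h.2.2)
  have h2 := nrmI_mul_nrmJ (RingOfIntegers.coe_ne_zero_iff.1 h.1)
  rwa [h1, Ideal.mul_top] at h2

theorem zf_per {m : ℕ} (hm : m ∣ Ctx0.M F) {χ : Ideal (𝓞 F) → ℂ} (h : IsHC m χ) :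
    Per 1 (fun c : R F => χ (nrmI (c : F))) := by
  refine ⟨fun x y hxy _ => ?_, fun u x hu => congrArg χ (zf_unit hu.1 x)⟩
  have h3 : 1 ≤ 3 := by norm_num
  have x0 := hxy.left_ne h3
  have y0 := hxy.right_ne h3
  obtain ⟨n, hn, hz⟩ := mem_Ol.1 hxy
  obtain ⟨z, hz'⟩ := nrmC_ex hz
  have n1 : OlU ((n : 𝓞 F) : F) := by
    rw [nrmC_nat]
    exact ⟨ring_ne hn, natCast_mem _ _, nat_inv_mem_Ol hn⟩
  have e1 : (((n : 𝓞 F) + ((Ctx0.M F ^ 3 : ℕ) : 𝓞 F) * z : 𝓞 F) : F) =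
      ((n : 𝓞 F) : F) * ((x : F) / y) := by
    have := MF_ne (F := F)
    rw [nrmC_add, nrmC_mul, hz', nrmC_nat, nrmC_nat, Nat.cast_pow]
    change _ + MF F ^ 3 * _ = _
    field_simp
    ring
  have n2 : OlU (((n : 𝓞 F) + ((Ctx0.M F ^ 3 : ℕ) : 𝓞 F) * z : 𝓞 F) : F) :=
    e1 ▸ n1.mul (hxy.olU h3)
  have e2 : nrmInc (n : 𝓞 F) * x = nrmInc ((n : 𝓞 F) + ((Ctx0.M F ^ 3 : ℕ) : 𝓞 F) * z) * y :=
    Subtype.ext (by
      change ((n : 𝓞 F) : F) * x =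
        (((n : 𝓞 F) + ((Ctx0.M F ^ 3 : ℕ) : 𝓞 F) * z : 𝓞 F) : F) * y
      rw [e1, mul_assoc, div_mul_cancel₀ _ y0])
  have e3 := congrArg (fun c : R F => χ (nrmI (c : F))) e2
  have e4 : χ (Ideal.span {(n : 𝓞 F) + ((Ctx0.M F ^ 3 : ℕ) : 𝓞 F) * z}) =
      χ (Ideal.span {(n : 𝓞 F)}) := h.congr (by
    rw [add_sub_cancel_left]
    exact (Nat.cast_dvd_cast (hm.trans (dvd_pow_self _ (by norm_num)))).mul_right z)
  have e5 : ‖χ (Ideal.span {(n : 𝓞 F)})‖ = 1 := h.norm_eq _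
    (Ideal.span_singleton_eq_bot.not.2 (RingOfIntegers.coe_ne_zero_iff.1 n1.1))
    ((Ideal.isCoprime_span_singleton_iff _ _).2 (Nat.Coprime.cast (hn.coprime_dvd_right hm)))
  beta_reduce at e3 ⊢
  rw [zf_mul (fun h0 => n1.1 (congrArg Subtype.val h0)) (fun h0 => x0 (congrArg Subtype.val h0)),
    zf_mul (fun h0 => n2.1 (congrArg Subtype.val h0)) (fun h0 => y0 (congrArg Subtype.val h0)),
    zf_span n1, zf_span n2, h.map_mul, h.map_mul, e4] at e3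
  exact mul_left_cancel₀ (norm_ne_zero_iff.1 (e5.trans_ne one_ne_zero)) e3

theorem zf_LI {χ : Ideal (𝓞 F) → ℂ} (h : χ ⊥ = 0) (s : ℂ) :
    ∑' c : R F, (if P1 c then χ (nrmI (c : F)) * (N c : ℂ) ^ (-s) else 0) =
      LI (fun J => if IsCoprime J (Ideal.span {((Ctx0.M F : ℕ) : 𝓞 F)}) then χ J else 0) s := by
  have hi : Function.Injective fun c : {c : R F | P1 c} => nrmI ((c : R F) : F) :=
    fun c c' e => Subtype.ext (zf_inj c.2 c'.2 e)
  rw [LI, ← hi.tsum_eq fun J hJ => ?_]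
  · refine Eq.trans ?_ ((tsum_subtype {c : R F | P1 c}
      fun c => χ (nrmI (c : F)) * (N c : ℂ) ^ (-s)).symm.trans (tsum_congr fun c => ?_))
    · exact tsum_congr fun c => by rw [Set.indicator_apply]; rfl
    · rw [if_pos (zf_cop _), nrm_N (P1.ne_zero c.2), ofReal_natCast]
  · have h1 := left_ne_zero_of_mul hJ
    split_ifs at h1 with h2
    · obtain ⟨c, hc, rfl⟩ := zf_surj (fun h0 : J = ⊥ => h1 (by rw [h0, h])) h2
      exact ⟨⟨c, hc⟩, rfl⟩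
    · exact absurd rfl h1

theorem zero_free (hH : HH F (1 / 384)) {m : ℕ} (hm : m ∣ Ctx0.M F) {χ : Ideal (𝓞 F) → ℂ}
    (h : IsHC m χ) {L : ℂ → ℂ} (hd : ∀ s : ℂ, 0 < s.re → DifferentiableAt ℂ L s)
    (he : ∀ s : ℂ, 2 < s.re → L s = LI χ s) {s : ℂ} (hs : 383 / 384 < s.re) : L s ≠ 0 := by
  intro h0
  obtain ⟨C, hC⟩ := fin1 hH _ (zf_per hm h) fun c => h.norm_le _
  obtain ⟨E, dE, hE⟩ := LI_euler h (Ctx0.M_ne (F := F))
  have ha : Bd1 fun c : R F => mu0 c * χ (nrmI (c : F)) := fun c =>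
    (norm_mul_le _ _).trans (mul_le_one₀ (norm_mu0_le c) (norm_nonneg _) (h.norm_le _))
  have a0 : ∀ c : R F, ¬ P1 c → mu0 c * χ (nrmI (c : F)) = 0 := fun c hc => by
    rw [zfA_mu fun h => hc h.1, zero_mul]
  obtain ⟨G, hG⟩ : ∃ G : ℂ → ℂ, G = fun z =>
      mellin (zfS fun c : R F => mu0 c * χ (nrmI (c : F))) z * (L z * E z) := ⟨_, rfl⟩
  have ho : IsOpen {z : ℂ | 383 / 384 < z.re} := isOpen_lt continuous_const continuous_re
  have dG : AnalyticOnNhd ℂ G {z : ℂ | 383 / 384 < z.re} :=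
    DifferentiableOn.analyticOnNhd (fun z hz => by
      rw [hG]
      exact ((zfA_diff ha a0 hC hz).mul
        ((hd z (lt_trans (by norm_num) hz)).mul (dE z))).differentiableWithinAt) ho
  have dH : AnalyticOnNhd ℂ (fun z : ℂ => (Real.pi : ℂ) ^ (1 / 2 : ℂ) * cexp (z ^ 2 / 4))
      {z : ℂ | 383 / 384 < z.re} :=
    DifferentiableOn.analyticOnNhd (Differentiable.differentiableOn (by fun_prop)) ho
  have e : ∀ z : ℂ, 2 < z.re → G z = (Real.pi : ℂ) ^ (1 / 2 : ℂ) * cexp (z ^ 2 / 4) := by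
    intro z hz
    have hz1 : 1 < z.re := by linarith
    have i1 := zfA_inv (φ := fun c : R F => χ (nrmI (c : F)) * (N c : ℂ) ^ (-z))
      (fun c d hc hd => by
        rw [zf_mul hc hd, h.map_mul, N_mul, ofReal_mul,
          mul_cpow_ofReal_nonneg (N_nonneg c) (N_nonneg d)]
        ring) (by rw [zf_one, h.map_one, N_one]; simp)
      ((summable_N_rpow hz1).of_nonneg_of_le (fun _ => cnt_ite_nonneg (norm_nonneg _)) fun c => by
        split_ifs with hc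
        · rw [norm_mul, norm_cpow_eq_rpow_re_of_pos (N_pos hc.ne_zero), neg_re]
          exact mul_le_of_le_one_left (Real.rpow_nonneg (N_nonneg c) _) (h.norm_le _)
        · exact le_rfl)
    rw [zf_LI h.map_bot, hE z hz, ← he z hz] at i1
    simp only [hG, zfA_series ha a0 hz1, P026.f2_mellin_w, mul_assoc (mu0 _)]
    rw [mul_right_comm, i1, one_mul]
  have key := dG.eqOn_of_preconnected_of_eventuallyEq dH
    (convex_halfSpace_re_gt _).isPreconnected (z₀ := 3) (by simp; norm_num)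
    (Filter.eventually_of_mem ((isOpen_lt continuous_const continuous_re).mem_nhds
      (by simp; norm_num : 2 < (3 : ℂ).re)) e) hs
  simp only [hG, h0, zero_mul, mul_zero] at key
  exact mul_ne_zero (cpow_ne_zero_iff.2 (Or.inl (ofReal_ne_zero.2 Real.pi_ne_zero)))
    (Complex.exp_ne_zero _) key.symm

end Vale.Agent.P319B
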