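import Vale.Agent.P319B.Theta
import Vale.Agent.P319B.Boot
import Vale.Agent.P319B.CtxEx
import Vale.Agent.P319B.HeckB
import Vale.Agent.P319B.ZFree
import Vale.Agent.P319B.Expl
import Vale.Agent.P319B.Final
import Vale.Agent.P319B.SmallQnr

/-! Small auxiliary primes, unconditionally. -/

namespace Vale.Agent.P319B

open NumberField

theorem psb : PSB := by
  obtain ⟨C0, h0, hc⟩ := hecke_cont
  obtain ⟨C, δ, hC, hδ, hE⟩ := explicit h0
  refine ⟨C, δ, hC, hδ, fun F _ _ ω hω m χ hχ y hy => ?_⟩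
  obtain ⟨c, hm⟩ := exists_ctx F ω hω hχ.m_pos.ne'
  obtain ⟨T⟩ := nonempty_theta (F := F)
  obtain ⟨L, h1, h2, h3⟩ := hc F m χ hχ
  have hr := rr_pos (F := F)
  have h4 := two_mul_rr (F := F)
  exact hE F (by omega) m χ hχ L h1 h2 h3
    (fun s hs => zero_free (boot T (by norm_num)) hm hχ h1 h2 hs) y hy

end Vale.Agent.P319B

namespace Vale.Agent.P319

theorem aux_prime : ∃ C : ℕ, ∀ q p : ℕ, q.Prime → p.Prime → 2 < q → q < p →
    ∃ l : ℕ, l.Prime ∧ l ≤ (q * Nat.size p) ^ C ∧ l ≠ p ∧ q ∣ l - 1 ∧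
      (p : ZMod l) ^ ((l - 1) / q) ≠ 1 := P319B.aux_of_psb P319B.psb

theorem small_qnr : ∃ C : ℕ, ∀ p : ℕ, p.Prime → 2 < p →
    ∃ a : ℕ, a ≤ (Nat.size p) ^ C ∧ ¬ IsSquare (a : ZMod p) := P319B.small_qnr'

end Vale.Agent.P319
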