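import Vale.Agent.P319B.Defs
import Vale.Agent.P026.MelD

/-! The Gamma factor, the dual kernel and its bounds. -/

namespace Vale.Agent.P319B

open Complex MeasureTheory Filter Topology Set
open scoped ComplexConjugate
open Vale.Agent.P026 (w melE melJ norm_melE melJ_int melJ_le melJ_nonneg melA_int_gauss)

noncomputable section

/-- The weight divided by the Gamma factor. -/
def mlg (r : ℕ) (Y t : ℝ) (u : ℂ) : ℂ := melE Y t u * (GG u)⁻¹ ^ r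

/-- The Mellin transform of the dual kernel. -/
def mlP (r : ℕ) (Y t : ℝ) (u : ℂ) : ℂ := mlg r Y t u * GG (1 - u) ^ r

/-- The dual kernel. -/
def mlH (r : ℕ) (Y t z : ℝ) : ℂ :=
  ∫ τ : ℝ, mlP r Y t ((1 / 2 : ℝ) + τ * I) * (z : ℂ) ^ (((1 / 2 : ℝ) : ℂ) + τ * I - 1)

end

theorem mlA_cpow {x : ℝ} (hx : 0 < x) (s : ℂ) : (x : ℂ) ^ s = cexp (Real.log x * s) := by
  rw [cpow_def_of_ne_zero (ofReal_ne_zero.2 hx.ne'), ofReal_log hx.le]

theorem mlA_inv (u : ℂ) : (GG u)⁻¹ = 2 * ((2 * Real.pi : ℝ) : ℂ) ^ (2 * u + 2 / 3) *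
    (Gamma (u + 1 / 3))⁻¹ * (Gamma (u + 2 / 3))⁻¹ := by
  rw [GG, show -(2 * u) - 2 / 3 = -(2 * u + 2 / 3) by ring, cpow_neg, mul_inv, mul_inv, inv_div,
    div_inv_eq_mul]

theorem mlA_inv_diff : Differentiable ℂ fun u => (GG u)⁻¹ := by
  simp only [mlA_inv]
  have h0 : ((2 * Real.pi : ℝ) : ℂ) ≠ 0 := ofReal_ne_zero.2 Real.two_pi_pos.ne'
  have h1 : Differentiable ℂ fun u : ℂ => ((2 * Real.pi : ℝ) : ℂ) ^ (2 * u + 2 / 3) :=
    Differentiable.const_cpow (by fun_prop) (Or.inl h0)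
  have h2 : ∀ a : ℂ, Differentiable ℂ fun u : ℂ => (Gamma (u + a))⁻¹ := fun a =>
    differentiable_one_div_Gamma.comp (differentiable_id.add_const a)
  exact ((h1.const_mul 2).mul (h2 _)).mul (h2 _)

theorem mlA_ne {u : ℂ} (hu : 0 < u.re) : GG u ≠ 0 := by
  have h0 : ((2 * Real.pi : ℝ) : ℂ) ≠ 0 := ofReal_ne_zero.2 Real.two_pi_pos.ne'
  refine mul_ne_zero (mul_ne_zero (div_ne_zero ?_ two_ne_zero) (Gamma_ne_zero_of_re_pos ?_))
    (Gamma_ne_zero_of_re_pos ?_)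
  · rw [Ne, cpow_eq_zero_iff]
    exact fun h => h0 h.1
  · simp only [add_re]
    norm_num
    linarith
  · simp only [add_re]
    norm_num
    linarith

theorem mlA_diffAt {u : ℂ} (hu : 0 < u.re) : DifferentiableAt ℂ GG u := by
  simpa only [Pi.inv_def, inv_inv] using (mlA_inv_diff u).inv (inv_ne_zero (mlA_ne hu))

theorem mlA_E_diff (Y t : ℝ) : Differentiable ℂ (melE Y t) := by
  unfold melE
  fun_prop

theorem mlg_diff (r : ℕ) (Y t : ℝ) : Differentiable ℂ (mlg r Y t) :=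
  (mlA_E_diff Y t).mul (mlA_inv_diff.pow r)

theorem mlP_diffAt (r : ℕ) (Y t : ℝ) {u : ℂ} (hu : u.re < 1) :
    DifferentiableAt ℂ (mlP r Y t) u := by
  have h1 : DifferentiableAt ℂ (fun u : ℂ => GG (1 - u)) u :=
    (mlA_diffAt (u := 1 - u) (by simpa using hu)).comp u (by fun_prop)
  exact (mlg_diff r Y t u).mul (h1.pow r)

theorem mlA_inv_bd (a b : ℝ) : ∃ C : ℝ, 0 ≤ C ∧ ∀ σ ∈ Icc a b, ∀ τ : ℝ,
    ‖(GG (σ + τ * I))⁻¹‖ ≤ C * Real.exp (2 * Real.pi * |τ|) := by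
  obtain ⟨C, hC0, hC⟩ := P026.melA_inv_Gamma (|a| + |b| + 1)
  have hc : Continuous fun σ : ℝ => 2 * (2 * Real.pi) ^ (2 * σ + 2 / 3) := by
    have h1 := Real.continuous_const_rpow Real.two_pi_pos.ne'
    fun_prop
  obtain ⟨D, hD⟩ := (isCompact_Icc (a := a) (b := b)).exists_bound_of_continuousOn hc.continuousOn
  refine ⟨|D| * (C * C), by positivity, fun σ hσ τ => ?_⟩
  have hσ' : |σ| ≤ |a| + |b| := by
    rw [abs_le]
    constructor <;> linarith [hσ.1, hσ.2, neg_abs_le a, le_abs_self b, abs_nonneg a, abs_nonneg b]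
  have hG : ∀ c : ℝ, |c| ≤ 1 → ‖(Gamma (σ + τ * I + c))⁻¹‖ ≤ C * Real.exp (Real.pi * |τ|) := by
    intro c hc
    have := hC (σ + τ * I + c) (by
      simp only [add_re, ofReal_re, mul_re, I_re, mul_zero, ofReal_im, I_im, mul_one, sub_self,
        add_zero]
      exact (abs_add_le _ _).trans (by linarith))
    simpa using this
  have h1 := hG (1 / 3) (by norm_num [abs_of_pos])
  have h2 := hG (2 / 3) (by norm_num [abs_of_pos])
  push_cast at h1 h2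
  have h3 := ((le_abs_self _).trans (hD σ hσ)).trans (le_abs_self D)
  have e2 : (2 * ((σ : ℂ) + τ * I) + 2 / 3).re = 2 * σ + 2 / 3 := by
    rw [add_re, show (2 * ((σ : ℂ) + τ * I)).re = 2 * σ by simp]
    norm_num
  rw [mlA_inv, norm_mul, norm_mul, norm_mul, norm_cpow_eq_rpow_re_of_pos Real.two_pi_pos, e2,
    Complex.norm_ofNat]
  calc _ ≤ |D| * (C * Real.exp (Real.pi * |τ|)) * (C * Real.exp (Real.pi * |τ|)) := by gcongr
    _ = _ := by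
      rw [show 2 * Real.pi * |τ| = Real.pi * |τ| + Real.pi * |τ| by ring, Real.exp_add]
      ring

theorem mlg_bound (r : ℕ) (Y t a b : ℝ) : ∃ C : ℝ, 0 ≤ C ∧ ∀ σ ∈ Icc a b, ∀ τ : ℝ,
    ‖mlg r Y t (σ + τ * I)‖ ≤ C * Real.exp (-(1 / 8) * τ ^ 2) := by
  obtain ⟨C, hC0, hC⟩ := mlA_inv_bd a b
  have hc : Continuous fun σ : ℝ => Real.exp (σ ^ 2 / 4 + σ * Real.log Y) / (2 * √Real.pi) := by
    fun_prop
  obtain ⟨D, hD⟩ := (isCompact_Icc (a := a) (b := b)).exists_bound_of_continuousOn hc.continuousOn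
  refine ⟨|D| * C ^ r * Real.exp (2 * (|t| / 2 + r * (2 * Real.pi)) ^ 2), by positivity,
    fun σ hσ τ => ?_⟩
  have h3 := ((le_abs_self _).trans (hD σ hσ)).trans (le_abs_self D)
  have h4 : Real.exp (-(τ + t) ^ 2 / 4) * Real.exp (2 * Real.pi * |τ|) ^ r ≤
      Real.exp (2 * (|t| / 2 + r * (2 * Real.pi)) ^ 2) * Real.exp (-(1 / 8) * τ ^ 2) := by
    rw [← Real.exp_nat_mul, ← Real.exp_add, ← Real.exp_add, Real.exp_le_exp, ← mul_assoc]
    have h5 : -(τ * t) ≤ |τ| * |t| := by rw [← abs_mul]; exact neg_le_abs _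
    nlinarith [sq_nonneg (|τ| - 4 * (|t| / 2 + r * (2 * Real.pi))), sq_abs τ, sq_nonneg t]
  rw [mlg, norm_mul, norm_pow, norm_melE]
  calc _ ≤ |D| * Real.exp (-(τ + t) ^ 2 / 4) * (C * Real.exp (2 * Real.pi * |τ|)) ^ r := by
        gcongr
        exact hC σ hσ τ
    _ = |D| * C ^ r * (Real.exp (-(τ + t) ^ 2 / 4) * Real.exp (2 * Real.pi * |τ|) ^ r) := by ring
    _ ≤ _ := by
      rw [mul_assoc (|D| * C ^ r)]
      gcongr

theorem mlA_GG_bd {a : ℝ} (ha : 0 < a) (b : ℝ) :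
    ∃ D : ℝ, 0 ≤ D ∧ ∀ u : ℂ, u.re ∈ Icc a b → ‖GG u‖ ≤ D := by
  have hc : ContinuousOn (fun σ : ℝ => (2 * Real.pi) ^ (-(2 * σ) - 2 / 3) / 2 *
      Real.Gamma (σ + 1 / 3) * Real.Gamma (σ + 2 / 3)) (Icc a b) := by
    have h1 := Real.continuous_const_rpow Real.two_pi_pos.ne'
    have h2 : ∀ c : ℝ, 0 < c → ContinuousOn (fun σ : ℝ => Real.Gamma (σ + c)) (Icc a b) :=
      fun c hc σ hσ => ((Real.differentiableAt_Gamma (s := σ + c) fun m => by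
        have : (0 : ℝ) ≤ m := Nat.cast_nonneg m
        linarith [hσ.1]).continuousAt.comp (f := fun σ : ℝ => σ + c)
          (by fun_prop)).continuousWithinAt
    exact (ContinuousOn.mul (by fun_prop) (h2 _ (by norm_num))).mul (h2 _ (by norm_num))
  obtain ⟨D, hD⟩ := (isCompact_Icc (a := a) (b := b)).exists_bound_of_continuousOn hc
  refine ⟨|D|, abs_nonneg D, fun u hu => ?_⟩
  refine le_trans ?_ (((le_abs_self _).trans (hD _ hu)).trans (le_abs_self D))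
  have e1 : (u + 1 / 3).re = u.re + 1 / 3 := by
    rw [add_re]
    norm_num
  have e2 : (u + 2 / 3).re = u.re + 2 / 3 := by
    rw [add_re]
    norm_num
  have e3 : (-(2 * u) - 2 / 3).re = -(2 * u.re) - 2 / 3 := by
    rw [sub_re, show (-(2 * u)).re = -(2 * u.re) by simp]
    norm_num
  have h1 := P026.melA_norm_Gamma_le (s := u + 1 / 3) (by rw [e1]; linarith [hu.1])
  have h2 := P026.melA_norm_Gamma_le (s := u + 2 / 3) (by rw [e2]; linarith [hu.1])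
  rw [e1] at h1
  rw [e2] at h2
  have h3 := (norm_nonneg _).trans h1
  rw [GG, norm_mul, norm_mul, norm_div, norm_cpow_eq_rpow_re_of_pos Real.two_pi_pos, e3,
    Complex.norm_ofNat]
  gcongr

theorem mlP_strip (r : ℕ) (Y t a : ℝ) {z : ℝ} (hz : 0 < z) : ∃ C : ℝ, ∀ σ ∈ Icc a (1 / 2),
    ∀ τ : ℝ, ‖mlP r Y t (σ + τ * I) * (z : ℂ) ^ ((σ : ℂ) + τ * I - 1)‖ ≤
      C * Real.exp (-(1 / 8) * τ ^ 2) := by
  obtain ⟨C, hC0, hC⟩ := mlg_bound r Y t a (1 / 2)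
  obtain ⟨D, hD0, hD⟩ := mlA_GG_bd (a := 1 / 2) (by norm_num) (1 - a)
  have hc : Continuous fun σ : ℝ => z ^ (σ - 1) := by
    have h1 := Real.continuous_const_rpow hz.ne'
    fun_prop
  obtain ⟨E, hE⟩ :=
    (isCompact_Icc (a := a) (b := 1 / 2)).exists_bound_of_continuousOn hc.continuousOn
  refine ⟨C * D ^ r * |E|, fun σ hσ τ => ?_⟩
  have h1 := hD (1 - (σ + τ * I)) (by
    simp only [sub_re, one_re, add_re, ofReal_re, mul_re, I_re, mul_zero, ofReal_im, I_im,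
      mul_one, sub_self, add_zero]
    exact ⟨by linarith [hσ.2], by linarith [hσ.1]⟩)
  have h2 := ((le_abs_self _).trans (hE σ hσ)).trans (le_abs_self E)
  have h3 := hC σ hσ τ
  rw [mlP, norm_mul, norm_mul, norm_pow, norm_cpow_eq_rpow_re_of_pos hz,
    show ((σ : ℂ) + τ * I - 1).re = σ - 1 by simp]
  calc _ ≤ C * Real.exp (-(1 / 8) * τ ^ 2) * D ^ r * |E| := by gcongr
    _ = _ := by ring

theorem mlA_cont {f : ℂ → ℂ} {σ : ℝ} (hf : ∀ z : ℂ, z.re = σ → DifferentiableAt ℂ f z) :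
    Continuous fun τ : ℝ => f (σ + τ * I) :=
  continuous_iff_continuousAt.2 fun τ =>
    (hf _ (by simp)).continuousAt.comp (f := fun τ : ℝ => (σ : ℂ) + τ * I) (by fun_prop)

/-- Shifting a vertical line of integration inside a half plane. -/
theorem mlA_shift {f : ℂ → ℂ} {a b C : ℝ} (hab : a ≤ b)
    (hf : ∀ z : ℂ, z.re ≤ b → DifferentiableAt ℂ f z)
    (hb : ∀ σ ∈ Set.Icc a b, ∀ τ : ℝ, ‖f (σ + τ * I)‖ ≤ C * Real.exp (-(1 / 8) * τ ^ 2)) :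
    ∫ τ : ℝ, f (a + τ * I) = ∫ τ : ℝ, f (b + τ * I) := by
  have ia := (melA_int_gauss C).mono' (mlA_cont fun z hz => hf z (hz.le.trans hab)).aestronglyMeasurable
    (Eventually.of_forall (hb a ⟨le_rfl, hab⟩))
  have ib := (melA_int_gauss C).mono' (mlA_cont fun z hz => hf z hz.le).aestronglyMeasurable
    (Eventually.of_forall (hb b ⟨hab, le_rfl⟩))
  have la := intervalIntegral_tendsto_integral ia tendsto_neg_atTop_atBot tendsto_id
  have lb := intervalIntegral_tendsto_integral ib tendsto_neg_atTop_atBot tendsto_id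
  have hz : Tendsto (fun T : ℝ => C * Real.exp (-(1 / 8) * T ^ 2) * |b - a|) atTop (𝓝 0) := by
    have h1 : Tendsto (fun T : ℝ => -(1 / 8) * T ^ 2) atTop atBot :=
      (tendsto_pow_atTop two_ne_zero).const_mul_atTop_of_neg (by norm_num)
    simpa using ((Real.tendsto_exp_atBot.comp h1).const_mul C).mul_const |b - a|
  have hor : ∀ T : ℝ, ‖∫ x : ℝ in a..b, f (x + T * I)‖ ≤
      C * Real.exp (-(1 / 8) * T ^ 2) * |b - a| := fun T =>
    intervalIntegral.norm_integral_le_of_norm_le_const fun x hx => by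
      rw [Set.uIoc_of_le hab] at hx
      exact hb x ⟨hx.1.le, hx.2⟩ T
  have h1 : Tendsto (fun T : ℝ => ∫ x : ℝ in a..b, f (x + T * I)) atTop (𝓝 0) :=
    squeeze_zero_norm hor hz
  have h2 : Tendsto (fun T : ℝ => ∫ x : ℝ in a..b, f (x + (-T : ℝ) * I)) atTop (𝓝 0) :=
    squeeze_zero_norm (fun T => by simpa using hor (-T)) hz
  have h3 := ((h2.sub h1).add (lb.const_smul I)).sub (la.const_smul I)
  have h4 : ∀ T : ℝ, (∫ x : ℝ in a..b, f (x + (-T : ℝ) * I)) - (∫ x : ℝ in a..b, f (x + T * I)) +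
      I • (∫ y : ℝ in (-T)..(id T), f (b + y * I)) -
      I • (∫ y : ℝ in (-T)..(id T), f (a + y * I)) = 0 := fun T =>
    integral_boundary_rect_eq_zero_of_differentiableOn f ⟨a, -T⟩ ⟨b, T⟩ fun z hz =>
      (hf z (by
        have h5 := hz.1
        rw [Set.uIcc_of_le hab] at h5
        exact h5.2)).differentiableWithinAt
  simp only [h4] at h3
  have h5 := tendsto_nhds_unique h3 tendsto_const_nhds
  simp only [sub_zero, zero_add, smul_eq_mul, sub_eq_zero] at h5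
  exact (mul_left_cancel₀ I_ne_zero h5).symm

theorem mlA_PZ_diff (r : ℕ) (Y t : ℝ) {z : ℝ} (hz : 0 < z) {u : ℂ} (hu : u.re ≤ 1 / 2) :
    DifferentiableAt ℂ (fun u => mlP r Y t u * (z : ℂ) ^ (u - 1)) u :=
  (mlP_diffAt r Y t (by linarith)).mul
    (DifferentiableAt.const_cpow (by fun_prop) (Or.inl (ofReal_ne_zero.2 hz.ne')))

theorem mlH_eq (r : ℕ) (Y t : ℝ) {σ z : ℝ} (hσ : σ ≤ 1 / 2) (hz : 0 < z) :
    mlH r Y t z = ∫ τ : ℝ, mlP r Y t (σ + τ * I) * (z : ℂ) ^ ((σ : ℂ) + τ * I - 1) := by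
  obtain ⟨C, hC⟩ := mlP_strip r Y t σ hz
  exact (mlA_shift (f := fun u => mlP r Y t u * (z : ℂ) ^ (u - 1)) hσ
    (fun u hu => mlA_PZ_diff r Y t hz hu) hC).symm

theorem mlP_int (r : ℕ) (Y t : ℝ) {σ z : ℝ} (hσ : σ ≤ 1 / 2) (hz : 0 < z) :
    Integrable fun τ : ℝ => mlP r Y t (σ + τ * I) * (z : ℂ) ^ ((σ : ℂ) + τ * I - 1) := by
  obtain ⟨C, hC⟩ := mlP_strip r Y t σ hz
  exact (melA_int_gauss C).mono' (mlA_cont (f := fun u => mlP r Y t u * (z : ℂ) ^ (u - 1))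
    fun u hu => mlA_PZ_diff r Y t hz (hu.le.trans hσ)).aestronglyMeasurable
    (Eventually.of_forall (hC σ ⟨le_rfl, hσ⟩))

theorem mlA_ratio (m : ℕ) : ∃ C : ℝ, 0 < C ∧ ∀ τ : ℝ,
    ‖(GG ((1 / 2 - m : ℝ) + τ * I))⁻¹ * GG (1 - ((1 / 2 - m : ℝ) + τ * I))‖ ≤
      C * (1 + |τ|) ^ (4 * m) := by
  have hc0 := Real.two_pi_pos
  refine ⟨(2 * Real.pi) ^ (-(4 * m) : ℝ) * (2 + m) ^ (4 * m), by positivity, fun τ => ?_⟩
  have hr : ∀ c : ℝ, 0 < c → c ≤ 2 → ‖Gamma (c - τ * I + m) * (Gamma (c + τ * I - m))⁻¹‖ ≤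
      ((2 + m) * (1 + |τ|)) ^ (2 * m) := by
    intro c h1 h2
    have := P026.melA_ratio (c + τ * I) (by simpa using h1) m
    rw [map_add, map_mul, conj_ofReal, conj_ofReal, conj_I, mul_neg, ← sub_eq_add_neg] at this
    refine this.trans (pow_le_pow_left₀ (by positivity) ?_ _)
    have h3 : ‖(c : ℂ) + τ * I‖ ≤ c + |τ| := (norm_add_le _ _).trans (by simp [abs_of_pos h1])
    have hm : (0 : ℝ) ≤ m := Nat.cast_nonneg m
    nlinarith [abs_nonneg τ]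
  have h1 := hr (5 / 6) (by norm_num) (by norm_num)
  have h2 := hr (7 / 6) (by norm_num) (by norm_num)
  have h0 : ((2 * Real.pi : ℝ) : ℂ) ≠ 0 := ofReal_ne_zero.2 hc0.ne'
  have e : (GG ((1 / 2 - m : ℝ) + τ * I))⁻¹ * GG (1 - ((1 / 2 - m : ℝ) + τ * I)) =
      ((2 * Real.pi : ℝ) : ℂ) ^ (((-(4 * m) : ℝ) : ℂ) + (4 * τ : ℝ) * I) *
      ((Gamma ((5 / 6 : ℝ) - τ * I + m) * (Gamma ((5 / 6 : ℝ) + τ * I - m))⁻¹) *
      (Gamma ((7 / 6 : ℝ) - τ * I + m) * (Gamma ((7 / 6 : ℝ) + τ * I - m))⁻¹)) := by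
    have a1 : (((-(4 * m) : ℝ) : ℂ) + (4 * τ : ℝ) * I) =
        (2 * ((1 / 2 - m : ℝ) + τ * I) + 2 / 3) +
          (-(2 * (1 - ((1 / 2 - m : ℝ) + τ * I))) - 2 / 3) := by
      push_cast
      ring
    have a2 : ((5 / 6 : ℝ) : ℂ) - τ * I + m = 1 - ((1 / 2 - m : ℝ) + τ * I) + 1 / 3 := by
      push_cast
      ring
    have a3 : ((7 / 6 : ℝ) : ℂ) - τ * I + m = 1 - ((1 / 2 - m : ℝ) + τ * I) + 2 / 3 := by
      push_cast
      ring
    have a4 : ((5 / 6 : ℝ) : ℂ) + τ * I - m = (1 / 2 - m : ℝ) + τ * I + 1 / 3 := by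
      push_cast
      ring
    have a5 : ((7 / 6 : ℝ) : ℂ) + τ * I - m = (1 / 2 - m : ℝ) + τ * I + 2 / 3 := by
      push_cast
      ring
    rw [a1, cpow_add _ _ h0, a2, a3, a4, a5, mlA_inv, GG]
    ring
  have e3 : (((-(4 * m) : ℝ) : ℂ) + (4 * τ : ℝ) * I).re = -(4 * m) := by simp
  rw [e, norm_mul, norm_mul, norm_cpow_eq_rpow_re_of_pos hc0, e3]
  calc _ ≤ (2 * Real.pi) ^ (-(4 * m) : ℝ) *
        (((2 + m) * (1 + |τ|)) ^ (2 * m) * ((2 + m) * (1 + |τ|)) ^ (2 * m)) := by gcongr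
    _ = _ := by
      rw [← pow_add, show 2 * m + 2 * m = 4 * m by ring, mul_pow]
      ring

theorem mlP_bound (r m : ℕ) : ∃ C : ℝ, 0 < C ∧ ∀ Y t τ : ℝ, 0 < Y →
    ‖mlP r Y t ((1 / 2 - m : ℝ) + τ * I)‖ ≤
      C * (√Y * Y⁻¹ ^ m) * (Real.exp (-(τ + t) ^ 2 / 4) * (1 + |τ|) ^ (4 * m * r)) := by
  obtain ⟨C, hC, h⟩ := mlA_ratio m
  have hπ : 0 < √Real.pi := Real.sqrt_pos.2 Real.pi_pos
  refine ⟨Real.exp ((1 / 2 - m : ℝ) ^ 2 / 4) / (2 * √Real.pi) * C ^ r, by positivity,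
    fun Y t τ hY => ?_⟩
  have e2 : Real.exp ((1 / 2 - m : ℝ) ^ 2 / 4 + (1 / 2 - m) * Real.log Y) =
      Real.exp ((1 / 2 - m : ℝ) ^ 2 / 4) * (√Y * Y⁻¹ ^ m) := by
    rw [Real.exp_add, mul_comm _ (Real.log Y), ← Real.rpow_def_of_pos hY, Real.rpow_sub hY,
      Real.rpow_natCast, Real.sqrt_eq_rpow, inv_pow, div_eq_mul_inv (Y ^ _)]
  rw [mlP, mlg, mul_assoc, ← mul_pow, norm_mul, norm_pow, norm_melE, e2]
  calc _ ≤ Real.exp ((1 / 2 - m : ℝ) ^ 2 / 4) * (√Y * Y⁻¹ ^ m) / (2 * √Real.pi) *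
        Real.exp (-(τ + t) ^ 2 / 4) * (C * (1 + |τ|) ^ (4 * m)) ^ r := by
        gcongr
        exact h τ
    _ = _ := by
      rw [mul_pow, ← pow_mul]
      ring

theorem mlH_bound (r m : ℕ) : ∃ C : ℝ, 0 < C ∧ ∀ Y t z : ℝ, 0 < Y → 0 < z →
    ‖mlH r Y t z‖ ≤ C * (1 + |t|) ^ (4 * m * r) * (√Y * Y⁻¹ ^ m) * z ^ (-(1 / 2) - m : ℝ) := by
  obtain ⟨C, hC, hb⟩ := mlP_bound r m
  have hJ : 0 ≤ ∫ x, melJ (4 * m * r) x := integral_nonneg (melJ_nonneg _)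
  refine ⟨C * ((∫ x, melJ (4 * m * r) x) + 1), by positivity, fun Y t z hY hz => ?_⟩
  have hm : (0 : ℝ) ≤ m := Nat.cast_nonneg m
  rw [mlH_eq r Y t (σ := 1 / 2 - m) (by linarith) hz]
  have hi := ((melJ_int (4 * m * r)).comp_add_right t).const_mul
    (C * (1 + |t|) ^ (4 * m * r) * (√Y * Y⁻¹ ^ m) * z ^ (-(1 / 2) - m : ℝ))
  refine (norm_integral_le_of_norm_le hi (Eventually.of_forall fun τ => ?_)).trans ?_
  · have e : (((1 / 2 - m : ℝ) : ℂ) + τ * I - 1).re = -(1 / 2) - m := by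
      simp
      ring
    rw [norm_mul, norm_cpow_eq_rpow_re_of_pos hz, e]
    calc _ ≤ C * (√Y * Y⁻¹ ^ m) * ((1 + |t|) ^ (4 * m * r) * melJ (4 * m * r) (τ + t)) *
          z ^ (-(1 / 2) - m : ℝ) := by
          gcongr
          exact (hb Y t τ hY).trans (mul_le_mul_of_nonneg_left (melJ_le _ τ t) (by positivity))
      _ = _ := by ring
  · rw [integral_const_mul, integral_add_right_eq_self]
    calc _ ≤ C * (1 + |t|) ^ (4 * m * r) * (√Y * Y⁻¹ ^ m) * z ^ (-(1 / 2) - m : ℝ) *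
          ((∫ x, melJ (4 * m * r) x) + 1) := by
          gcongr
          linarith
      _ = _ := by ring

end Vale.Agent.P319B
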