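import Vale.Agent.P319B.MilgA
import Vale.Agent.P319B.Loc

/-! The quadratic Gauss sum is locally constant at M. -/

namespace Vale.Agent.P319B

open Complex NumberField MeasureTheory Filter Topology
open scoped Classical ComplexConjugate Real
open Vale.Agent.P026 (w kk fk)

section

variable {F : Type} [Field F] [NumberField F] [Om F]

theorem mg_eT (z : F) : eT z = cexp (2 * π * I * ((∑ v : Io F, 2 * (v.1 z).re : ℝ) : ℂ)) := by
  rw [← trace_eq, eT, ofReal_ratCast]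

theorem mg_decay {a : Io F → ℝ} (ha : ∀ v, 0 < a v) (s : ℝ) (hs : 0 ≤ s) :
    ∃ C : ℝ, ∀ x : Io F → ℂ,
      Real.exp (-(π * ∑ v, a v * normSq (x v))) ≤ C * (1 + ‖x‖) ^ (-s) := by
  obtain ⟨v0, h0⟩ := Finite.exists_min a
  have hm := mul_pos Real.pi_pos (ha v0)
  refine ⟨Real.exp (s ^ 2 / (4 * (π * a v0))), fun x => ?_⟩
  obtain ⟨v1, h1⟩ := Finite.exists_max fun v => ‖x v‖
  have h2 : ‖x‖ ≤ ‖x v1‖ := (pi_norm_le_iff_of_nonneg (norm_nonneg _)).2 h1
  have h3 : a v0 * ‖x‖ ^ 2 ≤ ∑ v, a v * normSq (x v) := le_trans (by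
      rw [normSq_eq_norm_sq]
      exact mul_le_mul (h0 v1) (by gcongr) (sq_nonneg _) (ha v1).le)
    (Finset.single_le_sum (f := fun v => a v * normSq (x v))
      (fun v _ => mul_nonneg (ha v).le (normSq_nonneg _)) (Finset.mem_univ v1))
  rw [Real.rpow_def_of_pos (by positivity), ← Real.exp_add, Real.exp_le_exp]
  have h4 : Real.log (1 + ‖x‖) ≤ ‖x‖ := by
    linarith [Real.log_le_sub_one_of_pos (show 0 < 1 + ‖x‖ by positivity)]
  have h5 : s * ‖x‖ - π * a v0 * ‖x‖ ^ 2 ≤ s ^ 2 / (4 * (π * a v0)) := by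
    rw [le_div_iff₀ (by positivity)]
    nlinarith [sq_nonneg (s - 2 * (π * a v0) * ‖x‖)]
  nlinarith [mul_le_mul_of_nonneg_left h3 Real.pi_pos.le, mul_le_mul_of_nonneg_left h4 hs]

/-- Poisson summation for a Gaussian with a quadratic phase. -/
theorem mg_pois {L : AddSubgroup F} (hL : IsLat L) {κ : F} (hκ : κ ≠ 0) {ε : ℝ} (hε : 0 < ε) :
    ∑' x : L, eT (κ * x ^ 2) *
        (Real.exp (-(π * ∑ v : Io F, 4 * ‖v.1 κ‖ * ε * sqv (x : F) v)) : ℂ) =
      (cov L : ℂ)⁻¹ * (((∏ v : Io F, (4 * ‖v.1 κ‖ * √(1 + ε ^ 2))⁻¹ : ℝ) : ℂ) * ∑' h : dualL L,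
        eT (-(h ^ 2 / (4 * κ)) : F) * (Real.exp (-(π * ∑ v : Io F,
          ε / (‖v.1 κ‖ * (1 + ε ^ 2)) * sqv (h : F) v)) : ℂ) * cexp (I * ((2 * π *
            (ε ^ 2 / (1 + ε ^ 2)) * ∑ v : Io F, 2 * (v.1 (h ^ 2 / (4 * κ))).re : ℝ) : ℂ))) := by
  have hk : ∀ v : Io F, 0 < ‖v.1 κ‖ := fun v => norm_pos_iff.2 ((map_ne_zero v.1).2 hκ)
  let f : (Io F → ℂ) → ℂ := fun x =>
    (Real.exp (-(π * ∑ v : Io F, 4 * ‖v.1 κ‖ * ε * normSq (x v))) : ℂ) * eA (emb κ * x) x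
  have hF : ∀ h : F, FT f (emb h) = ((∏ v : Io F, (4 * ‖v.1 κ‖ * √(1 + ε ^ 2))⁻¹ : ℝ) : ℂ) *
      (eT (-(h ^ 2 / (4 * κ)) : F) * (Real.exp (-(π * ∑ v : Io F,
        ε / (‖v.1 κ‖ * (1 + ε ^ 2)) * sqv (h : F) v)) : ℂ) * cexp (I * ((2 * π *
          (ε ^ 2 / (1 + ε ^ 2)) * ∑ v : Io F, 2 * (v.1 (h ^ 2 / (4 * κ))).re : ℝ) : ℂ))) := by
    intro h
    have h1 := Finset.prod_congr (s₁ := Finset.univ) rfl fun (v : Io F) _ =>
      mg_one (norm_pos_iff.1 (hk v)) hε (v.1 h)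
    rw [← integral_fintype_prod_volume_eq_prod, Finset.prod_mul_distrib, ← ofReal_prod] at h1
    refine (integral_congr_ae (ae_of_all _ fun x => ?_)).trans (h1.trans ?_)
    · simp only [f]
      rw [← eA_neg, eA, eA, ofReal_exp, ← Complex.exp_add, ← Complex.exp_add, ← Complex.exp_sum]
      congr 1
      simp only [Finset.sum_add_distrib, ← Finset.mul_sum, ← ofReal_sum,
        Finset.sum_neg_distrib, Pi.neg_apply, mul_neg, neg_re, ofReal_neg, Pi.mul_apply, emb,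
        sub_eq_add_neg]
    · congr 1
      rw [mg_eT, ofReal_exp, ← Complex.exp_add, ← Complex.exp_add, ← Complex.exp_sum]
      congr 1
      simp only [Finset.sum_add_distrib, ← Finset.mul_sum, ← ofReal_sum, ← Finset.sum_div,
        Finset.sum_neg_distrib, map_neg, map_div₀, map_pow, map_mul, map_ofNat, neg_re, mul_neg,
        sqv]
      have : (1 : ℂ) + ε ^ 2 ≠ 0 := by exact_mod_cast (show (0 : ℝ) < 1 + ε ^ 2 by positivity).ne'
      generalize ∑ v : Io F, (v.1 h ^ 2 / (4 * v.1 κ)).re = t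
      generalize ∑ v : Io F, ε / (‖v.1 κ‖ * (1 + ε ^ 2)) * normSq (v.1 h) = S
      push_cast
      field_simp
      ring
  obtain ⟨C, hC⟩ := mg_decay (a := fun v : Io F => 4 * ‖v.1 κ‖ * ε)
    (fun v => by have := hk v; positivity) ((dg F : ℝ) + 1) (by positivity)
  have h2 := poisson hL (f := f) (by
      simp only [f, eA, Pi.mul_apply]
      fun_prop)
    (C := C) (fun x => by
      simp only [f]
      rw [norm_mul, norm_eA, mul_one, norm_real, Real.norm_of_nonneg (Real.exp_pos _).le]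
      exact hC x) (by
      simp only [hF]
      refine Summable.mul_left _ (Summable.of_norm_bounded (mg_summable hL.dual
        (a := fun v => ε / (‖v.1 κ‖ * (1 + ε ^ 2))) fun v => by have := hk v; positivity)
        fun h => ?_)
      rw [norm_mul, norm_mul, norm_eT, norm_exp_I_mul_ofReal, norm_real, one_mul, mul_one,
        Real.norm_of_nonneg (Real.exp_pos _).le]) 0
  simp only [zero_add, eA_zero, mul_one, hF, tsum_mul_left] at h2
  refine (tsum_congr fun x => ?_).trans h2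
  simp only [f]
  rw [← emb_mul, ← eT_eq_eA, mul_comm, sq, mul_assoc κ]
  rfl

/-- Reciprocity for quadratic Gauss sums over lattices. -/
theorem mg_recip {L L' L'' : AddSubgroup F} (hL : IsLat L) (hL' : IsLat L') (hL'' : IsLat L'')
    (h1 : L' ≤ L) (h2 : L'' ≤ dualL L) {κ : F} (hκ : κ ≠ 0) {φ ψ : F → ℂ}
    (hφ : ∀ x, φ x = if x ∈ L then eT (κ * x ^ 2) else 0)
    (hψ : ∀ x, ψ x = if x ∈ dualL L then eT (-(x ^ 2 / (4 * κ))) else 0)
    (pφ : ∀ x y, x - y ∈ L' → φ x = φ y) (pψ : ∀ x y, x - y ∈ L'' → ψ x = ψ y) :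
    (cov L' : ℂ)⁻¹ * qsum L' φ =
      (cov L : ℂ)⁻¹ * (√(Nin κ) : ℝ) * ((cov L'' : ℂ)⁻¹ * qsum L'' ψ) := by
  have hk : ∀ v : Io F, 0 < ‖v.1 κ‖ := fun v => norm_pos_iff.2 ((map_ne_zero v.1).2 hκ)
  obtain ⟨ε, he0, he⟩ : ∃ ε : ℕ → ℝ, (∀ n, 0 < ε n) ∧ Tendsto ε atTop (𝓝 0) :=
    ⟨_, fun n => Nat.one_div_pos_of_nat, tendsto_one_div_add_atTop_nhds_zero_nat⟩
  have t1 := mg_mean hL hL' h1 (f := φ) (fun x hx => by_contra fun h => hx (by rw [hφ, if_neg h]))
    pφ (a := fun n v => 4 * ‖v.1 κ‖ * ε n) (fun n v => by have := hk v; have := he0 n; positivity)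
    fun v => by simpa using he.const_mul (4 * ‖v.1 κ‖)
  have t0 : Tendsto (fun n => 1 + ε n ^ 2) atTop (𝓝 1) := by
    simpa using (he.pow 2).const_add 1
  have t2 := mg_mean' hL.dual hL'' h2 (f := ψ)
    (fun x hx => by_contra fun h => hx (by rw [hψ, if_neg h])) pψ
    (fun x => by rw [hψ]; split_ifs <;> simp [norm_eT])
    (a := fun n v => ε n / (‖v.1 κ‖ * (1 + ε n ^ 2)))
    (fun n v => by have := hk v; have := he0 n; positivity)
    (fun v => by
      simpa [Pi.div_def] using he.div (t0.const_mul ‖v.1 κ‖) (by simpa using (hk v).ne'))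
    (θ := fun n h => 2 * π * (ε n ^ 2 / (1 + ε n ^ 2)) * ∑ v : Io F, 2 * (v.1 (h ^ 2 / (4 * κ))).re)
    he (fun n => (he0 n).le) fun n h => by
      rw [abs_mul, abs_of_nonneg (by positivity), Finset.mul_sum, Finset.mul_sum]
      refine (mul_le_mul_of_nonneg_left (Finset.abs_sum_le_sum_abs _ _) (by positivity)).trans ?_
      rw [Finset.mul_sum]
      refine Finset.sum_le_sum fun v _ => ?_
      rw [abs_mul, abs_two]
      refine (mul_le_mul_of_nonneg_left (mul_le_mul_of_nonneg_left (abs_re_le_norm _)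
        zero_le_two) (by positivity)).trans (le_of_eq ?_)
      have := hk v
      simp only [map_div₀, map_pow, map_mul, map_ofNat, norm_div, norm_pow, norm_mul,
        Complex.norm_ofNat, sqv_eq]
      field_simp
      ring
  have t3 := (((continuous_ofReal.tendsto _).comp ((t0.sqrt.pow (rr F)).const_mul
    (√(Nin κ)))).const_mul (cov L : ℂ)⁻¹).mul t2
  rw [Real.sqrt_one, one_pow, mul_one] at t3
  refine tendsto_nhds_unique t1 (t3.congr fun n => ?_)
  have e : (∏ v : Io F, 4 * ‖v.1 κ‖ * ε n) * ∏ v : Io F, (4 * ‖v.1 κ‖ * √(1 + ε n ^ 2))⁻¹ =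
      √(Nin κ) * √(1 + ε n ^ 2) ^ rr F * ∏ v : Io F, ε n / (‖v.1 κ‖ * (1 + ε n ^ 2)) := by
    rw [sqrt_Nin, rr, ← Finset.card_univ, ← Finset.prod_const, ← Finset.prod_mul_distrib,
      ← Finset.prod_mul_distrib, ← Finset.prod_mul_distrib]
    refine Finset.prod_congr rfl fun v _ => ?_
    have := hk v
    have h3 : 0 < √(1 + ε n ^ 2) := by positivity
    field_simp
    rw [Real.sq_sqrt (by positivity)]
  simp only [hφ, hψ, SetLike.coe_mem, if_true, Function.comp_apply]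
  rw [mg_pois hL hκ (he0 n), mul_left_comm (ofReal _) (cov L : ℂ)⁻¹,
    ← mul_assoc (ofReal _) (ofReal _), ← ofReal_mul, e, ofReal_mul _ (∏ v : Io F, _)]
  ring

end

variable {F : Type} [Field F] [NumberField F] [Ctx0 F]

theorem mg_four : Hi 2 ((4 : F)⁻¹) := by
  obtain ⟨m, hm⟩ := Ctx0.six (F := F)
  have : MF F ^ 2 * 4⁻¹ = ((9 * m ^ 2 : ℕ) : F) := by
    rw [MF, hm]
    push_cast
    ring
  rw [Hi, this]
  exact natCast_mem _ _

theorem mg_formula {c : R F} (hc : c ≠ 0) {a k : ℕ} (ha : Hi a (c : F))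
    (hk : MF F ^ k * MF F ^ k / c ∈ Ol F) :
    Gam c = ((√(nf (c : F)) : ℝ) : ℂ)⁻¹ * ((cov (Lb F (k + 1 + (a + 2))) : ℂ)⁻¹ *
      qsum (Lb F (k + 1 + (a + 2)))
        fun h => if h ∈ dualL (Lb F k) then psiL (-(h ^ 2 * c / 4)) else 0) := by
  have c0 : (c : F) ≠ 0 := fun h => hc (Subtype.ext h)
  have y0 : MF F ^ k ≠ 0 := pow_ne_zero _ MF_ne
  have r4 : (4 : F)⁻¹ ∈ Rr F (Ctx0.M F) := by
    have := (isUnit_iff_inv.1 (isUnit_two (F := F))).2
    rw [show ((2 : R F) : F) = 2 from rfl] at this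
    rw [show (4 : F)⁻¹ = 2⁻¹ * 2⁻¹ by norm_num]
    exact mul_mem this this
  have l1 : lat (c : F) (MF F ^ k) ≤ Lb F k := fun x hx => mem_Lb.2
    ⟨div_mul_cancel₀ x c0 ▸ mul_mem (mem_lat.1 hx).1 c.2, (mem_lat.1 hx).2⟩
  have l2 : Lb F (k + 1 + (a + 2)) ≤ dualL (Lb F k) := fun x hx => mem_dual_Lb.2
    ⟨(mem_Lb.1 hx).1, Ol_le_Od (mul_mem (mem_Lb.1 hx).2.mem (pow_mem MF_mem_Ol _))⟩
  have hP : Pe c fun x => psi c (1 * x ^ 2) := fun x y h =>
    psi_congr (by rw [one_mul, one_mul]; exact h.trans (sub_dvd_pow_sub_pow x y 2))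
  have hI : ∀ x x' : F, (x - x') / MF F ^ k ∈ Ol F → (if x / MF F ^ k ∈ Ol F then (1 : ℂ) else 0)
      = if x' / MF F ^ k ∈ Ol F then 1 else 0 := fun x x' h => by
    rw [sub_div] at h
    exact if_congr ⟨fun hx => by simpa using sub_mem hx h, fun hx => by simpa using add_mem h hx⟩
      rfl rfl
  have h1 := qsum_crt hc y0 hP hI (a := 0) fun x hx =>
    Hi.of_mem _ (Lo.mem (e := k) (by_contra fun h => hx (if_neg h)))
  have h2 := qsum_ind_Ol (z := 0) y0 y0 (by rw [div_self y0]; exact one_mem _)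
    (by rw [zero_mul]; exact zero_mem _)
  simp only [zero_mul, psiL_zero, zero_mem, if_true, div_self (nf_pos _).ne', ofReal_one] at h2
  rw [h2, mul_one] at h1
  have h3 := mg_recip (isLat_Lb k) (isLat_lat c0 y0) (isLat_Lb _) l1 l2 (inv_ne_zero c0)
    (φ := fun d => ext0 (fun x => psi c (1 * x ^ 2)) d * if d / MF F ^ k ∈ Ol F then 1 else 0)
    (ψ := fun h => if h ∈ dualL (Lb F k) then psiL (-(h ^ 2 * c / 4)) else 0)
    (fun x => ?_) (fun x => ?_) (fun x y h => ?_) fun x y h => ?_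
  · rw [h1, sqrt_Nin, ← sqrt_Nin, Nin_inv, Nin_eq_N_mul, cov_lat c0 y0] at h3
    have e : cov (Lb F k) = NF (1 : F) * nf (MF F ^ k) * cov (latO F) := cov_lat one_ne_zero y0
    rw [e, NF_one, one_mul, Real.sqrt_inv, Real.sqrt_mul (N_nonneg c), ← N, ← ab, ← ab_sq, ← Gq]
      at h3
    have n1 := ofReal_ne_zero.2 (nf_pos (MF F ^ k)).ne'
    have n2 := ofReal_ne_zero.2 (cov_pos (isLat_latO (F := F))).ne'
    have n3 := ofReal_ne_zero.2 (ab_pos hc).ne'
    push_cast at h3 n1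
    rw [Gam]
    generalize (cov (Lb F (k + 1 + (a + 2))) : ℂ)⁻¹ * _ = T at h3 ⊢
    field_simp at h3 ⊢
    exact h3
  · by_cases hx : x ∈ Lb F k
    · obtain ⟨hx1, hx2⟩ := mem_Lb.1 hx
      rw [if_pos hx, if_pos (show x / MF F ^ k ∈ Ol F from hx2), mul_one,
        show x = ((⟨x, hx1⟩ : R F) : F) from rfl, ext0_coe, one_mul, psi,
        psiP_of_Od (Ol_le_Od ?_), div_eq_inv_mul]
      · rfl
      · have : (((⟨x, hx1⟩ : R F) ^ 2 : R F) : F) / c
            = x / MF F ^ k * (x / MF F ^ k) * (MF F ^ k * MF F ^ k / c) := by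
          push_cast
          field_simp
        exact this ▸ mul_mem (mul_mem hx2 hx2) hk
    · rw [if_neg hx]
      by_cases h' : x / MF F ^ k ∈ Ol F
      · rw [ext0_of_not fun h => hx (mem_Lb.2 ⟨h, h'⟩), zero_mul]
      · rw [if_neg h', mul_zero]
  · refine if_ctx_congr Iff.rfl (fun hx => ?_) fun _ => rfl
    rw [psiL_of_mem_R (neg_mem (by
      rw [div_eq_mul_inv]
      exact mul_mem (mul_mem (pow_mem (mem_dual_Lb.1 hx).1 2) c.2) r4))]
    congr 1
    field_simp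
  · rw [hI x y (mem_lat.1 h).2]
    congr 1
    have hr := (mem_Lb.1 (l1 h)).1
    by_cases hy : y ∈ Rr F (Ctx0.M F)
    · have hx : x ∈ Rr F (Ctx0.M F) := by simpa using add_mem hr hy
      exact ((ext0_coe _ ⟨x, hx⟩).trans (hP _ _ ((dvd_iff_div hc).2 (mem_lat.1 h).1))).trans
        (ext0_coe _ ⟨y, hy⟩).symm
    · rw [ext0_of_not hy, ext0_of_not fun hx => hy (by simpa using sub_mem hx hr)]
  · refine if_ctx_congr ⟨fun hx => by simpa using sub_mem hx (l2 h),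
      fun hy => by simpa using add_mem (l2 h) hy⟩ (fun hy => ?_) fun _ => rfl
    have hx : x + y ∈ dualL (Lb F k) := by simpa using add_mem (add_mem (l2 h) hy) hy
    have h4 : Hi (k + 1) (x + y) := by
      have := Hi_of_Od (mem_dual_Lb.1 hx).2
      unfold Hi at this ⊢
      rwa [pow_succ, show MF F ^ k * MF F * (x + y) = MF F ^ 1 * ((x + y) * MF F ^ k) by ring]
    have h5 := (Hi.mul_Lo (e := 0) (h4.mul (ha.mul mg_four)) (mem_Lb.1 h).2).neg.mem
    rw [show -(x ^ 2 * c / 4) = -((x + y) * (c * 4⁻¹) * (x - y)) + -(y ^ 2 * c / 4) by ring,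
      psiL_add, psiL_of_Od (Ol_le_Od h5), one_mul]

theorem milgram_loc {z : F} (hz : z ≠ 0) : ∃ K : ℕ, ∀ c c' : R F, OlU ((c' : F) / z) →
    InU (K + 1) ((c : F) / c') → Gam c = Gam c' := by
  obtain ⟨a, ha⟩ := exists_Hi z
  obtain ⟨k, hk⟩ := exists_Lo_div hz 0
  refine ⟨k + 1 + (k + 1) + (a + 2), fun c c' h1 h2 => ?_⟩
  have key : ∀ d : R F, OlU ((d : F) / z) →
      d ≠ 0 ∧ Hi a (d : F) ∧ MF F ^ k * MF F ^ k / d ∈ Ol F := fun d hd => by
    have d0 : (d : F) ≠ 0 := fun h => hd.1 (by rw [h, zero_div])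
    refine ⟨fun h => d0 (by rw [h]; rfl), ?_, ?_⟩
    · simpa [hz] using (Hi.of_mem 0 hd.2.1).mul ha
    · have := mul_mem (hk _ ((Lo_MF_pow k).mul_right (pow_mem MF_mem_Ol k))).mem hd.2.2
      rwa [inv_div, div_mul_div_cancel₀ hz] at this
  obtain ⟨c0', ha', hk'⟩ := key c' h1
  have d0 := h2.right_ne (Nat.le_add_left _ _)
  obtain ⟨c0, ha'', hk''⟩ := key c (by
    simpa only [div_mul_div_cancel₀ d0] using (h2.olU (Nat.le_add_left _ _)).mul h1)
  rw [mg_formula c0 ha'' hk'', mg_formula c0' ha' hk', nf_eq_of_inU (Nat.le_add_left _ _) h2]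
  congr 3
  refine funext fun h => if_ctx_congr Iff.rfl (fun hh => ?_) fun _ => rfl
  have h4 : Hi (k + 1) h := by
    have := Hi_of_Od (mem_dual_Lb.1 hh).2
    unfold Hi at this ⊢
    rwa [pow_succ, show MF F ^ k * MF F * h = MF F ^ 1 * (h * MF F ^ k) by ring]
  have h5 := (Hi.mul_Lo (e := 1) ((h4.mul h4).mul (ha'.mul mg_four)) h2).neg.mem
  rw [show -(h ^ 2 * c / 4) = -(h * h * (c' * 4⁻¹) * (c / c' - 1)) + -(h ^ 2 * c' / 4) by
    field_simp; ring, psiL_add, psiL_of_Od (Ol_le_Od h5), one_mul]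

end Vale.Agent.P319B
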