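import Vale.Agent.P319B.Pois

/-! Fourier transform of a Gaussian with a quadratic phase; Abel means over lattices. -/

namespace Vale.Agent.P319B

open Complex NumberField MeasureTheory Filter Topology
open scoped Classical ComplexConjugate Real

theorem mg_real {k ε : ℝ} (hk : 0 < k) (hε : 0 < ε) (ξ : ℂ) :
    ∫ x : ℂ, cexp (((-(π * (4 * k * ε * normSq x)) : ℝ) : ℂ)
        + 2 * π * I * ((2 * (k * x * x).re : ℝ) : ℂ) - 2 * π * I * ((2 * (ξ * x).re : ℝ) : ℂ)) =
      (((4 * k * √(1 + ε ^ 2))⁻¹ : ℝ) : ℂ) *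
        cexp (((-(π * (ε / (k * (1 + ε ^ 2)) * normSq ξ)) : ℝ) : ℂ)
          + 2 * π * I * ((2 * (-(ξ ^ 2 / (4 * k))).re / (1 + ε ^ 2) : ℝ) : ℂ)) := by
  have hp := Real.pi_pos
  have h1 : (-(4 * π * k * (ε - I)) : ℂ).re < 0 := by simp; positivity
  have h2 : (-(4 * π * k * (ε + I)) : ℂ).re < 0 := by simp; positivity
  have e1 : (ε : ℂ) - I ≠ 0 := fun h => hε.ne' (by simpa using congrArg re h)
  have e2 : (ε : ℂ) + I ≠ 0 := fun h => hε.ne' (by simpa using congrArg re h)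
  have e3 : (1 : ℂ) + ε ^ 2 = (ε - I) * (ε + I) := by linear_combination I_sq
  have k0 : (k : ℂ) ≠ 0 := ofReal_ne_zero.2 hk.ne'
  have p0 : (π : ℂ) ≠ 0 := ofReal_ne_zero.2 hp.ne'
  rw [← (volume_preserving_equiv_real_prod.symm _).integral_comp']
  have h3 := integral_prod_mul (μ := volume) (ν := volume)
    (fun s : ℝ => cexp (-(4 * π * k * (ε - I)) * s ^ 2 + -(4 * π * I * ξ.re) * s + 0))
    (fun s : ℝ => cexp (-(4 * π * k * (ε + I)) * s ^ 2 + 4 * π * I * ξ.im * s + 0))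
  rw [integral_cexp_quadratic h1, integral_cexp_quadratic h2] at h3
  refine (integral_congr_ae (ae_of_all _ fun p => ?_)).trans (h3.trans ?_)
  · simp only [← Complex.exp_add, measurableEquivRealProd_symm_apply, normSq_mk, mul_re, mul_im,
      ofReal_re, ofReal_im]
    congr 1
    push_cast
    ring
  · have h4 : (π : ℂ) / -(-(4 * π * k * (ε + I))) = conj (π / -(-(4 * π * k * (ε - I)))) := by
      simp [map_ofNat]
    have h5 : ‖(π : ℂ) / -(-(4 * π * k * (ε - I)))‖ = (4 * k * √(1 + ε ^ 2))⁻¹ := by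
      have : ‖(ε : ℂ) - I‖ = √(1 + ε ^ 2) := by
        rw [norm_eq_sqrt_sq_add_sq]
        simp [add_comm]
      simp only [neg_neg, norm_div, norm_mul, this, norm_real, Real.norm_of_nonneg hp.le,
        Real.norm_of_nonneg hk.le, norm_ofNat]
      field_simp
    have h6 : ((π : ℂ) / -(-(4 * π * k * (ε - I)))).arg ≠ π := fun h => by
      have h7 := (arg_eq_pi_iff.1 h).1
      rw [neg_neg, div_re] at h7
      simp only [ofReal_im, zero_mul, zero_div, add_zero, ofReal_re] at h7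
      rw [neg_re, neg_lt_zero] at h1
      exact absurd h7 (not_lt.2 (div_nonneg (mul_nonneg hp.le h1.le) (normSq_nonneg _)))
    rw [mul_mul_mul_comm, h4, conj_cpow _ _ h6, ← Complex.exp_add]
    congr 1
    · rw [show conj (1 / 2 : ℂ) = ((1 / 2 : ℝ) : ℂ) by simp [map_ofNat],
        show (1 / 2 : ℂ) = ((1 / 2 : ℝ) : ℂ) by simp, mul_conj, normSq_eq_norm_sq, norm_cpow_real,
        h5, ← Real.sqrt_eq_rpow, Real.sq_sqrt (by positivity)]
    · congr 1
      have : (-(ξ ^ 2 / (4 * k))).re = -((ξ.re ^ 2 - ξ.im ^ 2) / (4 * k)) := by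
        rw [show (4 * k : ℂ) = ((4 * k : ℝ) : ℂ) by simp, neg_re, div_ofReal_re, sq, mul_re, sq, sq]
      rw [this, normSq_apply]
      push_cast
      rw [e3]
      field_simp
      linear_combination 4 * π * (ε * (ξ.re ^ 2 + ξ.im ^ 2) + I * (ξ.re ^ 2 - ξ.im ^ 2)) * I_sq

theorem mg_one {κ : ℂ} (hκ : κ ≠ 0) {ε : ℝ} (hε : 0 < ε) (ξ : ℂ) :
    ∫ x : ℂ, cexp (((-(π * (4 * ‖κ‖ * ε * normSq x)) : ℝ) : ℂ)
        + 2 * π * I * ((2 * (κ * x * x).re : ℝ) : ℂ) - 2 * π * I * ((2 * (ξ * x).re : ℝ) : ℂ)) =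
      (((4 * ‖κ‖ * √(1 + ε ^ 2))⁻¹ : ℝ) : ℂ) *
        cexp (((-(π * (ε / (‖κ‖ * (1 + ε ^ 2)) * normSq ξ)) : ℝ) : ℂ)
          + 2 * π * I * ((2 * (-(ξ ^ 2 / (4 * κ))).re / (1 + ε ^ 2) : ℝ) : ℂ)) := by
  obtain ⟨u, hu⟩ : ∃ u : Circle, κ * (u * u) = ‖κ‖ := ⟨Circle.exp (-(arg κ / 2)), by
    nth_rw 1 [← norm_mul_exp_arg_mul_I κ]
    rw [Circle.coe_exp, mul_assoc, ← Complex.exp_add, ← Complex.exp_add]
    push_cast
    ring_nf
    rw [Complex.exp_zero, mul_one]⟩
  have h := mg_real (norm_pos_iff.2 hκ) hε (ξ * u)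
  rw [← (rotation u).measurePreserving.integral_comp (rotation u).toHomeomorph.measurableEmbedding]
  have e : (ξ * u) ^ 2 / (4 * ‖κ‖) = ξ ^ 2 / (4 * κ) := by
    rw [← hu]
    field_simp
  rw [e, normSq_mul, Circle.normSq_coe, mul_one] at h
  refine (integral_congr_ae (ae_of_all _ fun x => ?_)).trans h
  simp only [rotation_apply, normSq_mul, Circle.normSq_coe, one_mul]
  rw [← hu, ← mul_assoc ξ, show κ * (u * x) * (u * x) = κ * (u * u) * x * x by ring]

variable {F : Type} [Field F] [NumberField F] [Om F]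

theorem mg_summable {L : AddSubgroup F} (hL : IsLat L) {a : Io F → ℝ} (ha : ∀ v, 0 < a v) :
    Summable fun x : L => Real.exp (-(π * ∑ v, a v * sqv (x : F) v)) := by
  obtain ⟨v0, h0⟩ := Finite.exists_min a
  refine Summable.of_nonneg_of_le (fun x => (Real.exp_pos _).le) (fun x => ?_)
    (summable_lat_gauss hL (mul_pos Real.pi_pos (ha v0)) 0)
  rw [pow_zero, one_mul, mul_assoc, Finset.mul_sum _ _ (a v0)]
  exact Real.exp_le_exp.2 (neg_le_neg (mul_le_mul_of_nonneg_left (Finset.sum_le_sum fun v _ =>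
    mul_le_mul_of_nonneg_right (h0 v) (sqv_nonneg _ v)) Real.pi_pos.le))

/-- Abel means of periodic functions. -/
theorem mg_mean {L L' : AddSubgroup F} (hL : IsLat L) (hL' : IsLat L') (hle : L' ≤ L)
    {f : F → ℂ} (hs : ∀ x, f x ≠ 0 → x ∈ L) (hp : ∀ x y, x - y ∈ L' → f x = f y)
    {a : ℕ → Io F → ℝ} (ha : ∀ n v, 0 < a n v) (h0 : ∀ v, Tendsto (fun n => a n v) atTop (𝓝 0)) :
    Tendsto (fun n => ((∏ v, a n v : ℝ) : ℂ) *
      ∑' x : L, f x * (Real.exp (-(π * ∑ v, a n v * sqv (x : F) v)) : ℂ)) atTop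
      (𝓝 ((cov L' : ℂ)⁻¹ * qsum L' f)) := by
  obtain ⟨s, -, -, h1, h2⟩ := exists_reps (hL.relIndex_ne hL')
  have hb : ∀ h : dualL L', ‖qsum L' (fun x => f x * eT ((h : F) * x))‖ ≤ ∑ x ∈ s, ‖f x‖ :=
    fun h => by
    rw [qsum_eq_sum (fun x y hxy => ?_) s h1 fun x hx => h2 x (hs x (left_ne_zero_of_mul hx))]
    · exact norm_sum_le_of_le _ fun x _ => by rw [norm_mul, norm_eT, mul_one]
    · rw [hp x y hxy, show (h : F) * x = h * (x - y) + h * y by ring, eT_add,
        mem_dualL.1 h.2 _ hxy, one_mul]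
  have key := tendsto_tsum_of_dominated_convergence (𝓕 := atTop)
    (f := fun n (h : dualL L') => qsum L' (fun x => f x * eT ((h : F) * x)) *
      (Real.exp (-(4 * π * ∑ v, sqv (h : F) v / a n v)) : ℂ))
    (g := fun h => if h = 0 then qsum L' f else 0)
    ((summable_lat_gauss hL'.dual (a := 4 * π) (by positivity) 0).mul_left (∑ x ∈ s, ‖f x‖))
    (fun h => ?_) ?_
  · rw [tsum_ite_eq] at key
    refine (key.const_mul _).congr fun n => ?_
    have : ((∏ v, a n v : ℝ) : ℂ) ≠ 0 :=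
      ofReal_ne_zero.2 (Finset.prod_pos fun v _ => ha n v).ne'
    rw [poisson_per hL hL' hle hs hp (ha n), ofReal_mul, mul_inv, mul_left_comm, mul_assoc,
      inv_mul_cancel_left₀ this]
  · split_ifs with h1
    · simp [h1, sqv, eT_zero]
    · have v0 : Io F := Classical.arbitrary _
      have h3 : Tendsto (fun n => ∑ v, sqv (h : F) v / a n v) atTop atTop :=
        tendsto_atTop_mono (fun n => Finset.single_le_sum (f := fun v => sqv (h : F) v / a n v)
          (fun v _ => div_nonneg (sqv_nonneg _ _) (ha n v).le) (Finset.mem_univ v0))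
          ((tendsto_inv_nhdsGT_zero.comp (tendsto_nhdsWithin_iff.2
            ⟨h0 v0, Eventually.of_forall fun n => ha n v0⟩)).const_mul_atTop
            (sqv_pos (fun h' => h1 (Subtype.ext h')) v0))
      simpa using ((continuous_ofReal.tendsto _).comp (Real.tendsto_exp_neg_atTop_nhds_zero.comp
        (h3.const_mul_atTop (r := 4 * π) (by positivity)))).const_mul _
  · filter_upwards [eventually_all.2 fun v => (h0 v).eventually (gt_mem_nhds one_pos)] with n hn h
    rw [norm_mul, pow_zero, one_mul, norm_real, Real.norm_of_nonneg (Real.exp_pos _).le]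
    gcongr with v
    · exact hb h
    · exact le_div_self (sqv_nonneg _ _) (ha n v) (hn v).le

/-- Abel means with a small phase. -/
theorem mg_mean' {L L' : AddSubgroup F} (hL : IsLat L) (hL' : IsLat L') (hle : L' ≤ L)
    {f : F → ℂ} (hs : ∀ x, f x ≠ 0 → x ∈ L) (hp : ∀ x y, x - y ∈ L' → f x = f y)
    (hf : ∀ x, ‖f x‖ ≤ 1)
    {a : ℕ → Io F → ℝ} (ha : ∀ n v, 0 < a n v) (h0 : ∀ v, Tendsto (fun n => a n v) atTop (𝓝 0))
    {θ : ℕ → F → ℝ} {δ : ℕ → ℝ} (hδ : Tendsto δ atTop (𝓝 0)) (hδ0 : ∀ n, 0 ≤ δ n)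
    (hθ : ∀ n x, |θ n x| ≤ δ n * (π * ∑ v, a n v * sqv (x : F) v)) :
    Tendsto (fun n => ((∏ v, a n v : ℝ) : ℂ) *
      ∑' x : L, f x * (Real.exp (-(π * ∑ v, a n v * sqv (x : F) v)) : ℂ) * cexp (I * θ n x)) atTop
      (𝓝 ((cov L' : ℂ)⁻¹ * qsum L' f)) := by
  have h1 := (mg_mean hL hL le_rfl (f := fun x => if x ∈ L then 1 else 0)
    (fun x hx => by simpa using hx) (fun x y h => by
      rw [if_congr (show x ∈ L ↔ y ∈ L from ⟨fun hx => by simpa using sub_mem hx h,
        fun hy => by simpa using add_mem h hy⟩) rfl rfl])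
    (a := fun n v => a n v / 2) (fun n v => half_pos (ha n v))
    fun v => by simpa using (h0 v).div_const 2).norm
  have h2 := (hδ.mul_const (2 * 2 ^ rr F)).mul h1
  rw [zero_mul, zero_mul] at h2
  have hn : ∀ n (x : L), ‖f x * (Real.exp (-(π * ∑ v, a n v * sqv (x : F) v)) : ℂ)‖ ≤
      Real.exp (-(π * ∑ v, a n v * sqv (x : F) v)) := fun n x => by
    rw [norm_mul, norm_real, Real.norm_of_nonneg (Real.exp_pos _).le]
    exact mul_le_of_le_one_left (Real.exp_pos _).le (hf x)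
  have s1 := fun n => Summable.of_norm_bounded (mg_summable hL (ha n)) (hn n)
  have s2 := fun n => Summable.of_norm_bounded (mg_summable hL (ha n))
    (f := fun x : L => f x * (Real.exp (-(π * ∑ v, a n v * sqv (x : F) v)) : ℂ) * cexp (I * θ n x))
    fun x => by rw [norm_mul, norm_exp_I_mul_ofReal, mul_one]; exact hn n x
  refine (mg_mean hL hL' hle hs hp ha h0).congr_dist (squeeze_zero (fun n => dist_nonneg)
    (fun n => ?_) h2)
  have s3 := mg_summable hL (a := fun v => a n v / 2) fun v => half_pos (ha n v)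
  have hP : 0 ≤ ∏ v, a n v := Finset.prod_nonneg fun v _ => (ha n v).le
  simp only [SetLike.coe_mem, if_true, one_mul]
  rw [dist_eq_norm, ← mul_sub, ← (s1 n).tsum_sub (s2 n), ← ofReal_tsum, norm_mul, norm_mul,
    norm_real, norm_real, norm_real, Finset.prod_div_distrib, Finset.prod_const,
    Real.norm_of_nonneg hP, Real.norm_of_nonneg (by positivity),
    Real.norm_of_nonneg (tsum_nonneg fun x => (Real.exp_pos _).le)]
  refine (mul_le_mul_of_nonneg_left (tsum_of_norm_bounded (s3.hasSum.mul_left (δ n * 2))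
    fun x => ?_) hP).trans (le_of_eq ?_)
  · rw [← mul_one_sub, norm_mul, norm_sub_rev]
    refine (mul_le_mul (hn n x) (Real.norm_exp_I_mul_ofReal_sub_one_le.trans (hθ n x))
      (norm_nonneg _) (Real.exp_pos _).le).trans ?_
    simp only [div_mul_eq_mul_div, ← Finset.sum_div, ← mul_div_assoc]
    generalize π * ∑ v, a n v * sqv (x : F) v = S
    have h3 : Real.exp (-S) = Real.exp (-(S / 2)) * Real.exp (-(S / 2)) := by
      rw [← Real.exp_add]
      ring_nf
    have h4 : S / 2 * Real.exp (-(S / 2)) ≤ 1 := by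
      rw [Real.exp_neg, mul_inv_le_iff₀ (Real.exp_pos _)]
      linarith [Real.add_one_le_exp (S / 2)]
    rw [h3]
    nlinarith [mul_le_mul_of_nonneg_left h4 (mul_nonneg (hδ0 n) (Real.exp_pos (-(S / 2))).le)]
  · rw [Finset.card_univ, ← rr]
    field_simp

end Vale.Agent.P319B
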