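import Vale.Agent.P319B.ThD

/-! The residues do not all vanish. -/

namespace Vale.Agent.P319B

open Complex NumberField MeasureTheory Filter Topology
open scoped Classical ComplexConjugate
open Vale.Agent.P026 (w kk fk)

variable {F : Type} [Field F] [NumberField F] [Ctx F]

/-- The shape of the constant term. -/
noncomputable def nzG (Q : HF F) : ℝ := ∏ v, (Q v).2.2 ^ (-(2 / 3) : ℝ) * dlt (Q v) ^ (-(1 / 3) : ℝ)

theorem nzG_cont : ContinuousOn (nzG (F := F)) {Q | PosQ Q} :=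
  continuousOn_finsetProd _ fun v _ =>
    (ContinuousOn.rpow_const (by fun_prop) fun Q hQ => Or.inl (hQ v).1.ne').mul
      (ContinuousOn.rpow_const (geo1_cont.comp (continuous_apply v)).continuousOn
        fun Q hQ => Or.inl (hQ v).2.ne')

theorem nzG_pt (z : Io F → ℂ) {D : Io F → ℝ} (hD : ∀ v, 0 < D v) (E : Io F → ℝ) :
    nzG (pt z D E) = ∏ v, D v ^ (-(2 / 3) : ℝ) * E v ^ (-(1 / 3) : ℝ) :=
  Finset.prod_congr rfl fun v _ => by rw [dlt_pt z hD]; rfl

theorem nz_const {θ : HF F → ℂ} (h : IsLim (k0 3) θ) (he : IsExp θ fun _ => 0) :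
    ∃ ρ : ℂ, ∀ᵐ Q ∂(nu F), θ Q = ρ * nzG Q := by
  obtain ⟨c, hc⟩ := he
  obtain ⟨ρ, -, hρ⟩ := res_shape (adm_k0 le_rfl 0) h.meas h.conv (r := 0) (by simp)
  simp only [Ser, zero_div, zero_mul, tsum_zero, add_zero] at hc
  have c0 := ofReal_ne_zero.2 (cov_pos (isLat_Lb (F := F) 0)).ne'
  have h1 : ∀ᵐ p ∂(volume.restrict (DE F)), ∀ᵐ z, θ (pt z p.1 p.2) = c p := by
    rw [prod_DE] at hc
    exact Measure.ae_ae_of_ae_prod (Measure.measurePreserving_swap.quasiMeasurePreserving.ae hc)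
  have h2 : ∀ᵐ p ∂(volume.restrict (DE F)), c p = mm F * ρ * (∏ _v : Io F, kk 0 : ℝ) /
      cov (Lb F 0) * (∏ v, p.1 v ^ (-(2 / 3) : ℝ) * p.2 v ^ (-(1 / 3) : ℝ) : ℝ) := by
    filter_upwards [h1, hρ] with p p1 p2
    simp only [Subring.coe_zero, emb_zero, eA_comm 0, eA_zero, map_one, mul_one, map_zero,
      norm_zero, mul_zero, zero_mul] at p2
    rw [integral_congr_ae (ae_restrict_of_ae p1), setIntegral_const, Finset.prod_mul_distrib,
      Measure.real, ← cov, real_smul, ofReal_mul] at p2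
    field_simp
    linear_combination p2
  refine ⟨mm F * ρ * (∏ _v : Io F, kk 0 : ℝ) / cov (Lb F 0), ae_of_pt ?_⟩
  have h3 : ∀ᵐ p : (Io F → ℂ) × (Io F → ℝ) × (Io F → ℝ) ∂(volume.restrict (Set.univ ×ˢ DE F)),
      p ∈ Set.univ ×ˢ DE F := ae_restrict_mem (MeasurableSet.univ.prod measurableSet_DE)
  have h4 := (prod_DE (F := F) ▸ Measure.quasiMeasurePreserving_snd).ae h2
  filter_upwards [hc, h3, h4] with p p1 p2 p3
  rw [p1, p3, nzG_pt _ p2.2.1]

theorem exists_Pt_ne : ∃ z : F, z ≠ 0 ∧ Pt z ≠ 0 := by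
  by_contra! h0
  obtain ⟨θ, h, hθ⟩ := good_k0 (F := F) le_rfl
  obtain ⟨T, -, -, -, -, -, hT, he⟩ := exp_kI one_ne_zero (locF_ind (F := F) 3) (uInv_ind 3)
  have h1 := he θ (k0_eq_kI (F := F) ▸ h)
  simp only [hT h0, zero_mul] at h1
  obtain ⟨ρ, hρ⟩ := nz_const h h1
  set g : GM F := ⟨1, 0, (Ctx0.M F : ℕ) ^ 3, 1, 1, by simp⟩ with hg
  have gc : (g.c : F) = MF F ^ 3 := by rw [← coe_M]; rfl
  have g1 : g ∈ Ge F 3 := (mem_Ge bs_three).2
    ⟨InU.one 3, Lo.zero 3, gc ▸ Lo_MF_pow 3, InU.one 3⟩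
  have g2 := Nin_det bs_three g1
  have g3 : trl (k0 3) g = k0 3 := by
    rw [trl_k0 le_rfl g1, k0, if_pos ⟨gc ▸ Lo_MF_pow 3, InU.one 3⟩]
    simp only [hg, cub_one_right, map_one, one_mul]
  have h2 := Conv.unique (h.meas.comp (continuous_act g).measurable) h.meas
    (g3 ▸ h.conv.trl h.meas g2) h.conv
  have h3 : ∀ᵐ Q ∂(nu F), ρ * nzG (act g Q) = ρ * nzG Q := by
    filter_upwards [hρ, h2, (measurePreserving_act g2).quasiMeasurePreserving.ae hρ] with Q q1 q2 q3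
    rw [← q1, ← q3]
    exact q2
  have c1 : ContinuousOn (fun p : (Io F → ℂ) × (Io F → ℝ) × (Io F → ℝ) => pt p.1 p.2.1 p.2.2)
      {p | (∀ v, 0 < p.2.1 v) ∧ ∀ v, 0 < p.2.2 v} := continuousOn_pt.mono fun _ hp => hp.1
  have r0 : rr F ≠ 0 := rr_pos.ne'
  obtain ⟨E, E0, E1⟩ : ∃ E : ℝ, 0 < E ∧ ∏ _v : Io F, E = 3 / 2 :=
    ⟨(3 / 2) ^ ((rr F : ℝ)⁻¹), by positivity, by
      rw [Finset.prod_const, Finset.card_univ]
      exact Real.rpow_inv_natCast_pow (by norm_num) r0⟩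
  have h4 := eq_of_ae_DE (ae_pt h3)
    (continuousOn_const.mul (continuous_ofReal.comp_continuousOn (nzG_cont.comp
      ((continuous_act g).comp_continuousOn c1) fun p hp => (posQ_pt _ hp.1 hp.2).act g)))
    (continuousOn_const.mul (continuous_ofReal.comp_continuousOn (nzG_cont.comp c1
      fun p hp => posQ_pt _ hp.1 hp.2))) 0 (D := fun _ => 1) (E := fun _ => E)
    (fun _ => one_pos) (fun _ => E0) (by rw [E1]; norm_num) (by rw [E1]; norm_num)
  obtain ⟨z', hz'⟩ := act_pt (g := g) rfl 0 (D := fun _ => 1) (E := fun _ => E)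
    (fun _ => one_pos) fun _ => E0
  have d1 : ∀ v : Io F, 1 < 1 * normSq (v.1 (g.c : F) * (0 : Io F → ℂ) v + v.1 (g.d : F)) +
      sqv (g.c : F) v * E / 1 := fun v => by
    have := sqv_pos (gc ▸ pow_ne_zero 3 MF_ne : (g.c : F) ≠ 0) v
    simp only [hg, Pi.zero_apply, mul_zero, zero_add, Subring.coe_one, map_one, one_mul, div_one,
      lt_add_iff_pos_right]
    positivity
  simp only [hz'] at h4
  rw [nzG_pt _ fun v => one_pos.trans (d1 v), nzG_pt _ fun _ => one_pos] at h4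
  refine hθ (hρ.mono fun Q hQ => ?_)
  rw [hQ, (mul_eq_mul_left_iff.1 h4).resolve_left fun h5 => ?_, zero_mul, Pi.zero_apply]
  have : Nonempty (Io F) := Fintype.card_pos_iff.1 rr_pos
  refine (Finset.prod_lt_prod_of_nonempty (fun v _ => ?_) (fun v _ => ?_)
    Finset.univ_nonempty).ne (ofReal_injective h5)
  · have := one_pos.trans (d1 v)
    positivity
  · rw [Real.one_rpow]
    exact mul_lt_mul_of_pos_right (Real.rpow_lt_one_of_one_lt_of_neg (d1 v) (by norm_num))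
      (by positivity)

end Vale.Agent.P319B
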