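import Vale.Agent.P319B.OrB

/-! Calculus of orientations. -/

namespace Vale.Agent.P319B

open scoped Classical

variable {A : Type} [CommRing A] {ω : A} {W W' W'' : Type} [AddCommGroup W] [Module A W]
  [AddCommGroup W'] [Module A W'] [AddCommGroup W''] [Module A W'']

theorem Fi.refl (Λ : Submodule A W) : Fi Λ Λ :=
  ⟨le_rfl, by rw [AddSubgroup.relIndex_self]; exact one_ne_zero⟩
theorem Fi.trans {Λ1 Λ2 Λ3 : Submodule A W} (h : Fi Λ1 Λ2) (h' : Fi Λ2 Λ3) : Fi Λ1 Λ3 :=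
  orA_fi_trans h h'
theorem Fi.left {Λ1 Λ2 Λ3 : Submodule A W} (h : Fi Λ1 Λ3) (h12 : Λ2 ≤ Λ1) (h23 : Λ3 ≤ Λ2) :
    Fi Λ1 Λ2 :=
  ⟨h12, fun h0 => h.2 (AddSubgroup.relIndex_eq_zero_of_le_left
    (show Λ3.toAddSubgroup ≤ Λ2.toAddSubgroup from h23) h0)⟩
theorem Fi.right {Λ1 Λ2 Λ3 : Submodule A W} (h : Fi Λ1 Λ3) (h12 : Λ2 ≤ Λ1) (h23 : Λ3 ≤ Λ2) :
    Fi Λ2 Λ3 :=
  ⟨h23, fun h0 => h.2 (AddSubgroup.relIndex_eq_zero_of_le_right
    (show Λ2.toAddSubgroup ≤ Λ1.toAddSubgroup from h12) h0)⟩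
theorem Fi.of_iso {g : W →ₗ[A] W'} {Λ Λ' : Submodule A W} {N N' : Submodule A W'}
    (h : Iso g Λ Λ' N N') (h1 : Λ' ≤ Λ) (h2 : N' ≤ N) : Fi Λ Λ' ↔ Fi N N' :=
  orA_fi_iso h h1 h2
theorem fi_top_iff {Λ : Submodule A W} : Fi ⊤ Λ ↔ Finite (W ⧸ Λ) := by
  unfold Fi
  rw [Submodule.top_toAddSubgroup, AddSubgroup.relIndex_top_right,
    AddSubgroup.index_ne_zero_iff_finite]
  exact ⟨fun h => h.2, fun h => ⟨le_top, h⟩⟩
theorem Iso.id (Λ Λ' : Submodule A W) : Iso LinearMap.id Λ Λ' Λ Λ' :=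
  ⟨fun _ hx => hx, fun _ _ => Iff.rfl, fun y hy => ⟨y, hy, by
    show y - y ∈ Λ'
    rw [sub_self]
    exact Λ'.zero_mem⟩⟩
theorem Iso.comp {g : W →ₗ[A] W'} {h : W' →ₗ[A] W''} {Λ Λ' : Submodule A W}
    {N N' : Submodule A W'} {P P' : Submodule A W''} (hg : Iso g Λ Λ' N N') (hh : Iso h N N' P P')
    (hN : N' ≤ N) : Iso (h ∘ₗ g) Λ Λ' P P' := by
  refine ⟨fun x hx => hh.1 _ (hg.1 x hx),
    fun x hx => (hh.2.1 _ (hg.1 x hx)).trans (hg.2.1 x hx), fun z hz => ?_⟩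
  obtain ⟨y, hy, h1⟩ := hh.2.2 z hz
  obtain ⟨x, hx, h2⟩ := hg.2.2 y hy
  refine ⟨x, hx, ?_⟩
  have h3 := P'.add_mem ((hh.2.1 _ (hN h2)).2 h2) h1
  rw [map_sub, sub_add_sub_cancel] at h3
  exact h3
theorem trO_congr {g g' : W →ₗ[A] W'} {Λ Λ' : Submodule A W} {N N' : Submodule A W'} (hω : Cb ω)
    (hg : Iso g Λ Λ' N N') (h : ∀ x ∈ Λ, g' x - g x ∈ N') :
    trO ω g' Λ Λ' N N' = trO ω g Λ Λ' N N' :=
  orB_dOr_congr (fun x hx hx' => (orA_isOr_ref hω N N').per.eq (hg.1 x hx)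
    (fun h' => hx' ((hg.2.1 x hx).1 h')) (h x hx)) fun _ _ _ => rfl
theorem trO_id (hω : Cb ω) {Λ Λ' : Submodule A W} (h : Fi Λ Λ') :
    trO ω LinearMap.id Λ Λ' Λ Λ' = 0 := by
  have _ := hω
  have _ := h
  exact orB_dOr_self Λ Λ' (refOr ω Λ Λ')
theorem trO_self (g : W →ₗ[A] W') (Λ : Submodule A W) (N N' : Submodule A W') :
    trO ω g Λ Λ N N' = 0 := by
  unfold trO
  rw [orB_dOr_eq]
  exact (orA_sx_congr fun x hx hx' => absurd hx hx').trans (orA_sx_zero Λ Λ)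
theorem trO_comp (hω : Cb ω) {g : W →ₗ[A] W'} {h : W' →ₗ[A] W''} {Λ Λ' : Submodule A W}
    {N N' : Submodule A W'} {P P' : Submodule A W''} (hg : Iso g Λ Λ' N N') (hh : Iso h N N' P P')
    (hΛ : Fi Λ Λ') (hN : N' ≤ N) (hP : P' ≤ P) :
    trO ω (h ∘ₗ g) Λ Λ' P P' = trO ω g Λ Λ' N N' + trO ω h N N' P P' := by
  have _ := hP
  have o1 := (orA_isOr_ref hω P P').pull hh hN
  have o2 := orA_isOr_ref hω N N'
  have e := orB_cocycle hω hΛ (o1.pull hg hΛ.1) (o2.pull hg hΛ.1) (orA_isOr_ref hω Λ Λ')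
  rw [orB_dOr_iso hg hΛ hN o1.per o2.per, add_comm] at e
  exact e
theorem Iso.chain {g : W →ₗ[A] W'} {Λ1 Λ2 Λ3 : Submodule A W} {N1 N2 N3 : Submodule A W'}
    (h12 : Λ2 ≤ Λ1) (h23 : Λ3 ≤ Λ2) (n12 : N2 ≤ N1) (n23 : N3 ≤ N2)
    (g12 : Iso g Λ1 Λ2 N1 N2) (g23 : Iso g Λ2 Λ3 N2 N3) : Iso g Λ1 Λ3 N1 N3 := by
  have _ := n12
  refine ⟨g12.1, fun x hx => ⟨fun h => ?_, fun h => (g23.2.1 x (h23 h)).2 h⟩, fun y hy => ?_⟩
  · exact (g23.2.1 x ((g12.2.1 x hx).1 (n23 h))).1 h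
  · obtain ⟨x, hx, h1⟩ := g12.2.2 y hy
    obtain ⟨x', hx', h2⟩ := g23.2.2 _ h1
    refine ⟨x - x', Λ1.sub_mem hx (h12 hx'), ?_⟩
    have e : g (x - x') - y = -(g x' - (g x - y)) := by
      rw [map_sub]
      abel
    rw [e]
    exact N3.neg_mem h2
theorem trO_chain (hω : Cb ω) {g : W →ₗ[A] W'} {Λ1 Λ2 Λ3 : Submodule A W}
    {N1 N2 N3 : Submodule A W'} (h12 : Fi Λ1 Λ2) (h23 : Fi Λ2 Λ3) (n12 : N2 ≤ N1) (n23 : N3 ≤ N2)
    (g12 : Iso g Λ1 Λ2 N1 N2) (g23 : Iso g Λ2 Λ3 N2 N3) :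
    trO ω g Λ1 Λ3 N1 N3 + cc ω Λ1 Λ2 Λ3 =
      trO ω g Λ1 Λ2 N1 N2 + trO ω g Λ2 Λ3 N2 N3 + cc ω N1 N2 N3 := by
  have g13 := Iso.chain h12.1 h23.1 n12 n23 g12 g23
  have h13 := h12.trans h23
  have l12 := orA_isOr_ref hω Λ1 Λ2
  have l23 := orA_isOr_ref hω Λ2 Λ3
  have l13 := orA_isOr_ref hω Λ1 Λ3
  have r12 := orA_isOr_ref hω N1 N2
  have r23 := orA_isOr_ref hω N2 N3
  have r13 := orA_isOr_ref hω N1 N3
  have gl := l23.glue hω l12 h23.1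
  have gr := r23.glue hω r12 n23
  have e1 := orB_cocycle hω h13 (r13.pull g13 h13.1) l13 gl
  have e2 := orB_cocycle hω h13 (r13.pull g13 h13.1) (gr.pull g13 h13.1) gl
  have e3 := orB_dOr_iso g13 h13 (n23.trans n12) r13.per gr.per
  have e4 := orB_dOr_glue hω h12 h23 (r23.pull g23 h23.1).per l23.per (r12.pull g12 h12.1).per
    l12.per
  have e5 : dOr Λ1 Λ3 (fun x => glue N2 (refOr ω N2 N3) (refOr ω N1 N2) (g x))
      (glue Λ2 (refOr ω Λ2 Λ3) (refOr ω Λ1 Λ2)) =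
      dOr Λ1 Λ3 (glue Λ2 (fun x => refOr ω N2 N3 (g x)) (fun x => refOr ω N1 N2 (g x)))
      (glue Λ2 (refOr ω Λ2 Λ3) (refOr ω Λ1 Λ2)) := by
    refine orB_dOr_congr (fun x hx _ => ?_) fun _ _ _ => rfl
    unfold glue
    by_cases h : x ∈ Λ2
    · rw [if_pos h, if_pos ((g12.2.1 x hx).2 h)]
    · rw [if_neg h, if_neg (fun h' => h ((g12.2.1 x hx).1 h'))]
  unfold trO cc
  rw [← e1, e2, e3, e5, e4]
  ring
theorem cc_cocycle (hω : Cb ω) {Λ1 Λ2 Λ3 Λ4 : Submodule A W} (h12 : Fi Λ1 Λ2) (h23 : Fi Λ2 Λ3)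
    (h34 : Fi Λ3 Λ4) : cc ω Λ1 Λ2 Λ4 + cc ω Λ2 Λ3 Λ4 = cc ω Λ1 Λ3 Λ4 + cc ω Λ1 Λ2 Λ3 := by
  have h13 := h12.trans h23
  have h24 := h23.trans h34
  have h14 := h13.trans h34
  have r12 := orA_isOr_ref hω Λ1 Λ2
  have r13 := orA_isOr_ref hω Λ1 Λ3
  have r14 := orA_isOr_ref hω Λ1 Λ4
  have r23 := orA_isOr_ref hω Λ2 Λ3
  have r24 := orA_isOr_ref hω Λ2 Λ4
  have r34 := orA_isOr_ref hω Λ3 Λ4
  have g234 := r34.glue hω r23 h34.1
  have g123 := r23.glue hω r12 h23.1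
  have e1 := orB_cocycle hω h14 r14 (r24.glue hω r12 h24.1) (g234.glue hω r12 h24.1)
  have e2 := orB_cocycle hω h14 r14 (r34.glue hω r13 h34.1) (r34.glue hω g123 h34.1)
  rw [orB_dOr_glue hω h12 h24 r24.per g234.per r12.per r12.per, orB_dOr_self, add_zero] at e1
  rw [orB_dOr_glue hω h13 h34 r34.per r34.per r13.per g123.per, orB_dOr_self, zero_add] at e2
  unfold cc
  rw [← e1, ← e2]
  refine orB_dOr_congr (fun _ _ _ => rfl) fun x _ _ => ?_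
  unfold glue
  by_cases h3 : x ∈ Λ3
  · simp only [if_pos h3, if_pos (h23.1 h3)]
  · simp only [if_neg h3]
theorem cc_left (hω : Cb ω) {Λ1 Λ3 : Submodule A W} (h : Fi Λ1 Λ3) : cc ω Λ1 Λ1 Λ3 = 0 := by
  have _ := hω
  have _ := h
  refine (orB_dOr_congr (fun _ _ _ => rfl) fun x hx _ => ?_).trans
    (orB_dOr_self Λ1 Λ3 (refOr ω Λ1 Λ3))
  exact if_pos hx
theorem cc_right (hω : Cb ω) {Λ1 Λ3 : Submodule A W} (h : Fi Λ1 Λ3) : cc ω Λ1 Λ3 Λ3 = 0 := by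
  have _ := hω
  have _ := h
  refine (orB_dOr_congr (fun _ _ _ => rfl) fun x _ hx => ?_).trans
    (orB_dOr_self Λ1 Λ3 (refOr ω Λ1 Λ3))
  exact if_neg hx
/-- Direct sums. -/
theorem cc_sup (hω : Cb ω) {Λ1 Λ2 : Submodule A W} (h : Fi (Λ1 ⊔ Λ2) (Λ1 ⊓ Λ2)) :
    cc ω (Λ1 ⊔ Λ2) Λ1 (Λ1 ⊓ Λ2) + trO ω LinearMap.id Λ2 (Λ1 ⊓ Λ2) (Λ1 ⊔ Λ2) Λ1 =
      cc ω (Λ1 ⊔ Λ2) Λ2 (Λ1 ⊓ Λ2) + trO ω LinearMap.id Λ1 (Λ1 ⊓ Λ2) (Λ1 ⊔ Λ2) Λ2 := by
  have f1 : Fi (Λ1 ⊔ Λ2) Λ1 := h.left le_sup_left inf_le_left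
  have f2 : Fi (Λ1 ⊔ Λ2) Λ2 := h.left le_sup_right inf_le_right
  have k1 : Fi Λ1 (Λ1 ⊓ Λ2) := h.right le_sup_left inf_le_left
  have k2 : Fi Λ2 (Λ1 ⊓ Λ2) := h.right le_sup_right inf_le_right
  have ha := orA_isOr_ref hω (Λ1 ⊔ Λ2) Λ2
  have hb := orA_isOr_ref hω (Λ1 ⊔ Λ2) Λ1
  have hr := orA_isOr_ref hω (Λ1 ⊔ Λ2) (Λ1 ⊓ Λ2)
  have r1 := orA_isOr_ref hω Λ1 (Λ1 ⊓ Λ2)
  have r2 := orA_isOr_ref hω Λ2 (Λ1 ⊓ Λ2)
  have ha1 : IsOr ω Λ1 (Λ1 ⊓ Λ2) (refOr ω (Λ1 ⊔ Λ2) Λ2) :=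
    ha.pull (orB_iso_sup' Λ1 Λ2) inf_le_left
  have hb1 : IsOr ω Λ2 (Λ1 ⊓ Λ2) (refOr ω (Λ1 ⊔ Λ2) Λ1) :=
    hb.pull (orB_iso_sup Λ1 Λ2) inf_le_right
  have g1 := ha1.glue hω hb inf_le_left
  have g2 := hb1.glue hω ha inf_le_right
  have e1 := orB_cocycle hω h hr g1 (r1.glue hω hb inf_le_left)
  have e2 := orB_cocycle hω h hr g2 (r2.glue hω ha inf_le_right)
  have e3 := orB_cocycle hω h hr g2 g1
  rw [orB_dOr_glue hω f1 k1 ha1.per r1.per hb.per hb.per, orB_dOr_self, add_zero] at e1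
  rw [orB_dOr_glue hω f2 k2 hb1.per r2.per ha.per ha.per, orB_dOr_self, add_zero] at e2
  rw [orB_sup hω k1 k2 ha hb, add_zero] at e3
  have t1 : trO ω LinearMap.id Λ2 (Λ1 ⊓ Λ2) (Λ1 ⊔ Λ2) Λ1 =
    dOr Λ2 (Λ1 ⊓ Λ2) (refOr ω (Λ1 ⊔ Λ2) Λ1) (refOr ω Λ2 (Λ1 ⊓ Λ2)) := rfl
  have t2 : trO ω LinearMap.id Λ1 (Λ1 ⊓ Λ2) (Λ1 ⊔ Λ2) Λ2 =
    dOr Λ1 (Λ1 ⊓ Λ2) (refOr ω (Λ1 ⊔ Λ2) Λ2) (refOr ω Λ1 (Λ1 ⊓ Λ2)) := rfl
  unfold cc
  rw [t1, t2, e1, e2, e3]
  ring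

/-- The lemma of Gauss in a finite domain. -/
theorem or_gauss_dom {R : Type} [CommRing R] [IsDomain R] [Fintype R] {w a : R} (hw : w ^ 3 = 1)
    (ha : a ≠ 0) (f : R → ZMod 3) (hf : ∀ z ≠ 0, f (w * z) = f z + 1) :
    a ^ ((Fintype.card R - 1) / 3) =
      w ^ (∑ z : R, if z = 0 then 0 else if f z = 0 then f (a * z) else 0).val := by
  have hw0 : w ≠ 0 := fun h => by
    rw [h] at hw
    norm_num at hw
  let e : ZMod 3 → R := fun k => w ^ k.val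
  have e_add : ∀ i j, e (i + j) = e i * e j := by
    intro i j
    show w ^ (i + j).val = w ^ i.val * w ^ j.val
    rw [ZMod.val_add, ← pow_add, ← pow_eq_pow_mod _ hw]
  have e_zero : e 0 = 1 := by
    show w ^ (0 : ZMod 3).val = 1
    rw [ZMod.val_zero, pow_zero]
  have e_ne : ∀ k, e k ≠ 0 := fun k => pow_ne_zero _ hw0
  have hpow : ∀ (n : ℕ) (z : R), z ≠ 0 → f (w ^ n * z) = f z + n := by
    intro n z hz
    induction n with
    | zero => simp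
    | succ n ih =>
      rw [pow_succ', mul_assoc, hf _ (mul_ne_zero (pow_ne_zero _ hw0) hz), ih]
      push_cast
      ring
  have e_f : ∀ k z, z ≠ 0 → f (e k * z) = f z + k := by
    intro k z hz
    rw [hpow _ z hz, ZMod.natCast_zmod_val]
  let T : ZMod 3 → Finset R := fun k => Finset.univ.filter (fun z => z ≠ 0 ∧ f z = k)
  have hT : ∀ k z, z ∈ T k ↔ z ≠ 0 ∧ f z = k := fun k z => by simp [T]
  have hcard : ∀ k, (T k).card = (T 0).card := by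
    intro k
    refine Finset.card_nbij' (fun z => e (-k) * z) (fun z => e k * z) ?_ ?_ ?_ ?_
    · intro z hz
      rw [Finset.mem_coe, hT] at hz ⊢
      refine ⟨mul_ne_zero (e_ne _) hz.1, ?_⟩
      rw [e_f _ _ hz.1, hz.2, add_neg_cancel]
    · intro z hz
      rw [Finset.mem_coe, hT] at hz ⊢
      refine ⟨mul_ne_zero (e_ne _) hz.1, ?_⟩
      rw [e_f _ _ hz.1, hz.2, zero_add]
    · intro z _
      show e k * (e (-k) * z) = z
      rw [← mul_assoc, ← e_add, add_neg_cancel, e_zero, one_mul]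
    · intro z _
      show e (-k) * (e k * z) = z
      rw [← mul_assoc, ← e_add, neg_add_cancel, e_zero, one_mul]
  have hcount : (Fintype.card R - 1) / 3 = (T 0).card := by
    have h1 := Finset.card_eq_sum_card_fiberwise (f := f) (s := Finset.univ.erase (0 : R))
      (t := Finset.univ) (fun _ _ => Finset.mem_coe.2 (Finset.mem_univ _))
    rw [Finset.card_erase_of_mem (Finset.mem_univ _), Finset.card_univ] at h1
    have h2 : ∀ k, ((Finset.univ.erase (0 : R)).filter (fun z => f z = k)).card = (T 0).card := by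
      intro k
      rw [← hcard k]
      congr 1
      ext z
      simp [T]
    rw [h1, Finset.sum_congr rfl fun k _ => h2 k, Finset.sum_const, Finset.card_univ, ZMod.card,
      smul_eq_mul]
    omega
  have hsum : (∑ z : R, if z = 0 then 0 else if f z = 0 then f (a * z) else 0) =
      ∑ z ∈ T 0, f (a * z) := by
    rw [Finset.sum_filter]
    refine Finset.sum_congr rfl fun z _ => ?_
    by_cases h1 : z = 0 <;> by_cases h2 : f z = 0 <;> simp [h1, h2]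
  have e_sum : ∀ (s : Finset R) (g : R → ZMod 3), e (∑ z ∈ s, g z) = ∏ z ∈ s, e (g z) := by
    intro s g
    induction s using Finset.induction_on with
    | empty => simp [e_zero]
    | insert x s hx ih => rw [Finset.sum_insert hx, Finset.prod_insert hx, e_add, ih]
  let σ : R → R := fun z => e (-f (a * z)) * (a * z)
  have hσ : ∀ z, e (f (a * z)) * σ z = a * z := by
    intro z
    show e (f (a * z)) * (e (-f (a * z)) * (a * z)) = a * z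
    rw [← mul_assoc, ← e_add, add_neg_cancel, e_zero, one_mul]
  have σmem : ∀ z ∈ T 0, σ z ∈ T 0 := by
    intro z hz
    rw [hT] at hz ⊢
    have := mul_ne_zero ha hz.1
    refine ⟨mul_ne_zero (e_ne _) this, ?_⟩
    rw [e_f _ _ this, add_neg_cancel]
  have σinj : Set.InjOn σ (T 0) := by
    intro z hz z' hz' h
    rw [Finset.mem_coe, hT] at hz hz'
    have h1 : z = e (f (a * z) + -f (a * z')) * z' := by
      apply mul_left_cancel₀ ha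
      have h3 := hσ z
      rw [h] at h3
      rw [e_add]
      refine h3.symm.trans ?_
      show _ * (e (-f (a * z')) * (a * z')) = _
      ring
    have h2 := e_f (f (a * z) + -f (a * z')) z' hz'.1
    rw [← h1, hz.2, hz'.2, zero_add] at h2
    rw [h1, ← h2, e_zero, one_mul]
  have σim : (T 0).image σ = T 0 :=
    Finset.eq_of_subset_of_card_le (Finset.image_subset_iff.2 σmem)
      (Finset.card_image_of_injOn σinj).ge
  have hprod : ∏ z ∈ T 0, σ z = ∏ z ∈ T 0, z := by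
    have := Finset.prod_image (s := T 0) (g := σ) (f := fun z => z) σinj
    rw [σim] at this
    exact this.symm
  have hne : ∏ z ∈ T 0, z ≠ 0 := Finset.prod_ne_zero_iff.2 fun z hz => ((hT 0 z).1 hz).1
  rw [hcount, hsum]
  show _ = e (∑ z ∈ T 0, f (a * z))
  rw [e_sum]
  apply mul_right_cancel₀ hne
  rw [← Finset.prod_const, ← Finset.prod_mul_distrib, ← hprod, ← Finset.prod_mul_distrib]
  exact Finset.prod_congr rfl fun z _ => (hσ z).symm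

/-- The lemma of Gauss. -/
theorem gauss_lemma (hω : Cb ω) {S : Type} [CommRing S] [Algebra A S] {p a : S} (hp : Prime p)
    (hf : Finite (S ⧸ Ideal.span {p})) (ha : ¬ p ∣ a) :
    p ∣ a ^ ((Nat.card (S ⧸ Ideal.span {p}) - 1) / 3) - algebraMap A S ω ^
      (trO ω (LinearMap.mul A S a) ⊤ (LinearMap.range (LinearMap.mul A S p)) ⊤
        (LinearMap.range (LinearMap.mul A S p))).val := by
  have hP : ∀ x : S, x ∈ LinearMap.range (LinearMap.mul A S p) ↔ p ∣ x := by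
    intro x
    rw [LinearMap.mem_range]
    exact ⟨fun ⟨y, h⟩ => ⟨y, h.symm⟩, fun ⟨y, h⟩ => ⟨y, h.symm⟩⟩
  generalize LinearMap.range (LinearMap.mul A S p) = P at hP ⊢
  have hmk : ∀ x y : S, Ideal.Quotient.mk (Ideal.span {p}) x = Ideal.Quotient.mk _ y ↔
      x - y ∈ P := by
    intro x y
    rw [Ideal.Quotient.eq, Ideal.mem_span_singleton, hP]
  have hpr : (Ideal.span {p}).IsPrime := (Ideal.span_singleton_prime hp.ne_zero).2 hp
  have := Fintype.ofFinite (S ⧸ Ideal.span {p})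
  obtain ⟨τ, hτ⟩ : ∃ τ : S ⧸ Ideal.span {p} → S, ∀ z, Ideal.Quotient.mk _ (τ z) = z :=
    ⟨fun z => (Ideal.Quotient.mk_surjective z).choose,
      fun z => (Ideal.Quotient.mk_surjective z).choose_spec⟩
  have hz0 : ∀ z, τ z ∈ P ↔ z = 0 := by
    intro z
    rw [← sub_zero (τ z), ← hmk, hτ, map_zero]
  have hT : OrTv ⊤ P Finset.univ τ :=
    ⟨fun _ _ => trivial, fun t _ t' _ h => by rw [← hτ t, ← hτ t', hmk]; exact h,
      fun x _ => ⟨Ideal.Quotient.mk _ x, Finset.mem_univ _, by rw [← hmk, hτ]⟩⟩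
  have ho := orA_isOr_ref hω ⊤ P
  have hpull : OrPer ⊤ P (fun x => refOr ω ⊤ P (LinearMap.mul A S a x)) := by
    intro x _ hx y hy
    show refOr ω ⊤ P (a * (x + y)) = refOr ω ⊤ P (a * x)
    rw [mul_add]
    refine ho.per _ trivial (fun h => ?_) _ ((hP _).2 (((hP _).1 hy).mul_left a))
    rcases hp.dvd_or_dvd ((hP _).1 h) with h' | h'
    · exact ha h'
    · exact hx ((hP _).2 h')
  have ha0 : Ideal.Quotient.mk (Ideal.span {p}) a ≠ 0 := fun h =>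
    ha (Ideal.mem_span_singleton.1 (Ideal.Quotient.eq_zero_iff_mem.1 h))
  have key := or_gauss_dom (R := S ⧸ Ideal.span {p})
    (w := Ideal.Quotient.mk _ (algebraMap A S ω)) (by
      rw [← map_pow, ← map_pow, orA_cube hω, map_one, map_one]) ha0
    (fun z => refOr ω ⊤ P (τ z)) (by
      intro z hz
      have hz' : τ z ∉ P := fun h => hz ((hz0 z).1 h)
      rw [← (ho _ trivial hz').1]
      refine ho.per.eq trivial (fun h => hz' (((orA_iso_om hω ⊤ P).2.1 _ trivial).1 h)) ?_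
      rw [← hmk, hτ, Algebra.smul_def, map_mul, hτ])
  have hs : trO ω (LinearMap.mul A S a) ⊤ P ⊤ P = ∑ z : S ⧸ Ideal.span {p}, if z = 0 then 0 else
      if refOr ω ⊤ P (τ z) = 0 then refOr ω ⊤ P (τ (Ideal.Quotient.mk _ a * z)) else 0 := by
    unfold trO
    rw [orB_dOr_eq, orA_sx_eq hT le_top (orB_per_dOr hpull ho.per)]
    refine Finset.sum_congr rfl fun z _ => ?_
    by_cases hz : z = 0
    · rw [if_pos hz, if_pos ((hz0 z).2 hz)]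
    · rw [if_neg hz, if_neg (fun h => hz ((hz0 z).1 h))]
      have : refOr ω ⊤ P (LinearMap.mul A S a (τ z)) =
          refOr ω ⊤ P (τ (Ideal.Quotient.mk _ a * z)) := by
        refine ho.per.eq trivial (fun h => mul_ne_zero ha0 hz ((hz0 _).1 h)) ?_
        rw [← hmk, hτ, LinearMap.mul_apply', map_mul, hτ]
      rw [this]
  rw [← Ideal.mem_span_singleton, ← Ideal.Quotient.eq, map_pow, map_pow, hs,
    Nat.card_eq_fintype_card]
  exact key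

end Vale.Agent.P319B
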