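import Vale.Agent.P319B.OrD

/-! Transversals and sums over the nonzero classes of a finite quotient. -/

namespace Vale.Agent.P319B

open scoped Classical

noncomputable section

variable {A : Type} [CommRing A] {ω : A} {W W' W'' : Type} [AddCommGroup W] [Module A W]
  [AddCommGroup W'] [Module A W'] [AddCommGroup W''] [Module A W'']

/-- A finite transversal of Λ' in Λ. -/
structure OrTv {I : Type} (Λ Λ' : Submodule A W) (T : Finset I) (τ : I → W) : Prop where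
  mem : ∀ t ∈ T, τ t ∈ Λ
  inj : ∀ t ∈ T, ∀ t' ∈ T, τ t - τ t' ∈ Λ' → t = t'
  surj : ∀ x ∈ Λ, ∃ t ∈ T, x - τ t ∈ Λ'

/-- Sum over the nonzero classes. -/
def orSx (Λ Λ' : Submodule A W) (G : W → ZMod 3) : ZMod 3 :=
  ∑ᶠ z : W ⧸ Λ', if z.out ∈ Λ ∧ z.out ∉ Λ' then G z.out else 0

/-- Periodicity off the zero class. -/
def OrPer (Λ Λ' : Submodule A W) (G : W → ZMod 3) : Prop :=
  ∀ x ∈ Λ, x ∉ Λ' → ∀ y ∈ Λ', G (x + y) = G x

theorem orA_out_sub (Λ' : Submodule A W) (x : W) :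
    (Submodule.Quotient.mk x : W ⧸ Λ').out - x ∈ Λ' :=
  (Submodule.Quotient.eq Λ').1 (Submodule.Quotient.mk_out _)

theorem OrPer.eq {Λ Λ' : Submodule A W} {G : W → ZMod 3} (h : OrPer Λ Λ' G) {x x' : W}
    (hx : x ∈ Λ) (hx' : x ∉ Λ') (hd : x' - x ∈ Λ') : G x' = G x := by
  have := h x hx hx' _ hd
  rwa [add_sub_cancel] at this

theorem orA_mem_iff {Λ' : Submodule A W} {x x' : W} (hd : x' - x ∈ Λ') : x' ∈ Λ' ↔ x ∈ Λ' := by
  constructor
  · intro h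
    have := Λ'.sub_mem h hd
    rwa [sub_sub_cancel] at this
  · intro h
    have := Λ'.add_mem hd h
    rwa [sub_add_cancel] at this

theorem orA_sx_eq {I : Type} {Λ Λ' : Submodule A W} {T : Finset I} {τ : I → W}
    (hT : OrTv Λ Λ' T τ) (hle : Λ' ≤ Λ) {G : W → ZMod 3} (hG : OrPer Λ Λ' G) :
    orSx Λ Λ' G = ∑ t ∈ T, if τ t ∈ Λ' then 0 else G (τ t) := by
  unfold orSx
  rw [finsum_eq_sum_of_support_subset
    (s := T.image (fun t => (Submodule.Quotient.mk (τ t) : W ⧸ Λ')))]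
  · rw [Finset.sum_image]
    · refine Finset.sum_congr rfl fun t ht => ?_
      have h1 := orA_out_sub Λ' (τ t)
      have h2 := orA_mem_iff h1
      have h3 := (orA_mem_iff (hle h1)).2 (hT.mem t ht)
      by_cases h : τ t ∈ Λ'
      · rw [if_pos h, if_neg (fun hh => hh.2 (h2.2 h))]
      · rw [if_neg h, if_pos ⟨h3, fun hh => h (h2.1 hh)⟩]
        exact hG.eq (hT.mem t ht) h h1
    · intro t ht t' ht' h
      exact hT.inj t ht t' ht' ((Submodule.Quotient.eq Λ').1 h)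
  · intro z hz
    rw [Function.mem_support] at hz
    have hz' : z.out ∈ Λ := by
      by_contra hc
      exact hz (if_neg fun hh => hc hh.1)
    obtain ⟨t, ht, h⟩ := hT.surj _ hz'
    simp only [Finset.coe_image, Set.mem_image, Finset.mem_coe]
    refine ⟨t, ht, ?_⟩
    rw [← Submodule.Quotient.mk_out z]
    exact ((Submodule.Quotient.eq Λ').2 h).symm

theorem orA_fi_of_tv {I : Type} {Λ Λ' : Submodule A W} {T : Finset I} {τ : I → W}
    (hT : OrTv Λ Λ' T τ) (hle : Λ' ≤ Λ) : Fi Λ Λ' := by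
  refine ⟨hle, ?_⟩
  unfold AddSubgroup.relIndex
  rw [AddSubgroup.index_ne_zero_iff_finite]
  refine Finite.of_surjective (fun t : T => (QuotientAddGroup.mk
    (⟨τ t.1, hT.mem t.1 t.2⟩ : Λ.toAddSubgroup) :
      Λ.toAddSubgroup ⧸ Λ'.toAddSubgroup.addSubgroupOf Λ.toAddSubgroup)) ?_
  intro q
  obtain ⟨x, rfl⟩ := QuotientAddGroup.mk_surjective q
  obtain ⟨t, ht, h⟩ := hT.surj x.1 x.2
  refine ⟨⟨t, ht⟩, ?_⟩
  rw [QuotientAddGroup.eq, AddSubgroup.mem_addSubgroupOf]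
  have : ((-(⟨τ t, hT.mem t ht⟩ : Λ.toAddSubgroup) + x : Λ.toAddSubgroup) : W) = x.1 - τ t := by
    simp only [AddSubgroup.coe_add, AddSubgroup.coe_neg]
    abel
  rw [this]
  exact h

theorem orA_tv_of_fi {Λ Λ' : Submodule A W} (h : Fi Λ Λ') :
    ∃ (I : Type) (T : Finset I) (τ : I → W), OrTv Λ Λ' T τ := by
  have h2 := h.2
  unfold AddSubgroup.relIndex at h2
  rw [AddSubgroup.index_ne_zero_iff_finite] at h2
  have := Fintype.ofFinite (Λ.toAddSubgroup ⧸ Λ'.toAddSubgroup.addSubgroupOf Λ.toAddSubgroup)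
  refine ⟨Λ.toAddSubgroup ⧸ Λ'.toAddSubgroup.addSubgroupOf Λ.toAddSubgroup, Finset.univ,
    fun q => (q.out : Λ.toAddSubgroup), fun t _ => (t.out : Λ.toAddSubgroup).2, ?_, ?_⟩
  · intro t _ t' _ hd
    rw [← QuotientAddGroup.out_eq' t, ← QuotientAddGroup.out_eq' t', eq_comm,
      QuotientAddGroup.eq, AddSubgroup.mem_addSubgroupOf]
    have : ((-t'.out + t.out : Λ.toAddSubgroup) : W) = (t.out : Λ.toAddSubgroup) - t'.out := by
      simp only [AddSubgroup.coe_add, AddSubgroup.coe_neg]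
      abel
    rw [this]
    exact hd
  · intro x hx
    refine ⟨QuotientAddGroup.mk ⟨x, hx⟩, Finset.mem_univ _, ?_⟩
    have h1 := QuotientAddGroup.out_eq' (QuotientAddGroup.mk (⟨x, hx⟩ : Λ.toAddSubgroup) :
      Λ.toAddSubgroup ⧸ Λ'.toAddSubgroup.addSubgroupOf Λ.toAddSubgroup)
    rw [QuotientAddGroup.eq, AddSubgroup.mem_addSubgroupOf] at h1
    simp only [AddSubgroup.coe_add, AddSubgroup.coe_neg] at h1
    rw [neg_add_eq_sub] at h1
    exact h1

theorem OrTv.push {I : Type} {Λ Λ' : Submodule A W} {N N' : Submodule A W'} {T : Finset I}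
    {τ : I → W} (hT : OrTv Λ Λ' T τ) {g : W →ₗ[A] W'} (hg : Iso g Λ Λ' N N') (hle : Λ' ≤ Λ) :
    OrTv N N' T (fun t => g (τ t)) := by
  refine ⟨fun t ht => hg.1 _ (hT.mem t ht), fun t ht t' ht' h => ?_, fun y hy => ?_⟩
  · rw [← map_sub] at h
    exact hT.inj t ht t' ht' ((hg.2.1 _ (Λ.sub_mem (hT.mem t ht) (hT.mem t' ht'))).1 h)
  · obtain ⟨x, hx, h⟩ := hg.2.2 y hy
    obtain ⟨t, ht, h'⟩ := hT.surj x hx
    refine ⟨t, ht, ?_⟩
    have h1 := (hg.2.1 _ (hle h')).2 h'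
    have h2 := N'.sub_mem h1 h
    rw [map_sub] at h2
    have e : y - g (τ t) = g x - g (τ t) - (g x - y) := by abel
    rw [e]
    exact h2

theorem OrTv.pull {I : Type} {Λ Λ' : Submodule A W} {N N' : Submodule A W'} {T : Finset I}
    {τ : I → W'} (hT : OrTv N N' T τ) {g : W →ₗ[A] W'} (hg : Iso g Λ Λ' N N') (hle : Λ' ≤ Λ) :
    ∃ σ : I → W, OrTv Λ Λ' T σ := by
  have h : ∀ t, ∃ x, t ∈ T → x ∈ Λ ∧ g x - τ t ∈ N' := by
    intro t
    by_cases ht : t ∈ T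
    · obtain ⟨x, hx, h⟩ := hg.2.2 _ (hT.mem t ht)
      exact ⟨x, fun _ => ⟨hx, h⟩⟩
    · exact ⟨0, fun h => absurd h ht⟩
  choose σ hσ using h
  refine ⟨σ, fun t ht => (hσ t ht).1, fun t ht t' ht' h => hT.inj t ht t' ht' ?_,
    fun x hx => ?_⟩
  · have h1 := (hg.2.1 _ (hle h)).2 h
    have h2 := N'.add_mem (N'.sub_mem h1 (hσ t ht).2) (hσ t' ht').2
    rw [map_sub] at h2
    have e : τ t - τ t' = g (σ t) - g (σ t') - (g (σ t) - τ t) + (g (σ t') - τ t') := by abel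
    rw [e]
    exact h2
  · obtain ⟨t, ht, h⟩ := hT.surj _ (hg.1 x hx)
    refine ⟨t, ht, (hg.2.1 _ (Λ.sub_mem hx (hσ t ht).1)).1 ?_⟩
    have h2 := N'.sub_mem h (hσ t ht).2
    have e : g (x - σ t) = g x - τ t - (g (σ t) - τ t) := by
      rw [map_sub]
      abel
    rw [e]
    exact h2

theorem OrTv.prod {I J : Type} {Λ1 Λ2 Λ3 : Submodule A W} {T : Finset I} {τ : I → W}
    {T' : Finset J} {τ' : J → W} (hT : OrTv Λ1 Λ2 T τ) (hT' : OrTv Λ2 Λ3 T' τ')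
    (h12 : Λ2 ≤ Λ1) (h23 : Λ3 ≤ Λ2) :
    OrTv Λ1 Λ3 (T ×ˢ T') (fun p => τ p.1 + τ' p.2) := by
  refine ⟨fun p hp => ?_, fun p hp q hq h => ?_, fun x hx => ?_⟩
  · rw [Finset.mem_product] at hp
    exact Λ1.add_mem (hT.mem _ hp.1) (h12 (hT'.mem _ hp.2))
  · rw [Finset.mem_product] at hp hq
    have h1 : p.1 = q.1 := by
      refine hT.inj _ hp.1 _ hq.1 ?_
      have h2 := Λ2.add_mem (Λ2.sub_mem (h23 h) (hT'.mem _ hp.2)) (hT'.mem _ hq.2)
      have e : τ p.1 - τ q.1 = τ p.1 + τ' p.2 - (τ q.1 + τ' q.2) - τ' p.2 + τ' q.2 := by abel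
      rw [e]
      exact h2
    refine Prod.ext h1 (hT'.inj _ hp.2 _ hq.2 ?_)
    rw [h1, add_sub_add_left_eq_sub] at h
    exact h
  · obtain ⟨t, ht, h⟩ := hT.surj x hx
    obtain ⟨t', ht', h'⟩ := hT'.surj _ h
    refine ⟨(t, t'), Finset.mem_product.2 ⟨ht, ht'⟩, ?_⟩
    rw [← sub_sub]
    exact h'

theorem OrTv.shift {I : Type} {Λ Λ' : Submodule A W} {T : Finset I} {τ : I → W}
    (hT : OrTv Λ Λ' T τ) {c : W} (hc : c ∈ Λ) : OrTv Λ Λ' T (fun t => c + τ t) := by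
  refine ⟨fun t ht => Λ.add_mem hc (hT.mem t ht), fun t ht t' ht' h => ?_, fun x hx => ?_⟩
  · rw [add_sub_add_left_eq_sub] at h
    exact hT.inj t ht t' ht' h
  · obtain ⟨t, ht, h⟩ := hT.surj _ (Λ.sub_mem hx hc)
    refine ⟨t, ht, ?_⟩
    rw [← sub_sub]
    exact h

theorem OrTv.zero {I : Type} {Λ Λ' : Submodule A W} {T : Finset I} {τ : I → W}
    (hT : OrTv Λ Λ' T τ) (c : ZMod 3) : (∑ t ∈ T, if τ t ∈ Λ' then c else 0) = c := by
  obtain ⟨t, ht, h⟩ := hT.surj 0 Λ.zero_mem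
  rw [zero_sub, neg_mem_iff] at h
  rw [Finset.sum_eq_single t, if_pos h]
  · intro t' ht' hne
    rw [if_neg]
    intro h'
    exact hne (hT.inj _ ht' _ ht (Λ'.sub_mem h' h))
  · intro h'
    exact absurd ht h'

theorem orA_sx_congr {Λ Λ' : Submodule A W} {G G' : W → ZMod 3}
    (h : ∀ x ∈ Λ, x ∉ Λ' → G x = G' x) : orSx Λ Λ' G = orSx Λ Λ' G' := by
  unfold orSx
  refine finsum_congr fun z => ?_
  by_cases hz : z.out ∈ Λ ∧ z.out ∉ Λ'
  · rw [if_pos hz, if_pos hz, h _ hz.1 hz.2]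
  · rw [if_neg hz, if_neg hz]

theorem orA_sx_zero (Λ Λ' : Submodule A W) : orSx Λ Λ' (fun _ => 0) = 0 := by
  unfold orSx
  simp

theorem orA_sx_add {Λ Λ' : Submodule A W} (h : Fi Λ Λ') {G G' : W → ZMod 3}
    (hG : OrPer Λ Λ' G) (hG' : OrPer Λ Λ' G') :
    orSx Λ Λ' (fun x => G x + G' x) = orSx Λ Λ' G + orSx Λ Λ' G' := by
  obtain ⟨I, T, τ, hT⟩ := orA_tv_of_fi h
  rw [orA_sx_eq hT h.1 hG, orA_sx_eq hT h.1 hG', orA_sx_eq hT h.1, ← Finset.sum_add_distrib]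
  · refine Finset.sum_congr rfl fun t _ => ?_
    split_ifs
    · rw [add_zero]
    · rfl
  · intro x hx hx' y hy
    show G (x + y) + G' (x + y) = G x + G' x
    rw [hG x hx hx' y hy, hG' x hx hx' y hy]

theorem OrPer.pull {Λ Λ' : Submodule A W} {N N' : Submodule A W'} {g : W →ₗ[A] W'}
    (hg : Iso g Λ Λ' N N') (hle : Λ' ≤ Λ) {G : W' → ZMod 3} (hG : OrPer N N' G) :
    OrPer Λ Λ' (fun x => G (g x)) := by
  intro x hx hx' y hy
  show G (g (x + y)) = G (g x)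
  rw [map_add]
  exact hG _ (hg.1 x hx) (fun h => hx' ((hg.2.1 x hx).1 h)) _ ((hg.2.1 y (hle hy)).2 hy)

theorem orA_sx_iso {Λ Λ' : Submodule A W} {N N' : Submodule A W'} {g : W →ₗ[A] W'}
    (hg : Iso g Λ Λ' N N') (h : Fi Λ Λ') (hN : N' ≤ N) {G : W' → ZMod 3} (hG : OrPer N N' G) :
    orSx Λ Λ' (fun x => G (g x)) = orSx N N' G := by
  obtain ⟨I, T, τ, hT⟩ := orA_tv_of_fi h
  rw [orA_sx_eq hT h.1 (hG.pull hg h.1), orA_sx_eq (hT.push hg h.1) hN hG]
  refine Finset.sum_congr rfl fun t ht => ?_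
  have := hg.2.1 _ (hT.mem t ht)
  by_cases h' : τ t ∈ Λ'
  · rw [if_pos h', if_pos (this.2 h')]
  · rw [if_neg h', if_neg (fun hh => h' (this.1 hh))]

theorem orA_fi_trans {Λ1 Λ2 Λ3 : Submodule A W} (h : Fi Λ1 Λ2) (h' : Fi Λ2 Λ3) : Fi Λ1 Λ3 :=
  ⟨h'.1.trans h.1, AddSubgroup.relIndex_ne_zero_trans h'.2 h.2⟩

theorem orA_fi_iso {g : W →ₗ[A] W'} {Λ Λ' : Submodule A W} {N N' : Submodule A W'}
    (h : Iso g Λ Λ' N N') (h1 : Λ' ≤ Λ) (h2 : N' ≤ N) : Fi Λ Λ' ↔ Fi N N' := by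
  constructor
  · intro hf
    obtain ⟨I, T, τ, hT⟩ := orA_tv_of_fi hf
    exact orA_fi_of_tv (hT.push h h1) h2
  · intro hf
    obtain ⟨I, T, τ, hT⟩ := orA_tv_of_fi hf
    obtain ⟨σ, hσ⟩ := hT.pull h h1
    exact orA_fi_of_tv hσ h1

theorem orA_cube (hω : Cb ω) : ω ^ 3 = 1 := by
  have := hω.eq
  linear_combination (ω - 1) * this

theorem orA_iso_om (hω : Cb ω) (Λ Λ' : Submodule A W) :
    Iso (ω • (LinearMap.id : W →ₗ[A] W)) Λ Λ' Λ Λ' := by
  have h3 : ∀ x : W, ω • ω • ω • x = x := by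
    intro x
    rw [smul_smul, smul_smul, show ω * ω * ω = ω ^ 3 by ring, orA_cube hω, one_smul]
  refine ⟨fun x hx => Λ.smul_mem _ hx, fun x _ => ⟨fun h => ?_, fun h => Λ'.smul_mem _ h⟩,
    fun y hy => ⟨ω • ω • y, Λ.smul_mem _ (Λ.smul_mem _ hy), ?_⟩⟩
  · rw [← h3 x]
    exact Λ'.smul_mem _ (Λ'.smul_mem _ h)
  · show ω • ω • ω • y - y ∈ Λ'
    rw [h3, sub_self]
    exact Λ'.zero_mem

theorem orA_sx_om (hω : Cb ω) {Λ Λ' : Submodule A W} (h : Fi Λ Λ') {G : W → ZMod 3}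
    (hG : OrPer Λ Λ' G) : orSx Λ Λ' (fun x => G (ω • x)) = orSx Λ Λ' G :=
  orA_sx_iso (orA_iso_om hω Λ Λ') h h.1 hG

/-- Existence of orientations on a module. -/
theorem orA_exists_mod (hω : Cb ω) (Q : Type) [AddCommGroup Q] [Module A Q] :
    ∃ f : Q → ZMod 3, ∀ z ≠ 0, f (ω • z) = f z + 1 := by
  have h3 : ∀ x : Q, ω • ω • ω • x = x := by
    intro x
    rw [smul_smul, smul_smul, show ω * ω * ω = ω ^ 3 by ring, orA_cube hω, one_smul]
  have hfree : ∀ r : Q, ω • r = r → r = 0 := by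
    intro r hr
    have h1 : (ω ^ 2 + ω + 1) • r = (3 : A) • r := by
      rw [add_smul, add_smul, pow_two, mul_smul, hr, hr, one_smul,
        show (3 : A) = 1 + 1 + 1 by norm_num, add_smul, add_smul, one_smul]
    rw [hω.eq, zero_smul] at h1
    exact (hω.three.smul_eq_zero).1 h1.symm
  have : Nonempty Q := ⟨0⟩
  let rep : Q → Q := fun z => Classical.epsilon (fun y => y = z ∨ y = ω • z ∨ y = ω • ω • z)
  have hrep : ∀ z, rep (ω • z) = rep z := by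
    intro z
    have : (fun y => y = ω • z ∨ y = ω • ω • z ∨ y = ω • ω • ω • z) =
        (fun y => y = z ∨ y = ω • z ∨ y = ω • ω • z) := by
      funext y
      rw [h3]
      exact propext (by tauto)
    show Classical.epsilon _ = Classical.epsilon _
    rw [this]
  have hspec : ∀ z, rep z = z ∨ rep z = ω • z ∨ rep z = ω • ω • z := fun z =>
    Classical.epsilon_spec (p := fun y => y = z ∨ y = ω • z ∨ y = ω • ω • z) ⟨z, Or.inl rfl⟩
  refine ⟨fun z => if z = rep z then 0 else if z = ω • rep z then 1 else 2, fun z hz => ?_⟩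
  have n1 : ω • z ≠ z := fun h => hz (hfree z h)
  have n2 : ω • ω • z ≠ z := fun h => by
    have h' := congrArg (fun y => ω • y) h
    simp only [h3] at h'
    exact n1 h'.symm
  have n3 : ω • ω • z ≠ ω • z := fun h => by
    have h' := congrArg (fun y => ω • ω • y) h
    simp only [h3] at h'
    exact n1 h'
  show (if ω • z = rep (ω • z) then (0 : ZMod 3) else if ω • z = ω • rep (ω • z) then 1 else 2) =
    (if z = rep z then 0 else if z = ω • rep z then 1 else 2) + 1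
  rw [hrep]
  rcases hspec z with h | h | h
  · rw [h, if_neg n1, if_pos rfl, if_pos rfl, zero_add]
  · rw [h, if_pos rfl, if_neg n1.symm, if_neg n2.symm]
    decide
  · rw [h, h3, if_neg n3.symm, if_neg n1, if_neg n2.symm, if_pos rfl]
    decide

theorem orA_isOr_ref (hω : Cb ω) (Λ Λ' : Submodule A W) : IsOr ω Λ Λ' (refOr ω Λ Λ') := by
  have h : ∃ o, IsOr ω Λ Λ' o := by
    obtain ⟨f, hf⟩ := orA_exists_mod hω (W ⧸ Λ')
    refine ⟨fun x => f (Submodule.Quotient.mk x), fun x _ hx => ⟨?_, fun y hy => ?_⟩⟩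
    · show f (Submodule.Quotient.mk (ω • x)) = _
      rw [Submodule.Quotient.mk_smul]
      exact hf _ (fun h => hx ((Submodule.Quotient.mk_eq_zero Λ').1 h))
    · show f (Submodule.Quotient.mk (x + y)) = _
      rw [Submodule.Quotient.mk_add, (Submodule.Quotient.mk_eq_zero Λ').2 hy, add_zero]
  unfold refOr
  rw [dif_pos h]
  exact h.choose_spec

end

end Vale.Agent.P319B
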