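import Vale.Agent.P319B.OrA

/-! The difference of two orientations is a cocycle; gluing. -/

namespace Vale.Agent.P319B

open scoped Classical

noncomputable section

variable {A : Type} [CommRing A] {ω : A} {W W' W'' : Type} [AddCommGroup W] [Module A W]
  [AddCommGroup W'] [Module A W'] [AddCommGroup W''] [Module A W'']

theorem orB_dOr_eq (Λ Λ' : Submodule A W) (o o' : W → ZMod 3) :
    dOr Λ Λ' o o' = orSx Λ Λ' (fun x => if o' x = 0 then o x else 0) := by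
  unfold dOr orSx
  refine finsum_congr fun z => ?_
  by_cases h1 : z.out ∈ Λ <;> by_cases h2 : z.out ∈ Λ' <;> by_cases h3 : o' z.out = 0 <;>
    simp [h1, h2, h3]

theorem IsOr.per {Λ Λ' : Submodule A W} {o : W → ZMod 3} (h : IsOr ω Λ Λ' o) : OrPer Λ Λ' o :=
  fun x hx hx' => (h x hx hx').2

theorem OrPer.map2 {Λ Λ' : Submodule A W} {G G' : W → ZMod 3} (h : OrPer Λ Λ' G)
    (h' : OrPer Λ Λ' G') (φ : ZMod 3 → ZMod 3 → ZMod 3) :
    OrPer Λ Λ' (fun x => φ (G x) (G' x)) := by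
  intro x hx hx' y hy
  show φ (G (x + y)) (G' (x + y)) = φ (G x) (G' x)
  rw [h x hx hx' y hy, h' x hx hx' y hy]

theorem orB_per_const (Λ Λ' : Submodule A W) (c : ZMod 3) : OrPer Λ Λ' (fun _ => c) :=
  fun _ _ _ _ _ => rfl

theorem orB_inv (hω : Cb ω) {Λ Λ' : Submodule A W} (h : Fi Λ Λ') {p d : W → ZMod 3}
    (hp : IsOr ω Λ Λ' p) (hd : OrPer Λ Λ' d) (hi : ∀ x ∈ Λ, x ∉ Λ' → d (ω • x) = d x) :
    orSx Λ Λ' d = 0 := by
  have h0 := hd.map2 hp.per (fun a b => a * b)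
  have h1 := orA_sx_om hω h h0
  have h2 : orSx Λ Λ' (fun x => d (ω • x) * p (ω • x)) = orSx Λ Λ' (fun x => d x * p x + d x) :=
    orA_sx_congr fun x hx hx' => by
      rw [hi x hx hx', (hp x hx hx').1]
      ring
  rw [h2, orA_sx_add h h0 hd] at h1
  exact add_eq_left.1 h1

theorem orB_inv_mul (hω : Cb ω) {Λ Λ' : Submodule A W} (h : Fi Λ Λ') {p d : W → ZMod 3}
    (hp : IsOr ω Λ Λ' p) (hd : OrPer Λ Λ' d) (hi : ∀ x ∈ Λ, x ∉ Λ' → d (ω • x) = d x) :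
    orSx Λ Λ' (fun x => d x * p x) = 0 := by
  have h0 := hd.map2 hp.per (fun a b => a * b ^ 2)
  have h0' := hd.map2 hp.per (fun a b => a * b)
  have h0'' := hd.map2 hp.per (fun a b => a * b + (a * b + a))
  have h0''' := hd.map2 hp.per (fun a b => a * b + a)
  have h1 := orA_sx_om hω h h0
  have h2 : orSx Λ Λ' (fun x => d (ω • x) * p (ω • x) ^ 2) =
      orSx Λ Λ' (fun x => d x * p x ^ 2 + (d x * p x + (d x * p x + d x))) :=
    orA_sx_congr fun x hx hx' => by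
      rw [hi x hx hx', (hp x hx hx').1]
      ring
  rw [h2, orA_sx_add h h0 h0'', orA_sx_add h h0' h0''', orA_sx_add h h0' hd,
    orB_inv hω h hp hd hi, add_zero] at h1
  have h3 := add_eq_left.1 h1
  have key : ∀ a : ZMod 3, a + a = 0 → a = 0 := by decide
  exact key _ h3

theorem orB_sx_one (hω : Cb ω) {Λ Λ' : Submodule A W} (h : Fi Λ Λ') (c : ZMod 3) :
    orSx Λ Λ' (fun _ => c) = 0 :=
  orB_inv hω h (orA_isOr_ref hω Λ Λ') (orB_per_const Λ Λ' c) fun _ _ _ => rfl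

theorem orB_sx_or (hω : Cb ω) {Λ Λ' : Submodule A W} (h : Fi Λ Λ') {o : W → ZMod 3}
    (ho : IsOr ω Λ Λ' o) : orSx Λ Λ' o = 0 := by
  have := orB_inv_mul hω h ho (orB_per_const Λ Λ' 1) fun _ _ _ => rfl
  simpa only [one_mul] using this

theorem orB_tv_const (hω : Cb ω) {I : Type} {Λ Λ' : Submodule A W} {T : Finset I} {τ : I → W}
    (hT : OrTv Λ Λ' T τ) (hle : Λ' ≤ Λ) (c : ZMod 3) : (∑ _t ∈ T, c) = c := by
  have h1 := orB_sx_one hω (orA_fi_of_tv hT hle) c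
  rw [orA_sx_eq hT hle (orB_per_const Λ Λ' c)] at h1
  have h2 := hT.zero c
  have h3 : (∑ _t ∈ T, c) = (∑ t ∈ T, if τ t ∈ Λ' then c else 0) +
      ∑ t ∈ T, if τ t ∈ Λ' then 0 else c := by
    rw [← Finset.sum_add_distrib]
    refine Finset.sum_congr rfl fun t _ => ?_
    split_ifs <;> simp
  rw [h3, h1, h2, add_zero]

theorem orB_dOr_congr {Λ Λ' : Submodule A W} {o1 o2 o1' o2' : W → ZMod 3}
    (h : ∀ x ∈ Λ, x ∉ Λ' → o1 x = o2 x) (h' : ∀ x ∈ Λ, x ∉ Λ' → o1' x = o2' x) :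
    dOr Λ Λ' o1 o1' = dOr Λ Λ' o2 o2' := by
  rw [orB_dOr_eq, orB_dOr_eq]
  exact orA_sx_congr fun x hx hx' => by rw [h x hx hx', h' x hx hx']

theorem orB_dOr_self (Λ Λ' : Submodule A W) (o : W → ZMod 3) : dOr Λ Λ' o o = 0 := by
  rw [orB_dOr_eq]
  refine (orA_sx_congr fun x _ _ => ?_).trans (orA_sx_zero Λ Λ')
  split_ifs with h
  · exact h
  · rfl

theorem orB_per_dOr {Λ Λ' : Submodule A W} {o o' : W → ZMod 3} (h : OrPer Λ Λ' o)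
    (h' : OrPer Λ Λ' o') : OrPer Λ Λ' (fun x => if o' x = 0 then o x else 0) :=
  h.map2 h' (fun a b => if b = 0 then a else 0)

theorem orB_cocycle (hω : Cb ω) {Λ Λ' : Submodule A W} (h : Fi Λ Λ') {o o' o'' : W → ZMod 3}
    (ho : IsOr ω Λ Λ' o) (ho' : IsOr ω Λ Λ' o') (ho'' : IsOr ω Λ Λ' o'') :
    dOr Λ Λ' o o'' = dOr Λ Λ' o o' + dOr Λ Λ' o' o'' := by
  have key : ∀ a b c : ZMod 3, (if c = 0 then a else 0) = ((if b = 0 then a else 0) +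
      (if c = 0 then b else 0)) + ((2 * (a - b) * (b - c)) * c + (a - b) * (b - c) ^ 2) := by
    decide
  have p1 := orB_per_dOr ho.per ho'.per
  have p2 := orB_per_dOr ho'.per ho''.per
  have d1 := ho.per.map2 ho'.per (fun a b => a - b)
  have d2 := ho'.per.map2 ho''.per (fun a b => a - b)
  have e1 := d1.map2 d2 (fun a b => 2 * a * b)
  have e2 := d1.map2 d2 (fun a b => a * b ^ 2)
  have e3 := e1.map2 ho''.per (fun a b => a * b)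
  have z1 := orB_inv_mul hω h ho'' e1 fun x hx hx' => by
    simp only [(ho x hx hx').1, (ho' x hx hx').1, (ho'' x hx hx').1, add_sub_add_right_eq_sub]
  have z2 := orB_inv hω h ho'' e2 fun x hx hx' => by
    simp only [(ho x hx hx').1, (ho' x hx hx').1, (ho'' x hx hx').1, add_sub_add_right_eq_sub]
  rw [orB_dOr_eq, orB_dOr_eq, orB_dOr_eq, orA_sx_congr fun x _ _ => key (o x) (o' x) (o'' x),
    orA_sx_add h (p1.map2 p2 (fun a b => a + b)) (e3.map2 e2 (fun a b => a + b)),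
    orA_sx_add h p1 p2, orA_sx_add h e3 e2, z1, z2, add_zero, add_zero]

theorem IsOr.pull {Λ Λ' : Submodule A W} {N N' : Submodule A W'} {g : W →ₗ[A] W'}
    (hg : Iso g Λ Λ' N N') (hle : Λ' ≤ Λ) {o : W' → ZMod 3} (ho : IsOr ω N N' o) :
    IsOr ω Λ Λ' (fun x => o (g x)) := by
  intro x hx hx'
  refine ⟨?_, ho.per.pull hg hle x hx hx'⟩
  show o (g (ω • x)) = o (g x) + 1
  rw [map_smul]
  exact (ho _ (hg.1 x hx) (fun h => hx' ((hg.2.1 x hx).1 h))).1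

theorem orB_dOr_iso {Λ Λ' : Submodule A W} {N N' : Submodule A W'} {g : W →ₗ[A] W'}
    (hg : Iso g Λ Λ' N N') (h : Fi Λ Λ') (hN : N' ≤ N) {o o' : W' → ZMod 3}
    (ho : OrPer N N' o) (ho' : OrPer N N' o') :
    dOr Λ Λ' (fun x => o (g x)) (fun x => o' (g x)) = dOr N N' o o' := by
  rw [orB_dOr_eq, orB_dOr_eq]
  exact orA_sx_iso hg h hN (orB_per_dOr ho ho')

theorem OrPer.glue {Λ1 Λ2 Λ3 : Submodule A W} {a b : W → ZMod 3} (ha : OrPer Λ2 Λ3 a)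
    (hb : OrPer Λ1 Λ2 b) (h23 : Λ3 ≤ Λ2) : OrPer Λ1 Λ3 (glue Λ2 a b) := by
  intro x hx hx' y hy
  unfold P319B.glue
  by_cases h : x ∈ Λ2
  · rw [if_pos h, if_pos (Λ2.add_mem h (h23 hy)), ha x h hx' y hy]
  · rw [if_neg h, if_neg (fun h' => h ((Λ2.add_mem_iff_left (h23 hy)).1 h')), hb x hx h y (h23 hy)]

theorem IsOr.glue (hω : Cb ω) {Λ1 Λ2 Λ3 : Submodule A W} {a b : W → ZMod 3}
    (ha : IsOr ω Λ2 Λ3 a) (hb : IsOr ω Λ1 Λ2 b) (h23 : Λ3 ≤ Λ2) :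
    IsOr ω Λ1 Λ3 (glue Λ2 a b) := by
  intro x hx hx'
  refine ⟨?_, ha.per.glue hb.per h23 x hx hx'⟩
  unfold P319B.glue
  by_cases h : x ∈ Λ2
  · rw [if_pos h, if_pos (Λ2.smul_mem _ h), (ha x h hx').1]
  · have h' : ω • x ∉ Λ2 := fun h' => h (((orA_iso_om hω Λ1 Λ2).2.1 x hx).1 h')
    rw [if_neg h, if_neg h', (hb x hx h).1]

theorem orB_sx_glue (hω : Cb ω) {Λ1 Λ2 Λ3 : Submodule A W} (h12 : Fi Λ1 Λ2) (h23 : Fi Λ2 Λ3)
    {a b : W → ZMod 3} (ha : OrPer Λ2 Λ3 a) (hb : OrPer Λ1 Λ2 b) :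
    orSx Λ1 Λ3 (glue Λ2 a b) = orSx Λ2 Λ3 a + orSx Λ1 Λ2 b := by
  obtain ⟨I, T, τ, hT⟩ := orA_tv_of_fi h12
  obtain ⟨J, T', τ', hT'⟩ := orA_tv_of_fi h23
  rw [orA_sx_eq (hT.prod hT' h12.1 h23.1) (h23.1.trans h12.1) (ha.glue hb h23.1),
    Finset.sum_product, orA_sx_eq hT h12.1 hb, ← hT.zero (orSx Λ2 Λ3 a), ← Finset.sum_add_distrib]
  refine Finset.sum_congr rfl fun t ht => ?_
  by_cases h : τ t ∈ Λ2
  · rw [if_pos h, if_pos h, add_zero, orA_sx_eq (hT'.shift h) h23.1 ha]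
    refine Finset.sum_congr rfl fun t' ht' => ?_
    unfold P319B.glue
    rw [if_pos (Λ2.add_mem h (hT'.mem t' ht'))]
  · rw [if_neg h, if_neg h, zero_add, ← orB_tv_const hω hT' h23.1 (b (τ t))]
    refine Finset.sum_congr rfl fun t' ht' => ?_
    have h' : τ t + τ' t' ∉ Λ2 := fun h' => h ((Λ2.add_mem_iff_left (hT'.mem t' ht')).1 h')
    unfold P319B.glue
    rw [if_neg (fun hh => h' (h23.1 hh)), if_neg h', hb _ (hT.mem t ht) h _ (hT'.mem t' ht')]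

theorem orB_dOr_glue (hω : Cb ω) {Λ1 Λ2 Λ3 : Submodule A W} (h12 : Fi Λ1 Λ2) (h23 : Fi Λ2 Λ3)
    {a a' b b' : W → ZMod 3} (ha : OrPer Λ2 Λ3 a) (ha' : OrPer Λ2 Λ3 a') (hb : OrPer Λ1 Λ2 b)
    (hb' : OrPer Λ1 Λ2 b') :
    dOr Λ1 Λ3 (glue Λ2 a b) (glue Λ2 a' b') = dOr Λ2 Λ3 a a' + dOr Λ1 Λ2 b b' := by
  rw [orB_dOr_eq, orB_dOr_eq, orB_dOr_eq,
    ← orB_sx_glue hω h12 h23 (orB_per_dOr ha ha') (orB_per_dOr hb hb')]
  refine orA_sx_congr fun x _ _ => ?_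
  unfold P319B.glue
  by_cases h : x ∈ Λ2
  · simp only [if_pos h]
  · simp only [if_neg h]

theorem orB_iso_sup (Λ1 Λ2 : Submodule A W) :
    Iso LinearMap.id Λ2 (Λ1 ⊓ Λ2) (Λ1 ⊔ Λ2) Λ1 := by
  refine ⟨fun x hx => Submodule.mem_sup_right hx, fun x hx => ⟨fun h => ⟨h, hx⟩, fun h => h.1⟩,
    fun y hy => ?_⟩
  obtain ⟨u, hu, v, hv, rfl⟩ := Submodule.mem_sup.1 hy
  refine ⟨v, hv, ?_⟩
  show v - (u + v) ∈ Λ1
  rw [sub_add_cancel_right]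
  exact Λ1.neg_mem hu

theorem orB_iso_sup' (Λ1 Λ2 : Submodule A W) :
    Iso LinearMap.id Λ1 (Λ1 ⊓ Λ2) (Λ1 ⊔ Λ2) Λ2 := by
  rw [inf_comm, sup_comm]
  exact orB_iso_sup Λ2 Λ1

theorem orB_sup (hω : Cb ω) {Λ1 Λ2 : Submodule A W} (h1 : Fi Λ1 (Λ1 ⊓ Λ2))
    (h2 : Fi Λ2 (Λ1 ⊓ Λ2)) {a b : W → ZMod 3} (ha : IsOr ω (Λ1 ⊔ Λ2) Λ2 a)
    (hb : IsOr ω (Λ1 ⊔ Λ2) Λ1 b) :
    dOr (Λ1 ⊔ Λ2) (Λ1 ⊓ Λ2) (glue Λ2 b a) (glue Λ1 a b) = 0 := by
  obtain ⟨I, T, τ, hT⟩ := orA_tv_of_fi h1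
  obtain ⟨J, T', τ', hT'⟩ := orA_tv_of_fi h2
  have ha1 : IsOr ω Λ1 (Λ1 ⊓ Λ2) a := ha.pull (orB_iso_sup' Λ1 Λ2) inf_le_left
  have hb1 : IsOr ω Λ2 (Λ1 ⊓ Λ2) b := hb.pull (orB_iso_sup Λ1 Λ2) inf_le_right
  have hP := (hT.push (orB_iso_sup' Λ1 Λ2) inf_le_left).prod hT' le_sup_right inf_le_right
  have p1 : OrPer (Λ1 ⊔ Λ2) (Λ1 ⊓ Λ2) (glue Λ2 b a) := hb1.per.glue ha.per inf_le_right
  have p2 : OrPer (Λ1 ⊔ Λ2) (Λ1 ⊓ Λ2) (glue Λ1 a b) := ha1.per.glue hb.per inf_le_left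
  have hz := orB_sx_or hω h1 ha1
  rw [orA_sx_eq hT inf_le_left ha1.per] at hz
  rw [orB_dOr_eq, orA_sx_eq hP (inf_le_left.trans le_sup_left) (orB_per_dOr p1 p2),
    Finset.sum_product_right]
  refine Finset.sum_eq_zero fun t' ht' => ?_
  have m2 := hT'.mem t' ht'
  have hz' := congrArg (fun u => u * (if τ' t' ∉ Λ1 ∧ b (τ' t') = 0 then (1 : ZMod 3) else 0)) hz
  simp only [zero_mul, Finset.sum_mul] at hz'
  refine (Finset.sum_congr rfl fun t ht => ?_).trans hz'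
  have m1 := hT.mem t ht
  have i1 : τ t + τ' t' ∈ Λ1 ↔ τ' t' ∈ Λ1 := Λ1.add_mem_iff_right m1
  have i2 : τ t + τ' t' ∈ Λ2 ↔ τ t ∈ Λ2 := Λ2.add_mem_iff_left m2
  simp only [LinearMap.id_coe, id_eq, Submodule.mem_inf, P319B.glue, i1, i2, m1, true_and]
  by_cases c1 : τ' t' ∈ Λ1 <;> by_cases c2 : τ t ∈ Λ2
  · simp [c1, c2]
  · simp only [c1, c2, if_true, if_false, and_false, not_true, false_and, mul_zero]
    split_ifs with h
    · exact h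
    · rfl
  · simp only [c1, c2, if_true, if_false, false_and, zero_mul]
    split_ifs with h
    · exact h
    · rfl
  · have e1 : a (τ t + τ' t') = a (τ t) := ha.per _ (Submodule.mem_sup_left m1) c2 _ m2
    have e2 : b (τ t + τ' t') = b (τ' t') := by
      rw [add_comm]
      exact hb.per _ (Submodule.mem_sup_right m2) c1 _ m1
    simp only [c1, c2, if_false, false_and, not_false_eq_true, true_and, e1, e2]
    split_ifs <;> simp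

end

end Vale.Agent.P319B
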