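import Vale.Agent.P319B.Prs

/-! Congruences and absolute values of the Gauss sum powers. -/

namespace Vale.Agent.P319B

open Complex NumberField
open scoped Classical ComplexConjugate
open Vale.Agent.P026 (w kk fk)

variable {F : Type} [Field F] [NumberField F] {q : ℕ} {ζ : 𝓞 F}


theorem phia_gauss {P : Ideal (𝓞 F)} {Φ : 𝓞 F} (hΦ : IsPhi q ζ P Φ) [Fintype (𝓞 F ⧸ P)]
    {S : Type} [CommRing S] [IsDomain S] (φ : 𝓞 F →+* S) {ψ : AddChar (𝓞 F ⧸ P) S}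
    (hq : (q : S) ≠ 0) (hψ : ψ.IsPrimitive) {χ : MulChar (𝓞 F ⧸ P) (𝓞 F)}
    (hχ : ∀ x, χ x = prs q ζ P x.out ^ (q - 1)) : gaussSum (χ.ringHomComp φ) ψ ^ q = φ Φ := by
  have h1 := hΦ S φ ψ hq hψ
  rw [finsum_eq_sum_of_fintype] at h1
  simp only [← hχ] at h1
  exact h1

theorem phia_frob {A ι : Type*} [CommRing A] {p : ℕ} (hp : p.Prime) (s : Finset ι) (f : ι → A) :
    (p : A) ∣ (∑ i ∈ s, f i) ^ p - ∑ i ∈ s, f i ^ p := by
  induction s using Finset.induction_on with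
  | empty => simp [hp.ne_zero]
  | insert a s ha ih =>
    obtain ⟨r, hr⟩ := exists_add_pow_prime_eq hp (f a) (∑ i ∈ s, f i)
    obtain ⟨t, ht⟩ := ih
    rw [Finset.sum_insert ha, Finset.sum_insert ha, hr]
    exact ⟨t + f a * (∑ i ∈ s, f i) * r, by linear_combination ht⟩

theorem phia_norm (x : 𝓞 F) :
    (Ideal.absNorm (Ideal.span {x}) : ℝ) = ‖((Algebra.norm ℚ (x : F) : ℚ) : ℂ)‖ := by
  rw [Ideal.absNorm_span_singleton, ← Algebra.coe_norm_int, Rat.cast_intCast, Complex.norm_intCast,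
    Nat.cast_natAbs, Int.cast_abs]

theorem phia_conj [IsGalois ℚ F] (h : PR q ζ) (σ : F →+* ℂ) :
    ∃ c : F ≃ₐ[ℚ] F, (∀ x, ‖σ (c⁻¹ x)‖ = ‖σ x‖) ∧ ∀ τ, ea q ζ (τ * c) + ea q ζ τ = q := by
  obtain ⟨c, hc⟩ := ComplexEmbedding.exists_comp_symm_eq_of_comp_eq (k := ℚ) σ
    (ComplexEmbedding.conjugate σ) (Subsingleton.elim _ _)
  have h1 : ∀ x, σ (c⁻¹ x) = conj (σ x) := fun x => congrArg (fun f : F →+* ℂ => f x) hc
  refine ⟨c, fun x => by rw [h1, Complex.norm_conj], fun τ => ?_⟩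
  have h2 : (c⁻¹ • ζ) * ζ = 1 := by
    have h3 : σ (ζ : F) ^ q = 1 := by
      rw [← map_pow, ← map_pow (algebraMap (𝓞 F) F), h.2.2.pow_eq_one, map_one, map_one]
    have h4 := Complex.norm_eq_one_of_pow_eq_one h3 h.1.ne_zero
    apply RingOfIntegers.coe_injective
    apply σ.injective
    rw [map_mul, map_mul, map_one, map_one]
    refine (congrArg (· * _) (h1 ζ)).trans ?_
    rw [Complex.conj_mul', h4]
    simp
  have h5 : ζ ^ (ea q ζ (τ * c) + ea q ζ τ) = 1 := by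
    have h6 := congrArg (fun x => (τ * c) • x) h2
    simp only [smul_mul', smul_one, smul_smul, mul_inv_cancel_right] at h6
    rw [pow_add, ← (ea_spec h τ).2.2, ← (ea_spec h (τ * c)).2.2, mul_comm, h6]
  obtain ⟨k, hk⟩ := h.2.2.dvd_of_pow_eq_one _ h5
  obtain ⟨a1, a2, -⟩ := ea_spec h τ
  obtain ⟨a3, a4, -⟩ := ea_spec h (τ * c)
  have h7 : k < 2 := Nat.lt_of_mul_lt_mul_left (a := q) (by omega)
  have h8 : k ≠ 0 := by
    rintro rfl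
    omega
  obtain rfl : k = 1 := by omega
  omega

theorem phi_mod (h : PR q ζ) {P : Ideal (𝓞 F)} (hP : GoodP q P) {Φ : 𝓞 F} (hΦ : IsPhi q ζ P Φ) :
    (q : 𝓞 F) ∣ Φ + 1 := by
  have := finite_quot_of_good hP
  have := Fintype.ofFinite (𝓞 F ⧸ P)
  have := hP.1.isMaximal hP.2.1
  let _ := Ideal.Quotient.field P
  obtain ⟨χ, hχ, -⟩ := exists_mulChar_prs h hP
  obtain ⟨σ⟩ : Nonempty (F →+* ℂ) := inferInstance
  let φ : 𝓞 F →+* ℂ := σ.comp (algebraMap (𝓞 F) F)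
  let ψ := AddChar.FiniteField.primitiveChar_to_Complex (𝓞 F ⧸ P)
  have hψ : ψ.IsPrimitive := AddChar.FiniteField.primitiveChar_to_Complex_isPrimitive _
  have hq : (q : ℂ) ≠ 0 := Nat.cast_ne_zero.2 h.1.ne_zero
  have h1 := phia_gauss hΦ φ hq hψ hχ
  have ho := prsa_order h hP φ hq (χ.ringHomComp φ) fun x => congrArg φ (hχ x)
  have hi : ∀ x, IsIntegral ℤ (χ.ringHomComp φ x * ψ x) := fun x => by
    refine IsIntegral.mul ((RingOfIntegers.isIntegral (χ x)).map φ.toIntAlgHom) ?_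
    refine IsIntegral.of_pow Fintype.card_pos (n := Fintype.card (𝓞 F ⧸ P)) ?_
    rw [← AddChar.map_nsmul_eq_pow, card_nsmul_eq_zero, AddChar.map_zero_eq_one]
    exact isIntegral_one
  obtain ⟨s, hs⟩ := phia_frob h.1 Finset.univ fun x => (⟨_, hi x⟩ : integralClosure ℤ ℂ)
  have h2 := congrArg (algebraMap (integralClosure ℤ ℂ) ℂ) hs
  simp only [map_sub, map_pow, map_sum, map_mul, map_natCast] at h2
  have h3 : ∑ x, (χ.ringHomComp φ x * ψ x) ^ q = -1 := by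
    rw [← gaussSum_one_left (ψ := ψ ^ q) (by rw [AddChar.pow_mulShift]; exact hψ (prsa_q_ne hP)),
      ← pow_orderOf_eq_one (χ.ringHomComp φ), ho, gaussSum]
    refine Finset.sum_congr rfl fun x _ => ?_
    rw [mul_pow, MulChar.pow_apply' _ h.1.ne_zero, AddChar.pow_apply]
  have h4 : φ Φ + 1 = q * (s : ℂ) := by
    rw [← h1, ← sub_neg_eq_add, ← h3]
    exact h2
  have hqF : (q : F) ≠ 0 := Nat.cast_ne_zero.2 h.1.ne_zero
  have h5 : IsIntegral ℤ (((Φ : F) + 1) / q) := by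
    rw [← isIntegral_algHom_iff σ.toIntAlgHom σ.injective]
    have h6 : σ.toIntAlgHom (((Φ : F) + 1) / q) = s := by
      rw [RingHom.toIntAlgHom_apply, map_div₀, map_add, map_one, map_natCast, div_eq_iff hq,
        mul_comm]
      exact h4
    rw [h6]
    exact s.2
  obtain ⟨y, hy⟩ : ∃ y : 𝓞 F, algebraMap (𝓞 F) F y = ((Φ : F) + 1) / q := ⟨⟨_, h5⟩, rfl⟩
  refine ⟨y, RingOfIntegers.coe_injective ?_⟩
  rw [map_add, map_one, map_mul, map_natCast, hy]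
  exact (mul_div_cancel₀ _ hqF).symm
theorem phi_abs (h : PR q ζ) {P : Ideal (𝓞 F)} (hP : GoodP q P) {Φ : 𝓞 F} (hΦ : IsPhi q ζ P Φ)
    (σ : F →+* ℂ) : ‖σ (Φ : F)‖ ^ 2 = (Ideal.absNorm P : ℝ) ^ q := by
  have := finite_quot_of_good hP
  have := Fintype.ofFinite (𝓞 F ⧸ P)
  have := hP.1.isMaximal hP.2.1
  let _ := Ideal.Quotient.field P
  obtain ⟨χ, hχ, -⟩ := exists_mulChar_prs h hP
  let φ : 𝓞 F →+* ℂ := σ.comp (algebraMap (𝓞 F) F)
  let ψ := AddChar.FiniteField.primitiveChar_to_Complex (𝓞 F ⧸ P)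
  have hψ : ψ.IsPrimitive := AddChar.FiniteField.primitiveChar_to_Complex_isPrimitive _
  have hq : (q : ℂ) ≠ 0 := Nat.cast_ne_zero.2 h.1.ne_zero
  have h1 := phia_gauss hΦ φ hq hψ hχ
  have ho := prsa_order h hP φ hq (χ.ringHomComp φ) fun x => congrArg φ (hχ x)
  have h2 := gaussSum_mul_gaussSum_eq_card (χ := χ.ringHomComp φ)
    (fun h0 => h.1.ne_one (by rw [← ho, h0, orderOf_one])) hψ
  rw [← star_gaussSum_eq] at h2
  have h3 := congrArg norm h2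
  rw [norm_mul, norm_star, Complex.norm_natCast, ← sq] at h3
  rw [prsa_card, ← h3, ← pow_mul, mul_comm, pow_mul, ← norm_pow _ q, h1]
  rfl
theorem phi_frob (h : PR q ζ) {P : Ideal (𝓞 F)} (hP : GoodP q P) {Φ : 𝓞 F} (hΦ : IsPhi q ζ P Φ)
    {Q : Ideal (𝓞 F)} (hQ : GoodP q Q) (hc : ((Ideal.absNorm Q : ℕ) : 𝓞 F) ∉ P) :
    prs q ζ Q Φ = prs q ζ P ((Ideal.absNorm Q : ℕ) : 𝓞 F) := by
  have := finite_quot_of_good hP
  have := Fintype.ofFinite (𝓞 F ⧸ P)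
  have := hP.1.isMaximal hP.2.1
  let _ := Ideal.Quotient.field P
  have := finite_quot_of_good hQ
  have := Fintype.ofFinite (𝓞 F ⧸ Q)
  have := hQ.1.isMaximal hQ.2.1
  let _ := Ideal.Quotient.field Q
  obtain ⟨χ, hχ, -⟩ := exists_mulChar_prs h hP
  obtain ⟨n, hp, hn⟩ := FiniteField.card (𝓞 F ⧸ P) (ringChar (𝓞 F ⧸ P))
  obtain ⟨n', hp', hn'⟩ := FiniteField.card (𝓞 F ⧸ Q) (ringChar (𝓞 F ⧸ Q))
  have hN : ((Ideal.absNorm Q : ℕ) : 𝓞 F ⧸ P) ≠ 0 := fun h0 =>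
    hc (Ideal.Quotient.eq_zero_iff_mem.1 (by rwa [map_natCast]))
  have hch : ringChar (𝓞 F ⧸ Q) ≠ ringChar (𝓞 F ⧸ P) := fun h0 => hN (by
    rw [prsa_card, hn', h0, Nat.cast_pow, ringChar.Nat.cast_ringChar, zero_pow n'.ne_zero])
  let ψ := AddChar.FiniteField.primitiveChar (𝓞 F ⧸ P) (𝓞 F ⧸ Q) hch
  let S := CyclotomicField ψ.n (𝓞 F ⧸ Q)
  let ι := algebraMap (𝓞 F ⧸ Q) S
  let φ : 𝓞 F →+* S := ι.comp (Ideal.Quotient.mk Q)
  have hq : (q : S) ≠ 0 := by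
    rw [← map_natCast ι]
    exact (map_ne_zero ι).2 (prsa_q_ne hQ)
  have h1 := phia_gauss hΦ φ hq ψ.prim hχ
  have ho := prsa_order h hP φ hq (χ.ringHomComp φ) fun x => congrArg φ (hχ x)
  have : CharP S (ringChar (𝓞 F ⧸ Q)) := charP_of_injective_ringHom ι.injective _
  have := Fact.mk hp'
  have hg : gaussSum (χ.ringHomComp φ) ψ.char ≠ 0 := by
    refine gaussSum_ne_zero_of_nontrivial ?_
      (fun h0 => h.1.ne_one (by rw [← ho, h0, orderOf_one])) ψ.prim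
    rw [hn, Nat.cast_pow]
    refine pow_ne_zero _ fun h0 => hch ?_
    exact (Nat.prime_dvd_prime_iff_eq hp' hp).1 ((CharP.cast_eq_zero_iff S _ _).1 h0)
  obtain ⟨hd, hlt⟩ := dvd_absNorm_sub h hQ
  have hN1 : Ideal.absNorm Q = q * ((Ideal.absNorm Q - 1) / q) + 1 := by
    rw [Nat.mul_div_cancel' hd]
    omega
  have h2 : gaussSum (χ.ringHomComp φ) ψ.char ^ Ideal.absNorm Q =
      gaussSum (χ.ringHomComp φ) (ψ.char.mulShift (Units.mk0 _ hN : (𝓞 F ⧸ P)ˣ)) := by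
    have h3 : χ.ringHomComp φ ^ Ideal.absNorm Q = χ.ringHomComp φ := by
      rw [hN1, pow_succ, pow_mul, ← ho, pow_orderOf_eq_one, one_pow, one_mul]
    rw [Units.val_mk0, ← AddChar.pow_mulShift]
    conv_rhs => rw [← h3]
    rw [prsa_card, hn', gaussSum, gaussSum, sum_pow_char_pow]
    refine Finset.sum_congr rfl fun x _ => ?_
    rw [mul_pow, MulChar.pow_apply' _ (pow_ne_zero _ hp'.ne_zero), AddChar.pow_apply]
  have h4 := gaussSum_mulShift (χ.ringHomComp φ) ψ.char (Units.mk0 _ hN)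
  obtain ⟨j, h5, -⟩ := prs_spec h hP hc
  have h6 : χ.ringHomComp φ (Units.mk0 _ hN : (𝓞 F ⧸ P)ˣ) = φ (ζ ^ j) ^ (q - 1) := by
    rw [MulChar.ringHomComp_apply, hχ, Units.val_mk0, ← map_natCast (Ideal.Quotient.mk P), prs_out,
      h5, map_pow]
  have h7 : φ (ζ ^ j) ^ (q - 1) * φ (ζ ^ j) = 1 := by
    rw [← pow_succ, Nat.sub_add_cancel h.1.one_le, ← map_pow, ← pow_mul, mul_comm, pow_mul,
      h.2.2.pow_eq_one, one_pow, map_one]
  rw [← h2, h6, hN1, pow_succ, pow_mul, h1, ← mul_assoc] at h4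
  have h8 := mul_right_cancel₀ hg (h4.trans (one_mul _).symm)
  rw [h5]
  refine prs_of_mem h hQ (Ideal.Quotient.eq.1 (ι.injective ?_))
  show φ _ = φ _
  rw [map_pow]
  linear_combination φ (ζ ^ j) * h8 - φ Φ ^ ((Ideal.absNorm Q - 1) / q) * h7
theorem sum_ea [IsGalois ℚ F] (h : PR q ζ) : 2 * ∑ τ : F ≃ₐ[ℚ] F, ea q ζ τ = q * dg F := by
  obtain ⟨σ⟩ : Nonempty (F →+* ℂ) := inferInstance
  obtain ⟨c, -, hc⟩ := phia_conj h σ
  have h1 : ∑ τ : F ≃ₐ[ℚ] F, ea q ζ (τ * c) = ∑ τ : F ≃ₐ[ℚ] F, ea q ζ τ :=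
    Equiv.sum_comp (Equiv.mulRight c) (ea q ζ)
  rw [two_mul]
  nth_rewrite 1 [← h1]
  rw [← Finset.sum_add_distrib, Finset.sum_congr rfl fun τ _ => hc τ, Finset.sum_const,
    Finset.card_univ, ← Nat.card_eq_fintype_card, IsGalois.card_aut_eq_finrank, smul_eq_mul,
    mul_comm]
theorem abs_gamma [IsGalois ℚ F] (h : PR q ζ) (α : 𝓞 F) (σ : F →+* ℂ) :
    ‖σ ((∏ τ : F ≃ₐ[ℚ] F, (τ⁻¹ • α) ^ ea q ζ τ : 𝓞 F) : F)‖ ^ 2 =
      (Ideal.absNorm (Ideal.span {α}) : ℝ) ^ q := by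
  obtain ⟨c, hc1, hc⟩ := phia_conj h σ
  have h0 : ‖σ ((∏ τ : F ≃ₐ[ℚ] F, (τ⁻¹ • α) ^ ea q ζ τ : 𝓞 F) : F)‖ =
      ∏ τ : F ≃ₐ[ℚ] F, ‖σ (τ⁻¹ (α : F))‖ ^ ea q ζ τ := by
    rw [RingOfIntegers.coe_eq_algebraMap, map_prod, map_prod, norm_prod]
    refine Finset.prod_congr rfl fun τ _ => ?_
    rw [map_pow, map_pow, norm_pow]
    rfl
  have h1 : ∏ τ : F ≃ₐ[ℚ] F, ‖σ (τ⁻¹ (α : F))‖ ^ ea q ζ (τ * c) =
      ∏ τ : F ≃ₐ[ℚ] F, ‖σ (τ⁻¹ (α : F))‖ ^ ea q ζ τ := by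
    rw [← Equiv.prod_comp (Equiv.mulRight c) fun τ => ‖σ (τ⁻¹ (α : F))‖ ^ ea q ζ τ]
    refine Finset.prod_congr rfl fun τ _ => ?_
    rw [Equiv.coe_mulRight, mul_inv_rev, AlgEquiv.mul_apply, hc1]
  have h2 : (Ideal.absNorm (Ideal.span {α}) : ℝ) = ∏ τ : F ≃ₐ[ℚ] F, ‖σ (τ⁻¹ (α : F))‖ := by
    rw [phia_norm, ← map_ratCast σ, ← eq_ratCast (algebraMap ℚ F),
      Algebra.norm_eq_prod_automorphisms, map_prod, norm_prod]
    exact (Equiv.prod_comp (Equiv.inv _) fun τ : F ≃ₐ[ℚ] F => ‖σ (τ (α : F))‖).symm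
  rw [h0, sq, h2, ← Finset.prod_pow]
  nth_rewrite 1 [← h1]
  rw [← Finset.prod_mul_distrib]
  refine Finset.prod_congr rfl fun τ _ => ?_
  rw [← pow_add, hc]
theorem absNorm_of_abs {x : 𝓞 F} {a : ℝ} (ha : 0 ≤ a) (hx : ∀ σ : F →+* ℂ, ‖σ (x : F)‖ ^ 2 = a) :
    (Ideal.absNorm (Ideal.span {x}) : ℝ) ^ 2 = a ^ dg F := by
  rw [phia_norm, ← eq_ratCast (algebraMap ℚ ℂ), Algebra.norm_eq_prod_embeddings, norm_prod,
    ← Finset.prod_pow, Finset.prod_congr rfl fun σ _ => hx σ.toRingHom, Finset.prod_const,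
    Finset.card_univ, AlgHom.card]
/-- An integer of absolute value one that is congruent to plus or minus one. -/
theorem eq_pm_one (hq : 2 < q) {ε : 𝓞 F} (h1 : ∀ σ : F →+* ℂ, ‖σ (ε : F)‖ = 1)
    (h2 : (q : 𝓞 F) ∣ ε ^ 2 - 1) : ε = 1 ∨ ε = -1 := by
  obtain ⟨y, hy⟩ := h2
  have h3 : y = 0 := by
    by_contra h0
    obtain ⟨σ, hσ⟩ := exists_conjugate_one_le_norm h0
    have h4 := congrArg (fun z : 𝓞 F => ‖σ (z : F)‖) hy
    simp only [map_sub, map_pow, map_one, map_mul, map_natCast, norm_mul,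
      Complex.norm_natCast] at h4
    have h5 := norm_sub_le (σ (ε : F) ^ 2) 1
    rw [norm_pow, h1, norm_one] at h5
    have h6 : (2 : ℝ) < q := by exact_mod_cast hq
    have h7 : ‖σ (ε : F) ^ 2 - 1‖ = q * ‖σ (y : F)‖ := h4
    nlinarith
  rw [h3, mul_zero, sub_eq_zero] at hy
  exact sq_eq_one_iff.1 hy

end Vale.Agent.P319B
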