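import Vale.Agent.P319B.ProjA

/-! The projection formula. -/

namespace Vale.Agent.P319B

open scoped Classical

variable {A : Type} [CommRing A] [IsDomain A] [IsPrincipalIdealRing A] {ω : A}
  (K : Type) [Field K] [CharZero K] [Algebra A K] [IsFractionRing A K]
  {S : Type} [CommRing S] [Algebra A S] [Algebra K S] [IsScalarTower A K S] [Module.Finite K S]

omit [IsDomain A] [IsPrincipalIdealRing A] in
theorem pj_iso_equiv {W W' : Type} [AddCommGroup W] [Module A W] [AddCommGroup W'] [Module A W']
    (e : W ≃ₗ[A] W') {α : W →ₗ[A] W} {α' : W' →ₗ[A] W'} (h : e.toLinearMap ∘ₗ α = α' ∘ₗ e) :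
    Iso e.toLinearMap ⊤ (LinearMap.range α) ⊤ (LinearMap.range α') :=
  dsA_iso e.injective (by rw [Submodule.map_top, LinearEquiv.range])
    (by rw [← LinearMap.range_comp, h, LinearMap.range_comp_of_range_eq_top _ e.range])

omit [IsDomain A] [IsPrincipalIdealRing A] in
theorem pj_ok_equiv {W W' : Type} [AddCommGroup W] [Module A W] [AddCommGroup W'] [Module A W']
    (e : W ≃ₗ[A] W') {α : W →ₗ[A] W} {α' : W' →ₗ[A] W'} (h : e.toLinearMap ∘ₗ α = α' ∘ₗ e)
    (ho : Ok α') : Ok α := by
  refine ⟨fun x y hxy => e.injective (ho.1 ?_),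
    (Fi.of_iso (pj_iso_equiv e h) le_top le_top).2 ho.2⟩
  have h1 := LinearMap.congr_fun h x
  have h2 := LinearMap.congr_fun h y
  simp only [LinearMap.comp_apply, LinearEquiv.coe_coe] at h1 h2
  rw [← h1, ← h2, hxy]

include K in
theorem symE_scalar (hω : Base ω) {W : Type} [AddCommGroup W] [Module A W] [Module.Finite A W]
    [Module.Free A W] {c : A} (hc : c ≠ 0) {β : W →ₗ[A] W} (hβ : LinearMap.det β ≠ 0) :
    symE ω (c • LinearMap.id) β =
      symE ω (LinearMap.mul A A c) (LinearMap.mul A A (LinearMap.det β)) := by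
  have b := Module.Free.chooseBasis A W
  rw [← LinearMap.det_toMatrix b] at hβ ⊢
  have h1 : b.equivFun.toLinearMap ∘ₗ (c • LinearMap.id) =
      Matrix.toLin' (Matrix.diagonal fun _ => c) ∘ₗ b.equivFun := by
    refine LinearMap.ext fun x => funext fun i => ?_
    simp [Matrix.mulVec_diagonal]
  have h2 : b.equivFun.toLinearMap ∘ₗ β =
      Matrix.toLin' (LinearMap.toMatrix b b β) ∘ₗ b.equivFun := by
    refine LinearMap.ext fun x => ?_
    exact (LinearMap.toMatrix_mulVec_repr b b β x).symm
  have o1 := pjA_ok_diag (n := Module.Free.ChooseBasisIndex A W) hω fun _ => hc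
  have o2 := pjA_ok_mat hω hβ
  rw [symE_transport hω.toCb (pj_ok_equiv _ h1 o1) (pj_ok_equiv _ h2 o2) o1 o2
    (LinearMap.ext fun x => (β.map_smul c x).symm) (pjA_comm_scalar _ _) _ h1 h2
    (pj_iso_equiv _ h1) (pj_iso_equiv _ h2)]
  exact sub_eq_zero.1 (pjA_del_zero K hω hc hβ)

theorem pj_symS_base (hω : Base ω) {c d : A} (hc : c ≠ 0) (hd : d ≠ 0) :
    symS ω (algebraMap A K c) (algebraMap A K d) =
      symE ω (LinearMap.mul A A c) (LinearMap.mul A A d) := by
  have hinj := IsFractionRing.injective A K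
  refine (symS_eq K hω (Algebra.linearMap A K) hinj (fun z => ?_)
    ((map_ne_zero_iff _ hinj).2 hc).isUnit ((map_ne_zero_iff _ hinj).2 hd).isUnit
    (fun z => map_mul (algebraMap A K) c z) (fun z => map_mul (algebraMap A K) d z)).2.2
  obtain ⟨b, x, hx⟩ := IsLocalization.exists_integer_multiple (nonZeroDivisors A) z
  exact ⟨b, nonZeroDivisors.coe_ne_zero b, x, hx⟩

theorem pj_scalar_int (hω : Base ω) {n : Type} [Fintype n] [DecidableEq n]
    (e : Module.Basis n K S) {c : A} (hc : c ≠ 0) {y : S} (hy : IsUnit y) {B : Matrix n n A}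
    (hB : B.map (algebraMap A K) = Algebra.leftMulMatrix e y) :
    symS ω (algebraMap A S c) y = symS ω (algebraMap A K c) (Algebra.norm K y) := by
  have hinj := IsFractionRing.injective A K
  have hN : Algebra.norm K y = algebraMap A K B.det := by
    rw [Algebra.norm_eq_matrix_det e, ← hB, RingHom.map_det, RingHom.mapMatrix_apply]
  have hd : B.det ≠ 0 := by
    intro h
    rw [h, map_zero] at hN
    exact (hy.map (Algebra.norm K)).ne_zero hN
  let j : (n → A) →ₗ[A] S := (e.equivFun.symm.toLinearMap.restrictScalars A) ∘ₗ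
    (Algebra.linearMap A K).compLeft n
  have hj : ∀ z, e.equivFun (j z) = fun i => algebraMap A K (z i) := fun z =>
    e.equivFun.apply_symm_apply _
  have hcu : IsUnit (algebraMap A S c) := by
    rw [IsScalarTower.algebraMap_apply A K S]
    exact ((map_ne_zero_iff _ hinj).2 hc).isUnit.map _
  have := (symS_eq K hω j (fun z z' h => funext fun i => hinj (by
      have h1 := congrFun (hj z) i
      rw [h, hj] at h1
      exact h1.symm)) (fun z => ?_) hcu hy (α := c • LinearMap.id) (β := Matrix.toLin' B)
      (fun z => by rw [LinearMap.smul_apply, map_smul, Algebra.smul_def, LinearMap.id_apply])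
      (fun z => ?_)).2.2
  · rw [this, hN, pj_symS_base K hω hc hd, symE_scalar K hω hc, LinearMap.det_toLin']
    rwa [LinearMap.det_toLin']
  · obtain ⟨b, hb⟩ := IsLocalization.exist_integer_multiples_of_finite (nonZeroDivisors A)
      (e.equivFun z)
    choose x hx using hb
    refine ⟨b, nonZeroDivisors.coe_ne_zero b, x, e.equivFun.injective ?_⟩
    rw [hj, LinearMapClass.map_smul_of_tower]
    exact funext hx
  · apply e.equivFun.injective
    rw [hj]
    have h1 := Algebra.leftMulMatrix_mulVec_repr e y (j z)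
    rw [← hB, ← e.equivFun_apply, ← e.equivFun_apply, hj] at h1
    rw [← h1]
    funext i
    exact (algebraMap A K).map_mulVec B z i

theorem symS_scalar (hω : Base ω) {c : K} (hc : c ≠ 0) {y : S} (hy : IsUnit y) :
    symS ω (algebraMap K S c) y = symS ω c (Algebra.norm K y) := by
  have hinj := IsFractionRing.injective A K
  have e := Module.finBasis K S
  have hu : ∀ {c : A}, c ≠ 0 → IsUnit (algebraMap A K c) := fun hc =>
    ((map_ne_zero_iff _ hinj).2 hc).isUnit
  have hu' : ∀ {c : A}, c ≠ 0 → IsUnit (algebraMap A S c) := fun hc => by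
    rw [IsScalarTower.algebraMap_apply A K S]
    exact (hu hc).map _
  have hN := hy.map (Algebra.norm K)
  have key : ∀ {c : A}, c ≠ 0 →
      symS ω (algebraMap A S c) y = symS ω (algebraMap A K c) (Algebra.norm K y) := by
    intro c hc
    obtain ⟨m, hm, B, hB⟩ := pjA_clear (A := A) K (Algebra.leftMulMatrix e y)
    have h1 := pj_scalar_int K hω e hc ((hu' hm).mul hy) (B := B) (by
      rw [hB, IsScalarTower.algebraMap_apply A K S, ← Algebra.smul_def, map_smul])
    have h2 := pj_scalar_int K hω e hc (hu' hm) (B := Matrix.diagonal fun _ => m) (by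
      rw [IsScalarTower.algebraMap_apply A K S, AlgHom.commutes, Matrix.diagonal_map (map_zero _)]
      rfl)
    rw [symS_mul_right K hω (hu' hc) (hu' hm) hy, map_mul,
      symS_mul_right K hω (hu hc) ((hu' hm).map _) hN, h2] at h1
    exact add_left_cancel h1
  obtain ⟨b, x, hx⟩ := IsLocalization.exists_integer_multiple (nonZeroDivisors A) c
  have hb := nonZeroDivisors.coe_ne_zero b
  rw [Algebra.smul_def] at hx
  have hx0 : x ≠ 0 := by
    intro h
    rw [h, map_zero] at hx
    exact mul_ne_zero (hu hb).ne_zero hc hx.symm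
  have h1 := key hx0
  rw [IsScalarTower.algebraMap_apply A K S, hx, map_mul, ← IsScalarTower.algebraMap_apply A K S,
    symS_mul_left K hω (hu' hb) (hc.isUnit.map _) hy, symS_mul_left K hω (hu hb) hc.isUnit hN,
    key hb] at h1
  exact add_left_cancel h1

open Polynomial in
theorem pj_det_aeval {L n : Type} [Field L] [Fintype n] [DecidableEq n] (M : Matrix n n L)
    {b : L[X]} (hb : b.Splits) :
    (aeval M b).det = resultant M.charpoly b (Fintype.card n) b.natDegree := by
  have hdeg := M.charpoly_natDegree_eq_dim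
  rw [resultant_comm, resultant_eq_prod_eval b M.charpoly _ hdeg.le hb]
  let φ : L[X] →* L := Matrix.detMonoidHom.comp (aeval M : L[X] →ₐ[L] Matrix n n L).toMonoidHom
  have hφ : ∀ p, φ p = (aeval M p).det := fun _ => rfl
  have h1 : ∀ r : L, φ (X - C r) = (-1) ^ Fintype.card n * M.charpoly.eval r := by
    intro r
    rw [hφ, Matrix.eval_charpoly, map_sub, aeval_X, aeval_C, ← neg_sub, Matrix.det_neg]
    rfl
  have h2 : φ (C b.leadingCoeff) = b.leadingCoeff ^ Fintype.card n := by
    rw [hφ, aeval_C, Algebra.algebraMap_eq_smul_one, Matrix.det_smul, Matrix.det_one, mul_one]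
  rw [← hφ]
  conv_lhs => rw [hb.eq_prod_roots]
  rw [map_mul, h2, map_multiset_prod, Multiset.map_map]
  simp only [Function.comp_def, h1]
  rw [Multiset.prod_map_mul, Multiset.map_const', Multiset.prod_replicate,
    ← hb.natDegree_eq_card_roots, ← pow_mul]
  ring

omit [CharZero K] in
theorem norm_eq_resultant {f : Polynomial K} (hf : f.Monic) (b : Polynomial K) :
    Algebra.norm K (AdjoinRoot.mk f b) = Polynomial.resultant f b := by
  let pb := AdjoinRoot.powerBasis hf.ne_zero
  have hch : (Algebra.leftMulMatrix pb.basis pb.gen).charpoly = f := by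
    rw [charpoly_leftMulMatrix, AdjoinRoot.minpoly_powerBasis_gen_of_monic hf]
  have h1 : Algebra.leftMulMatrix pb.basis (AdjoinRoot.mk f b) =
      Polynomial.aeval (Algebra.leftMulMatrix pb.basis pb.gen) b := by
    rw [Polynomial.aeval_algHom_apply, ← AdjoinRoot.aeval_eq]
    rfl
  rw [Algebra.norm_eq_matrix_det pb.basis, h1]
  generalize Algebra.leftMulMatrix pb.basis pb.gen = M at hch
  let φ := algebraMap K (AlgebraicClosure K)
  apply φ.injective
  have h2 := pj_det_aeval (M.map φ) (IsAlgClosed.splits (b.map φ))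
  rw [Matrix.charpoly_map, hch, Polynomial.resultant_map_map, Polynomial.natDegree_map,
    Fintype.card_fin] at h2
  have h3 := Polynomial.map_aeval_eq_aeval_map (φ := φ)
    (ψ := (φ.mapMatrix : Matrix (Fin pb.dim) (Fin pb.dim) K →+* _)) (by
      ext x i j
      simp [Matrix.algebraMap_matrix_apply, apply_ite φ, φ]) b M
  rw [RingHom.map_det, h3]
  exact h2

end Vale.Agent.P319B
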