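import Vale.Agent.P319B.SymS

/-! The symbol of a scalar and a matrix. -/

namespace Vale.Agent.P319B

open scoped Classical

open Matrix

noncomputable section

variable {A : Type} [CommRing A] [IsDomain A] {ω : A} {n : Type} [Fintype n] [DecidableEq n]

theorem pjA_ok_mat (hω : Base ω) {B : Matrix n n A} (hB : B.det ≠ 0) : Ok (toLin' B) := by
  refine ⟨?_, fi_of_smul hω fun x => ⟨B.det, hB, B.adjugate *ᵥ x, ?_⟩⟩
  · rw [← LinearMap.ker_eq_bot, LinearMap.ker_eq_bot']
    intro x hx
    exact Matrix.eq_zero_of_mulVec_eq_zero hB hx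
  · rw [toLin'_apply, mulVec_mulVec, mul_adjugate, smul_mulVec, one_mulVec]

theorem pjA_ok_mul (hω : Base ω) {d : A} (hd : d ≠ 0) : Ok (LinearMap.mul A A d) :=
  ⟨fun _ _ h => mul_left_cancel₀ hd h, fi_of_smul hω fun x => ⟨d, hd, x, rfl⟩⟩

omit [IsDomain A] in
theorem pjA_toLin_mul (B B' : Matrix n n A) : toLin' (B * B') = toLin' B * toLin' B' :=
  toLin'_mul B B'

omit [IsDomain A] in
theorem pjA_comm_mul (c d : A) :
    LinearMap.mul A A c * LinearMap.mul A A d = LinearMap.mul A A d * LinearMap.mul A A c := by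
  exact LinearMap.ext fun x => mul_left_comm c d x

omit [IsDomain A] in
theorem pjA_mem_diag (v : n → A) (x : n → A) :
    x ∈ LinearMap.range (toLin' (diagonal v)) ↔ ∀ i, v i ∣ x i := by
  constructor
  · rintro ⟨y, rfl⟩ i
    rw [toLin'_apply, mulVec_diagonal]
    exact dvd_mul_right _ _
  · intro h
    choose y hy using h
    refine ⟨y, funext fun i => ?_⟩
    rw [toLin'_apply, mulVec_diagonal, hy]

theorem pjA_ok_diag (hω : Base ω) {v : n → A} (hv : ∀ i, v i ≠ 0) : Ok (toLin' (diagonal v)) :=
  pjA_ok_mat hω (by rw [det_diagonal]; exact Finset.prod_ne_zero_iff.2 fun i _ => hv i)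

omit [IsDomain A] in
theorem pjA_comm_diag (v w : n → A) :
    toLin' (diagonal v) * toLin' (diagonal w) = toLin' (diagonal w) * toLin' (diagonal v) := by
  rw [← pjA_toLin_mul, ← pjA_toLin_mul, diagonal_mul_diagonal, diagonal_mul_diagonal]
  simp only [mul_comm]

theorem pjA_diag_disj (hω : Base ω) {v w : n → A} (hv : ∀ i, v i ≠ 0) (hw : ∀ i, w i ≠ 0)
    (h : ∀ i, v i = 1 ∨ w i = 1) : symE ω (toLin' (diagonal v)) (toLin' (diagonal w)) = 0 := by
  have key : ∀ {v w : n → A}, (∀ i, w i ≠ 0) → (∀ i, v i = 1 ∨ w i = 1) →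
      trO ω (toLin' (diagonal v)) ⊤ (LinearMap.range (toLin' (diagonal w))) ⊤
        (LinearMap.range (toLin' (diagonal w))) = 0 := by
    intro v w hw h
    rw [trO_congr hω.toCb (Iso.id _ _), trO_id hω.toCb (pjA_ok_diag hω hw).2]
    intro x _
    rw [pjA_mem_diag]
    intro i
    rcases h i with h | h
    · simp [mulVec_diagonal, h]
    · rw [h]
      exact one_dvd _
  rw [symE_coprime hω.toCb (pjA_ok_diag hω hv) (pjA_ok_diag hω hw) (pjA_comm_diag v w),
    key hw h, key hv fun i => (h i).symm, sub_zero]
  rw [eq_top_iff]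
  intro x _
  refine Submodule.mem_sup.2 ⟨fun i => if v i = 1 then x i else 0, ?_,
    fun i => if v i = 1 then 0 else x i, ?_, funext fun i => ?_⟩
  · rw [pjA_mem_diag]
    intro i
    by_cases h' : v i = 1 <;> simp [h']
  · rw [pjA_mem_diag]
    intro i
    by_cases h' : v i = 1
    · simp [h']
    · simp [(h i).resolve_left h']
  · by_cases h' : v i = 1 <;> simp [h']

theorem pjA_diag_single (hω : Base ω) (i : n) {c d : A} (hc : c ≠ 0) (hd : d ≠ 0) :
    symE ω (toLin' (diagonal (Function.update 1 i c))) (toLin' (diagonal (Function.update 1 i d))) =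
      symE ω (LinearMap.mul A A c) (LinearMap.mul A A d) := by
  have hne : ∀ {c : A}, c ≠ 0 → ∀ j, Function.update (1 : n → A) i c j ≠ 0 := by
    intro c hc j
    by_cases h : j = i
    · rw [h, Function.update_self]
      exact hc
    · rw [Function.update_of_ne h]
      exact one_ne_zero
  have hi : ∀ c : A, (LinearMap.proj i : (n → A) →ₗ[A] A) ∘ₗ
      toLin' (diagonal (Function.update 1 i c)) = LinearMap.mul A A c ∘ₗ LinearMap.proj i := by
    intro c
    refine LinearMap.ext fun x => ?_
    simp [mulVec_diagonal]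
  have hiso : ∀ c : A, Iso (LinearMap.proj i : (n → A) →ₗ[A] A) ⊤
      (LinearMap.range (toLin' (diagonal (Function.update 1 i c)))) ⊤
      (LinearMap.range (LinearMap.mul A A c)) := by
    intro c
    refine ⟨fun _ _ => trivial, fun x _ => ?_, fun y _ => ⟨fun _ => y, trivial, ?_⟩⟩
    · rw [pjA_mem_diag]
      constructor
      · rintro ⟨y, hy⟩ j
        by_cases h : j = i
        · rw [h, Function.update_self]
          exact ⟨y, hy.symm⟩
        · rw [Function.update_of_ne h]
          exact one_dvd _
      · intro h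
        have := h i
        rw [Function.update_self] at this
        obtain ⟨y, hy⟩ := this
        exact ⟨y, hy.symm⟩
    · show y - y ∈ _
      rw [sub_self]
      exact Submodule.zero_mem _
  exact symE_transport hω.toCb (pjA_ok_diag hω (hne hc)) (pjA_ok_diag hω (hne hd))
    (pjA_ok_mul hω hc) (pjA_ok_mul hω hd) (pjA_comm_diag _ _) (pjA_comm_mul c d) _ (hi c) (hi d)
    (hiso c) (hiso d)

/-- The defect of the projection formula. -/
def pjDel (ω c : A) (B : Matrix n n A) : ZMod 3 :=
  symE ω (toLin' (diagonal fun _ => c)) (toLin' B) -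
    symE ω (LinearMap.mul A A c) (LinearMap.mul A A B.det)

omit [IsDomain A] in
theorem pjA_comm_scalar (c : A) (B : Matrix n n A) :
    toLin' (diagonal fun _ => c) * toLin' B = toLin' B * toLin' (diagonal fun _ => c) := by
  rw [← pjA_toLin_mul, ← pjA_toLin_mul]
  exact congrArg _ (scalar_commute c (fun r => mul_comm c r) B).eq

theorem pjA_del_mul (hω : Base ω) {c : A} (hc : c ≠ 0) {B B' : Matrix n n A} (hB : B.det ≠ 0)
    (hB' : B'.det ≠ 0) : pjDel ω c (B * B') = pjDel ω c B + pjDel ω c B' := by
  unfold pjDel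
  have e : LinearMap.mul A A (B.det * B'.det) =
      LinearMap.mul A A B.det * LinearMap.mul A A B'.det := map_mul (Algebra.lmul A A) _ _
  rw [pjA_toLin_mul, det_mul, e, symE_mul_right hω.toCb (pjA_ok_diag hω fun _ => hc)
    (pjA_ok_mat hω hB) (pjA_ok_mat hω hB') (pjA_comm_scalar c B) (pjA_comm_scalar c B'),
    symE_mul_right hω.toCb (pjA_ok_mul hω hc) (pjA_ok_mul hω hB) (pjA_ok_mul hω hB')
    (pjA_comm_mul _ _) (pjA_comm_mul _ _)]
  ring

theorem pjA_del_one (hω : Base ω) {c : A} (hc : c ≠ 0) : pjDel ω c (1 : Matrix n n A) = 0 := by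
  have h1 : (1 : Matrix n n A).det ≠ 0 := by
    rw [det_one]
    exact one_ne_zero
  have := pjA_del_mul hω hc h1 h1
  rw [mul_one] at this
  exact left_eq_add.1 this

theorem pjA_del_single (hω : Base ω) {c : A} (hc : c ≠ 0) (i : n) {d : A} (hd : d ≠ 0) :
    pjDel ω c (diagonal (Function.update 1 i d)) = 0 := by
  have hne : ∀ {a c : A}, a ≠ 0 → c ≠ 0 → ∀ j, Function.update (fun _ : n => a) i c j ≠ 0 := by
    intro a c ha hc j
    by_cases h : j = i
    · rw [h, Function.update_self]
      exact hc
    · rw [Function.update_of_ne h]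
      exact ha
  have hne1 : ∀ {c : A}, c ≠ 0 → ∀ j, Function.update (1 : n → A) i c j ≠ 0 :=
    fun hc => hne one_ne_zero hc
  have e : (diagonal fun _ => c : Matrix n n A) = diagonal (Function.update (fun _ => c) i 1) *
      diagonal (Function.update 1 i c) := by
    rw [diagonal_mul_diagonal]
    refine congrArg _ (funext fun j => ?_)
    by_cases h : j = i
    · simp [h]
    · simp [h]
  have hdet : (diagonal (Function.update (1 : n → A) i d)).det = d := by
    rw [det_diagonal, Finset.prod_update_of_mem (Finset.mem_univ i)]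
    simp
  unfold pjDel
  rw [hdet, e, pjA_toLin_mul, symE_mul_left hω.toCb (pjA_ok_diag hω (hne hc one_ne_zero))
    (pjA_ok_diag hω (hne1 hc)) (pjA_ok_diag hω (hne1 hd))
    (pjA_comm_diag _ _) (pjA_comm_diag _ _), pjA_diag_single hω i hc hd,
    pjA_diag_disj hω (hne hc one_ne_zero) (hne1 hd)]
  · ring
  · intro j
    by_cases h : j = i
    · simp [h]
    · simp [h]

theorem pjA_del_diag (hω : Base ω) {c : A} (hc : c ≠ 0) {D : n → A} (hD : ∀ i, D i ≠ 0) :
    pjDel ω c (diagonal D) = 0 := by
  have key : ∀ s : Finset n, pjDel ω c (diagonal fun i => if i ∈ s then D i else 1) = 0 := by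
    intro s
    induction s using Finset.induction_on with
    | empty =>
      simp only [Finset.notMem_empty, if_false, diagonal_one]
      exact pjA_del_one hω hc
    | insert i s hi ih =>
      have e : (diagonal fun j => if j ∈ insert i s then D j else 1 : Matrix n n A) =
          diagonal (Function.update 1 i (D i)) * diagonal fun j => if j ∈ s then D j else 1 := by
        rw [diagonal_mul_diagonal]
        refine congrArg _ (funext fun j => ?_)
        by_cases h : j = i
        · simp [h, hi]
        · simp [h]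
      rw [e, pjA_del_mul hω hc, ih, pjA_del_single hω hc i (hD i), add_zero]
      · rw [det_diagonal, Finset.prod_update_of_mem (Finset.mem_univ i)]
        simp [hD i]
      · rw [det_diagonal]
        refine Finset.prod_ne_zero_iff.2 fun j _ => ?_
        split_ifs
        · exact hD j
        · exact one_ne_zero
  simpa only [Finset.mem_univ, if_true] using key Finset.univ

variable (K : Type) [Field K] [Algebra A K] [IsFractionRing A K]

omit [Fintype n] [DecidableEq n] in
theorem pjA_clear [Finite n] (M : Matrix n n K) :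
    ∃ m : A, m ≠ 0 ∧ ∃ B : Matrix n n A, B.map (algebraMap A K) = algebraMap A K m • M := by
  obtain ⟨b, hb⟩ := IsLocalization.exist_integer_multiples_of_finite (nonZeroDivisors A)
    (fun p : n × n => M p.1 p.2)
  choose B hB using hb
  refine ⟨b, nonZeroDivisors.coe_ne_zero b, Matrix.of fun i j => B (i, j), ?_⟩
  ext i j
  rw [map_apply, of_apply, hB, Matrix.smul_apply, Algebra.smul_def, smul_eq_mul]

omit [IsDomain A] in
theorem pjA_det_ne {M : Matrix n n K} (hM : M.det ≠ 0) {m : A} (hm : m ≠ 0) {B : Matrix n n A}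
    (h : B.map (algebraMap A K) = algebraMap A K m • M) : B.det ≠ 0 := by
  intro h0
  have h1 := (algebraMap A K).map_det B
  rw [h0, map_zero, RingHom.mapMatrix_apply, h, det_smul] at h1
  exact mul_ne_zero (pow_ne_zero _ ((map_ne_zero_iff _ (IsFractionRing.injective A K)).2 hm))
    hM h1.symm

include K in
theorem pjA_del_zero [CharZero K] (hω : Base ω) {c : A} (hc : c ≠ 0) {B : Matrix n n A}
    (hB : B.det ≠ 0) : pjDel ω c B = 0 := by
  have hinj := IsFractionRing.injective A K
  have key : ∀ M : Matrix n n K, M.det ≠ 0 → ∃ m : A, m ≠ 0 ∧ ∃ B : Matrix n n A,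
      B.map (algebraMap A K) = algebraMap A K m • M ∧ pjDel ω c B = 0 := by
    intro M hM
    refine diagonal_transvection_induction_of_det_ne_zero (fun M => ∃ m : A, m ≠ 0 ∧
      ∃ B : Matrix n n A, B.map (algebraMap A K) = algebraMap A K m • M ∧ pjDel ω c B = 0)
      M hM ?_ ?_ ?_
    · intro D hD
      obtain ⟨b, hb⟩ := IsLocalization.exist_integer_multiples_of_finite (nonZeroDivisors A) D
      choose D' hD' using hb
      have hb0 := nonZeroDivisors.coe_ne_zero b
      refine ⟨b, hb0, diagonal D', ?_, pjA_del_diag hω hc fun i h0 => ?_⟩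
      · rw [diagonal_map (map_zero _), ← diagonal_smul]
        refine congrArg _ (funext fun i => ?_)
        rw [hD', Pi.smul_apply, Algebra.smul_def, smul_eq_mul]
      · have h1 := hD' i
        rw [h0, map_zero, Algebra.smul_def] at h1
        rw [det_diagonal] at hD
        exact mul_ne_zero ((map_ne_zero_iff _ hinj).2 hb0)
          (Finset.prod_ne_zero_iff.1 hD i (Finset.mem_univ i)) h1.symm
    · intro t
      obtain ⟨m, hm, B, hB⟩ := pjA_clear (A := A) K (transvection t.i t.j (t.c / 3))
      have hd : B.det ≠ 0 := pjA_det_ne K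
        (by rw [det_transvection_of_ne _ _ t.hij]; exact one_ne_zero) hm hB
      have hd2 : (B * B).det ≠ 0 := by
        rw [det_mul]
        exact mul_ne_zero hd hd
      refine ⟨m * m * m, mul_ne_zero (mul_ne_zero hm hm) hm, B * B * B, ?_, ?_⟩
      · rw [Matrix.map_mul, Matrix.map_mul, hB, smul_mul_smul_comm, smul_mul_smul_comm,
          transvection_mul_transvection_same _ _ t.hij,
          transvection_mul_transvection_same _ _ t.hij, map_mul, map_mul,
          show t.c / 3 + t.c / 3 + t.c / 3 = t.c by ring]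
        rfl
      · rw [pjA_del_mul hω hc hd2 hd, pjA_del_mul hω hc hd hd]
        have key : ∀ a : ZMod 3, a + a + a = 0 := by decide
        exact key _
    · rintro M N hM hN ⟨m, hm, B, hB, h1⟩ ⟨m', hm', B', hB', h2⟩
      refine ⟨m * m', mul_ne_zero hm hm', B * B', ?_, ?_⟩
      · rw [Matrix.map_mul, hB, hB', smul_mul_smul_comm, map_mul]
      · rw [pjA_del_mul hω hc (pjA_det_ne K hM hm hB) (pjA_det_ne K hN hm' hB'), h1, h2, add_zero]
  have hM : (B.map (algebraMap A K)).det ≠ 0 := by
    rw [← RingHom.mapMatrix_apply, ← RingHom.map_det]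
    exact (map_ne_zero_iff _ hinj).2 hB
  obtain ⟨m, hm, B', h1, h2⟩ := key _ hM
  have e : B' = diagonal (fun _ => m) * B := by
    ext i j
    apply hinj
    have := congrFun (congrFun h1 i) j
    rw [map_apply, Matrix.smul_apply, map_apply, smul_eq_mul] at this
    rw [this, diagonal_mul, map_mul]
  rw [e, pjA_del_mul hω hc _ hB, pjA_del_diag hω hc fun _ => hm, zero_add] at h2
  · exact h2
  · rw [det_diagonal]
    exact Finset.prod_ne_zero_iff.2 fun _ _ => hm

end

end Vale.Agent.P319B
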