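import Vale.Agent.P319B.EDef

/-! The power residue symbol. -/

namespace Vale.Agent.P319B

open Complex NumberField
open scoped Classical ComplexConjugate
open Vale.Agent.P026 (w kk fk)

variable {F : Type} [Field F] [NumberField F] {q : ℕ} {ζ : 𝓞 F}


open scoped Pointwise

theorem prsa_prim (h : PR q ζ) {S : Type*} [CommRing S] (φ : 𝓞 F →+* S) (hq : (q : S) ≠ 0) :
    IsPrimitiveRoot (φ ζ) q := by
  have := Fact.mk h.1
  have h1 : φ ζ ^ q = 1 := by rw [← map_pow, h.2.2.pow_eq_one, map_one]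
  have h2 : φ ζ ≠ 1 := fun h2 => hq (by
    have := congrArg φ (h.2.2.geom_sum_eq_zero h.1.one_lt)
    simpa [map_sum, map_pow, h2] using this)
  exact IsPrimitiveRoot.iff_orderOf.2 (orderOf_eq_prime h1 h2)

theorem prsa_q_ne {P : Ideal (𝓞 F)} (hP : GoodP q P) : (q : 𝓞 F ⧸ P) ≠ 0 := fun h =>
  hP.2.2 (Ideal.Quotient.eq_zero_iff_mem.1 (by rwa [map_natCast]))

theorem prsa_primq (h : PR q ζ) {P : Ideal (𝓞 F)} (hP : GoodP q P) :
    IsPrimitiveRoot (Ideal.Quotient.mk P ζ) q := prsa_prim h _ (prsa_q_ne hP)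

theorem prsa_card (P : Ideal (𝓞 F)) [Fintype (𝓞 F ⧸ P)] :
    Ideal.absNorm P = Fintype.card (𝓞 F ⧸ P) := by
  rw [Ideal.absNorm_apply, Submodule.cardQuot_apply, Nat.card_eq_fintype_card]

theorem prsa_pow_eq {S : Type*} [CommRing S] {z : S} (hz : IsPrimitiveRoot z q) (h : PR q ζ)
    {i j : ℕ} (hij : z ^ i = z ^ j) : ζ ^ i = ζ ^ j := by
  rw [pow_eq_pow_mod i hz.pow_eq_one, pow_eq_pow_mod j hz.pow_eq_one] at hij
  rw [pow_eq_pow_mod i h.2.2.pow_eq_one, pow_eq_pow_mod j h.2.2.pow_eq_one,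
    hz.pow_inj (Nat.mod_lt _ h.1.pos) (Nat.mod_lt _ h.1.pos) hij]

theorem prsa_choose (p p' : ℕ → Prop) (h : ∃ j, p j) (h' : ∃ j, p' j) (e : p = p') :
    h.choose = h'.choose := by
  subst e
  rfl

theorem prsa_good {J P : Ideal (𝓞 F)} {x : 𝓞 F} (hJ : IsCoprime J (Ideal.span {x}))
    (hP : P ∈ UniqueFactorizationMonoid.normalizedFactors J) : P.IsPrime ∧ P ≠ ⊥ ∧ x ∉ P := by
  have h1 := UniqueFactorizationMonoid.prime_of_normalized_factor P hP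
  have h2 := Ideal.isPrime_of_prime h1
  refine ⟨h2, h1.ne_zero, fun hx => h2.ne_top (top_le_iff.1 ?_)⟩
  rw [← Ideal.isCoprime_iff_sup_eq.1 hJ]
  exact sup_le (Ideal.le_of_dvd (UniqueFactorizationMonoid.dvd_of_mem_normalizedFactors hP))
    ((Ideal.span_singleton_le_iff_mem _).2 hx)

theorem finite_quot_of_good {P : Ideal (𝓞 F)} (hP : GoodP q P) : Finite (𝓞 F ⧸ P) := by
  exact Ideal.finiteQuotientOfFreeOfNeBot P hP.2.1
theorem dvd_absNorm_sub (h : PR q ζ) {P : Ideal (𝓞 F)} (hP : GoodP q P) :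
    q ∣ Ideal.absNorm P - 1 ∧ q < Ideal.absNorm P := by
  have := finite_quot_of_good hP
  have := Fintype.ofFinite (𝓞 F ⧸ P)
  have := hP.1.isMaximal hP.2.1
  let _ := Ideal.Quotient.field P
  have h1 := prsa_primq h hP
  have h2 : q ∣ Ideal.absNorm P - 1 := by
    rw [prsa_card]
    exact h1.dvd_of_pow_eq_one _ (FiniteField.pow_card_sub_one_eq_one _ (h1.ne_zero h.1.ne_zero))
  have h3 : 1 < Ideal.absNorm P := by
    rw [prsa_card]
    exact Fintype.one_lt_card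
  have := Nat.le_of_dvd (by omega) h2
  exact ⟨h2, by omega⟩
theorem zeta_pow_inj (h : PR q ζ) {P : Ideal (𝓞 F)} (hP : GoodP q P) {i j : ℕ}
    (hij : ζ ^ i - ζ ^ j ∈ P) : ζ ^ i = ζ ^ j := by
  refine prsa_pow_eq (prsa_primq h hP) h ?_
  rw [← map_pow, ← map_pow]
  exact Ideal.Quotient.eq.2 hij
theorem prs_spec (h : PR q ζ) {P : Ideal (𝓞 F)} (hP : GoodP q P) {x : 𝓞 F} (hx : x ∉ P) :
    ∃ j : ℕ, prs q ζ P x = ζ ^ j ∧ x ^ ((Ideal.absNorm P - 1) / q) - ζ ^ j ∈ P := by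
  have := finite_quot_of_good hP
  have := Fintype.ofFinite (𝓞 F ⧸ P)
  have := hP.1.isMaximal hP.2.1
  let _ := Ideal.Quotient.field P
  have := NeZero.mk h.1.ne_zero
  have h1 : (Ideal.Quotient.mk P x ^ ((Ideal.absNorm P - 1) / q)) ^ q = 1 := by
    rw [← pow_mul, Nat.div_mul_cancel (dvd_absNorm_sub h hP).1, prsa_card]
    exact FiniteField.pow_card_sub_one_eq_one _ (mt Ideal.Quotient.eq_zero_iff_mem.1 hx)
  obtain ⟨i, -, hi⟩ := (prsa_primq h hP).eq_pow_of_pow_eq_one h1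
  have h2 : x ∉ P ∧ ∃ j : ℕ, x ^ ((Ideal.absNorm P - 1) / q) - ζ ^ j ∈ P :=
    ⟨hx, i, Ideal.Quotient.eq.1 (by rw [map_pow, map_pow, hi])⟩
  exact ⟨h2.2.choose, dif_pos h2, h2.2.choose_spec⟩
theorem prs_of_mem (h : PR q ζ) {P : Ideal (𝓞 F)} (hP : GoodP q P) {x : 𝓞 F} {j : ℕ}
    (hj : x ^ ((Ideal.absNorm P - 1) / q) - ζ ^ j ∈ P) : prs q ζ P x = ζ ^ j := by
  have hx : x ∉ P := fun hx => by
    obtain ⟨h1, h2⟩ := dvd_absNorm_sub h hP
    have h3 : 0 < (Ideal.absNorm P - 1) / q := Nat.div_pos (by omega) h.1.pos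
    have h4 : ζ ^ j ∈ P := by
      have := P.sub_mem (P.pow_mem_of_mem hx _ h3) hj
      rwa [sub_sub_cancel] at this
    exact hP.1.ne_top (P.eq_top_of_isUnit_mem h4 ((h.2.2.isUnit h.1.ne_zero).pow j))
  obtain ⟨i, h1, h2⟩ := prs_spec h hP hx
  rw [h1]
  refine zeta_pow_inj h hP ?_
  have := P.sub_mem hj h2
  rwa [sub_sub_sub_cancel_left] at this
theorem prs_eq_zero (h : PR q ζ) {P : Ideal (𝓞 F)} (hP : GoodP q P) {x : 𝓞 F} :
    prs q ζ P x = 0 ↔ x ∈ P := by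
  constructor
  · intro h0
    by_contra hx
    obtain ⟨i, h1, -⟩ := prs_spec h hP hx
    exact pow_ne_zero i (h.2.2.ne_zero h.1.ne_zero) (h1 ▸ h0)
  · intro hx
    exact dif_neg fun h' => h'.1 hx
theorem prs_congr {P : Ideal (𝓞 F)} {x y : 𝓞 F} (hxy : x - y ∈ P) :
    prs q ζ P x = prs q ζ P y := by
  have e0 : x ∈ P ↔ y ∈ P := by
    rw [← Ideal.Quotient.eq_zero_iff_mem, ← Ideal.Quotient.eq_zero_iff_mem,
      Ideal.Quotient.eq.2 hxy]
  have e : (fun j : ℕ => x ^ ((Ideal.absNorm P - 1) / q) - ζ ^ j ∈ P) =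
      fun j : ℕ => y ^ ((Ideal.absNorm P - 1) / q) - ζ ^ j ∈ P := by
    funext j
    rw [← Ideal.Quotient.eq, ← Ideal.Quotient.eq, map_pow, map_pow _ y, Ideal.Quotient.eq.2 hxy]
  have e1 : (∃ j : ℕ, x ^ ((Ideal.absNorm P - 1) / q) - ζ ^ j ∈ P) ↔
      ∃ j : ℕ, y ^ ((Ideal.absNorm P - 1) / q) - ζ ^ j ∈ P := exists_congr fun j => (congrFun e j).to_iff
  by_cases hx : x ∉ P ∧ ∃ j : ℕ, x ^ ((Ideal.absNorm P - 1) / q) - ζ ^ j ∈ P
  · have hy : y ∉ P ∧ ∃ j : ℕ, y ^ ((Ideal.absNorm P - 1) / q) - ζ ^ j ∈ P :=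
      ⟨mt e0.2 hx.1, e1.1 hx.2⟩
    rw [prs, prs, dif_pos hx, dif_pos hy, prsa_choose _ _ hx.2 hy.2 e]
  · have hy : ¬ (y ∉ P ∧ ∃ j : ℕ, y ^ ((Ideal.absNorm P - 1) / q) - ζ ^ j ∈ P) := fun hy =>
      hx ⟨mt e0.1 hy.1, e1.2 hy.2⟩
    rw [prs, prs, dif_neg hx, dif_neg hy]
theorem prs_out (P : Ideal (𝓞 F)) (x : 𝓞 F) :
    prs q ζ P (Ideal.Quotient.mk P x).out = prs q ζ P x := by
  exact prs_congr (Ideal.Quotient.eq.1 (Ideal.Quotient.mk_out _))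
theorem prs_mul (h : PR q ζ) {P : Ideal (𝓞 F)} (hP : GoodP q P) (x y : 𝓞 F) :
    prs q ζ P (x * y) = prs q ζ P x * prs q ζ P y := by
  by_cases hx : x ∈ P
  · rw [(prs_eq_zero h hP).2 hx, (prs_eq_zero h hP).2 (P.mul_mem_right y hx), zero_mul]
  by_cases hy : y ∈ P
  · rw [(prs_eq_zero h hP).2 hy, (prs_eq_zero h hP).2 (P.mul_mem_left x hy), mul_zero]
  obtain ⟨i, h1, h2⟩ := prs_spec h hP hx
  obtain ⟨j, h3, h4⟩ := prs_spec h hP hy
  rw [h1, h3, ← pow_add]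
  refine prs_of_mem h hP (Ideal.Quotient.eq.1 ?_)
  rw [mul_pow, pow_add, map_mul, map_mul, Ideal.Quotient.eq.2 h2, Ideal.Quotient.eq.2 h4]
theorem prs_one (h : PR q ζ) {P : Ideal (𝓞 F)} (hP : GoodP q P) : prs q ζ P 1 = 1 := by
  rw [← pow_zero ζ]
  refine prs_of_mem h hP ?_
  rw [pow_zero, one_pow, sub_self]
  exact P.zero_mem
theorem prs_neg_one (h : PR q ζ) {P : Ideal (𝓞 F)} (hP : GoodP q P) : prs q ζ P (-1) = 1 := by
  have hx : (-1 : 𝓞 F) ∉ P := fun hx => hP.1.ne_top (P.eq_top_of_isUnit_mem hx isUnit_one.neg)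
  obtain ⟨i, h1, -⟩ := prs_spec h hP hx
  have h2 : prs q ζ P (-1) ^ q = 1 := by rw [h1, ← pow_mul, mul_comm, pow_mul, h.2.2.pow_eq_one, one_pow]
  have h3 : prs q ζ P (-1) ^ 2 = 1 := by
    rw [sq, ← prs_mul h hP, neg_mul_neg, one_mul, prs_one h hP]
  obtain ⟨k, hk⟩ := h.1.odd_of_ne_two h.2.1.ne'
  generalize prs q ζ P (-1) = η at h2 h3
  rwa [hk, pow_succ, pow_mul, h3, one_pow, one_mul] at h2
theorem prs_pow (h : PR q ζ) {P : Ideal (𝓞 F)} (hP : GoodP q P) (x : 𝓞 F) (k : ℕ) :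
    prs q ζ P (x ^ k) = prs q ζ P x ^ k := by
  induction k with
  | zero => rw [pow_zero, pow_zero, prs_one h hP]
  | succ k ih => rw [pow_succ, pow_succ, prs_mul h hP, ih]
theorem prs_prod (h : PR q ζ) {P : Ideal (𝓞 F)} (hP : GoodP q P) {ι : Type} (s : Finset ι)
    (x : ι → 𝓞 F) : prs q ζ P (∏ i ∈ s, x i) = ∏ i ∈ s, prs q ζ P (x i) := by
  induction s using Finset.induction_on with
  | empty => rw [Finset.prod_empty, Finset.prod_empty, prs_one h hP]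
  | insert a s ha ih => rw [Finset.prod_insert ha, Finset.prod_insert ha, prs_mul h hP, ih]
theorem prs_pow_q (h : PR q ζ) {P : Ideal (𝓞 F)} (hP : GoodP q P) {x : 𝓞 F} (hx : x ∉ P) :
    prs q ζ P x ^ q = 1 := by
  obtain ⟨i, h1, -⟩ := prs_spec h hP hx
  rw [h1, ← pow_mul, mul_comm, pow_mul, h.2.2.pow_eq_one, one_pow]
theorem exists_prs_ne (h : PR q ζ) {P : Ideal (𝓞 F)} (hP : GoodP q P) :
    ∃ x : 𝓞 F, x ∉ P ∧ prs q ζ P x ≠ 1 := by
  have := finite_quot_of_good hP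
  have := Fintype.ofFinite (𝓞 F ⧸ P)
  have := hP.1.isMaximal hP.2.1
  let _ := Ideal.Quotient.field P
  obtain ⟨g, hg⟩ := IsCyclic.exists_ofOrder_eq_natCard (α := (𝓞 F ⧸ P)ˣ)
  rw [Nat.card_eq_fintype_card, Fintype.card_units, ← prsa_card] at hg
  obtain ⟨x, hx⟩ := Ideal.Quotient.mk_surjective (g : 𝓞 F ⧸ P)
  have hxP : x ∉ P := fun h0 => g.ne_zero (hx ▸ Ideal.Quotient.eq_zero_iff_mem.2 h0)
  refine ⟨x, hxP, fun h1 => ?_⟩
  obtain ⟨i, h2, h3⟩ := prs_spec h hP hxP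
  obtain ⟨h4, h5⟩ := dvd_absNorm_sub h hP
  rw [← h2, h1, ← Ideal.Quotient.eq, map_pow, hx, map_one] at h3
  refine pow_ne_one_of_lt_orderOf (x := g) (n := (Ideal.absNorm P - 1) / q)
    (Nat.div_pos (Nat.le_sub_one_of_lt h5) h.1.pos).ne' ?_ (Units.ext h3)
  rw [hg]
  exact Nat.div_lt_self (h.1.pos.trans_le (Nat.le_sub_one_of_lt h5)) h.1.one_lt
theorem prsa_order (h : PR q ζ) {P : Ideal (𝓞 F)} (hP : GoodP q P) {S : Type*} [CommRing S]
    (φ : 𝓞 F →+* S) (hq : (q : S) ≠ 0) (χ : MulChar (𝓞 F ⧸ P) S)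
    (hχ : ∀ x, χ x = φ (prs q ζ P x.out ^ (q - 1))) : orderOf χ = q := by
  have := Fact.mk h.1
  have := hP.1
  refine orderOf_eq_prime (MulChar.ext fun a => ?_) fun h1 => ?_
  · have ha : (a : 𝓞 F ⧸ P).out ∉ P := fun ha =>
      a.ne_zero ((Ideal.Quotient.mk_out _).symm.trans (Ideal.Quotient.eq_zero_iff_mem.2 ha))
    rw [MulChar.pow_apply_coe, MulChar.one_apply_coe, hχ, ← map_pow, ← pow_mul, mul_comm, pow_mul,
      prs_pow_q h hP ha, one_pow, map_one]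
  · obtain ⟨x, hx, h2⟩ := exists_prs_ne h hP
    have := hP.1.isMaximal hP.2.1
    let _ := Ideal.Quotient.field P
    have h3 := hχ (Ideal.Quotient.mk P x)
    rw [h1, MulChar.one_apply (IsUnit.mk0 _ (mt Ideal.Quotient.eq_zero_iff_mem.1 hx)),
      prs_out] at h3
    have h4 := prs_pow_q h hP hx
    obtain ⟨i, h5, -⟩ := prs_spec h hP hx
    rw [h5] at h2 h3 h4
    have h6 : ζ ^ (i * (q - 1)) = ζ ^ 0 :=
      prsa_pow_eq (prsa_prim h φ hq) h (by rw [pow_zero, h3, ← pow_mul, map_pow])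
    rw [pow_zero, pow_mul] at h6
    rw [← Nat.sub_add_cancel h.1.one_le, pow_succ, h6, one_mul] at h4
    exact h2 h4
theorem exists_mulChar_prs (h : PR q ζ) {P : Ideal (𝓞 F)} (hP : GoodP q P) :
    ∃ χ : MulChar (𝓞 F ⧸ P) (𝓞 F), (∀ x, χ x = prs q ζ P x.out ^ (q - 1)) ∧ orderOf χ = q := by
  have hq : q - 1 ≠ 0 := by
    have := h.2.1
    omega
  let χ : MulChar (𝓞 F ⧸ P) (𝓞 F) :=
    { toFun := fun x => prs q ζ P x.out ^ (q - 1)
      map_one' := by rw [← map_one (Ideal.Quotient.mk P), prs_out, prs_one h hP, one_pow]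
      map_mul' := fun x y => by
        rw [← mul_pow, ← prs_mul h hP, ← prs_out P (x.out * y.out), map_mul,
          Ideal.Quotient.mk_out, Ideal.Quotient.mk_out]
      map_nonunit' := fun x hx => by
        have := hP.1.isMaximal hP.2.1
        let _ := Ideal.Quotient.field P
        have h0 : x = 0 := by
          by_contra h0
          exact hx (IsUnit.mk0 x h0)
        have h1 : x.out ∈ P := Ideal.Quotient.eq_zero_iff_mem.1 ((Ideal.Quotient.mk_out x).trans h0)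
        show prs q ζ P x.out ^ (q - 1) = 0
        rw [(prs_eq_zero h hP).2 h1, zero_pow hq] }
  refine ⟨χ, fun _ => rfl, ?_⟩
  exact prsa_order h hP (RingHom.id _) (Nat.cast_ne_zero.2 h.1.ne_zero) χ fun _ => rfl
theorem exists_isPhi (h : PR q ζ) {P : Ideal (𝓞 F)} (hP : GoodP q P) :
    ∃ Φ : 𝓞 F, IsPhi q ζ P Φ := by
  have := finite_quot_of_good hP
  have := Fintype.ofFinite (𝓞 F ⧸ P)
  have := hP.1.isMaximal hP.2.1
  let _ := Ideal.Quotient.field P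
  obtain ⟨χ, hχ, -⟩ := exists_mulChar_prs h hP
  refine ⟨χ (-1) * Fintype.card (𝓞 F ⧸ P) * ∏ i ∈ Finset.Ico 1 (q - 1), jacobiSum χ (χ ^ i),
    fun S _ _ φ ψ hq hψ => ?_⟩
  have ho := prsa_order h hP φ hq (χ.ringHomComp φ) fun x => congrArg φ (hχ x)
  have h1 := gaussSum_pow_eq_prod_jacobiSum (χ := χ.ringHomComp φ) (ψ := ψ)
    (by rw [ho]; exact h.1.two_le) hψ
  rw [ho] at h1
  rw [finsum_eq_sum_of_fintype, map_mul, map_mul, map_natCast, map_prod]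
  simp only [← hχ]
  refine h1.trans ?_
  congr 1
  refine Finset.prod_congr rfl fun i _ => ?_
  rw [MulChar.ringHomComp_pow, jacobiSum_ringHomComp]

theorem ea_spec (h : PR q ζ) (τ : F ≃ₐ[ℚ] F) :
    0 < ea q ζ τ ∧ ea q ζ τ < q ∧ τ • ζ = ζ ^ ea q ζ τ := by
  have := NeZero.mk h.1.ne_zero
  have h1 : (τ • ζ) ^ q = 1 := by rw [← smul_pow', h.2.2.pow_eq_one, smul_one]
  obtain ⟨i, h2, h3⟩ := h.2.2.eq_pow_of_pow_eq_one h1
  have h4 : ∃ a : ℕ, a < q ∧ τ • ζ = ζ ^ a := ⟨i, h2, h3.symm⟩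
  have h5 : ea q ζ τ = h4.choose := dif_pos h4
  have h6 := h4.choose_spec
  rw [← h5] at h6
  refine ⟨Nat.pos_of_ne_zero fun h0 => h.2.2.ne_one h.1.one_lt ?_, h6⟩
  have h7 := h6.2
  rw [h0, pow_zero, ← smul_one τ] at h7
  exact MulAction.injective τ h7
theorem ea_eq (h : PR q ζ) {τ : F ≃ₐ[ℚ] F} {a : ℕ} (ha : τ • ζ = ζ ^ a) : ea q ζ τ = a % q := by
  obtain ⟨-, h1, h2⟩ := ea_spec h τ
  refine h.2.2.pow_inj h1 (Nat.mod_lt _ h.1.pos) ?_
  rw [← h2, ha, ← pow_eq_pow_mod a h.2.2.pow_eq_one]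
theorem smul_root (h : PR q ζ) (τ : F ≃ₐ[ℚ] F) {η : 𝓞 F} (hη : η ^ q = 1) :
    τ • η = η ^ ea q ζ τ := by
  have := NeZero.mk h.1.ne_zero
  obtain ⟨i, -, rfl⟩ := h.2.2.eq_pow_of_pow_eq_one hη
  rw [smul_pow', (ea_spec h τ).2.2, ← pow_mul, ← pow_mul, mul_comm]
theorem ea_mul (h : PR q ζ) (σ τ : F ≃ₐ[ℚ] F) :
    ea q ζ (σ * τ) = ea q ζ σ * ea q ζ τ % q := by
  refine ea_eq h ?_
  rw [mul_smul, (ea_spec h τ).2.2, smul_pow', (ea_spec h σ).2.2, pow_mul]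
theorem GoodP.smul {P : Ideal (𝓞 F)} (hP : GoodP q P) (τ : F ≃ₐ[ℚ] F) : GoodP q (τ • P) := by
  have := hP.1
  refine ⟨Ideal.IsPrime.smul τ, fun h0 => hP.2.1 ?_, fun hq => hP.2.2 ?_⟩
  · rw [smul_eq_iff_eq_inv_smul, Ideal.smul_bot] at h0
    exact h0
  · rw [Ideal.mem_pointwise_smul_iff_inv_smul_mem] at hq
    have e : τ⁻¹ • (q : 𝓞 F) = q := map_natCast (MulSemiringAction.toRingHom _ (𝓞 F) τ⁻¹) q
    rwa [e] at hq
theorem absNorm_smul (τ : F ≃ₐ[ℚ] F) (P : Ideal (𝓞 F)) :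
    Ideal.absNorm (τ • P) = Ideal.absNorm P := by
  rw [Ideal.absNorm_apply, Submodule.cardQuot_apply, Ideal.absNorm_apply, Submodule.cardQuot_apply]
  exact (Nat.card_congr (Ideal.quotientEquiv P (τ • P)
    (MulSemiringAction.toRingEquiv _ (𝓞 F) τ) rfl).toEquiv).symm
theorem prs_smul (h : PR q ζ) {P : Ideal (𝓞 F)} (hP : GoodP q P) (τ : F ≃ₐ[ℚ] F) (x : 𝓞 F) :
    prs q ζ (τ • P) (τ • x) = τ • prs q ζ P x := by
  by_cases hx : x ∈ P
  · rw [(prs_eq_zero h hP).2 hx, smul_zero,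
      (prs_eq_zero h (hP.smul τ)).2 (Ideal.smul_mem_pointwise_smul τ x P hx)]
  obtain ⟨i, h1, h2⟩ := prs_spec h hP hx
  rw [h1, smul_pow', (ea_spec h τ).2.2, ← pow_mul]
  refine prs_of_mem h (hP.smul τ) ?_
  have h3 := Ideal.smul_mem_pointwise_smul τ _ P h2
  rwa [smul_sub, smul_pow', smul_pow', (ea_spec h τ).2.2, ← pow_mul, ← absNorm_smul τ P] at h3

theorem psym_top (x : 𝓞 F) : psym q ζ x ⊤ = 1 := by
  rw [psym, ← Ideal.one_eq_top, UniqueFactorizationMonoid.normalizedFactors_one,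
    Multiset.map_zero, Multiset.prod_zero]
theorem psym_prime {P : Ideal (𝓞 F)} (hP : P.IsPrime) (h0 : P ≠ ⊥) (x : 𝓞 F) :
    psym q ζ x P = prs q ζ P x := by
  rw [psym, UniqueFactorizationMonoid.normalizedFactors_irreducible
    (Ideal.prime_of_isPrime h0 hP).irreducible, normalize_eq, Multiset.map_singleton,
    Multiset.prod_singleton]
theorem psym_mul_right (x : 𝓞 F) {J J' : Ideal (𝓞 F)} (hJ : J ≠ ⊥) (hJ' : J' ≠ ⊥) :
    psym q ζ x (J * J') = psym q ζ x J * psym q ζ x J' := by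
  rw [psym, UniqueFactorizationMonoid.normalizedFactors_mul hJ hJ', Multiset.map_add,
    Multiset.prod_add, psym, psym]
theorem psym_mul_left (h : PR q ζ) {J : Ideal (𝓞 F)} (hJ : IsCoprime J (Ideal.span {(q : 𝓞 F)}))
    (x y : 𝓞 F) : psym q ζ (x * y) J = psym q ζ x J * psym q ζ y J := by
  rw [psym, psym, psym, ← Multiset.prod_map_mul]
  exact congrArg _ (Multiset.map_congr rfl fun P hP => prs_mul h (prsa_good hJ hP) x y)
theorem psym_pow_left (h : PR q ζ) {J : Ideal (𝓞 F)} (hJ : IsCoprime J (Ideal.span {(q : 𝓞 F)}))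
    (x : 𝓞 F) (k : ℕ) : psym q ζ (x ^ k) J = psym q ζ x J ^ k := by
  rw [psym, psym, ← Multiset.prod_map_pow]
  exact congrArg _ (Multiset.map_congr rfl fun P hP => prs_pow h (prsa_good hJ hP) x k)
theorem psym_pow_q (h : PR q ζ) {J : Ideal (𝓞 F)} (hJ : IsCoprime J (Ideal.span {(q : 𝓞 F)}))
    {x : 𝓞 F} (hx : IsCoprime J (Ideal.span {x})) : psym q ζ x J ^ q = 1 := by
  rw [psym, ← Multiset.prod_map_pow]
  refine Multiset.prod_eq_one fun z hz => ?_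
  obtain ⟨P, hP, rfl⟩ := Multiset.mem_map.1 hz
  exact prs_pow_q h (prsa_good hJ hP) (prsa_good hx hP).2.2

end Vale.Agent.P319B
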