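import Vale.Agent.P319B.Norm
import Vale.Agent.P319B.Lat

/-! Additive characters and the local dual. -/

namespace Vale.Agent.P319B

open Complex NumberField
open scoped Classical ComplexConjugate
open Vale.Agent.P026 (w kk fk)

/-! ### The rational numbers -/

theorem psi_isInt {q : ℚ} : IsIntegral ℤ q ↔ ∃ n : ℤ, q = n := by
  rw [IsIntegrallyClosed.isIntegral_iff]
  exact ⟨fun ⟨n, h⟩ => ⟨n, h.symm⟩, fun ⟨n, h⟩ => ⟨n, h.symm⟩⟩

theorem psi_bez {M m : ℕ} (h : m.Coprime M) (k : ℕ) :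
    ∃ a b : ℤ, (a : ℚ) * m + b * (M : ℚ) ^ k = 1 := by
  obtain ⟨a, b, hab⟩ := Nat.isCoprime_iff_coprime.2 (h.pow_right k)
  exact ⟨a, b, by exact_mod_cast congrArg (Int.cast : ℤ → ℚ) hab⟩

theorem psi_split (M : ℕ) (q : ℚ) : ∃ q' : ℚ, q' ∈ Oo ℚ M ∧ q - q' ∈ Rr ℚ M := by
  obtain ⟨m, k, c, hm, h⟩ := ring_fac M q.den q.den_nz
  obtain ⟨a, b, hab⟩ := psi_bez hm k
  have h1 : (m : ℚ) * (M : ℚ) ^ k = c * q.den := by exact_mod_cast h
  have h2 : (q.den : ℚ) * q = q.num := by rw [mul_comm, Rat.mul_den_eq_num]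
  refine ⟨q * b * (M : ℚ) ^ k, ⟨m, hm, psi_isInt.2 ⟨b * c * q.num, ?_⟩⟩,
    ⟨k, psi_isInt.2 ⟨a * c * q.num, ?_⟩⟩⟩
  · push_cast
    linear_combination q * b * h1 + b * c * h2
  · push_cast
    linear_combination q * a * h1 + a * c * h2 - (M : ℚ) ^ k * q * hab

theorem psi_int {M : ℕ} {q : ℚ} (h1 : q ∈ Oo ℚ M) (h2 : q ∈ Rr ℚ M) : ∃ n : ℤ, q = n := by
  obtain ⟨m, hm, h⟩ := h1
  obtain ⟨k, hk⟩ := h2
  obtain ⟨a, b, hab⟩ := psi_bez hm k
  obtain ⟨x, hx⟩ := psi_isInt.1 h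
  obtain ⟨y, hy⟩ := psi_isInt.1 hk
  refine ⟨a * x + b * y, ?_⟩
  push_cast
  linear_combination a * hx + b * hy - q * hab

/-- The standard character of the rationals. -/
noncomputable def psiE (q : ℚ) : ℂ := cexp (2 * Real.pi * I * (q : ℂ))

theorem psiE_add (x y : ℚ) : psiE (x + y) = psiE x * psiE y := by
  rw [psiE, psiE, psiE, ← Complex.exp_add]
  push_cast
  ring_nf

theorem psiE_neg (x : ℚ) : psiE (-x) = conj (psiE x) := by
  rw [psiE, psiE, ← Complex.exp_conj]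
  simp only [map_mul, conj_ofReal, conj_I, map_ofNat, map_ratCast]
  push_cast
  ring_nf

theorem psiE_norm (x : ℚ) : ‖psiE x‖ = 1 := by
  rw [psiE, ← Complex.norm_exp_ofReal_mul_I (2 * Real.pi * x)]
  push_cast
  ring_nf

theorem psiE_eq_one {x : ℚ} : psiE x = 1 ↔ ∃ n : ℤ, x = n := by
  rw [psiE, Complex.exp_eq_one_iff]
  refine exists_congr fun n => ?_
  rw [mul_comm (n : ℂ), mul_right_inj' Complex.two_pi_I_ne_zero]
  exact_mod_cast Iff.rfl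

theorem psi_ep {M : ℕ} {q q' : ℚ} (h1 : q' ∈ Oo ℚ M) (h2 : q - q' ∈ Rr ℚ M) :
    ep M q = psiE q' := by
  have h := psi_split M q
  rw [ep, dif_pos h]
  obtain ⟨h3, h4⟩ := h.choose_spec
  have h5 : h.choose - q' ∈ Rr ℚ M := by
    have := sub_mem h2 h4
    rwa [sub_sub_sub_cancel_left] at this
  have h6 := psiE_eq_one.2 (psi_int (sub_mem h3 h1) h5)
  have h7 := psiE_add (h.choose - q') q'
  rw [sub_add_cancel, h6, one_mul] at h7
  exact h7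

theorem psi_ep_add (M : ℕ) (x y : ℚ) : ep M (x + y) = ep M x * ep M y := by
  obtain ⟨a, ha, ha'⟩ := psi_split M x
  obtain ⟨b, hb, hb'⟩ := psi_split M y
  rw [psi_ep ha ha', psi_ep hb hb', ← psiE_add]
  exact psi_ep (add_mem ha hb) (add_sub_add_comm x y a b ▸ add_mem ha' hb')

theorem psi_ep_neg (M : ℕ) (x : ℚ) : ep M (-x) = conj (ep M x) := by
  obtain ⟨a, ha, ha'⟩ := psi_split M x
  rw [psi_ep ha ha', ← psiE_neg]
  exact psi_ep (neg_mem ha) (neg_sub' x a ▸ neg_mem ha')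

theorem psi_ep_norm (M : ℕ) (x : ℚ) : ‖ep M x‖ = 1 := by
  obtain ⟨a, ha, ha'⟩ := psi_split M x
  rw [psi_ep ha ha', psiE_norm]

theorem psi_ep_eq_one {M : ℕ} {x : ℚ} : ep M x = 1 ↔ x ∈ Rr ℚ M := by
  refine ⟨fun h => ?_, fun h => ?_⟩
  · obtain ⟨a, ha, ha'⟩ := psi_split M x
    rw [psi_ep ha ha', psiE_eq_one] at h
    obtain ⟨n, rfl⟩ := h
    have := add_mem ha' (intCast_mem (Rr ℚ M) n)
    rwa [sub_add_cancel] at this
  · rw [psi_ep (zero_mem _) (by rwa [sub_zero])]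
    exact psiE_eq_one.2 ⟨0, by simp⟩

theorem psi_ep_of_Oo {M : ℕ} {x : ℚ} (h : x ∈ Oo ℚ M) : ep M x = psiE x :=
  psi_ep h (by rw [sub_self]; exact zero_mem _)

theorem psi_mul_conj {z : ℂ} (h : ‖z‖ = 1) : z * conj z = 1 := by
  rw [mul_conj', h]
  simp

theorem psi_ep_loc {M : ℕ} {x : ℚ} : psiE x * conj (ep M x) = 1 ↔ x ∈ Oo ℚ M := by
  refine ⟨fun h => ?_, fun h => ?_⟩
  · obtain ⟨a, ha, ha'⟩ := psi_split M x
    rw [psi_ep ha ha', ← psiE_neg, ← psiE_add, psiE_eq_one] at h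
    obtain ⟨n, hn⟩ := h
    have := add_mem ha (intCast_mem (Oo ℚ M) n)
    rwa [← hn, add_add_neg_cancel'_right] at this
  · rw [psi_ep_of_Oo h, psi_mul_conj (psiE_norm x)]

/-! ### Clearing denominators -/

theorem psi_tr_nat {F : Type} [Field F] [NumberField F] (m : ℕ) (x : F) :
    Algebra.trace ℚ F ((m : F) * x) = m * Algebra.trace ℚ F x := by
  rw [← nsmul_eq_mul, map_nsmul, nsmul_eq_mul]

theorem psi_clear {F : Type} [Field F] [NumberField F] {L : AddSubgroup F} (hL : IsLat L)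
    (S : Submonoid ℕ) {z : F}
    (h : ∀ x ∈ L, ∃ m ∈ S, IsIntegral ℤ ((m : ℚ) * Algebra.trace ℚ F (z * x))) :
    ∃ m ∈ S, (m : F) * z ∈ dualL L := by
  obtain ⟨b, hb⟩ := hL
  choose! m hm hm' using h
  have hbi : ∀ i, b i ∈ L := fun i => (hb _).2 (Submodule.subset_span ⟨i, rfl⟩)
  refine ⟨∏ i, m (b i), prod_mem fun i _ => hm _ (hbi i), fun x hx => ?_⟩
  rw [hb] at hx
  induction hx using Submodule.span_induction with
  | mem x hx =>
    obtain ⟨i, rfl⟩ := hx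
    obtain ⟨k, hk⟩ := psi_isInt.1 (hm' _ (hbi i))
    obtain ⟨e, he⟩ := Finset.dvd_prod_of_mem (fun i => m (b i)) (Finset.mem_univ i)
    refine ⟨e * k, ?_⟩
    rw [mul_assoc, psi_tr_nat, he]
    push_cast
    linear_combination e * hk
  | zero => exact ⟨0, by simp⟩
  | add x y _ _ hx hy =>
    obtain ⟨k, hk⟩ := hx
    obtain ⟨l, hl⟩ := hy
    exact ⟨k + l, by rw [mul_add, map_add, hk, hl, Int.cast_add]⟩
  | smul a x _ hx =>
    obtain ⟨k, hk⟩ := hx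
    exact ⟨a * k, by rw [mul_smul_comm, map_zsmul, hk, zsmul_eq_mul, Int.cast_mul]⟩

/-- The integers coprime to M. -/
def psiCop (M : ℕ) : Submonoid ℕ where
  carrier := {m | m.Coprime M}
  one_mem' := Nat.coprime_one_left M
  mul_mem' := fun ha hb => Nat.Coprime.mul_left ha hb

variable {F : Type} [Field F] [NumberField F] [Ctx0 F]

theorem psi_tr_R {z : F} (h : z ∈ Rr F (Ctx0.M F)) :
    Algebra.trace ℚ F z ∈ Rr ℚ (Ctx0.M F) := by
  obtain ⟨k, hk⟩ := h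
  refine ⟨k, ?_⟩
  have := Algebra.isIntegral_trace (L := ℚ) hk
  rwa [← Nat.cast_pow, psi_tr_nat, Nat.cast_pow] at this

theorem psi_tr_Ol {z : F} (h : z ∈ Ol F) : Algebra.trace ℚ F z ∈ Oo ℚ (Ctx0.M F) := by
  obtain ⟨m, hm, hk⟩ := h
  refine ⟨m, hm, ?_⟩
  have := Algebra.isIntegral_trace (L := ℚ) hk
  rwa [psi_tr_nat] at this

theorem psi_L_eq_one {z : F} : psiL z = 1 ↔ Algebra.trace ℚ F z ∈ Oo ℚ (Ctx0.M F) := psi_ep_loc

theorem psi_tr_Od {z : F} (h : z ∈ Od F) : Algebra.trace ℚ F z ∈ Oo ℚ (Ctx0.M F) := by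
  have := h 1 (one_mem _)
  rwa [mul_one] at this

theorem psi_M_dual {z : F} (h : z ∈ dualL (latO F)) : IsIntegral ℤ (MF F * z) := by
  obtain ⟨e, he⟩ := Int.natAbs_dvd_natAbs.1
    (show (NumberField.discr F).natAbs ∣ ((Ctx0.M F : ℕ) : ℤ).natAbs from Ctx0.disc)
  have h1 : MF F = ((NumberField.discr F : ℤ) : F) * (e : F) := by
    rw [MF]
    exact_mod_cast congrArg (Int.cast : ℤ → F) he
  rw [h1, mul_comm _ (e : F), mul_assoc]
  exact (ring_int e).mul (discr_mul_dual h)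

theorem psi_dual_Od {z : F} (h : z ∈ dualL (latO F)) : z ∈ Od F := by
  rintro x ⟨m, hm, hx⟩
  obtain ⟨k, hk⟩ := h _ (mem_latO.2 hx)
  refine ⟨m, hm, psi_isInt.2 ⟨k, ?_⟩⟩
  rw [← hk, ← psi_tr_nat, mul_left_comm]

theorem psiP_add (x y : F) : psiP (x + y) = psiP x * psiP y := by
  rw [psiP, map_add, psi_ep_add]
  rfl
theorem psiP_zero : psiP (0 : F) = 1 := by
  rw [psiP, map_zero]
  exact psi_ep_eq_one.2 (zero_mem _)
theorem psiP_neg (x : F) : psiP (-x) = conj (psiP x) := by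
  rw [psiP, map_neg, psi_ep_neg]
  rfl
theorem norm_psiP (x : F) : ‖psiP x‖ = 1 := psi_ep_norm _ _
theorem psiP_of_mem_R {z : F} (h : z ∈ Rr F (Ctx0.M F)) : psiP z = 1 :=
  psi_ep_eq_one.2 (psi_tr_R h)
theorem psiP_of_Od {z : F} (h : z ∈ Od F) : psiP z = eT z := psi_ep_of_Oo (psi_tr_Od h)
theorem psiL_add (x y : F) : psiL (x + y) = psiL x * psiL y := by
  rw [psiL, psiL, psiL, eT_add, psiP_add, map_mul]
  ring
theorem psiL_zero : psiL (0 : F) = 1 := by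
  rw [psiL, eT_zero, psiP_zero, map_one, mul_one]
theorem psiL_neg (x : F) : psiL (-x) = conj (psiL x) := by
  rw [psiL, psiL, eT_neg, psiP_neg, map_mul]
theorem norm_psiL (x : F) : ‖psiL x‖ = 1 := by
  rw [psiL, norm_mul, norm_eT, Complex.norm_conj, norm_psiP, mul_one]
theorem psiL_of_Od {z : F} (h : z ∈ Od F) : psiL z = 1 := psi_L_eq_one.2 (psi_tr_Od h)
theorem psiL_of_mem_R {z : F} (h : z ∈ Rr F (Ctx0.M F)) : psiL z = eT z := by
  rw [psiL, psiP_of_mem_R h, map_one, mul_one]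
theorem eT_eq_mul (z : F) : eT z = psiP z * psiL z := by
  rw [psiL, mul_left_comm, psi_mul_conj (norm_psiP z), mul_one]
theorem Ol_le_Od {z : F} (h : z ∈ Ol F) : z ∈ Od F := fun _ hx => psi_tr_Ol (mul_mem h hx)
theorem Od_mul {x z : F} (hx : x ∈ Ol F) (hz : z ∈ Od F) : x * z ∈ Od F := fun y hy => by
  rw [mul_comm x, mul_assoc]
  exact hz _ (mul_mem hx hy)
theorem Hi_of_Od {z : F} (h : z ∈ Od F) : Hi 1 z := by
  obtain ⟨m, hm, h1⟩ := psi_clear isLat_latO (psiCop (Ctx0.M F))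
    (z := z) fun x hx => h x (int_mem_Ol (mem_latO.1 hx))
  refine ⟨m, hm, ?_⟩
  rw [pow_one, mul_left_comm]
  exact psi_M_dual h1
theorem mem_Od_iff {z : F} : z ∈ Od F ↔ ∀ x ∈ Ol F, psiL (z * x) = 1 :=
  forall₂_congr fun _ _ => psi_L_eq_one.symm
theorem mem_Ol_iff_Od {z : F} : z ∈ Ol F ↔ ∀ h ∈ Od F, psiL (z * h) = 1 := by
  refine ⟨fun hz h hh => psiL_of_Od (Od_mul hz hh), fun h => ?_⟩
  obtain ⟨m, hm, h1⟩ := psi_clear (isLat_latO (F := F)).dual (psiCop (Ctx0.M F))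
    (z := z) fun x hx => psi_L_eq_one.1 (h x (psi_dual_Od hx))
  rw [isLat_latO.dual_dual] at h1
  exact ⟨m, hm, mem_latO.1 h1⟩
theorem mem_R_iff_psiP {z : F} : z ∈ Rr F (Ctx0.M F) ↔ ∀ x : R F, psiP (z * x) = 1 := by
  refine ⟨fun hz x => psiP_of_mem_R (mul_mem hz x.2), fun h => ?_⟩
  obtain ⟨_, ⟨k, rfl⟩, h1⟩ := psi_clear isLat_latO (Submonoid.powers (Ctx0.M F))
    (z := z) fun x hx => by
      obtain ⟨k, hk⟩ := psi_ep_eq_one.1 (h ⟨x, int_mem_R (mem_latO.1 hx)⟩)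
      exact ⟨_, ⟨k, rfl⟩, by rwa [Nat.cast_pow]⟩
  refine mem_Rr.2 ⟨k + 1, ?_⟩
  have := psi_M_dual h1
  rwa [Nat.cast_pow, ← mul_assoc, ← MF, ← pow_succ'] at this

end Vale.Agent.P319B
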