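import Vale.Agent.P319B.GeoM
import Vale.Agent.P319B.KpV

/-! Alternating sums of Fourier series. -/

namespace Vale.Agent.P319B

open Complex NumberField MeasureTheory Filter Topology
open scoped Classical ComplexConjugate
open Vale.Agent.P026 (w kk fk)

variable {F : Type} [Field F] [NumberField F] [Ctx0 F]

/-- A sign. -/
def ptwSg (b : Bool) : ℂ := if b then 1 else -1
/-- Sign change of coordinates. -/
def ptwFl (ε : Io F → Bool) (x : Io F → ℂ) : Io F → ℂ := fun v => ptwSg (ε v) * x v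
/-- The alternating sum. -/
noncomputable def ptwAlt (τ : R F → ℂ) (z x : Io F → ℂ) (D E : Io F → ℝ) : ℂ :=
  ∑ ε : Io F → Bool, (∏ v, ptwSg (ε v)) * Ser τ (z + ptwFl ε x) D E
/-- The factor left after alternation. -/
noncomputable def ptwT (r : F) (y : Io F → ℂ) (t : ℝ) : ℂ :=
  ∏ v : Io F, (((v.1 r * y v).re / ‖v.1 r‖ * Real.sinc (4 * Real.pi * t * (v.1 r * y v).re) : ℝ) : ℂ)
/-- The normalised alternating sum. -/
noncomputable def ptwG (τ : R F → ℂ) (z y : Io F → ℂ) (X : Io F → ℝ) (t : ℝ) : ℂ :=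
  ∑' r : R F, τ r * ((∏ v, kp (‖v.1 (r : F)‖ * X v) : ℝ) : ℂ) *
    (eA (emb (r : F)) z * ptwT (r : F) y t)

theorem ptw_sg0 : ∑ ε : Io F → Bool, ∏ v, ptwSg (ε v) = 0 := by
  obtain ⟨v⟩ : Nonempty (Io F) := Fintype.card_pos_iff.1 (rr_pos (F := F))
  rw [← Fintype.prod_sum (fun (_ : Io F) (b : Bool) => ptwSg b)]
  exact Finset.prod_eq_zero (Finset.mem_univ v) (by simp [ptwSg])

theorem ptw_mp (ε : Io F → Bool) : MeasurePreserving (ptwFl ε) volume volume := by
  refine volume_preserving_pi (f := fun v (x : ℂ) => ptwSg (ε v) * x) fun v => ?_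
  cases ε v
  · simpa [ptwSg] using Measure.measurePreserving_neg (volume : Measure ℂ)
  · simp only [ptwSg, if_true, one_mul]
    exact MeasurePreserving.id (volume : Measure ℂ)

theorem ptw_normSq (ε : Io F → Bool) (x : Io F → ℂ) (v : Io F) :
    normSq (ptwFl ε x v) = normSq (x v) := by
  unfold ptwFl; cases ε v <;> simp [ptwSg]

theorem ptw_conj (ε : Io F → Bool) (x : Io F → ℂ) (v : Io F) :
    conj (ptwFl ε x v) = ptwSg (ε v) * conj (x v) := by
  unfold ptwFl; cases ε v <;> simp [ptwSg]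

theorem ptw_one (a : ℝ) : ∑ b : Bool, ptwSg b * cexp (2 * Real.pi * I *
    ((2 * (ptwSg b * a).re : ℝ) : ℂ)) = 8 * Real.pi * I * (a * Real.sinc (4 * Real.pi * a) : ℝ) := by
  have h : 4 * Real.pi * (a * Real.sinc (4 * Real.pi * a)) = Real.sin (4 * Real.pi * a) := by
    by_cases h0 : 4 * Real.pi * a = 0
    · rw [← mul_assoc, h0]; simp
    · rw [Real.sinc_of_ne_zero h0, ← mul_assoc, mul_div_cancel₀ _ h0]
  have h1 : (8 * Real.pi * I * (a * Real.sinc (4 * Real.pi * a) : ℝ) : ℂ) =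
      2 * I * Complex.sin (4 * Real.pi * a) := by
    have := congrArg (fun x : ℝ => (x : ℂ)) h
    push_cast at this ⊢
    rw [← this]; ring
  have h2 : (2 * Real.pi * I * ((2 * ((1 : ℂ) * a).re : ℝ) : ℂ)) = 4 * Real.pi * a * I := by
    simp; ring
  have h3 : (2 * Real.pi * I * ((2 * ((-1 : ℂ) * a).re : ℝ) : ℂ)) = -(4 * Real.pi * a) * I := by
    simp; ring
  rw [h1, Fintype.sum_bool]
  simp only [ptwSg, if_true, Bool.false_eq_true, if_false, h2, h3, Complex.sin]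
  linear_combination (cexp (4 * Real.pi * a * I) - cexp (-(4 * Real.pi * a) * I)) * I_mul_I

theorem ptw_eA (r : F) (y : Io F → ℂ) (t : ℝ) :
    ∑ ε : Io F → Bool, (∏ v, ptwSg (ε v)) * eA (emb r) (ptwFl ε fun v => t * y v) =
      (8 * Real.pi * I * t) ^ rr F * ∏ v : Io F,
        (((v.1 r * y v).re * Real.sinc (4 * Real.pi * t * (v.1 r * y v).re) : ℝ) : ℂ) := by
  have h1 : ∀ (ε : Io F → Bool) (v : Io F), (emb r v * ptwFl ε (fun v => t * y v) v).re =
      (ptwSg (ε v) * ((t * (v.1 r * y v).re : ℝ) : ℂ)).re := fun ε v => by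
    unfold ptwFl emb; cases ε v <;> simp [ptwSg] <;> ring
  simp only [eA_eq_prod, ← Finset.prod_mul_distrib, h1]
  rw [← Fintype.prod_sum (fun (v : Io F) (b : Bool) => ptwSg b * cexp (2 * Real.pi * I *
    ((2 * (ptwSg b * ((t * (v.1 r * y v).re : ℝ) : ℂ)).re : ℝ) : ℂ))), rr, ← Finset.card_univ,
    ← Finset.prod_const, ← Finset.prod_mul_distrib]
  refine Finset.prod_congr rfl fun v _ => ?_
  rw [ptw_one, ← mul_assoc (4 * Real.pi)]; push_cast; ring

theorem ptw_summable {τ : R F → ℂ} (hτ : Gr τ) {X : Io F → ℝ} (hX : ∀ v, 0 < X v)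
    {g : R F → ℂ} {B : ℝ} (hB : ∀ r, ‖g r‖ ≤ B) :
    Summable fun r : R F => τ r * ((∏ v, kp (‖v.1 (r : F)‖ * X v) : ℝ) : ℂ) * g r :=
  (summable_PhiV (hτ.mul hB) hX).congr fun _ => mul_right_comm _ _ _

theorem ptw_alt {τ : R F → ℂ} (hτ : Gr τ) (z y : Io F → ℂ) {D E : Io F → ℝ} (hD : ∀ v, 0 < D v)
    (hE : ∀ v, 0 < E v) (t : ℝ) : ptwAlt τ z (fun v => t * y v) D E =
      ((∏ v, E v ^ (-(2 / 3) : ℝ) : ℝ) : ℂ) * (8 * Real.pi * I * t) ^ rr F *
        ptwG τ z y (fun v => √(E v) / D v) t := by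
  have hX : ∀ v, 0 < √(E v) / D v := fun v => div_pos (Real.sqrt_pos.2 (hE v)) (hD v)
  simp only [ptwAlt, kpv_Ser, mul_left_comm _ ((∏ v, E v ^ (-(2 / 3) : ℝ) : ℝ) : ℂ),
    ← Finset.mul_sum, mul_assoc, ← tsum_mul_left (a := ∏ v, ptwSg _)]
  congr 1
  rw [← Summable.tsum_finsetSum, ptwG, ← tsum_mul_left]
  · refine tsum_congr fun r => ?_
    have h := ptw_eA (r : F) y t
    simp only [eA_add, mul_left_comm (∏ v, ptwSg _), ← Finset.mul_sum, mul_assoc] at h ⊢
    rw [h, sqrt_Nin, ptwT]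
    simp only [div_mul_eq_mul_div, ofReal_div, Finset.prod_div_distrib, ofReal_prod, mul_assoc]
    ring
  · intro ε _
    refine ((ptw_summable (kpv_div hτ) hX (B := 1) fun r => (norm_eA _ _).le).congr
      fun r => mul_assoc _ _ _).mul_left _

theorem ptw_T_le (r : F) {y : Io F → ℂ} {B : Io F → ℝ} (hB : ∀ v, ‖y v‖ ≤ B v) (t : ℝ) :
    ‖ptwT r y t‖ ≤ ∏ v, B v := by
  rw [ptwT, norm_prod]
  refine Finset.prod_le_prod (fun _ _ => norm_nonneg _) fun v _ => ?_
  rw [norm_real, Real.norm_eq_abs, abs_mul, abs_div, abs_norm]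
  refine (mul_le_of_le_one_right (by positivity) (Real.abs_sinc_le_one _)).trans
    (le_trans (div_le_of_le_mul₀ (norm_nonneg _) (norm_nonneg _) ?_) (hB v))
  rw [mul_comm ‖y v‖, ← norm_mul]; exact abs_re_le_norm _

theorem ptw_lim {τ : R F → ℂ} (hτ : Gr τ) (z : Io F → ℂ) {y : ℝ → Io F → ℂ} {X : ℝ → Io F → ℝ}
    (hy : ContinuousAt y 0) (hX : ContinuousAt X 0) (h0 : ∀ v, 0 < X 0 v) :
    ContinuousAt (fun t => ptwG τ z (y t) (X t) t) 0 := by
  obtain ⟨u, hu, h⟩ := kpv_dom hτ (x0 := fun v => X 0 v / 2) fun v => half_pos (h0 v)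
  have hk := continuous_kp
  have hs := Real.continuous_sinc
  refine tendsto_tsum_of_dominated_convergence (hu.mul_right (∏ v, (‖y 0 v‖ + 1)))
    (fun r => ?_) ?_
  · have hc : Continuous fun p : (Io F → ℂ) × (Io F → ℝ) × ℝ =>
        τ r * ((∏ v, kp (‖v.1 (r : F)‖ * p.2.1 v) : ℝ) : ℂ) *
          (eA (emb (r : F)) z * ptwT (r : F) p.1 p.2.2) := by
      unfold ptwT
      fun_prop
    have h2 := (hc.continuousAt.comp (f := fun t => (y t, X t, t))
      (hy.prodMk (hX.prodMk continuousAt_id))).tendsto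
    simp only [Function.comp_def] at h2
    exact h2
  · have e1 : ∀ᶠ t in 𝓝 (0 : ℝ), ∀ v, X 0 v / 2 ≤ X t v := eventually_all.2 fun v =>
      ((continuousAt_pi.1 hX v).eventually (lt_mem_nhds (half_lt_self (h0 v)))).mono fun _ => le_of_lt
    have e2 : ∀ᶠ t in 𝓝 (0 : ℝ), ∀ v, ‖y t v‖ ≤ ‖y 0 v‖ + 1 := eventually_all.2 fun v =>
      ((continuousAt_pi.1 hy v).norm.eventually (gt_mem_nhds (lt_add_one _))).mono fun _ => le_of_lt
    filter_upwards [e1, e2] with t a1 a2 r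
    rw [norm_mul, norm_mul (eA _ _), norm_eA, one_mul]
    exact mul_le_mul (h r _ a1) (ptw_T_le _ a2 t) (norm_nonneg _) ((norm_nonneg _).trans (h r _ a1))

theorem ptw_cont {τ : R F → ℂ} (hτ : Gr τ) (z : Io F → ℂ) {Y : Type} [TopologicalSpace Y]
    {s : Set Y} {x : Y → Io F → ℂ} {D E : Y → Io F → ℝ} (hx : ContinuousOn x s)
    (hD : ContinuousOn D s) (hE : ContinuousOn E s) (h : ∀ p ∈ s, (∀ v, 0 < D p v) ∧ ∀ v, 0 < E p v) :
    ContinuousOn (fun p => ptwAlt τ z (x p) (D p) (E p)) s := by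
  refine continuousOn_finsetSum _ fun ε _ => continuousOn_const.mul ?_
  have h1 : Continuous fun x : Io F → ℂ => z + ptwFl ε x := by unfold ptwFl; fun_prop
  have h2 : ContinuousOn (fun p => (z + ptwFl ε (x p), D p, E p)) s :=
    (h1.comp_continuousOn hx).prodMk (hD.prodMk hE)
  have h3 := (continuousOn_Ser hτ).comp h2 h
  simp only [Function.comp_def] at h3
  exact h3

/-- Weights for the two directions. -/
noncomputable def ptwWt (o b : Bool) : ℂ := if b then 1 else if o then -I else I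
/-- The two directions. -/
noncomputable def ptwU (b : Bool) : ℂ := if b then 1 else I

theorem ptw_comb {τ : R F → ℂ} (hτ : Gr τ) (z : Io F → ℂ) {X : Io F → ℝ} (hX : ∀ v, 0 < X v)
    (y : Io F → Bool → ℂ) (o : Bool) :
    ∑ δ : Io F → Bool, (∏ v, ptwWt o (δ v)) * ptwG τ z (fun v => y v (δ v)) X 0 =
      ∑' r : R F, τ r * ((∏ v, kp (‖v.1 (r : F)‖ * X v) : ℝ) : ℂ) * (eA (emb (r : F)) z *
        ∏ v : Io F, (∑ b : Bool, ptwWt o b * ((v.1 (r : F) * y v b).re : ℂ)) / (‖v.1 (r : F)‖ : ℂ)) := by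
  simp only [ptwG, ← tsum_mul_left]
  rw [← Summable.tsum_finsetSum]
  · refine tsum_congr fun r => ?_
    simp only [mul_left_comm (∏ v, ptwWt _ _), ← Finset.mul_sum, ptwT, mul_zero, zero_mul,
      Real.sinc_zero, mul_one, ← Finset.prod_mul_distrib, Finset.sum_div, mul_div_assoc,
      ofReal_div]
    rw [Fintype.prod_sum]
  · intro δ _
    refine (ptw_summable hτ hX (B := ∏ v, ‖y v (δ v)‖) fun r => ?_).mul_left _
    rw [norm_mul, norm_eA, one_mul]
    exact ptw_T_le _ (fun _ => le_rfl) 0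

end Vale.Agent.P319B
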