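import Vale.Agent.P319B.Rec3A
import Vale.Agent.P319B.LC
import Vale.Agent.P319B.Sym

/-! Cubic reciprocity in F. -/

namespace Vale.Agent.P319B

open Complex NumberField
open scoped Classical ComplexConjugate
open Vale.Agent.P026 (w kk fk)

variable {F : Type} [Field F] [NumberField F] [Ctx0 F]

/-- The character of ZMod 3. -/
noncomputable def rc3e (a : ZMod 3) : ℂ := om0 ^ a.val

theorem rc3e_add (a b : ZMod 3) : rc3e (a + b) = rc3e a * rc3e b := by
  have h : om0 ^ 3 = 1 := by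
    rw [om0, ← map_pow, show P026.Eis.om ^ 3 = 1 by decide, map_one]
  rw [rc3e, rc3e, rc3e, ← pow_add, ZMod.val_add, ← pow_eq_pow_mod _ h]

theorem rc3e_zero : rc3e 0 = 1 := by simp [rc3e]

variable (F) in
/-- The embedding of the Eisenstein integers. -/
noncomputable def rc3E : P026.Eis →+* F where
  toFun x := (x.a : F) + (x.b : F) * Om.om
  map_one' := by simp
  map_zero' := by simp
  map_add' x y := by simp; ring
  map_mul' x y := by
    simp
    linear_combination (-(x.b : F) * y.b) * (Om.om_eq (F := F))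

theorem rc3E_inj : Function.Injective (rc3E F) := by
  refine (injective_iff_map_eq_zero _).2 fun x hx => P026.Eis.nrm_eq_zero.1 ?_
  have h : (x.a : F) + (x.b : F) * Om.om = 0 := hx
  have h2 : ((P026.Eis.nrm x : ℤ) : F) = 0 := by
    simp only [P026.Eis.nrm]
    push_cast
    linear_combination ((x.a : F) - x.b - x.b * Om.om) * h + (x.b : F) ^ 2 * (Om.om_eq (F := F))
  exact_mod_cast h2

theorem rc3_gen : ∃ s : Finset F, (∀ z ∈ s, IsIntegral ℤ z) ∧
    ∀ z : F, IsIntegral ℤ z → z ∈ Submodule.span ℤ (s : Set F) := by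
  obtain ⟨s, hs⟩ := Module.Finite.fg_top (R := ℤ) (M := 𝓞 F)
  refine ⟨s.image (algebraMap (𝓞 F) F), fun z hz => ?_, fun z hz => ?_⟩
  · obtain ⟨y, -, rfl⟩ := Finset.mem_image.1 hz
    exact y.isIntegral_coe
  · have h := Submodule.apply_mem_span_image_of_mem_span
      (algebraMap (𝓞 F) F).toIntAlgHom.toLinearMap (x := ⟨z, hz⟩) (s := s)
      (hs ▸ Submodule.mem_top)
    rw [Finset.coe_image]
    exact h

theorem rc3_inv {K : Type} [Field K] {M m : ℕ} (hm : m.Coprime M) (h0 : (m : K) ≠ 0) :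
    (m : K)⁻¹ ∈ Oo K M :=
  ⟨m, hm, by rw [mul_inv_cancel₀ h0]; exact isIntegral_one⟩

theorem rc3_invM {K : Type} [Field K] {M : ℕ} (h0 : (M : K) ≠ 0) : (M : K)⁻¹ ∈ Rr K M :=
  ⟨1, by rw [pow_one, mul_inv_cancel₀ h0]; exact isIntegral_one⟩

theorem rc3_map {K L : Type} [Field K] [Field L] (φ : K →+* L) {M : ℕ} {z : K}
    (hz : z ∈ Rr K M) : φ z ∈ Rr L M := by
  obtain ⟨k, hk⟩ := hz
  refine ⟨k, ?_⟩
  have h1 := map_isIntegral_int φ hk
  rwa [map_mul, map_pow, map_natCast] at h1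

theorem rc3_finK (K L : Type) [Field K] [CharZero K] [Field L] [NumberField L] [Algebra K L] :
    Module.Finite K L := Module.Finite.of_restrictScalars_finite ℚ K L

section Alg

variable [Algebra KE F]

theorem rc3_den (φ : F →ₗ[KE] KE) : ∃ k : ℕ, ∀ z ∈ Ol F,
    ((Ctx0.M F : ℕ) : KE) ^ k * φ z ∈ Oo KE (Ctx0.M F) := by
  obtain ⟨s, -, hs⟩ := rc3_gen (F := F)
  choose k hk using fun z : F => hiE (Ctx0.M_ne (F := F)) (φ z)
  have h1 : ∀ z ∈ Submodule.span ℤ (s : Set F),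
      ((Ctx0.M F : ℕ) : KE) ^ s.sup k * φ z ∈ Oo KE (Ctx0.M F) := by
    intro z hz
    induction hz using Submodule.span_induction with
    | mem z hz =>
      obtain ⟨j, hj⟩ := Nat.exists_eq_add_of_le' (Finset.le_sup (f := k) hz)
      rw [hj, pow_add, mul_assoc]
      exact mul_mem (pow_mem (natCast_mem _ _) _) (hk z)
    | zero => simp
    | add x y _ _ hx hy => rw [map_add, mul_add]; exact add_mem hx hy
    | smul a x _ hx => rw [map_zsmul, mul_smul_comm]; exact zsmul_mem hx a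
  refine ⟨s.sup k, fun z hz => ?_⟩
  obtain ⟨m, hm, hz⟩ := mem_Ol.1 hz
  have hm0 : (m : KE) ≠ 0 := Nat.cast_ne_zero.2 (Nat.cast_ne_zero.1 (ring_ne (F := F) hm))
  have h2 := h1 _ (hs _ hz)
  rw [← nsmul_eq_mul, map_nsmul, nsmul_eq_mul] at h2
  have h4 := mul_mem (rc3_inv hm hm0) h2
  rwa [mul_left_comm, inv_mul_cancel_left₀ hm0] at h4

theorem rc3_base : Base (omE (Ctx0.M F)) := baseE Ctx0.M_ne Ctx0.six

theorem rc3_loc {x y : F} (hx : InU 3 x) (hy : y ≠ 0) : symS (omE (Ctx0.M F)) x y = 0 := by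
  have : Module.Finite KE F := rc3_finK KE F
  have hM0 : ((Ctx0.M F : ℕ) : KE) ≠ 0 := Nat.cast_ne_zero.2 Ctx0.M_ne
  choose t ht1 ht2 using exists_sixth hx
  have h1 := lc_final (rc3_base (F := F)) (Oo KE (Ctx0.M F)) hM0 (natCast_mem _ _)
    (hiE Ctx0.M_ne) (unitE Ctx0.six)
    (fun x y hx hy h => symE_base Ctx0.M_ne Ctx0.six hx hy h) (Module.finBasis KE F)
    (fun n => x / t n ^ 6) (fun i k => ?_) hy
  · obtain ⟨n, hn, hn1⟩ := (h1.and (Filter.eventually_ge_atTop 1)).exists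
    have ht0 := (ht1 n).ne_zero le_rfl
    have e : x = t n ^ 6 * (x / t n ^ 6) := by field_simp
    rw [e, symS_mul_left KE rc3_base (pow_ne_zero 6 ht0).isUnit ((ht2 n).ne_zero hn1).isUnit
      hy.isUnit, hn, symS_pow_left KE rc3_base ht0.isUnit hy.isUnit,
      show ((6 : ℕ) : ZMod 3) = 0 by decide, zero_mul, add_zero]
  · obtain ⟨k0, hk0⟩ := rc3_den ((Module.finBasis KE F).coord i)
    filter_upwards [Filter.eventually_ge_atTop (k + k0)] with n hn
    obtain ⟨j, rfl⟩ := Nat.exists_eq_add_of_le hn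
    have h2 := hk0 _ (ht2 (k + k0 + j))
    have e : x / t (k + k0 + j) ^ 6 - 1 = ((Ctx0.M F : ℕ) : KE) ^ (k + k0 + j) •
        ((x / t (k + k0 + j) ^ 6 - 1) / MF F ^ (k + k0 + j)) := by
      rw [Algebra.smul_def, map_pow, map_natCast]
      exact (mul_div_cancel₀ _ (pow_ne_zero _ MF_ne)).symm
    rw [e, map_smul, Finsupp.smul_apply, smul_eq_mul, sub_zero, pow_add, pow_add, mul_assoc,
      mul_assoc, mul_div_cancel_left₀ _ (pow_ne_zero _ hM0), mul_left_comm]
    exact mul_mem (pow_mem (natCast_mem _ _) _) h2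

variable [Algebra (AE (Ctx0.M F)) (R F)] [IsScalarTower (AE (Ctx0.M F)) (R F) F]

theorem rc3_fin : Module.Finite (AE (Ctx0.M F)) (R F) := by
  obtain ⟨s, hs1, hs⟩ := rc3_gen (F := F)
  let j := (IsScalarTower.toAlgHom (AE (Ctx0.M F)) (R F) F).toLinearMap
  have hj : Function.Injective j := Subtype.val_injective
  refine ⟨Submodule.fg_of_fg_map_injective j hj ⟨s, le_antisymm ?_ ?_⟩⟩
  · exact Submodule.span_le.2 fun z hz => ⟨⟨z, int_mem_R (hs1 z hz)⟩, trivial, rfl⟩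
  · rintro _ ⟨x, -, rfl⟩
    obtain ⟨k, hk⟩ := mem_Rr.1 x.2
    have hM0 : ((Ctx0.M F : ℕ) : KE) ≠ 0 := Nat.cast_ne_zero.2 Ctx0.M_ne
    let c : AE (Ctx0.M F) := ⟨((Ctx0.M F : ℕ) : KE)⁻¹, rc3_invM hM0⟩
    have h1 := Submodule.smul_mem _ (c ^ k)
      (Submodule.span_le_restrictScalars ℤ (AE (Ctx0.M F)) (s : Set F) (hs _ hk))
    have e : algebraMap (AE (Ctx0.M F)) F c = (MF F)⁻¹ := by
      rw [IsScalarTower.algebraMap_apply (AE (Ctx0.M F)) KE F]
      exact (map_inv₀ _ _).trans (congrArg _ (map_natCast _ _))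
    rwa [Algebra.smul_def, map_pow, e, inv_pow, inv_mul_cancel_left₀ (pow_ne_zero _ MF_ne)] at h1

/-- The transport defect of multiplication by x modulo y. -/
noncomputable def rc3T (x y : R F) : ZMod 3 :=
  trO (omE (Ctx0.M F)) (LinearMap.mul (AE (Ctx0.M F)) (R F) x) ⊤
    (LinearMap.range (LinearMap.mul (AE (Ctx0.M F)) (R F) y)) ⊤
    (LinearMap.range (LinearMap.mul (AE (Ctx0.M F)) (R F) y))

theorem rc3_sym {x y : R F} (hx : x ≠ 0) (hy : y ≠ 0) (h : IsCoprime x y) :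
    symS (omE (Ctx0.M F)) (x : F) (y : F) = rc3T x y - rc3T y x := by
  have : Module.Finite KE F := rc3_finK KE F
  have := rc3_fin (F := F)
  obtain ⟨h1, h2, h3⟩ := symS_eq KE (rc3_base (F := F))
    (IsScalarTower.toAlgHom (AE (Ctx0.M F)) (R F) F).toLinearMap Subtype.val_injective
    (fun z => by
      obtain ⟨m, hm, hz⟩ := exists_mul_mem_R z
      refine ⟨m, Nat.cast_ne_zero.2 (Nat.cast_ne_zero.1 (ring_ne (F := F) hm)), ⟨_, hz⟩, ?_⟩
      rw [Nat.cast_smul_eq_nsmul, nsmul_eq_mul]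
      rfl)
    (nrm_coe_ne hx).isUnit (nrm_coe_ne hy).isUnit
    (α := LinearMap.mul (AE (Ctx0.M F)) (R F) x) (β := LinearMap.mul (AE (Ctx0.M F)) (R F) y)
    (fun z => rfl) (fun z => rfl)
  rw [h3, symE_coprime rc3_base.toCb h1 h2 (LinearMap.ext fun z => mul_left_comm x y z)]
  · rfl
  · obtain ⟨a, b, e⟩ := h
    refine eq_top_iff.2 fun z _ => Submodule.mem_sup.2 ⟨_, ⟨a * z, rfl⟩, _, ⟨b * z, rfl⟩, ?_⟩
    simp only [LinearMap.mul_apply']
    linear_combination z * e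

theorem rc3_T (hom : algebraMap (AE (Ctx0.M F)) (R F) (omE _) = omR F) {x y : R F}
    (hy : IsUnit y ∨ Prime y) (h : IsCoprime x y) : cub x y = rc3e (rc3T x y) := by
  rcases hy with hy | hy
  · have e : LinearMap.range (LinearMap.mul (AE (Ctx0.M F)) (R F) y) = ⊤ :=
      LinearMap.range_eq_top.2 fun z => hy.dvd.imp fun _ => Eq.symm
    rw [cub_unit_right hy, rc3T, e, trO_self, rc3e_zero]
  · have hn : ¬ y ∣ x := fun hd => hy.not_isUnit (h.isUnit_of_dvd' hd dvd_rfl)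
    have h1 := gauss_lemma (rc3_base (F := F)).toCb hy (finite_quot hy.ne_zero) hn
    rw [hom] at h1
    exact cub_of_dvd hy hn h1

theorem rc3_all (hom : algebraMap (AE (Ctx0.M F)) (R F) (omE _) = omR F) {x y : R F}
    (hx : x ≠ 0) (hy : y ≠ 0) (h : IsCoprime x y) :
    cub x y = rc3e (symS (omE (Ctx0.M F)) (x : F) (y : F)) * cub y x := by
  have : Module.Finite KE F := rc3_finK KE F
  have hne : ∀ {z : R F}, IsUnit z ∨ Prime z → z ≠ 0 := fun h => h.elim IsUnit.ne_zero Prime.ne_zero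
  have h0 : ∀ {x y : R F}, IsUnit x ∨ Prime x → IsUnit y ∨ Prime y → IsCoprime x y →
      cub x y = rc3e (symS (omE (Ctx0.M F)) (x : F) (y : F)) * cub y x := fun hx hy h => by
    rw [rc3_sym (hne hx) (hne hy) h, rc3_T hom hy h, rc3_T hom hx h.symm, ← rc3e_add,
      sub_add_cancel]
  have h1 : ∀ {x : R F}, IsUnit x ∨ Prime x → ∀ y : R F, y ≠ 0 → IsCoprime x y →
      cub x y = rc3e (symS (omE (Ctx0.M F)) (x : F) (y : F)) * cub y x := by
    intro x hx y
    induction y using UniqueFactorizationMonoid.induction_on_prime with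
    | h₁ => exact fun h => absurd rfl h
    | h₂ u hu => exact fun _ => h0 hx (Or.inl hu)
    | h₃ a p ha hp ih =>
      intro _ h
      rw [cub_mul_right _ hp.ne_zero ha, cub_mul_left, h0 hx (Or.inr hp) h.of_mul_right_left,
        ih ha h.of_mul_right_right, Subring.coe_mul, symS_mul_right KE rc3_base
          (nrm_coe_ne (hne hx)).isUnit (nrm_coe_ne hp.ne_zero).isUnit (nrm_coe_ne ha).isUnit,
        rc3e_add]
      ring
  induction x using UniqueFactorizationMonoid.induction_on_prime with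
  | h₁ => exact absurd rfl hx
  | h₂ u hu => exact h1 (Or.inl hu) y hy h
  | h₃ a p ha hp ih =>
    rw [cub_mul_right _ hp.ne_zero ha, cub_mul_left, h1 (Or.inr hp) y hy h.of_mul_left_left,
      ih ha h.of_mul_left_right, Subring.coe_mul, symS_mul_left KE rc3_base
        (nrm_coe_ne hp.ne_zero).isUnit (nrm_coe_ne ha).isUnit (nrm_coe_ne hy).isUnit,
      rc3e_add]
    ring

end Alg

theorem rc3_core (φ : KE →+* F) (hφ : φ (algebraMap P026.Eis KE P026.Eis.om) = Om.om)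
    {x y : R F} (hx : InU 3 (x : F)) (hx0 : x ≠ 0) (hy : y ≠ 0) (h : IsCoprime x y) :
    cub x y = cub y x := by
  let _ : Algebra KE F := φ.toAlgebra
  let ψ : AE (Ctx0.M F) →+* R F :=
    (φ.comp (Rr KE (Ctx0.M F)).subtype).codRestrict _ fun z => rc3_map φ z.2
  let _ : Algebra (AE (Ctx0.M F)) (R F) := ψ.toAlgebra
  have : IsScalarTower (AE (Ctx0.M F)) (R F) F := IsScalarTower.of_algebraMap_eq fun _ => rfl
  rw [rc3_all (Subtype.ext hφ) hx0 hy h, rc3_loc hx (nrm_coe_ne hy), rc3e_zero, one_mul]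

theorem cub_core {x y : R F} (hx : InU 3 (x : F)) (hy : y ≠ 0) : cub x y = cub y x := by
  have hx0 : x ≠ 0 := fun h => hx.ne_zero (by norm_num) (by rw [h]; rfl)
  by_cases h : IsCoprime x y
  · refine rc3_core (IsFractionRing.lift (rc3E_inj (F := F))) ?_ hx hx0 hy h
    rw [IsFractionRing.lift_algebraMap]
    simp [rc3E]
  · rw [(cub_eq_zero hy).2 h, (cub_eq_zero hx0).2 fun h' => h h'.symm]

end Vale.Agent.P319B
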