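import Vale.Agent.P319B.DSym

/-! The symbol on finite algebras, the projection formula. -/

namespace Vale.Agent.P319B

open scoped Classical

theorem symsA_ext1 {G Z : Type} [CommGroup G] [AddCommGroup Z] {H : G → Prop}
    (hH : ∀ x y, H x → H y → H (x * y)) (d : G → G) (h1 : ∀ g, H (d g)) (h2 : ∀ g, H (g * d g))
    {φ : G → Z} (hφ : ∀ x y, H x → H y → φ (x * y) = φ x + φ y) :
    (∀ g b, H b → H (g * b) → φ (g * d g) - φ (d g) = φ (g * b) - φ b) ∧
      ∀ x y, φ (x * y * d (x * y)) - φ (d (x * y)) =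
        (φ (x * d x) - φ (d x)) + (φ (y * d y) - φ (d y)) := by
  have k : ∀ g b, H b → H (g * b) → φ (g * d g) - φ (d g) = φ (g * b) - φ b := by
    intro g b hb hg
    rw [sub_eq_sub_iff_add_eq_add, ← hφ _ _ (h2 g) hb, ← hφ _ _ hg (h1 g), mul_right_comm]
  refine ⟨k, fun x y => ?_⟩
  rw [k _ (d x * d y) (hH _ _ (h1 x) (h1 y)) (mul_mul_mul_comm x y (d x) (d y) ▸
    hH _ _ (h2 x) (h2 y)), mul_mul_mul_comm, hφ _ _ (h2 x) (h2 y), hφ _ _ (h1 x) (h1 y)]
  abel

theorem symsA_ext2 {G Z : Type} [CommGroup G] [AddCommGroup Z] {H : G → Prop}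
    (hH : ∀ x y, H x → H y → H (x * y)) (hd : ∀ g, ∃ b, H b ∧ H (g * b)) {t : G → G → Z}
    (hl : ∀ x x' y, H x → H x' → H y → t (x * x') y = t x y + t x' y)
    (hr : ∀ x y y', H x → H y → H y' → t x (y * y') = t x y + t x y') :
    ∃ s : G → G → Z, (∀ x x' y, s (x * x') y = s x y + s x' y) ∧
      (∀ x y y', s x (y * y') = s x y + s x y') ∧ ∀ x y, H x → H y → s x y = t x y := by
  choose d h1 h2 using hd
  have a1 : ∀ y x x', H x → H x' → t (x * x') (y * d y) - t (x * x') (d y) =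
      (t x (y * d y) - t x (d y)) + (t x' (y * d y) - t x' (d y)) := fun y x x' hx hx' => by
    rw [hl _ _ _ hx hx' (h2 y), hl _ _ _ hx hx' (h1 y)]
    abel
  have a2 := fun x (hx : H x) => symsA_ext1 hH d h1 h2 (φ := t x) fun y y' => hr x y y' hx
  refine ⟨fun x y => (t (x * d x) (y * d y) - t (x * d x) (d y)) - (t (d x) (y * d y) - t (d x) (d y)),
    fun x x' y => (symsA_ext1 hH d h1 h2 (φ := fun x => t x (y * d y) - t x (d y)) (a1 y)).2 x x',
    fun x y y' => ?_, fun x y hx hy => ?_⟩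
  · simp only [(a2 _ (h2 x)).2 y y', (a2 _ (h1 x)).2 y y']
    abel
  · simp only [a1 y x (d x) hx (h1 x), add_sub_cancel_right, hr x y (d y) hx hy (h1 y)]

variable {A : Type} [CommRing A] [IsDomain A] [IsPrincipalIdealRing A] {ω : A}
  (K : Type) [Field K] [CharZero K] [Algebra A K] [IsFractionRing A K]
  {S : Type} [CommRing S] [Algebra A S] [Algebra K S] [IsScalarTower A K S] [Module.Finite K S]

omit [IsPrincipalIdealRing A] in
/-- An endomorphism of a finitely generated module whose range contains a multiple. -/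
theorem fi_of_smul (hω : Base ω) {W : Type} [AddCommGroup W] [Module A W] [Module.Finite A W]
    {Λ : Submodule A W} (h : ∀ x : W, ∃ m : A, m ≠ 0 ∧ m • x ∈ Λ) : Fi ⊤ Λ := by
  obtain ⟨n, f, hf⟩ := Module.Finite.exists_fin (R := A) (M := W)
  choose m hm0 hm using fun i => h (f i)
  have := fun i => hω.fin _ (hm0 i)
  refine fi_top_iff.2 (Finite.of_surjective (fun v : ∀ i, A ⧸ Ideal.span {m i} =>
    Λ.mkQ (∑ i, (v i).out • f i)) fun z => ?_)
  obtain ⟨z, rfl⟩ := Λ.mkQ_surjective z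
  obtain ⟨a, rfl⟩ := (Submodule.mem_span_range_iff_exists_fun A).1 (hf ▸ Submodule.mem_top (x := z))
  refine ⟨fun i => Ideal.Quotient.mk _ (a i), (Submodule.Quotient.eq Λ).2 ?_⟩
  rw [← Finset.sum_sub_distrib]
  refine Λ.sum_mem fun i _ => ?_
  obtain ⟨c, hc⟩ := Ideal.mem_span_singleton'.1 (Ideal.Quotient.eq.1
    (Ideal.Quotient.mk_out (Ideal.Quotient.mk (Ideal.span {m i}) (a i))))
  rw [← sub_smul, ← hc, mul_smul]
  exact Λ.smul_mem _ (hm i)

/-- Lattices. -/
def symsL (Λ : Submodule A S) : Prop := Λ.FG ∧ ∀ z : S, ∃ m : A, m ≠ 0 ∧ m • z ∈ Λ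
/-- Stability under multiplication. -/
def symsS (x : S) (Λ : Submodule A S) : Prop := ∀ z ∈ Λ, LinearMap.mul A S x z ∈ Λ

section Lat
omit [IsPrincipalIdealRing A]

theorem symsA_ok (hω : Base ω) {W : Type} [AddCommGroup W] [Module A W] [Module.Finite A W]
    {j : W →ₗ[A] S} (hj : Function.Injective j)
    (hs : ∀ z : S, ∃ m : A, m ≠ 0 ∧ m • z ∈ LinearMap.range j) {x : S} (hx : IsUnit x)
    {α : W →ₗ[A] W} (ha : ∀ z, j (α z) = x * j z) : Ok α := by
  refine ⟨fun z z' h => hj (hx.mul_left_cancel (by rw [← ha, ← ha, h])), fi_of_smul hω fun w => ?_⟩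
  obtain ⟨u, rfl⟩ := hx
  obtain ⟨m, hm, w', hw⟩ := hs (↑u⁻¹ * j w)
  exact ⟨m, hm, w', hj (by rw [ha, hw, mul_smul_comm, u.mul_inv_cancel_left, map_smul])⟩

theorem symsA_cmp (hω : Base ω) {W W' : Type} [AddCommGroup W] [Module A W] [Module.Finite A W]
    [AddCommGroup W'] [Module A W'] [Module.Finite A W'] {j : W →ₗ[A] S} {j' : W' →ₗ[A] S}
    (hj : Function.Injective j) (hj' : Function.Injective j')
    (hs : ∀ z : S, ∃ m : A, m ≠ 0 ∧ m • z ∈ LinearMap.range j) (i : W →ₗ[A] W')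
    (hi : ∀ z, j' (i z) = j z) {x y : S} (hx : IsUnit x) (hy : IsUnit y) {α β : W →ₗ[A] W}
    {α' β' : W' →ₗ[A] W'} (ha : ∀ z, j (α z) = x * j z) (hb : ∀ z, j (β z) = y * j z)
    (ha' : ∀ z, j' (α' z) = x * j' z) (hb' : ∀ z, j' (β' z) = y * j' z) :
    symE ω α β = symE ω α' β' := by
  have hs' : ∀ z : S, ∃ m : A, m ≠ 0 ∧ m • z ∈ LinearMap.range j' := fun z =>
    let ⟨m, hm, w, hw⟩ := hs z; ⟨m, hm, i w, (hi w).trans hw⟩
  refine symE_sub hω.toCb (symsA_ok hω hj hs hx ha) (symsA_ok hω hj hs hy hb)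
    (symsA_ok hω hj' hs' hx ha') (symsA_ok hω hj' hs' hy hb') (LinearMap.ext fun z => hj ?_)
    (LinearMap.ext fun z => hj' ?_) i ⟨fun z z' h => hj (by rw [← hi, ← hi, h]),
      fi_of_smul hω fun w => ?_⟩ (LinearMap.ext fun z => hj' ?_) (LinearMap.ext fun z => hj' ?_)
  · simp only [Module.End.mul_apply, ha, hb, mul_left_comm]
  · simp only [Module.End.mul_apply, ha', hb', mul_left_comm]
  · obtain ⟨m, hm, w', hw⟩ := hs (j' w)
    exact ⟨m, hm, w', hj' (by rw [hi, hw, map_smul])⟩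
  · simp only [LinearMap.comp_apply, hi, ha, ha']
  · simp only [LinearMap.comp_apply, hi, hb, hb']

omit [IsDomain A] in
theorem symsL.sub {Λ : Submodule A S} (h : symsL Λ) (z : S) :
    ∃ m : A, m ≠ 0 ∧ m • z ∈ LinearMap.range Λ.subtype := by
  rw [Submodule.range_subtype]
  exact h.2 z

theorem symsA_indep (hω : Base ω) {Λ Λ' : Submodule A S} (h : symsL Λ) (h' : symsL Λ') {x y : S}
    (hx : IsUnit x) (hy : IsUnit y) (a : symsS x Λ) (b : symsS y Λ) (a' : symsS x Λ')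
    (b' : symsS y Λ') : symE ω ((LinearMap.mul A S x).restrict a) ((LinearMap.mul A S y).restrict b)
      = symE ω ((LinearMap.mul A S x).restrict a') ((LinearMap.mul A S y).restrict b') := by
  have k : ∀ {x : S}, symsS x Λ → symsS x Λ' → symsS x (Λ ⊔ Λ') := fun a a' z hz => by
    obtain ⟨u, hu, v, hv, rfl⟩ := Submodule.mem_sup.1 hz
    rw [map_add]
    exact Submodule.add_mem_sup (a u hu) (a' v hv)
  have := Module.Finite.of_fg h.1
  have := Module.Finite.of_fg h'.1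
  have := Module.Finite.of_fg (h.1.sup h'.1)
  exact (symsA_cmp hω Λ.injective_subtype (Λ ⊔ Λ').injective_subtype h.sub
    (Submodule.inclusion le_sup_left) (fun _ => rfl) hx hy (fun _ => rfl) (fun _ => rfl)
    (α' := (LinearMap.mul A S x).restrict (k a a')) (β' := (LinearMap.mul A S y).restrict (k b b'))
    (fun _ => rfl) fun _ => rfl).trans (symsA_cmp hω Λ'.injective_subtype
    (Λ ⊔ Λ').injective_subtype h'.sub (Submodule.inclusion le_sup_right) (fun _ => rfl) hx hy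
    (fun _ => rfl) (fun _ => rfl) (fun _ => rfl) fun _ => rfl).symm

theorem symsL.mul {Λ Λ' : Submodule A S} (h : symsL Λ) (h' : symsL Λ') : symsL (Λ * Λ') := by
  refine ⟨h.1.mul h'.1, fun z => ?_⟩
  obtain ⟨m, hm, h1⟩ := h.2 z
  obtain ⟨m', hm', h2⟩ := h'.2 1
  refine ⟨m * m', mul_ne_zero hm hm', ?_⟩
  have := Submodule.mul_mem_mul h1 h2
  rwa [smul_mul_smul_comm, mul_one] at this

omit [IsDomain A] in
theorem symsS.mul_r {x : S} {Λ : Submodule A S} (h : symsS x Λ) (Λ' : Submodule A S) :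
    symsS x (Λ * Λ') := fun z hz => by
  refine Submodule.mul_induction_on hz (fun a ha b hb => ?_) fun a b ha hb => ?_
  · rw [LinearMap.mul_apply', ← mul_assoc]
    exact Submodule.mul_mem_mul (h a ha) hb
  · rw [map_add]
    exact add_mem ha hb

omit [IsDomain A] in
theorem symsS.mul_l {x : S} {Λ : Submodule A S} (h : symsS x Λ) (Λ' : Submodule A S) :
    symsS x (Λ' * Λ) := mul_comm Λ Λ' ▸ h.mul_r Λ'

omit [IsDomain A] in
theorem symsS.mul {x y : S} {Λ : Submodule A S} (h : symsS x Λ) (h' : symsS y Λ) :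
    symsS (x * y) Λ := fun z hz => by
  rw [LinearMap.mul_apply', mul_assoc]
  exact h _ (h' z hz)

theorem symsL.den {Λ N : Submodule A S} (h : symsL Λ) (hN : N.FG) :
    ∃ m : A, m ≠ 0 ∧ ∀ z ∈ N, m • z ∈ Λ := by
  refine Submodule.fg_induction (motive := fun N _ => ∃ m : A, m ≠ 0 ∧ ∀ z ∈ N, m • z ∈ Λ)
    (fun x => ?_) (fun N N' _ _ ⟨m, hm, h1⟩ ⟨m', hm', h2⟩ =>
      ⟨m * m', mul_ne_zero hm hm', fun z hz => ?_⟩) N hN
  · obtain ⟨m, hm, h1⟩ := h.2 x
    refine ⟨m, hm, fun z hz => ?_⟩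
    obtain ⟨a, rfl⟩ := Submodule.mem_span_singleton.1 hz
    rw [smul_comm]
    exact Λ.smul_mem _ h1
  · obtain ⟨u, hu, v, hv, rfl⟩ := Submodule.mem_sup.1 hz
    rw [smul_add]
    refine add_mem ?_ (mul_smul m m' v ▸ Λ.smul_mem _ (h2 v hv))
    rw [mul_comm, mul_smul]
    exact Λ.smul_mem _ (h1 u hu)

omit [CharZero K] in
include K in
theorem symsA_frac (g : Sˣ) : ∃ b : Sˣ, (∃ Λ : Submodule A S, symsL Λ ∧ symsS (b : S) Λ) ∧
    ∃ Λ : Submodule A S, symsL Λ ∧ symsS ((g * b : Sˣ) : S) Λ := by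
  obtain ⟨n, f, hf⟩ := Module.Finite.exists_fin (R := K) (M := S)
  have h : symsL (Submodule.span A (Set.range f)) := by
    refine ⟨Submodule.fg_span (Set.finite_range f), fun z => ?_⟩
    obtain ⟨⟨m, hm⟩, h⟩ := multiple_mem_span_of_mem_localization_span (nonZeroDivisors A) K
      (Set.range f) z (hf ▸ Submodule.mem_top)
    exact ⟨m, nonZeroDivisors.ne_zero hm, h⟩
  obtain ⟨m, hm, h1⟩ := h.den (h.1.map (LinearMap.mul A S g))
  have hu : IsUnit (algebraMap A S m) := by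
    rw [IsScalarTower.algebraMap_apply A K S]
    exact ((map_ne_zero_iff _ (IsFractionRing.injective A K)).2 hm).isUnit.map _
  refine ⟨hu.unit, ⟨_, h, fun z hz => ?_⟩, _, h, fun z hz => ?_⟩
  · rw [LinearMap.mul_apply', hu.unit_spec, ← Algebra.smul_def]
    exact Submodule.smul_mem _ _ hz
  · rw [LinearMap.mul_apply', Units.val_mul, hu.unit_spec, mul_right_comm, mul_comm,
      ← Algebra.smul_def]
    exact h1 _ ⟨z, hz, rfl⟩

omit [CharZero K] in
include K in
theorem symsA_uniq {f g : Sˣ → Sˣ → ZMod 3} (fl : ∀ x x' y, f (x * x') y = f x y + f x' y)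
    (fr : ∀ x y y', f x (y * y') = f x y + f x y') (gl : ∀ x x' y, g (x * x') y = g x y + g x' y)
    (gr : ∀ x y y', g x (y * y') = g x y + g x y') (h : ∀ Λ : Submodule A S, symsL Λ →
      ∀ x y : Sˣ, symsS (x : S) Λ → symsS (y : S) Λ → f x y = g x y) (x y : Sˣ) :
    f x y = g x y := by
  obtain ⟨a, ⟨Λ1, l1, a1⟩, Λ2, l2, a2⟩ := symsA_frac (A := A) K x
  obtain ⟨b, ⟨Λ3, l3, a3⟩, Λ4, l4, a4⟩ := symsA_frac (A := A) K y
  have e1 := h _ (l1.mul l3) _ _ (a1.mul_r _) (a3.mul_l _)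
  have e2 := h _ (l1.mul l4) _ _ (a1.mul_r _) (a4.mul_l _)
  have e3 := h _ (l2.mul l3) _ _ (a2.mul_r _) (a3.mul_l _)
  have e4 := h _ (l2.mul l4) _ _ (a2.mul_r _) (a4.mul_l _)
  simp only [fl, fr, gl, gr] at e1 e2 e3 e4
  linear_combination e4 - e2 - e3 + e1

end Lat

include K in
theorem exists_isSym (hω : Base ω) : ∃ s : Sˣ → Sˣ → ZMod 3, IsSym ω s := by
  let t : Sˣ → Sˣ → ZMod 3 := fun x y =>
    if h : ∃ Λ : Submodule A S, symsL Λ ∧ symsS (x : S) Λ ∧ symsS (y : S) Λ then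
      symE ω ((LinearMap.mul A S x).restrict h.choose_spec.2.1)
        ((LinearMap.mul A S y).restrict h.choose_spec.2.2) else 0
  have ht : ∀ (Λ : Submodule A S), symsL Λ → ∀ (x y : Sˣ) (a : symsS (x : S) Λ)
      (b : symsS (y : S) Λ),
      t x y = symE ω ((LinearMap.mul A S x).restrict a) ((LinearMap.mul A S y).restrict b) := by
    intro Λ l x y a b
    have h : ∃ Λ : Submodule A S, symsL Λ ∧ symsS (x : S) Λ ∧ symsS (y : S) Λ := ⟨Λ, l, a, b⟩
    exact (dif_pos h).trans (symsA_indep hω h.choose_spec.1 l x.isUnit y.isUnit _ _ _ _)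
  have ok : ∀ (Λ : Submodule A S), symsL Λ → ∀ (x : Sˣ) (a : symsS (x : S) Λ),
      Ok ((LinearMap.mul A S x).restrict a) := fun Λ l x a =>
    have := Module.Finite.of_fg l.1
    symsA_ok hω Λ.injective_subtype l.sub x.isUnit fun _ => rfl
  have cm : ∀ (Λ : Submodule A S) (x y : S) (a : symsS x Λ) (b : symsS y Λ),
      (LinearMap.mul A S x).restrict a * (LinearMap.mul A S y).restrict b =
        (LinearMap.mul A S y).restrict b * (LinearMap.mul A S x).restrict a := fun Λ x y a b =>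
    LinearMap.ext fun z => Subtype.ext (mul_left_comm x y z)
  have ml : ∀ (Λ : Submodule A S) (x y : S) (a : symsS x Λ) (b : symsS y Λ),
      (LinearMap.mul A S (x * y)).restrict (a.mul b) =
        (LinearMap.mul A S x).restrict a * (LinearMap.mul A S y).restrict b := fun Λ x y a b =>
    LinearMap.ext fun z => Subtype.ext (mul_assoc x y z)
  obtain ⟨s, h1, h2, h3⟩ := symsA_ext2 (t := t)
    (H := fun x : Sˣ => ∃ Λ : Submodule A S, symsL Λ ∧ symsS (x : S) Λ)
    (fun x y ⟨Λ, l, a⟩ ⟨Λ', l', a'⟩ => ⟨_, l.mul l', (a.mul_r _).mul (a'.mul_l _)⟩)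
    (symsA_frac K) (fun x x' y ⟨Λ, l, a⟩ ⟨Λ', l', a'⟩ ⟨Λ'', l'', a''⟩ => by
      have l0 := (l.mul l').mul l''
      have b := (a.mul_r Λ').mul_r Λ''
      have b' := (a'.mul_l Λ).mul_r Λ''
      have b'' := a''.mul_l (Λ * Λ')
      rw [ht _ l0 _ _ (b.mul b') b'', ht _ l0 _ _ b b'', ht _ l0 _ _ b' b'',
        ← symE_mul_left hω.toCb (ok _ l0 _ b) (ok _ l0 _ b') (ok _ l0 _ b'') (cm _ _ _ _ _)
          (cm _ _ _ _ _), ← ml]
      rfl) fun x x' y ⟨Λ, l, a⟩ ⟨Λ', l', a'⟩ ⟨Λ'', l'', a''⟩ => by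
      have l0 := (l.mul l').mul l''
      have b := (a.mul_r Λ').mul_r Λ''
      have b' := (a'.mul_l Λ).mul_r Λ''
      have b'' := a''.mul_l (Λ * Λ')
      rw [ht _ l0 _ _ b (b'.mul b''), ht _ l0 _ _ b b'', ht _ l0 _ _ b b',
        ← symE_mul_right hω.toCb (ok _ l0 _ b) (ok _ l0 _ b') (ok _ l0 _ b'') (cm _ _ _ _ _)
          (cm _ _ _ _ _), ← ml]
      rfl
  exact ⟨s, h1, h2, fun Λ f l x y a b =>
    (h3 x y ⟨Λ, ⟨f, l⟩, a⟩ ⟨Λ, ⟨f, l⟩, b⟩).trans (ht Λ ⟨f, l⟩ x y a b)⟩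

include K in
theorem symsA_isSym (hω : Base ω) : IsSym ω fun x y : Sˣ => symS ω (x : S) (y : S) := by
  have h := exists_isSym K (S := S) hω
  have : (fun x y : Sˣ => symS ω (x : S) (y : S)) = h.choose := by
    funext x y
    rw [symS, dif_pos ⟨h, x.isUnit, y.isUnit⟩]
    simp only [IsUnit.unit_of_val_units]
  rw [this]
  exact h.choose_spec

omit [IsDomain A] [IsPrincipalIdealRing A] in
theorem symsA_zero {x y : S} (h : ¬ (IsUnit x ∧ IsUnit y)) : symS ω x y = 0 :=
  dif_neg fun h' => h h'.2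

include K in
theorem symS_mul_left (hω : Base ω) {x x' y : S} (hx : IsUnit x) (hx' : IsUnit x') (hy : IsUnit y) :
    symS ω (x * x') y = symS ω x y + symS ω x' y :=
  (symsA_isSym K hω).mul_left hx.unit hx'.unit hy.unit
include K in
theorem symS_mul_right (hω : Base ω) {x y y' : S} (hx : IsUnit x) (hy : IsUnit y)
    (hy' : IsUnit y') : symS ω x (y * y') = symS ω x y + symS ω x y' :=
  (symsA_isSym K hω).mul_right hx.unit hy.unit hy'.unit
include K in
theorem symS_swap (hω : Base ω) (x y : S) : symS ω y x = -symS ω x y := by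
  by_cases h : IsUnit x ∧ IsUnit y
  · have s := symsA_isSym K (S := S) hω
    refine symsA_uniq (A := A) K (f := fun x y : Sˣ => symS ω (y : S) (x : S))
      (g := fun x y : Sˣ => -symS ω (x : S) (y : S)) (fun x x' y => s.mul_right y x x')
      (fun x y y' => s.mul_left y y' x) (fun x x' y => ?_) (fun x y y' => ?_)
      (fun Λ l x y a b => ?_) h.1.unit h.2.unit
    · rw [← neg_add, neg_inj]
      exact s.mul_left x x' y
    · rw [← neg_add, neg_inj]
      exact s.mul_right x y y'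
    · rw [s.eq Λ l.1 l.2 x y a b, s.eq Λ l.1 l.2 y x b a]
      exact symE_swap (LinearMap.ext fun z => Subtype.ext (mul_left_comm (x : S) y z))
  · rw [symsA_zero h, symsA_zero fun h' => h h'.symm, neg_zero]
include K in
theorem symS_self (hω : Base ω) (x : S) : symS ω x x = 0 := by
  have := symS_swap K hω x x
  generalize symS ω x x = a at this
  revert a
  decide
include K in
theorem symS_one_left (hω : Base ω) (y : S) : symS ω 1 y = 0 := by
  by_cases h : IsUnit y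
  · have := symS_mul_left K hω isUnit_one isUnit_one h
    rwa [mul_one, left_eq_add] at this
  · exact symsA_zero fun h' => h h'.2
include K in
theorem symS_neg_right (hω : Base ω) (x y : S) : symS ω x (-y) = symS ω x y := by
  by_cases h : IsUnit x ∧ IsUnit y
  · have h1 := symS_mul_right K hω h.1 isUnit_one.neg isUnit_one.neg
    rw [neg_mul_neg, mul_one, symS_swap K hω, symS_one_left K hω] at h1
    rw [← neg_one_mul, symS_mul_right K hω h.1 isUnit_one.neg h.2, add_eq_right]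
    generalize symS ω x (-1) = a at h1
    revert a
    decide
  · rw [symsA_zero h, symsA_zero fun h' => h ⟨h'.1, (IsUnit.neg_iff y).1 h'.2⟩]
include K in
theorem symS_pow_left (hω : Base ω) {x y : S} (hx : IsUnit x) (hy : IsUnit y) (k : ℕ) :
    symS ω (x ^ k) y = k * symS ω x y := by
  induction k with
  | zero => rw [pow_zero, symS_one_left K hω, Nat.cast_zero, zero_mul]
  | succ k ih => rw [pow_succ, symS_mul_left K hω (hx.pow k) hx hy, ih, Nat.cast_succ, add_one_mul]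
include K in
/-- Computation on any lattice. -/
theorem symS_eq (hω : Base ω) {W : Type} [AddCommGroup W] [Module A W] [Module.Finite A W]
    (j : W →ₗ[A] S) (hj : Function.Injective j)
    (hs : ∀ z : S, ∃ m : A, m ≠ 0 ∧ m • z ∈ LinearMap.range j) {x y : S} (hx : IsUnit x)
    (hy : IsUnit y) {α β : W →ₗ[A] W} (ha : ∀ z, j (α z) = x * j z) (hb : ∀ z, j (β z) = y * j z) :
    Ok α ∧ Ok β ∧ symS ω x y = symE ω α β := by
  refine ⟨symsA_ok hω hj hs hx ha, symsA_ok hω hj hs hy hb, ?_⟩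
  have a : symsS x (LinearMap.range j) := fun _ ⟨z, hz⟩ => ⟨α z, hz ▸ ha z⟩
  have b : symsS y (LinearMap.range j) := fun _ ⟨z, hz⟩ => ⟨β z, hz ▸ hb z⟩
  exact ((symsA_isSym K hω).eq _ (Submodule.fg_range j) hs hx.unit hy.unit a b).trans
    (symsA_cmp hω hj (LinearMap.range j).injective_subtype hs j.rangeRestrict (fun _ => rfl) hx hy
      ha hb (fun _ => rfl) fun _ => rfl).symm
theorem symS_equiv (hω : Base ω) {S' : Type} [CommRing S'] [Algebra A S'] [Algebra K S']
    [IsScalarTower A K S'] [Module.Finite K S'] (φ : S ≃ₐ[K] S') (x y : S) :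
    symS ω (φ x) (φ y) = symS ω x y := by
  by_cases h : IsUnit x ∧ IsUnit y
  · have s := symsA_isSym K (S := S) hω
    refine symsA_uniq (A := A) K (f := fun x y : Sˣ => symS ω (φ x) (φ y))
      (g := fun x y : Sˣ => symS ω (x : S) (y : S)) (fun x x' y => ?_) (fun x y y' => ?_) s.mul_left s.mul_right
      (fun Λ l x y a b => ?_) h.1.unit h.2.unit
    · rw [Units.val_mul, map_mul]
      exact symS_mul_left K hω (x.isUnit.map φ) (x'.isUnit.map φ) (y.isUnit.map φ)
    · rw [Units.val_mul, map_mul]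
      exact symS_mul_right K hω (x.isUnit.map φ) (y.isUnit.map φ) (y'.isUnit.map φ)
    · have := Module.Finite.of_fg l.1
      rw [s.eq Λ l.1 l.2 x y a b]
      refine (symS_eq K hω ((φ.restrictScalars A).toLinearMap ∘ₗ Λ.subtype)
        (φ.injective.comp Λ.injective_subtype) (fun z => ?_) (x.isUnit.map φ) (y.isUnit.map φ)
        (fun z => map_mul φ _ _) fun z => map_mul φ _ _).2.2
      obtain ⟨m, hm, h1⟩ := l.2 (φ.symm z)
      refine ⟨m, hm, ⟨_, h1⟩, ?_⟩
      show φ.restrictScalars A (m • φ.symm z) = _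
      rw [map_smul]
      exact congrArg _ (φ.apply_symm_apply z)
  · rw [symsA_zero h, symsA_zero fun h' => h ⟨by simpa using h'.1.map φ.symm,
      by simpa using h'.2.map φ.symm⟩]

end Vale.Agent.P319B
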