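import Vale.Agent.P319B.KE
import Vale.Agent.P319B.SymS
import Vale.Agent.P026.Recip3

/-! The base case of cubic reciprocity. -/

namespace Vale.Agent.P319B

open Complex NumberField
open scoped Classical ComplexConjugate
open Vale.Agent.P026 (w kk fk)
open Vale.Agent.P026

theorem r3a_inj : Function.Injective (algebraMap Eis KE) := IsFractionRing.injective Eis KE

theorem r3a_int (y : Eis) : IsIntegral ℤ y := by
  have h1 : IsIntegral ℤ Eis.om := by
    refine ⟨Polynomial.X ^ 2 + Polynomial.X + 1, by monicity!, ?_⟩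
    simpa using om_sq_add
  have e : y = algebraMap ℤ Eis y.a + algebraMap ℤ Eis y.b * Eis.om := by
    ext <;> simp
  rw [e]
  exact isIntegral_algebraMap.add (isIntegral_algebraMap.mul h1)

theorem r3a_int_gen (K : Type) [Field K] [Algebra Eis K] [IsFractionRing Eis K] {z : K} :
    IsIntegral ℤ z ↔ ∃ y : Eis, z = algebraMap Eis K y := by
  constructor
  · intro h
    obtain ⟨y, hy⟩ := IsIntegrallyClosed.isIntegral_iff.1 (h.tower_top (A := Eis))
    exact ⟨y, hy.symm⟩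
  · rintro ⟨y, rfl⟩
    exact (r3a_int y).map (IsScalarTower.toAlgHom ℤ Eis K)

theorem mem_AE {M : ℕ} {x : KE} :
    x ∈ Rr KE M ↔ ∃ (k : ℕ) (y : P026.Eis), (M : KE) ^ k * x = algebraMap P026.Eis KE y :=
  exists_congr fun _ => r3a_int_gen KE
theorem mem_OE {M : ℕ} {x : KE} : x ∈ Oo KE M ↔
    ∃ (m : ℕ) (y : P026.Eis), m.Coprime M ∧ (m : KE) * x = algebraMap P026.Eis KE y :=
  exists_congr fun _ => by
    rw [r3a_int_gen KE]
    exact ⟨fun ⟨h, y, hy⟩ => ⟨y, h, hy⟩, fun ⟨y, h, hy⟩ => ⟨h, y, hy⟩⟩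

theorem r3a_charZero : CharZero Eis := ⟨fun m n h => by
  have := congrArg Eis.a h
  simpa using this⟩

instance charZero_KE : CharZero KE :=
  haveI := r3a_charZero
  algebraRat.charZero KE

/-- The map from the Eisenstein integers to the ring of M integers. -/
noncomputable def r3aφ (M : ℕ) : Eis →+* AE M :=
  (algebraMap Eis KE).codRestrict (Rr KE M) fun y => mem_AE.2 ⟨0, y, by simp⟩

theorem r3aφ_coe (M : ℕ) (y : Eis) : ((r3aφ M y : AE M) : KE) = algebraMap Eis KE y := rfl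

theorem r3aφ_inj (M : ℕ) : Function.Injective (r3aφ M) := fun _ _ h =>
  r3a_inj (congrArg Subtype.val h)

theorem r3aφ_om (M : ℕ) : r3aφ M Eis.om = omE M := rfl

theorem r3a_ne {y : Eis} (h : y ≠ 0) : algebraMap Eis KE y ≠ 0 :=
  (map_ne_zero_iff _ r3a_inj).2 h

instance fracAE (M : ℕ) : IsFractionRing (AE M) KE :=
  IsFractionRing.of_field _ _ fun z => by
    obtain ⟨a, b, -, h⟩ := IsFractionRing.div_surjective (A := Eis) z
    exact ⟨r3aφ M a, r3aφ M b, h.symm⟩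

theorem r3a_frac {M : ℕ} (x : AE M) : ∃ a b : Eis, IsUnit (r3aφ M b) ∧ r3aφ M b * x = r3aφ M a := by
  obtain ⟨a, b, h, hx⟩ := IsFractionRing.exists_reduced_fraction Eis (x : KE)
  have h1 : r3aφ M b * x = r3aφ M a := by
    apply Subtype.ext
    show algebraMap Eis KE b * (x : KE) = algebraMap Eis KE a
    rw [← hx, IsLocalization.mk'_spec']
  obtain ⟨u, v, huv⟩ := h.isCoprime
  refine ⟨a, b, IsUnit.of_mul_eq_one (r3aφ M u * x + r3aφ M v) ?_, h1⟩
  have := congrArg (r3aφ M) huv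
  rw [map_add, map_mul, map_mul, map_one, ← h1] at this
  linear_combination this

instance pidAE (M : ℕ) : IsPrincipalIdealRing (AE M) := ⟨fun I => by
  obtain ⟨g, hg⟩ := (IsPrincipalIdealRing.principal (I.comap (r3aφ M))).principal
  refine ⟨r3aφ M g, le_antisymm (fun x hx => ?_) ?_⟩
  · obtain ⟨a, b, hb, h⟩ := r3a_frac x
    have ha : a ∈ I.comap (r3aφ M) := by
      rw [Ideal.mem_comap, ← h]
      exact I.mul_mem_left _ hx
    rw [hg] at ha
    have h1 : r3aφ M g ∣ r3aφ M b * x := h ▸ map_dvd _ (Ideal.mem_span_singleton.1 ha)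
    exact Ideal.mem_span_singleton.2 (hb.dvd_mul_left.1 h1)
  · have : g ∈ I.comap (r3aφ M) := hg ▸ Submodule.mem_span_singleton_self g
    exact (Submodule.span_singleton_le_iff_mem _ _).2 this⟩

theorem r3a_unitM {M : ℕ} (hM : M ≠ 0) : IsUnit (r3aφ M M) := by
  have h0 : (M : KE) ≠ 0 := Nat.cast_ne_zero.2 hM
  refine IsUnit.of_mul_eq_one ⟨(M : KE)⁻¹, mem_AE.2 ⟨1, 1, by simp [h0]⟩⟩ (Subtype.ext ?_)
  show algebraMap Eis KE M * (M : KE)⁻¹ = 1
  simp [h0]

theorem r3a_unit {M : ℕ} (hM : M ≠ 0) {s : Eis} {k : ℕ} (h : s ∣ (M : Eis) ^ k) :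
    IsUnit (r3aφ M s) :=
  isUnit_of_dvd_unit (map_dvd _ h) (by rw [map_pow]; exact (r3a_unitM hM).pow k)

theorem r3a_split (M : ℕ) {a : Eis} (ha : a ≠ 0) :
    ∃ (s c : Eis) (k : ℕ), s ∣ (M : Eis) ^ k ∧ IsCoprime c M ∧ a = s * c := by
  induction a using UniqueFactorizationMonoid.induction_on_prime with
  | h₁ => exact absurd rfl ha
  | h₂ u hu => exact ⟨1, u, 0, by simp, by simpa using (isCoprime_mul_unit_left_left hu 1 _).2 isCoprime_one_left, by simp⟩
  | h₃ x p hx hp ih =>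
    obtain ⟨s, c, k, h1, h2, rfl⟩ := ih hx
    by_cases h : p ∣ (M : Eis)
    · exact ⟨p * s, c, k + 1, by rw [pow_succ']; exact mul_dvd_mul h h1, h2, by ring⟩
    · exact ⟨s, p * c, k, h1, ((hp.coprime_iff_not_dvd).2 h).mul_left h2, by ring⟩

theorem r3a_dvd {M : ℕ} {c y : Eis} (hc : IsCoprime c M) (h : r3aφ M c ∣ r3aφ M y) : c ∣ y := by
  obtain ⟨z, hz⟩ := h
  obtain ⟨k, t, ht⟩ := mem_AE.1 z.2
  have h1 : algebraMap Eis KE y = algebraMap Eis KE c * (z : KE) := congrArg Subtype.val hz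
  have h2 : (M : Eis) ^ k * y = c * t := r3a_inj (by
    rw [map_mul, map_mul, map_pow, map_natCast, h1, ← ht]; ring)
  exact (hc.pow_right (n := k)).dvd_of_dvd_mul_left ⟨t, h2⟩

theorem r3a_surj {M : ℕ} {c : Eis} (hc : IsCoprime c M) (x : AE M) :
    ∃ y, r3aφ M c ∣ r3aφ M y - x := by
  obtain ⟨k, t, ht⟩ := mem_AE.1 x.2
  obtain ⟨u, v, huv⟩ := hc.pow_right (n := k)
  have h1 : r3aφ M M ^ k * x = r3aφ M t := Subtype.ext (by simpa [r3aφ_coe] using ht)
  have h2 := congrArg (r3aφ M) huv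
  rw [map_add, map_mul, map_mul, map_pow, map_one] at h2
  refine ⟨v * t, -(r3aφ M u * x), ?_⟩
  rw [map_mul, ← h1]
  linear_combination x * h2

/-- The residue rings agree. -/
noncomputable def r3aQ {M : ℕ} {c : Eis} (hc : IsCoprime c M) :
    (Eis ⧸ Ideal.span {c}) ≃+* (AE M ⧸ Ideal.span {r3aφ M c}) :=
  RingEquiv.ofBijective (Ideal.quotientMap _ (r3aφ M) (by
    rw [Ideal.span_le, Set.singleton_subset_iff]
    exact Ideal.mem_span_singleton_self _)) ⟨Ideal.quotientMap_injective' fun y hy =>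
      Ideal.mem_span_singleton.2 (r3a_dvd hc (Ideal.mem_span_singleton.1 hy)), fun q => by
    obtain ⟨x, rfl⟩ := Ideal.Quotient.mk_surjective q
    obtain ⟨y, hy⟩ := r3a_surj hc x
    exact ⟨Ideal.Quotient.mk _ y, Ideal.Quotient.eq.2 (Ideal.mem_span_singleton.2 hy)⟩⟩

theorem r3a_prime {M : ℕ} {p : Eis} (hp : Prime p) (hc : IsCoprime p M) : Prime (r3aφ M p) := by
  have h0 : r3aφ M p ≠ 0 := (map_ne_zero_iff _ (r3aφ_inj M)).2 hp.ne_zero
  have := (Ideal.span_singleton_prime hp.ne_zero).2 hp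
  rw [← Ideal.span_singleton_prime h0, ← Ideal.Quotient.isDomain_iff_prime]
  exact (r3aQ hc).symm.toMulEquiv.isDomain _

theorem baseE {M : ℕ} (hM : M ≠ 0) (h6 : 6 ∣ M) : Base (omE M) := by
  refine ⟨⟨?_, ?_⟩, fun m hm => ?_⟩
  · have := congrArg (r3aφ M) om_sq_add
    simpa [r3aφ_om] using this
  · have h3 : (3 : Eis) ∣ (M : Eis) ^ 1 := by
      rw [pow_one]
      exact_mod_cast Nat.cast_dvd_cast (α := Eis) (Dvd.dvd.trans (show 3 ∣ 6 by norm_num) h6)
    simpa only [map_ofNat] using r3a_unit hM h3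
  · obtain ⟨a, b, hb, h⟩ := r3a_frac m
    have ha : a ≠ 0 := fun h0 => by
      rw [h0, map_zero] at h
      exact mul_ne_zero hb.ne_zero hm h
    obtain ⟨s, c, k, h1, h2, rfl⟩ := r3a_split M ha
    have e : Ideal.span {m} = Ideal.span {r3aφ M c} := by
      rw [← Ideal.span_singleton_mul_left_unit hb, h, map_mul,
        Ideal.span_singleton_mul_left_unit (r3a_unit hM h1)]
    rw [e]
    have := finite_quot (right_ne_zero_of_mul ha)
    exact Finite.of_equiv _ (r3aQ h2).toEquiv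

theorem r3a_cop_int {n : ℤ} {M : ℕ} (h : IsCoprime (n : Eis) M) : n.natAbs.Coprime M := by
  obtain ⟨u, v, huv⟩ := h
  have h1 := congrArg Eis.a huv
  have h2 : IsCoprime n (M : ℤ) := ⟨u.a, v.a, by simpa using h1⟩
  exact Int.isCoprime_iff_gcd_eq_one.1 h2

theorem r3a_cop_nrm {c : Eis} {M : ℕ} (h : IsCoprime c M) :
    ∃ n : ℕ, n.Coprime M ∧ (n : Eis) = c * Eis.cj c := by
  have h1 : IsCoprime (Eis.cj c) M := by
    obtain ⟨u, v, huv⟩ := h
    refine ⟨Eis.cj u, Eis.cj v, ?_⟩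
    have e1 : Eis.cj (M : Eis) = M := by ext <;> simp
    have e2 : Eis.cj 1 = 1 := by ext <;> simp
    rw [← e1, ← cj_mul, ← cj_mul, ← cj_add, huv, e2]
  refine ⟨(Eis.nrm c).natAbs, r3a_cop_int (Eis.mul_cj c ▸ h.mul_left h1), ?_⟩
  rw [Eis.mul_cj, ← Int.cast_natCast, Int.natAbs_of_nonneg (Eis.nrm_nonneg c)]

theorem r3a_cop_nat {m M : ℕ} (h : m.Coprime M) : IsCoprime (m : Eis) M := by
  have := (Nat.isCoprime_iff_coprime.2 h).map (Int.castRingHom Eis)
  simpa using this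

theorem hiE {M : ℕ} (hM : M ≠ 0) (x : KE) : ∃ k : ℕ, (M : KE) ^ k * x ∈ Oo KE M := by
  have _ := hM
  obtain ⟨a, b, hb, rfl⟩ := IsFractionRing.div_surjective (A := Eis) x
  have hb0 := nonZeroDivisors.ne_zero hb
  obtain ⟨s, c, k, ⟨t, h1⟩, h2, rfl⟩ := r3a_split M hb0
  obtain ⟨n, hn, e⟩ := r3a_cop_nrm h2
  refine ⟨k, mem_OE.2 ⟨n, Eis.cj c * t * a, hn, ?_⟩⟩
  have e1 := congrArg (algebraMap Eis KE) h1
  have e2 := congrArg (algebraMap Eis KE) e
  have := r3a_ne (left_ne_zero_of_mul hb0)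
  have := r3a_ne (right_ne_zero_of_mul hb0)
  simp only [map_mul, map_pow, map_natCast] at e1 e2 ⊢
  rw [e1, e2]
  field_simp

theorem r3a_lam {M : ℕ} (h6 : 6 ∣ M) : Eis.lam ∣ (M : Eis) :=
  Dvd.dvd.trans ⟨-2 * Eis.lam, by decide⟩ (Nat.cast_dvd_cast (α := Eis) h6)

theorem r3a_not_lam {M : ℕ} (h6 : 6 ∣ M) {c : Eis} (h : IsCoprime c M) : ¬ Eis.lam ∣ c :=
  fun h1 => prime_lam.not_isUnit (h.isUnit_of_dvd' h1 (r3a_lam h6))

theorem r3a_cop_ne {M : ℕ} (h6 : 6 ∣ M) {c : Eis} (h : IsCoprime c M) : c ≠ 0 :=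
  fun h0 => r3a_not_lam h6 h (h0 ▸ dvd_zero _)

theorem unitE {M : ℕ} (h6 : 6 ∣ M) (x : KE) (hx : x ∈ Oo KE M) :
    ∃ y ∈ Oo KE M, (1 + (M : KE) * x) * y = 1 := by
  obtain ⟨m, z, hm, hz⟩ := mem_OE.1 hx
  have hc : IsCoprime ((m : Eis) + M * z) M := (r3a_cop_nat hm).add_mul_left_left z
  obtain ⟨n, hn, e⟩ := r3a_cop_nrm hc
  have h0 := r3a_ne (r3a_cop_ne h6 hc)
  have e2 := congrArg (algebraMap Eis KE) e
  refine ⟨m / algebraMap Eis KE (m + M * z), mem_OE.2 ⟨n, m * Eis.cj (m + M * z), hn, ?_⟩, ?_⟩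
  · rw [map_natCast, map_mul] at e2
    rw [e2, map_mul, map_natCast]
    field_simp
  · rw [← mul_div_assoc, div_eq_one_iff_eq h0, map_add, map_mul, map_natCast, map_natCast, ← hz]
    ring

/-- The character of the cyclic group of order three. -/
noncomputable def r3aχ (n : ZMod 3) : ℂ := Eis.toC Eis.om ^ n.val

theorem r3aχ_add (m n : ZMod 3) : r3aχ (m + n) = r3aχ m * r3aχ n := by
  rw [r3aχ, r3aχ, r3aχ, ZMod.val_add, ← pow_eq_pow_mod _ sym_om3, pow_add]

theorem r3aχ_inj {m n : ZMod 3} (h : r3aχ m = r3aχ n) : m = n := by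
  rw [r3aχ, r3aχ, ← map_pow, ← map_pow] at h
  have h1 := toC_inj h
  have h2 := congrArg Eis.a h1
  have h3 := congrArg Eis.b h1
  clear h h1
  revert m n
  decide

section Sym
variable {M : ℕ} (hM : M ≠ 0) (h6 : 6 ∣ M)
include hM h6

theorem r3a_tr {p a : Eis} (hp : Prime p) (hc : IsCoprime p M) (ha : ¬ p ∣ a) :
    r3aχ (trO (omE M) (LinearMap.mul (AE M) (AE M) (r3aφ M a)) ⊤
      (LinearMap.range (LinearMap.mul (AE M) (AE M) (r3aφ M p))) ⊤
      (LinearMap.range (LinearMap.mul (AE M) (AE M) (r3aφ M p)))) = P026.cub a p := by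
  have hp' := r3a_prime hp hc
  have h := gauss_lemma (baseE hM h6).toCb (a := r3aφ M a) hp' ((baseE hM h6).fin _ hp'.ne_zero)
    fun h => ha (r3a_dvd hc h)
  rw [← Nat.card_congr (r3aQ hc).toEquiv, card_quot hp.ne_zero, Algebra.algebraMap_self,
    RingHom.id_apply, ← r3aφ_om, ← map_pow, ← map_pow, ← map_sub] at h
  rw [cub_prime hp, ← sym_toC_cubE, sym_cubE_eq hp (r3a_not_lam h6 hc) ha (r3a_dvd hc h), map_pow]
  rfl

theorem r3a_sym_cop {a b : Eis} (ha : a ≠ 0) (hb : b ≠ 0)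
    (h : IsCoprime (r3aφ M a) (r3aφ M b)) :
    symS (omE M) (algebraMap Eis KE a) (algebraMap Eis KE b) =
      trO (omE M) (LinearMap.mul (AE M) (AE M) (r3aφ M a)) ⊤
        (LinearMap.range (LinearMap.mul (AE M) (AE M) (r3aφ M b))) ⊤
        (LinearMap.range (LinearMap.mul (AE M) (AE M) (r3aφ M b))) -
      trO (omE M) (LinearMap.mul (AE M) (AE M) (r3aφ M b)) ⊤
        (LinearMap.range (LinearMap.mul (AE M) (AE M) (r3aφ M a))) ⊤
        (LinearMap.range (LinearMap.mul (AE M) (AE M) (r3aφ M a))) := by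
  obtain ⟨h1, h2, h3⟩ := symS_eq KE (baseE hM h6) (Algebra.linearMap (AE M) KE)
    Subtype.val_injective (fun z => by
      obtain ⟨u, v, hv, rfl⟩ := IsFractionRing.div_surjective (A := Eis) z
      have h0 := nonZeroDivisors.ne_zero hv
      refine ⟨r3aφ M v, (map_ne_zero_iff _ (r3aφ_inj M)).2 h0, r3aφ M u, ?_⟩
      show algebraMap Eis KE u = algebraMap Eis KE v * _
      rw [mul_div_cancel₀ _ (r3a_ne h0)]) (r3a_ne ha).isUnit (r3a_ne hb).isUnit
    (α := LinearMap.mul (AE M) (AE M) (r3aφ M a)) (β := LinearMap.mul (AE M) (AE M) (r3aφ M b))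
    (fun _ => rfl) fun _ => rfl
  rw [h3]
  refine symE_coprime (baseE hM h6).toCb h1 h2 (LinearMap.ext fun z => mul_left_comm _ _ _) ?_
  obtain ⟨u, v, huv⟩ := h
  refine eq_top_iff.2 fun z _ => Submodule.mem_sup.2 ⟨_, ⟨u * z, rfl⟩, _, ⟨v * z, rfl⟩, ?_⟩
  simp only [LinearMap.mul_apply']
  linear_combination z * huv

theorem r3a_left {a a' : Eis} (ha : a ≠ 0) (ha' : a' ≠ 0) {y : KE} (hy : y ≠ 0) :
    symS (omE M) (algebraMap Eis KE (a * a')) y =
      symS (omE M) (algebraMap Eis KE a) y + symS (omE M) (algebraMap Eis KE a') y := by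
  rw [map_mul]
  exact symS_mul_left KE (baseE hM h6) (r3a_ne ha).isUnit (r3a_ne ha').isUnit hy.isUnit

theorem r3a_right {a a' : Eis} (ha : a ≠ 0) (ha' : a' ≠ 0) {x : KE} (hx : x ≠ 0) :
    symS (omE M) x (algebraMap Eis KE (a * a')) =
      symS (omE M) x (algebraMap Eis KE a) + symS (omE M) x (algebraMap Eis KE a') := by
  rw [map_mul]
  exact symS_mul_right KE (baseE hM h6) hx.isUnit (r3a_ne ha).isUnit (r3a_ne ha').isUnit

theorem r3a_one_right (x : KE) : symS (omE M) x (algebraMap Eis KE 1) = 0 := by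
  rw [map_one, symS_swap KE (baseE hM h6), symS_one_left KE (baseE hM h6), neg_zero]

theorem r3a_primes {p q : Eis} (hp : Prime p) (h1 : Prim p) (hpc : IsCoprime p M) (hq : Prime q)
    (h2 : Prim q) (hqc : IsCoprime q M) :
    symS (omE M) (algebraMap Eis KE p) (algebraMap Eis KE q) = 0 := by
  by_cases h : q = p
  · rw [h]
    exact symS_self KE (baseE hM h6) _
  have a1 : ¬ q ∣ p := fun e => h (r3_eq_of_dvd hp h1 hq h2 e)
  have a2 : ¬ p ∣ q := fun e => h (r3_eq_of_dvd hq h2 hp h1 e).symm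
  rw [r3a_sym_cop hM h6 hp.ne_zero hq.ne_zero (((hp.coprime_iff_not_dvd).2 a2).map _), sub_eq_zero]
  apply r3aχ_inj
  rw [r3a_tr hM h6 hq hqc a1, r3a_tr hM h6 hp hpc a2, cub_recip h1 h2]

theorem r3a_prim {a b : Eis} (ha : Prim a) (hac : IsCoprime a M) (hb : Prim b)
    (hbc : IsCoprime b M) : symS (omE M) (algebraMap Eis KE a) (algebraMap Eis KE b) = 0 := by
  revert hac
  refine Prim.induction (Pr := fun a => IsCoprime a M →
    symS (omE M) (algebraMap Eis KE a) (algebraMap Eis KE b) = 0) (fun _ => ?_)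
    (fun p x hp h1 hx ih hc => ?_) ha
  · rw [map_one]
    exact symS_one_left KE (baseE hM h6) _
  rw [r3a_left hM h6 hp.ne_zero hx.ne_zero (r3a_ne hb.ne_zero), ih hc.of_mul_left_right, add_zero]
  revert hbc
  refine Prim.induction (Pr := fun b => IsCoprime b M →
    symS (omE M) (algebraMap Eis KE p) (algebraMap Eis KE b) = 0) (fun _ => r3a_one_right hM h6 _)
    (fun q y hq h2 hy ih hc' => ?_) hb
  rw [r3a_right hM h6 hq.ne_zero hy.ne_zero (r3a_ne hp.ne_zero), ih hc'.of_mul_left_right,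
    add_zero, r3a_primes hM h6 hp h1 hc.of_mul_left_left hq h2 hc'.of_mul_left_left]

theorem r3a_sm {s a : Eis} {k : ℕ} (hs : s ∣ (M : Eis) ^ k) (ha : Prim a) (hac : IsCoprime a M) :
    r3aχ (symS (omE M) (algebraMap Eis KE s) (algebraMap Eis KE a)) = P026.cub s a := by
  have hu := r3a_unit hM hs
  have h0 : s ≠ 0 := fun h => hu.ne_zero (by rw [h, map_zero])
  revert hac
  refine Prim.induction (Pr := fun a => IsCoprime a M →
    r3aχ (symS (omE M) (algebraMap Eis KE s) (algebraMap Eis KE a)) = P026.cub s a) (fun _ => ?_)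
    (fun p x hp h1 hx ih hc => ?_) ha
  · rw [r3a_one_right hM h6, cub_one_right]
    exact pow_zero _
  have hpc := hc.of_mul_left_left
  rw [r3a_right hM h6 hp.ne_zero hx.ne_zero (r3a_ne h0), r3aχ_add, ih hc.of_mul_left_right,
    cub_mul_right _ hp.ne_zero hx.ne_zero]
  congr 1
  have e : LinearMap.range (LinearMap.mul (AE M) (AE M) (r3aφ M s)) = ⊤ := by
    obtain ⟨v, hv⟩ := hu.exists_right_inv
    refine eq_top_iff.2 fun z _ => ⟨v * z, ?_⟩
    rw [LinearMap.mul_apply', ← mul_assoc, hv, one_mul]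
  rw [r3a_sym_cop hM h6 h0 hp.ne_zero (by
    simpa using (isCoprime_mul_unit_left_left hu 1 _).2 isCoprime_one_left), e, trO_self, sub_zero]
  exact r3a_tr hM h6 hp hpc fun h =>
    hp.not_isUnit ((hpc.pow_right (n := k)).isUnit_of_dvd (h.trans hs))

theorem r3a_pair {a a' : Eis} (ha : Prim a) (hac : IsCoprime a M) (ha' : Prim a')
    (hac' : IsCoprime a' M) (h : 9 * (M : Eis) ∣ a - a') {b : Eis} (hb : b ≠ 0) :
    symS (omE M) (algebraMap Eis KE a) (algebraMap Eis KE b) =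
      symS (omE M) (algebraMap Eis KE a') (algebraMap Eis KE b) := by
  obtain ⟨s, c, k, h1, h2, rfl⟩ := r3a_split M hb
  obtain ⟨u, hu, h3⟩ := exists_prim_assoc (r3a_not_lam h6 h2)
  obtain ⟨v, hv⟩ := hu.exists_left_inv
  have e : s * c = (s * v) * (u * c) := by linear_combination -(s * c) * hv
  have h4 : s * v ∣ (M : Eis) ^ k := (IsUnit.of_mul_eq_one u hv).mul_right_dvd.2 h1
  have h5 : IsCoprime (u * c) M := (isCoprime_mul_unit_left_left hu _ _).2 h2
  rw [e] at hb ⊢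
  have h0 := left_ne_zero_of_mul hb
  rw [r3a_right hM h6 h0 h3.ne_zero (r3a_ne ha.ne_zero),
    r3a_right hM h6 h0 h3.ne_zero (r3a_ne ha'.ne_zero), r3a_prim hM h6 ha hac h3 h5,
    r3a_prim hM h6 ha' hac' h3 h5, symS_swap KE (baseE hM h6) _ (algebraMap Eis KE a),
    symS_swap KE (baseE hM h6) _ (algebraMap Eis KE a')]
  congr 2
  apply r3aχ_inj
  have := r3a_charZero
  rw [r3a_sm hM h6 h4 ha hac, r3a_sm hM h6 h4 ha' hac',
    cub_per_rad ha k h4 (Nat.cast_ne_zero.2 hM) h]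

end Sym

theorem symE_base {M : ℕ} (hM : M ≠ 0) (h6 : 6 ∣ M) {x y : KE} (hx : x ≠ 0) (hy : y ≠ 0)
    (h : (x - 1) / (M : KE) ^ 3 ∈ Oo KE M) : symS (omE M) x y = 0 := by
  obtain ⟨m, z, hm, hz⟩ := mem_OE.1 h
  have hB := baseE hM h6
  have hM0 : (M : KE) ≠ 0 := Nat.cast_ne_zero.2 hM
  obtain ⟨N, hN⟩ := id h6
  have hN' : (M : Eis) = 6 * N := by rw [hN]; push_cast; rfl
  have hmc := r3a_cop_nat hm
  have p2 : Prim ((m : Eis) * m) := by
    have h3 : ¬ 3 ∣ m := fun h3 => by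
      have := Nat.dvd_gcd h3 (Dvd.dvd.trans (show 3 ∣ 6 by norm_num) h6)
      rw [hm] at this
      omega
    have : (3 : ℤ) ∣ (m : ℤ) * m - 1 := by
      have h4 : (m : ℤ) % 3 = 1 ∨ (m : ℤ) % 3 = 2 := by omega
      apply Int.dvd_of_emod_eq_zero
      rcases h4 with h4 | h4 <;> simp [Int.sub_emod, Int.mul_emod, h4]
    have := map_dvd (Int.castRingHom Eis) this
    simpa [Prim] using this
  have c2 : IsCoprime ((m : Eis) * m) M := hmc.mul_left hmc
  have hd : 9 * (M : Eis) ∣ (m * m + M * (M ^ 2 * z * m)) - m * m :=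
    ⟨4 * N ^ 2 * z * m, by rw [hN']; ring⟩
  have p1 : Prim ((m : Eis) * m + M * (M ^ 2 * z * m)) :=
    p2.of_dvd_sub (Dvd.dvd.trans ⟨3 * M, by ring⟩ hd)
  have c1 : IsCoprime ((m : Eis) * m + M * (M ^ 2 * z * m)) M := c2.add_mul_left_left _
  have e : x * algebraMap Eis KE (m * m) = algebraMap Eis KE (m * m + M * (M ^ 2 * z * m)) := by
    simp only [map_add, map_mul, map_pow, map_natCast, ← hz]
    field_simp
    ring
  have key : ∀ b : Eis, b ≠ 0 → symS (omE M) x (algebraMap Eis KE b) = 0 := fun b hb => by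
    have h1 := symS_mul_left KE hB hx.isUnit (r3a_ne p2.ne_zero).isUnit (r3a_ne hb).isUnit
    rw [e, r3a_pair hM h6 p1 c1 p2 c2 hd hb] at h1
    linear_combination -h1
  obtain ⟨a, b, hb, rfl⟩ := IsFractionRing.div_surjective (A := Eis) y
  have hb0 := nonZeroDivisors.ne_zero hb
  have ha : a ≠ 0 := fun h0 => hy (by rw [h0, map_zero, zero_div])
  have h1 := symS_mul_right KE hB hx.isUnit hy.isUnit (r3a_ne hb0).isUnit
  rw [div_mul_cancel₀ _ (r3a_ne hb0), key a ha, key b hb0] at h1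
  linear_combination -h1

end Vale.Agent.P319B
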