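import Vale.Agent.P319B.ResC

/-! Averaged test functions. -/

namespace Vale.Agent.P319B

open Complex NumberField MeasureTheory Filter Topology
open scoped Classical ComplexConjugate
open Vale.Agent.P026 (w kk fk)

variable {F : Type} [Field F] [NumberField F] [Ctx0 F]

/-- The weighted test function at a parameter point. -/
noncomputable def r1F (a : Io F → ℝ) (p : (Io F → ℝ) × (Io F → ℝ)) (y : Io F → ℝ) : ℂ :=
  ∏ v, (p.1 v : ℂ) * fk (a v) (p.1 v) (p.2 v) (y v)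

/-- The averaged test function. -/
noncomputable def r1phi (a : Io F → ℝ) (s : Set ((Io F → ℝ) × (Io F → ℝ))) (y : Io F → ℝ) : ℂ :=
  ∫ p in s, r1F a p y

/-- The shape function. -/
noncomputable def r1K (a : Io F → ℝ) (p : (Io F → ℝ) × (Io F → ℝ)) : ℝ :=
  ∏ v, p.1 v ^ (-(2 / 3) : ℝ) * p.2 v ^ (-(1 / 3) : ℝ) * kk (a v * (√(p.2 v) / p.1 v))

/-- The basic majorant. -/
noncomputable def r1g (y : Io F → ℝ) : ℝ := ∏ v, ((1 + y v) ^ 2)⁻¹

theorem r1g_nonneg (y : Io F → ℝ) : 0 ≤ r1g y := Finset.prod_nonneg fun _ _ => by positivity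

theorem r1_testF_g : TestF (fun y : Io F → ℝ => (r1g y : ℂ)) := by
  refine ⟨by unfold r1g; fun_prop, 1, fun y _ => ?_⟩
  rw [norm_real, Real.norm_of_nonneg (r1g_nonneg y), one_mul, r1g]

theorem r1_measF (a : Io F → ℝ) :
    Measurable fun z : ((Io F → ℝ) × (Io F → ℝ)) × (Io F → ℝ) => r1F a z.1 z.2 := by
  unfold r1F fk; fun_prop

theorem r1_one (a : ℝ) {D : ℝ} (hD : D ≠ 0) (E y : ℝ) :
    (D : ℂ) * fk a D E y = (Real.exp (-(y * E / D) - a ^ 2 / (y * D)) : ℝ) := by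
  unfold fk
  rw [← ofReal_mul, mul_inv_cancel_left₀ hD]

theorem r1_exp_le {b : ℝ} (hb : 0 < b) : ∃ C : ℝ, 0 < C ∧ ∀ y : ℝ, 0 < y →
    Real.exp (-(b * y)) ≤ C * ((1 + y) ^ 2)⁻¹ := by
  refine ⟨2 * Real.exp b / b ^ 2, by positivity, fun y hy => ?_⟩
  have h1 := Real.pow_div_factorial_le_exp (b * (1 + y)) (by positivity) 2
  have h2 : Real.exp (b * (1 + y)) * Real.exp (-(b * y)) = Real.exp b := by
    rw [← Real.exp_add]; congr 1; ring
  have h3 := mul_le_mul_of_nonneg_right h1 (Real.exp_pos (-(b * y))).le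
  rw [h2] at h3
  rw [← div_eq_mul_inv, le_div_iff₀ (by positivity), le_div_iff₀ (by positivity)]
  norm_num [Nat.factorial] at h3
  nlinarith

theorem r1F_le {B : Set ((Io F → ℝ) × (Io F → ℝ))} (hB : IsCompact B) (hBD : B ⊆ DE F) :
    ∃ C : ℝ, 0 < C ∧ ∀ a, ∀ p ∈ B, ∀ y : Io F → ℝ, (∀ v, 0 < y v) → ‖r1F a p y‖ ≤ C * r1g y := by
  have h1 : ∀ v : Io F, ∃ C : ℝ, 0 < C ∧ ∀ a : ℝ, ∀ p ∈ B, ∀ y : ℝ, 0 < y →
      ‖(p.1 v : ℂ) * fk a (p.1 v) (p.2 v) y‖ ≤ C * ((1 + y) ^ 2)⁻¹ := by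
    intro v
    have hc : ContinuousOn (fun p : (Io F → ℝ) × (Io F → ℝ) => p.2 v / p.1 v) B :=
      ContinuousOn.div (by fun_prop) (by fun_prop) fun p hp => ((hBD hp).1 v).ne'
    obtain ⟨b, hb, h⟩ := hB.exists_forall_le' hc (a := 0)
      fun p hp => div_pos ((hBD hp).2.1 v) ((hBD hp).1 v)
    obtain ⟨C, hC, hC'⟩ := r1_exp_le hb
    refine ⟨C, hC, fun a p hp y hy => le_trans ?_ (hC' y hy)⟩
    have h0 := (hBD hp).1 v
    rw [r1_one a h0.ne', norm_real, Real.norm_of_nonneg (Real.exp_pos _).le, Real.exp_le_exp]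
    have e1 : 0 ≤ a ^ 2 / (y * p.1 v) := by positivity
    have e2 : b * y ≤ y * p.2 v / p.1 v := by
      rw [mul_comm, mul_div_assoc]
      exact mul_le_mul_of_nonneg_left (h p hp) hy.le
    linarith
  choose C hC h using h1
  refine ⟨∏ v, C v, Finset.prod_pos fun v _ => hC v, fun a p hp y hy => ?_⟩
  rw [r1F, norm_prod, r1g, ← Finset.prod_mul_distrib]
  exact Finset.prod_le_prod (fun _ _ => norm_nonneg _) fun v _ => h v _ p hp _ (hy v)

variable {B s : Set ((Io F → ℝ) × (Io F → ℝ))} {γ : R F → ℂ}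

theorem r1T_phi (a : Io F → ℝ) (hB : IsCompact B) (hBD : B ⊆ DE F) (hs : s ⊆ B) :
    TestF (r1phi a s) := by
  obtain ⟨C, hC, h⟩ := r1F_le hB hBD
  refine ⟨?_, C * volume.real s, fun y hy => ?_⟩
  · exact ((r1_measF a).stronglyMeasurable.integral_prod_left' (μ := volume.restrict s)).measurable
  · rw [mul_right_comm]
    exact norm_setIntegral_le_of_norm_le_const ((measure_mono hs).trans_lt hB.measure_lt_top)
      fun p hp => h a p (hs hp) y hy

theorem r1_swap {ι X : Type*} [Countable ι] [MeasurableSpace X] {μ : Measure X} {u : ι → X → ℂ}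
    (hu : ∀ c, Measurable (u c)) {h : X → ℝ} (hh : Integrable h μ) {v : ι → ℝ} (hv : Summable v)
    (hb : ∀ c, ∀ᵐ x ∂μ, ‖u c x‖ ≤ v c * h x) :
    ∑' c, ∫ x, u c x ∂μ = ∫ x, ∑' c, u c x ∂μ := by
  have hi : ∀ c, Integrable (u c) μ := fun c =>
    (hh.const_mul (v c)).mono' (hu c).aestronglyMeasurable (hb c)
  refine integral_tsum_of_summable_integral_norm hi ?_
  refine Summable.of_nonneg_of_le (fun c => integral_nonneg fun x => norm_nonneg _) (fun c => ?_)
    (hv.mul_right (∫ x, h x ∂μ))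
  rw [← integral_const_mul]
  exact integral_mono_ae (hi c).norm (hh.const_mul _) (hb c)

theorem r1S_phi (a : Io F → ℝ) (hγ : BdA γ) (hB : IsCompact B) (hBD : B ⊆ DE F)
    (hm : MeasurableSet s) (hs : s ⊆ B) {t : Io F → ℝ} (ht : ∀ v, 0 < t v) :
    Rsum γ (r1phi a s) t = ∫ p in s, Rsum γ (r1F a p) t := by
  have hfin : IsFiniteMeasure (volume.restrict s) :=
    isFiniteMeasure_restrict.2 ((measure_mono hs).trans_lt hB.measure_lt_top).ne
  obtain ⟨C, hC, h⟩ := r1F_le hB hBD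
  simp only [Rsum, r1phi]
  rw [integral_const_mul]
  congr 1
  simp only [← integral_const_mul]
  rw [r1_swap (u := fun c p => γ c * r1F a p (fun v => t v * sqv (c : F) v)) (h := fun _ => C)
    (v := fun c => ‖γ c * (r1g (fun v => t v * sqv (c : F) v) : ℂ)‖)
    (fun c => measurable_const.mul ((r1_measF a).comp (measurable_id.prodMk measurable_const)))
    (integrable_const _) (summable_Rsum hγ r1_testF_g ht).norm]
  intro c
  filter_upwards [ae_restrict_mem hm] with p hp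
  by_cases hc : c = 0
  · rw [hc, hγ.1, zero_mul, zero_mul, norm_zero, zero_mul]
  · rw [norm_mul, norm_mul, mul_assoc, norm_real, Real.norm_of_nonneg (r1g_nonneg _), mul_comm _ C]
    exact mul_le_mul_of_nonneg_left
      (h a p (hs hp) _ fun v => mul_pos (ht v) (sqv_pos (nrm_coe_ne hc) v)) (norm_nonneg _)

theorem r1_intS (a : Io F → ℝ) (hγ : BdA γ) (hB : IsCompact B) (hBD : B ⊆ DE F)
    {t : Io F → ℝ} (ht : ∀ v, 0 < t v) : IntegrableOn (fun p => Rsum γ (r1F a p) t) B := by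
  obtain ⟨C, -, hC⟩ := Rsum_crude hγ
  obtain ⟨C', -, h⟩ := r1F_le hB hBD
  refine Measure.integrableOn_of_bounded hB.measure_lt_top.ne (Measurable.aestronglyMeasurable ?_)
    (M := C * C' * (∏ v, t v) ^ (-(2 / 3) : ℝ)) ?_
  · exact measurable_const.mul (Measurable.tsum fun c =>
      measurable_const.mul ((r1_measF a).comp (measurable_id.prodMk measurable_const)))
  · filter_upwards [ae_restrict_mem hB.measurableSet] with p hp
    exact hC _ C' (fun y hy => h a p hp y hy) t ht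

theorem r1_pos_eq : {y : Io F → ℝ | ∀ v, 0 < y v} = Set.univ.pi fun _ => Set.Ioi 0 := by
  ext y; simp

theorem r1_inner (a : Io F → ℝ) {p : (Io F → ℝ) × (Io F → ℝ)} (hp : p ∈ DE F) :
    ∫ y in {y : Io F → ℝ | ∀ v, 0 < y v}, (((∏ v, y v) ^ (-(2 / 3) : ℝ) : ℝ) : ℂ) * r1F a p y =
      (((∏ v, p.1 v) * r1K a p : ℝ) : ℂ) := by
  have h1 : ∫ y in {y : Io F → ℝ | ∀ v, 0 < y v},
      (((∏ v, y v) ^ (-(2 / 3) : ℝ) : ℝ) : ℂ) * r1F a p y =
      ∫ y in {y : Io F → ℝ | ∀ v, 0 < y v}, ∏ v, (p.1 v : ℂ) *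
        (((y v ^ (-(2 / 3) : ℝ) : ℝ) : ℂ) * fk (a v) (p.1 v) (p.2 v) (y v)) := by
    refine setIntegral_congr_fun (by rw [r1_pos_eq]; exact .univ_pi fun _ => measurableSet_Ioi)
      fun y hy => ?_
    simp only [r1F]
    rw [← Real.finsetProd_rpow _ _ fun v _ => (hy v).le, ofReal_prod, ← Finset.prod_mul_distrib]
    exact Finset.prod_congr rfl fun v _ => by ring
  rw [h1, r1_pos_eq, volume_pi, Measure.restrict_pi_pi,
    integral_fintype_prod_eq_prod (fun v (y : ℝ) => (p.1 v : ℂ) *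
      (((y ^ (-(2 / 3) : ℝ) : ℝ) : ℂ) * fk (a v) (p.1 v) (p.2 v) y)),
    r1K, ← Finset.prod_mul_distrib, ofReal_prod]
  refine Finset.prod_congr rfl fun v _ => ?_
  rw [integral_const_mul, (P026.integral_fk (hp.1 v) (hp.2.1 v)).2, ofReal_mul (p.1 v)]

theorem r1M_phi (a : Io F → ℝ) (hB : IsCompact B) (hBD : B ⊆ DE F) (hm : MeasurableSet s)
    (hs : s ⊆ B) :
    IntegrableOn (fun p => (((∏ v, p.1 v) * r1K a p : ℝ) : ℂ)) s ∧
      Mf (r1phi a s) = ∫ p in s, (((∏ v, p.1 v) * r1K a p : ℝ) : ℂ) := by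
  have hfin : IsFiniteMeasure (volume.restrict s) :=
    isFiniteMeasure_restrict.2 ((measure_mono hs).trans_lt hB.measure_lt_top).ne
  obtain ⟨C, hC, h⟩ := r1F_le hB hBD
  have hP : MeasurableSet {y : Io F → ℝ | ∀ v, 0 < y v} := by
    rw [r1_pos_eq]; exact .univ_pi fun _ => measurableSet_Ioi
  have hi : Integrable
      (Function.uncurry fun (y : Io F → ℝ) (p : (Io F → ℝ) × (Io F → ℝ)) =>
        (((∏ v, y v) ^ (-(2 / 3) : ℝ) : ℝ) : ℂ) * r1F a p y)
      ((volume.restrict {y : Io F → ℝ | ∀ v, 0 < y v}).prod (volume.restrict s)) := by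
    refine ((integrableOn_Mf r1_testF_g).norm.mul_prod
      (integrable_const C)).mono' (Measurable.aestronglyMeasurable ?_) ?_
    · exact Measurable.mul (by fun_prop) ((r1_measF a).comp measurable_swap)
    · rw [Measure.prod_restrict]
      filter_upwards [ae_restrict_mem (hP.prod hm)] with z hz
      rw [Function.uncurry_def, norm_mul, norm_mul, mul_assoc, norm_real (r1g _),
        Real.norm_of_nonneg (r1g_nonneg _), mul_comm _ C]
      exact mul_le_mul_of_nonneg_left (h a _ (hs hz.2) _ hz.1) (norm_nonneg _)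
  constructor
  · exact IntegrableOn.congr_fun hi.integral_prod_right (fun p hp => r1_inner a (hBD (hs hp))) hm
  · simp only [Mf, r1phi, ← integral_const_mul]
    rw [integral_integral_swap hi]
    exact setIntegral_congr_fun hm fun p hp => r1_inner a (hBD (hs hp))

theorem r1K_pos (a : Io F → ℝ) {p : (Io F → ℝ) × (Io F → ℝ)} (hp : p ∈ DE F) : 0 < r1K a p := by
  refine Finset.prod_pos fun v _ => ?_
  have := P026.kk_pos (a v * (√(p.2 v) / p.1 v))
  have h1 := hp.1 v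
  have h2 := hp.2.1 v
  positivity

theorem r1M_ne (a : Io F → ℝ) : ∃ B : Set ((Io F → ℝ) × (Io F → ℝ)), IsCompact B ∧ B ⊆ DE F ∧
    Mf (r1phi a B) ≠ 0 := by
  obtain ⟨K, hK, -, hU⟩ := DE_exhaust (F := F)
  obtain ⟨n, hn⟩ : ∃ n, volume (K n) ≠ 0 := by
    by_contra h
    push Not at h
    refine restrict_DE_ne_zero (F := F) ?_
    rw [Measure.restrict_eq_zero, ← hU]
    exact measure_iUnion_null h
  obtain ⟨h1, h2⟩ := r1M_phi a (hK n).1 (hK n).2 (hK n).1.measurableSet subset_rfl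
  have hpos : ∀ p ∈ K n, 0 < (∏ v, p.1 v) * r1K a p := fun p hp =>
    mul_pos (Finset.prod_pos fun v _ => ((hK n).2 hp).1 v) (r1K_pos a ((hK n).2 hp))
  refine ⟨K n, (hK n).1, (hK n).2, ?_⟩
  rw [h2, integral_complex_ofReal]
  refine ofReal_ne_zero.2 (ne_of_gt ?_)
  rw [setIntegral_pos_iff_support_of_nonneg_ae]
  · rw [Set.inter_eq_self_of_subset_right fun p hp => Function.mem_support.2 (hpos p hp).ne']
    exact pos_iff_ne_zero.2 hn
  · filter_upwards [ae_restrict_mem (hK n).1.measurableSet] with p hp using (hpos p hp).le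
  · exact Integrable.congr h1.re (Eventually.of_forall fun x => ofReal_re _)

/-- The reference box. -/
def r1B (a : Io F → ℝ) : Set ((Io F → ℝ) × (Io F → ℝ)) :=
  Set.Icc a (fun v => 2 * a v) ×ˢ Set.Icc (fun _ => 1) (fun _ => 2 ^ ((rr F : ℝ)⁻¹))

theorem r1B_compact (a : Io F → ℝ) : IsCompact (r1B a) := isCompact_Icc.prod isCompact_Icc

theorem r1B_sub {a : Io F → ℝ} (ha : ∀ v, 0 < a v) : r1B a ⊆ DE F := by
  rintro p ⟨⟨h1, -⟩, h3, h4⟩
  have h5 : ∀ v, 1 ≤ p.2 v := h3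
  refine ⟨fun v => (ha v).trans_le (h1 v), fun v => one_pos.trans_le (h5 v),
    Finset.one_le_prod (fun v _ => h5 v), ?_⟩
  refine (Finset.prod_le_prod (fun v _ => zero_le_one.trans (h5 v)) fun v _ => h4 v).trans ?_
  rw [Finset.prod_const, Finset.card_univ]
  exact (Real.rpow_inv_natCast_pow zero_le_two (rr_pos (F := F)).ne').le

theorem r1_int1 {a D1 D2 T y : ℝ} (hD : 0 < D1) (hy : 0 < y) :
    IntegrableOn (fun p : ℝ × ℝ => (p.1 : ℂ) * fk a p.1 p.2 y)
      (Set.Icc D1 D2 ×ˢ Set.Icc 1 T) (volume.prod volume) := by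
  refine Measure.integrableOn_of_bounded (isCompact_Icc.prod isCompact_Icc).measure_lt_top.ne
    (Measurable.aestronglyMeasurable (by unfold fk; fun_prop)) (M := 1) ?_
  filter_upwards [ae_restrict_mem (measurableSet_Icc.prod measurableSet_Icc)] with p hp
  have h0 : 0 < p.1 := hD.trans_le hp.1.1
  have h1 : 0 < p.2 := one_pos.trans_le hp.2.1
  rw [r1_one a h0.ne', norm_real, Real.norm_of_nonneg (Real.exp_pos _).le, Real.exp_le_one_iff]
  have e1 : 0 ≤ a ^ 2 / (y * p.1) := by positivity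
  have e2 : 0 ≤ y * p.2 / p.1 := by positivity
  linarith

theorem r1_scale1 {a T y : ℝ} (ha : 0 < a) (hy : 0 < y) :
    ∫ p in Set.Icc a (2 * a) ×ˢ Set.Icc 1 T, (p.1 : ℂ) * fk a p.1 p.2 (y * a) =
      a * ∫ p in Set.Icc (1 : ℝ) 2 ×ˢ Set.Icc 1 T, (p.1 : ℂ) * fk 1 p.1 p.2 y := by
  have h1 := setIntegral_prod _ (r1_int1 (a := a) (D2 := 2 * a) (T := T) ha (mul_pos hy ha))
  have h2 := setIntegral_prod _ (r1_int1 (a := 1) (D2 := 2) (T := T) one_pos hy)
  rw [Measure.volume_eq_prod, h1, h2, integral_Icc_eq_integral_Ioc, integral_Icc_eq_integral_Ioc,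
    ← intervalIntegral.integral_of_le (by linarith), ← intervalIntegral.integral_of_le one_le_two]
  have h3 := intervalIntegral.integral_comp_div (a := a) (b := 2 * a)
    (fun D : ℝ => ∫ E in Set.Icc (1 : ℝ) T, (D : ℂ) * fk 1 D E y) ha.ne'
  rw [div_self ha.ne', mul_div_cancel_right₀ _ ha.ne', real_smul] at h3
  rw [← h3]
  refine intervalIntegral.integral_congr fun D hD => ?_
  rw [Set.uIcc_of_le (by linarith)] at hD
  have hD0 : 0 < D := ha.trans_le hD.1
  refine integral_congr_ae (Eventually.of_forall fun E => ?_)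
  simp only
  rw [r1_one _ hD0.ne', r1_one _ (div_pos hD0 ha).ne']
  congr 2
  field_simp

theorem r1_scale {a : Io F → ℝ} (ha : ∀ v, 0 < a v) {y : Io F → ℝ} (hy : ∀ v, 0 < y v) :
    r1phi a (r1B a) (fun v => y v * a v) = ((∏ v, a v : ℝ) : ℂ) * phi0 y := by
  have hmp := volume_measurePreserving_arrowProdEquivProdArrow ℝ ℝ (Io F)
  have h1 := hmp.setIntegral_preimage_emb
    (MeasurableEquiv.arrowProdEquivProdArrow ℝ ℝ (Io F)).measurableEmbedding
    (fun p => r1F a p (fun v => y v * a v)) (r1B a)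
  have h2 : MeasurableEquiv.arrowProdEquivProdArrow ℝ ℝ (Io F) ⁻¹' r1B a =
      Set.univ.pi fun v => Set.Icc (a v) (2 * a v) ×ˢ Set.Icc 1 (2 ^ ((rr F : ℝ)⁻¹)) := by
    ext q
    simp [r1B, MeasurableEquiv.arrowProdEquivProdArrow, Pi.le_def, forall_and, Prod.le_def]
  rw [r1phi, ← h1, h2, volume_pi, Measure.restrict_pi_pi, phi0, ofReal_prod,
    ← Finset.prod_mul_distrib]
  refine (integral_fintype_prod_eq_prod
    (fun v (q : ℝ × ℝ) => (q.1 : ℂ) * fk (a v) q.1 q.2 (y v * a v))).trans ?_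
  exact Finset.prod_congr rfl fun v _ => r1_scale1 (ha v) (hy v)

theorem r1S_scale {a : Io F → ℝ} (h0 : γ 0 = 0) (ha : ∀ v, 0 < a v) {t : Io F → ℝ}
    (ht : ∀ v, 0 < t v) : Rsum γ phi0 t = ((∏ v, a v : ℝ) : ℂ)⁻¹ *
      ((((∏ v, a v) ^ (-(1 / 3) : ℝ) : ℝ) : ℂ) * Rsum γ (r1phi a (r1B a)) (fun v => t v * a v)) := by
  have hA : ((∏ v, a v : ℝ) : ℂ) ≠ 0 := ofReal_ne_zero.2 (Finset.prod_pos fun v _ => ha v).ne'
  rw [← Rsum_dilate γ _ ha ht, eq_inv_mul_iff_mul_eq₀ hA, Rsum, Rsum, mul_left_comm,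
    ← tsum_mul_left]
  congr 1
  refine tsum_congr fun c => ?_
  by_cases hc : c = 0
  · simp [hc, h0]
  · rw [r1_scale ha fun v => mul_pos (ht v) (sqv_pos (nrm_coe_ne hc) v)]; ring

end Vale.Agent.P319B
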