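import Vale.Agent.P319B.ResC
import Vale.Agent.P319B.Good
import Vale.Agent.P319B.Four
import Vale.Agent.P319B.Res1A

/-! The shape of the Fourier coefficients. -/

namespace Vale.Agent.P319B

open Complex NumberField MeasureTheory Filter Topology
open scoped Classical ComplexConjugate
open Vale.Agent.P026 (w kk fk)

variable {F : Type} [Field F] [NumberField F] [Ctx F]

theorem r1_cont_e (ξ : Io F → ℂ) : Continuous fun z => conj (eA ξ z) := by
  unfold eA; fun_prop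

theorem r1_meas_coef {f : HF F → ℂ} (hf : Measurable f) (L : AddSubgroup F) (ξ : Io F → ℂ) :
    Measurable fun p : (Io F → ℝ) × (Io F → ℝ) =>
      ∫ z in FD L, f (pt z p.1 p.2) * conj (eA ξ z) := by
  have h : Measurable fun z : (Io F → ℂ) × (Io F → ℝ) × (Io F → ℝ) =>
      f (pt z.1 z.2.1 z.2.2) * conj (eA ξ z.1) :=
    (hf.comp measurable_pt).mul ((r1_cont_e ξ).measurable.comp measurable_fst)
  exact (h.stronglyMeasurable.integral_prod_left' (μ := volume.restrict (FD L))).measurable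

variable {k : R F → R F → ℂ} {b : ℕ} {f : HF F → ℂ} {r : R F}
  {B s : Set ((Io F → ℝ) × (Io F → ℝ))}

theorem r1_L1_box (hf : Measurable f) (hc : Conv k f) {K : Set (HF F)} (hK : IsCompact K)
    (hs : K ⊆ slab F) : Tendsto (fun t => ∫⁻ Q in K, ‖nEs k t Q - f Q‖ₑ) (Fz F) (𝓝 0) := by
  have h1 := ((ENNReal.continuous_rpow_const (y := 1 / 2)).tendsto 0).comp (hc K hK hs)
  rw [ENNReal.zero_rpow_of_pos (by norm_num)] at h1
  have h2 := ENNReal.Tendsto.mul_const h1 (b := (∫⁻ _ in K, (1 : ENNReal)) ^ (1 / 2 : ℝ))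
    (Or.inr (ENNReal.rpow_ne_top_of_nonneg (by norm_num) (by simpa using hK.measure_lt_top.ne)))
  rw [zero_mul] at h2
  refine tendsto_of_tendsto_of_tendsto_of_le_of_le tendsto_const_nhds h2 (fun _ => zero_le)
    fun t => ?_
  have h3 := ENNReal.lintegral_mul_le_Lp_mul_Lq (volume.restrict K)
    Real.HolderConjugate.two_two
    (f := fun Q => ‖nEs k t Q - f Q‖ₑ) (g := fun _ => 1)
    ((measurable_nEs k t).sub hf).enorm.aemeasurable aemeasurable_const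
  simpa using h3

theorem r1_pt_le (hk : Adm k b) (hf : Measurable f) (ξ : Io F → ℂ) {t : Io F → ℝ}
    (ht : ∀ v, 0 < t v) {p : (Io F → ℝ) × (Io F → ℝ)} (hp : p ∈ DE F) :
    ‖((∏ v, p.1 v : ℝ) : ℂ) * (∫ z in FD (Lb F b), nEs k t (pt z p.1 p.2) * conj (eA ξ z)) -
      ((∏ v, p.1 v : ℝ) : ℂ) * ∫ z in FD (Lb F b), f (pt z p.1 p.2) * conj (eA ξ z)‖ₑ ≤
      ENNReal.ofReal (∏ v, p.1 v) *
        ∫⁻ z in FD (Lb F b), ‖nEs k t (pt z p.1 p.2) - f (pt z p.1 p.2)‖ₑ := by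
  have hp0 : 0 < ∏ v, p.1 v := Finset.prod_pos fun v _ => hp.1 v
  by_cases hfin : ∫⁻ z in FD (Lb F b), ‖nEs k t (pt z p.1 p.2) - f (pt z p.1 p.2)‖ₑ = ⊤
  · rw [hfin, ENNReal.mul_top (by simpa using hp0)]
    exact le_top
  have hpt : Measurable fun z : Io F → ℂ => pt z p.1 p.2 :=
    measurable_pt.comp (measurable_id.prodMk measurable_const)
  have he : AEStronglyMeasurable (fun z => conj (eA ξ z)) (volume.restrict (FD (Lb F b))) :=
    (r1_cont_e ξ).aestronglyMeasurable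
  have he' : ∀ᵐ z ∂(volume.restrict (FD (Lb F b))), ‖conj (eA ξ z)‖ ≤ 1 :=
    Eventually.of_forall fun z => by rw [RCLike.norm_conj, norm_eA]
  have i1 := integrableOn_nEs hk.1 ht hp.1 hp.2.1 (Lb F b) ξ
  have i2 : IntegrableOn (fun z => nEs k t (pt z p.1 p.2) - f (pt z p.1 p.2)) (FD (Lb F b)) :=
    ⟨(((measurable_nEs k t).sub hf).comp hpt).aestronglyMeasurable, lt_top_iff_ne_top.2 hfin⟩
  have i3 : IntegrableOn (fun z => f (pt z p.1 p.2) * conj (eA ξ z)) (FD (Lb F b)) :=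
    (i1.sub (i2.mul_bdd he he')).congr (Eventually.of_forall fun z => by simp; ring)
  rw [← mul_sub, ← integral_sub i1 i3, enorm_mul, ← ofReal_norm, norm_real,
    Real.norm_of_nonneg hp0.le]
  refine mul_le_mul_right ((enorm_integral_le_lintegral_enorm _).trans (le_of_eq ?_)) _
  refine lintegral_congr fun z => ?_
  rw [← sub_mul, enorm_mul, ← ofReal_norm (conj (eA ξ z)), RCLike.norm_conj, norm_eA]
  simp

/-- The contribution of the rows with vanishing first entry. -/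
noncomputable def r1Z (k : R F → R F → ℂ) (b : ℕ) (r : R F) (t D : Io F → ℝ) : ℂ :=
  if r = 0 then (((∏ v, t v) ^ (4 / 3 : ℝ) * cov (Lb F b) : ℝ) : ℂ) *
    ∑' d : R F, k 0 d * (Real.exp (-∑ v, t v * D v * sqv (d : F) v) : ℂ) else 0

theorem r1Z_le (hk : Adm k b) (r : R F) (hB : IsCompact B) (hBD : B ⊆ DE F) :
    ∃ e : (Io F → ℝ) → ℝ, Tendsto e (Fz F) (𝓝 0) ∧ ∀ t : Io F → ℝ, (∀ v, 0 < t v) → ∀ p ∈ B,
      ‖((∏ v, p.1 v : ℝ) : ℂ) * r1Z k b r t p.1‖ ≤ e t := by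
  obtain ⟨C, hC, h⟩ := four_zero_le hk.1
  obtain ⟨M, hM⟩ := hB.bddAbove_image (f := fun p : (Io F → ℝ) × (Io F → ℝ) => ∏ v, p.1 v)
    (by fun_prop)
  have hcov : 0 ≤ cov (Lb F b) := ENNReal.toReal_nonneg
  have hT : ∀ x : ℝ, 0 < x → Tendsto (fun t : Io F → ℝ => (∏ v, t v) ^ x) (Fz F) (𝓝 0) := by
    intro x hx
    have := (Real.continuousAt_rpow_const 0 x (Or.inr hx.le)).tendsto.comp
      (tendsto_prod_Fz.mono_right (nhdsWithin_le_nhds) : Tendsto _ (Fz F) _)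
    rwa [Real.zero_rpow hx.ne'] at this
  refine ⟨fun t => cov (Lb F b) * C * (M * (∏ v, t v) ^ (4 / 3 : ℝ) + (∏ v, t v) ^ (1 / 3 : ℝ)),
    ?_, fun t ht p hp => ?_⟩
  · simpa using (((hT (4 / 3) (by norm_num)).const_mul M).add
      (hT (1 / 3) (by norm_num))).const_mul (cov (Lb F b) * C)
  have hD : 0 < ∏ v, p.1 v := Finset.prod_pos fun v _ => (hBD hp).1 v
  have hT0 : 0 < ∏ v, t v := Finset.prod_pos fun v _ => ht v
  have hDM : ∏ v, p.1 v ≤ M := hM (Set.mem_image_of_mem _ hp)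
  have hM0 : 0 < M := hD.trans_le hDM
  unfold r1Z
  split_ifs
  · have h1 := h (fun v => t v * p.1 v) fun v => mul_pos (ht v) ((hBD hp).1 v)
    rw [Finset.prod_mul_distrib] at h1
    rw [norm_mul, norm_mul, norm_real, norm_real, Real.norm_of_nonneg hD.le,
      Real.norm_of_nonneg (by positivity)]
    have e : (∏ v, t v) ^ (4 / 3 : ℝ) = (∏ v, t v) ^ (1 / 3 : ℝ) * ∏ v, t v := by
      rw [← Real.rpow_add_one hT0.ne']; norm_num
    calc _ ≤ (∏ v, p.1 v) * ((∏ v, t v) ^ (4 / 3 : ℝ) * cov (Lb F b) *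
          (C * (1 + ((∏ v, t v) * ∏ v, p.1 v)⁻¹))) := by gcongr
      _ = cov (Lb F b) * C * ((∏ v, p.1 v) * (∏ v, t v) ^ (4 / 3 : ℝ) +
          (∏ v, t v) ^ (1 / 3 : ℝ)) := by rw [e]; field_simp
      _ ≤ cov (Lb F b) * C * (M * (∏ v, t v) ^ (4 / 3 : ℝ) + (∏ v, t v) ^ (1 / 3 : ℝ)) := by
        gcongr
  · rw [mul_zero, norm_zero]
    positivity

theorem r1_L1 (hk : Adm k b) (hf : Measurable f) (hc : Conv k f) (hr : (r : F) ∈ dualL (Lb F b))
    (hB : IsCompact B) (hBD : B ⊆ DE F) :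
    Tendsto (fun t => ∫⁻ p in B, ‖(Real.pi : ℂ) ^ rr F *
      Rsum (aK k b r) (r1F (fun v => 2 * Real.pi * ‖v.1 (r : F)‖) p) t - ((∏ v, p.1 v : ℝ) : ℂ) *
        ∫ z in FD (Lb F b), f (pt z p.1 p.2) * conj (eA (emb (r : F)) z)‖ₑ) (Fz F) (𝓝 0) := by
  obtain ⟨K, hK, hKs, hKG⟩ :=
    exists_compact_box (isBounded_FD (Lb F b)) (measurableSet_FD (Lb F b)) hB hBD
  obtain ⟨e, he, he'⟩ := r1Z_le hk r hB hBD
  have h1 := ENNReal.Tendsto.mul_const (ENNReal.tendsto_ofReal he) (b := volume B)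
    (Or.inr hB.measure_lt_top.ne)
  have hL := (r1_L1_box hf hc hK hKs).add h1
  rw [ENNReal.ofReal_zero, zero_mul, add_zero] at hL
  refine tendsto_of_tendsto_of_tendsto_of_le_of_le' tendsto_const_nhds hL
    (Eventually.of_forall fun _ => zero_le) ?_
  filter_upwards [eventually_Fz_pos] with t ht
  refine le_trans ?_ (add_le_add_left (hKG _ ((measurable_nEs k t).sub hf).enorm) _)
  rw [← setLIntegral_const, ← lintegral_add_right _ measurable_const]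
  refine setLIntegral_mono' hB.measurableSet fun p hp => ?_
  have e1 := four_coef hk ht (hBD hp).1 (hBD hp).2.1 hr
  have e2 : Rsum (aK k b r) (r1F (fun v => 2 * Real.pi * ‖v.1 (r : F)‖) p) t =
      ((∏ v, p.1 v : ℝ) : ℂ) * Rsum (aK k b r) (fkV (r : F) p.1 p.2) t := by
    simp only [Rsum, r1F, fkV, Finset.prod_mul_distrib, ofReal_prod,
      mul_left_comm _ (∏ v, (p.1 v : ℂ)), tsum_mul_left]
  have e3 := r1_pt_le hk hf (emb (r : F)) ht (hBD hp)
  have e4 := ENNReal.ofReal_le_ofReal (he' t ht p hp)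
  rw [ofReal_norm] at e4
  refine le_trans (le_of_eq ?_) ((enorm_sub_le).trans (add_le_add e3 e4))
  rw [e1, e2, r1Z]
  congr 1
  ring

theorem r1_lim (hk : Adm k b) (hf : Measurable f) (hc : Conv k f) (hr : (r : F) ∈ dualL (Lb F b))
    (hB : IsCompact B) (hBD : B ⊆ DE F) :
    IntegrableOn (fun p : (Io F → ℝ) × (Io F → ℝ) => ((∏ v, p.1 v : ℝ) : ℂ) *
      ∫ z in FD (Lb F b), f (pt z p.1 p.2) * conj (eA (emb (r : F)) z)) B ∧
    ∀ s, MeasurableSet s → s ⊆ B →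
      Tendsto (Rsum (aK k b r) (r1phi (fun v => 2 * Real.pi * ‖v.1 (r : F)‖) s)) (Fz F)
        (𝓝 (((Real.pi : ℂ) ^ rr F)⁻¹ * ∫ p in s, ((∏ v, p.1 v : ℝ) : ℂ) *
          ∫ z in FD (Lb F b), f (pt z p.1 p.2) * conj (eA (emb (r : F)) z))) := by
  have hL := r1_L1 hk hf hc hr hB hBD
  have hm : Measurable fun p : (Io F → ℝ) × (Io F → ℝ) => ((∏ v, p.1 v : ℝ) : ℂ) *
      ∫ z in FD (Lb F b), f (pt z p.1 p.2) * conj (eA (emb (r : F)) z) :=
    Measurable.mul (by fun_prop) (r1_meas_coef hf _ _)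
  have hi : ∀ t : Io F → ℝ, (∀ v, 0 < t v) → IntegrableOn (fun p => (Real.pi : ℂ) ^ rr F *
      Rsum (aK k b r) (r1F (fun v => 2 * Real.pi * ‖v.1 (r : F)‖) p) t) B := fun t ht =>
    (r1_intS _ (bdA_aK hk hr) hB hBD ht).const_mul _
  constructor
  · obtain ⟨t, h1, ht⟩ := ((hL.eventually (gt_mem_nhds ENNReal.zero_lt_top)).and
      eventually_Fz_pos).exists
    have h2 : IntegrableOn _ B :=
      ⟨(hi t ht).aestronglyMeasurable.sub hm.aestronglyMeasurable, h1⟩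
    exact ((hi t ht).sub h2).congr (Eventually.of_forall fun p => sub_sub_cancel _ _)
  · intro s hs hsB
    have h1 := (tendsto_setIntegral_of_L1 _ hm.aestronglyMeasurable
      (eventually_Fz_pos.mono hi) hL s).const_mul ((Real.pi : ℂ) ^ rr F)⁻¹
    rw [Measure.restrict_restrict hs, Set.inter_eq_self_of_subset_left hsB] at h1
    refine h1.congr' ?_
    filter_upwards [eventually_Fz_pos] with t ht
    rw [integral_const_mul, inv_mul_cancel_left₀ (pow_ne_zero _ (ofReal_ne_zero.2 Real.pi_ne_zero)),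
      r1S_phi _ (bdA_aK hk hr) hB hBD hs hsB ht]

theorem r1_key (hk : Adm k b) (hf : Measurable f) (hc : Conv k f) (hr : (r : F) ∈ dualL (Lb F b))
    {g : (Io F → ℝ) → ℂ} (hg : TestF g) (hM : Mf g ≠ 0) {x c : ℂ}
    (hx : Tendsto (Rsum (aK k b r) g) (Fz F) (𝓝 x)) (hxc : Mf g * c = (Real.pi : ℂ) ^ rr F * x) :
    ∀ᵐ p ∂(volume.restrict (DE F)),
      ∫ z in FD (Lb F b), f (pt z p.1 p.2) * conj (eA (emb (r : F)) z) =
        c * (r1K (fun v => 2 * Real.pi * ‖v.1 (r : F)‖) p : ℂ) := by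
  obtain ⟨K, hK, -, hU⟩ := DE_exhaust (F := F)
  rw [← hU, ae_restrict_iUnion_iff]
  intro n
  obtain ⟨hB, hBD⟩ := hK n
  obtain ⟨i1, l1⟩ := r1_lim hk hf hc hr hB hBD
  have i2 := ((r1M_phi (fun v => 2 * Real.pi * ‖v.1 (r : F)‖) hB hBD hB.measurableSet
    subset_rfl).1).const_mul c
  have key := Integrable.ae_eq_of_forall_setIntegral_eq _ _ i1 i2 fun s hs _ => by
    rw [Measure.restrict_restrict hs, integral_const_mul]
    have hs' := hs.inter hB.measurableSet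
    have h1 := conv_trick (bdA_aK hk hr) hg (r1T_phi _ hB hBD Set.inter_subset_right) hx
      (l1 _ hs' Set.inter_subset_right)
    rw [(r1M_phi _ hB hBD hs' Set.inter_subset_right).2] at h1
    have hpi : (Real.pi : ℂ) ^ rr F ≠ 0 := pow_ne_zero _ (ofReal_ne_zero.2 Real.pi_ne_zero)
    refine mul_left_cancel₀ hM ?_
    rw [← mul_assoc, hxc, mul_assoc, mul_comm x, h1, mul_left_comm, mul_inv_cancel_left₀ hpi]
  filter_upwards [key, ae_restrict_mem hB.measurableSet] with p hp hpB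
  have hp0 : ((∏ v, p.1 v : ℝ) : ℂ) ≠ 0 :=
    ofReal_ne_zero.2 (Finset.prod_pos fun v _ => (hBD hpB).1 v).ne'
  refine mul_left_cancel₀ hp0 (hp.trans ?_)
  rw [ofReal_mul, mul_left_comm]

theorem res_shape {k : R F → R F → ℂ} {b : ℕ} (hk : Adm k b) {f : HF F → ℂ} (hm : Measurable f)
    (hc : Conv k f) {r : R F} (hr : (r : F) ∈ dualL (Lb F b)) : ∃ ρ : ℂ,
    (r ≠ 0 → Tendsto (Rsum (aK k b r) phi0) (Fz F) (𝓝 ρ)) ∧
    ∀ᵐ p ∂(volume.restrict (DE F)),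
      ∫ z in FD (Lb F b), f (pt z p.1 p.2) * conj (eA (emb (r : F)) z) =
        (mm F : ℂ) * ρ * ((∏ v, p.1 v ^ (-(2 / 3) : ℝ) * p.2 v ^ (-(1 / 3) : ℝ) *
          kk (2 * Real.pi * ‖v.1 (r : F)‖ * (√(p.2 v) / p.1 v)) : ℝ) : ℂ) := by
  have hmm : (mm F : ℂ) ≠ 0 := ofReal_ne_zero.2 mm_pos.ne'
  by_cases h0 : r = 0
  · obtain ⟨B, hB, hBD, hM⟩ := r1M_ne (F := F) (fun v => 2 * Real.pi * ‖v.1 (r : F)‖)
    obtain ⟨x, hx⟩ : ∃ x, Tendsto (Rsum (aK k b r)
        (r1phi (fun v => 2 * Real.pi * ‖v.1 (r : F)‖) B)) (Fz F) (𝓝 x) :=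
      ⟨_, (r1_lim hk hm hc hr hB hBD).2 B hB.measurableSet subset_rfl⟩
    refine ⟨(Real.pi : ℂ) ^ rr F * x / (mm F * Mf (r1phi (fun v => 2 * Real.pi * ‖v.1 (r : F)‖) B)),
      fun h => absurd h0 h, r1_key hk hm hc hr (r1T_phi _ hB hBD subset_rfl) hM hx ?_⟩
    field_simp
  · have ha : ∀ v : Io F, 0 < 2 * Real.pi * ‖v.1 (r : F)‖ := fun v =>
      mul_pos Real.two_pi_pos (norm_pos_iff.2 ((map_ne_zero v.1).2 (nrm_coe_ne h0)))
    obtain ⟨ρ, hρ⟩ : ∃ ρ, Tendsto (Rsum (aK k b r) phi0) (Fz F) (𝓝 ρ) := by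
      have h1 := (r1_lim hk hm hc hr (r1B_compact _) (r1B_sub ha)).2 _
        (r1B_compact _).measurableSet subset_rfl
      exact ⟨_, (((h1.comp (tendsto_Fz_mul ha)).const_mul _).const_mul _).congr'
        (eventually_Fz_pos.mono fun t ht => (r1S_scale (bdA_aK hk hr).1 ha ht).symm)⟩
    have hM : Mf (phi0 (F := F)) ≠ 0 := fun h => by
      have := mm_mul_Mf (F := F)
      rw [h, mul_zero] at this
      exact pow_ne_zero _ (ofReal_ne_zero.2 Real.pi_ne_zero) this.symm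
    refine ⟨ρ, fun _ => hρ, r1_key hk hm hc hr testF_phi0 hM hρ ?_⟩
    rw [← mm_mul_Mf]
    ring

end Vale.Agent.P319B
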