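import Vale.Agent.P319B.Res1

/-! Existence of the basic residues. -/

namespace Vale.Agent.P319B

open Complex NumberField MeasureTheory Filter Topology
open scoped Classical ComplexConjugate
open Vale.Agent.P026 (w kk fk)

variable {F : Type} [Field F] [NumberField F] [Ctx F]

theorem rs2_coe_ne {r : R F} (hr : r ≠ 0) : (r : F) ≠ 0 := fun h => hr (Subtype.ext h)

theorem rs2_const {y : F} (hy : y ≠ 0) (r : R F) :
    ∃ (φ : F → ℂ) (b : ℕ) (z : ℂ), z ≠ 0 ∧ LocF φ ∧ Adm (kII y φ) b ∧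
      (r : F) ∈ dualL (Lb F b) ∧ ∀ c, aK (kII y φ) b r c = z * aII y r c := by
  obtain ⟨K, hK⟩ := exists_Hi ((r : F) / y)
  obtain ⟨a, ha⟩ := exists_Hi y
  obtain ⟨a', ha'⟩ := exists_Hi (r : F)
  obtain ⟨b0, h0⟩ := aK_kII hy (locF_ind (F := F) K) (uInv_ind K)
  obtain ⟨b1, h1⟩ := adm_kII hy (locF_ind (F := F) K)
  have hM : MF F ≠ 0 := MF_ne
  set b := b0 + b1 + K + a + a' with hb
  have hrb : (r : F) * MF F ^ b ∈ Od F := by
    have := Hi.mono (show a' ≤ b by omega) ha'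
    rw [mul_comm]
    exact Ol_le_Od this
  have hr : (r : F) ∈ dualL (Lb F b) := mem_dual_Lb.2 ⟨r.2, hrb⟩
  have hyb : y * MF F ^ b ≠ 0 := mul_ne_zero hy (pow_ne_zero _ hM)
  have k1 : y * MF F ^ b / MF F ^ K ∈ Ol F := by
    have := Hi.mono (show a ≤ b0 + b1 + a + a' by omega) ha
    have e : y * MF F ^ b / MF F ^ K = MF F ^ (b0 + b1 + a + a') * y := by
      rw [show b = (b0 + b1 + a + a') + K by omega, pow_add]
      field_simp
    rw [e]
    exact this
  have k2 : (r : F) / y * (y * MF F ^ b) ∈ Od F := by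
    have e : (r : F) / y * (y * MF F ^ b) = r * MF F ^ b := by field_simp
    rw [e]
    exact hrb
  have k3 : (r : F) / y * MF F ^ K ∈ Od F := by
    rw [mul_comm]
    exact Ol_le_Od hK
  have k4 := qsum_ind_Ol hyb (pow_ne_zero K hM) k1 k2
  rw [if_pos k3] at k4
  refine ⟨_, b, ((nf (y * MF F ^ b) / nf (MF F ^ K) : ℝ) : ℂ) / (nf y : ℂ), ?_, locF_ind K,
    h1.mono (by omega), hr, fun c => ?_⟩
  · have := nf_pos (y * MF F ^ b)
    have := nf_pos (MF F ^ K)
    have := nf_pos y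
    exact div_ne_zero (by exact_mod_cast (by positivity)) (by exact_mod_cast (by positivity))
  · rw [h0 b (by omega) r hr c, ← k4]
    congr 3
    funext d
    by_cases h : Lo K d
    · have h' : d / MF F ^ K ∈ Ol F := h
      rw [if_pos h, if_pos h', one_mul]
    · have h' : ¬ d / MF F ^ K ∈ Ol F := h
      rw [if_neg h, if_neg h', zero_mul]

theorem rs2_div {a : R F → ℂ} {z ρ : ℂ} (hz : z ≠ 0)
    (h : Tendsto (Rsum (fun c => z * a c) phi0) (Fz F) (𝓝 ρ)) :
    Tendsto (Rsum a phi0) (Fz F) (𝓝 (z⁻¹ * ρ)) := by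
  refine (h.const_mul z⁻¹).congr fun t => ?_
  rw [Rsum_const_mul, ← mul_assoc, inv_mul_cancel₀ hz, one_mul]

theorem rs2_both {y : F} (hy : y ≠ 0) {r : R F} (hr : r ≠ 0) : ∃ ρ : ℂ,
    Tendsto (Rsum (aII y r) phi0) (Fz F) (𝓝 ρ) ∧ ∀ p : R F, Prime p →
      Tendsto (Rsum (fun c => if p ∣ c then 0 else aII y r c) phi0) (Fz F)
        (𝓝 (((N p / (N p + 1) : ℝ) : ℂ) * ρ)) := by
  obtain ⟨φ, b, z, hz, hφ, hA, hb, he⟩ := rs2_const hy r
  obtain ⟨f, hf⟩ := good_kII hy hφ
  obtain ⟨ρ, h1, h2⟩ := res_shape hA hf.meas hf.conv hb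
  have k1 := h1 hr
  rw [show aK (kII y φ) b r = fun c => z * aII y r c from funext he] at k1
  refine ⟨z⁻¹ * ρ, rs2_div hz k1, fun p hp => ?_⟩
  obtain ⟨ρ', h3, h4⟩ := res_shape (hA.off p) (hf.meas.const_mul _) (hf.conv_off hA.1 hp) hb
  have k2 := h3 hr
  have e : aK (off p (kII y φ)) b r = fun c => z * (if p ∣ c then 0 else aII y r c) := by
    funext c
    rw [aK_off, he]
    split_ifs <;> simp
  rw [e] at k2
  have k3 := rs2_div hz k2
  have : (ae (volume.restrict (DE F))).NeBot := ae_neBot.2 restrict_DE_ne_zero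
  obtain ⟨q, ⟨q1, q2⟩, q3⟩ := ((h2.and h4).and (ae_restrict_mem measurableSet_DE)).exists
  simp only [mul_assoc (((N p / (N p + 1) : ℝ) : ℂ))] at q2
  rw [integral_const_mul, q1, ← mul_assoc] at q2
  have hpos : 0 < ∏ v, q.1 v ^ (-(2 / 3) : ℝ) * q.2 v ^ (-(1 / 3) : ℝ) *
      kk (2 * Real.pi * ‖v.1 (r : F)‖ * (√(q.2 v) / q.1 v)) := by
    refine Finset.prod_pos fun v _ => ?_
    have := q3.1 v
    have := q3.2.1 v
    have := P026.kk_pos (2 * Real.pi * ‖v.1 (r : F)‖ * (√(q.2 v) / q.1 v))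
    positivity
  have k4 := mul_right_cancel₀ (by exact_mod_cast hpos.ne') q2
  rw [mul_left_comm] at k4
  have k5 := mul_left_cancel₀ (by exact_mod_cast mm_pos.ne') k4
  rw [← k5, mul_left_comm] at k3
  exact k3

theorem rho_tendsto {y : F} (hy : y ≠ 0) {r : R F} (hr : r ≠ 0) :
    Tendsto (Rsum (aII y r) phi0) (Fz F) (𝓝 (rho y r)) := by
  obtain ⟨ρ, h, -⟩ := rs2_both hy hr
  have : rho y r = ρ := h.limUnder_eq
  rw [this]
  exact h

theorem rho_off {y : F} (hy : y ≠ 0) {r : R F} (hr : r ≠ 0) {p : R F} (hp : Prime p) :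
    Tendsto (Rsum (fun c => if p ∣ c then 0 else aII y r c) phi0) (Fz F)
      (𝓝 (((N p / (N p + 1) : ℝ) : ℂ) * rho y r)) := by
  obtain ⟨ρ, h, h'⟩ := rs2_both hy hr
  have : rho y r = ρ := h.limUnder_eq
  rw [this]
  exact h' p hp

theorem rho_inU {y y' : F} (h : InU 3 (y / y')) (r : R F) : rho y r = rho y' r := by
  have : aII y r = aII y' r := by
    funext c
    have e : InU 3 ((c : F) / y) ↔ InU 3 ((c : F) / y') :=
      ⟨fun k => k.trans (by norm_num) h, fun k => k.trans (by norm_num) (h.symm (by norm_num))⟩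
    simp only [aII, e]
  simp only [rho, this]

theorem rs2_mul {a a' : R F → ℂ} {m : R F} (hm : m ≠ 0) {z ρ : ℂ} (h1 : ∀ c, a (m * c) = z * a' c)
    (h2 : ∀ c, ¬ m ∣ c → a c = 0) (h : Tendsto (Rsum a' phi0) (Fz F) (𝓝 ρ)) :
    Tendsto (Rsum a phi0) (Fz F) (𝓝 (((Nin (m : F) ^ (-(1 / 3) : ℝ) : ℝ) : ℂ) * (z * ρ))) := by
  have k1 := ((h.comp (tendsto_Fz_mul (s := fun v => sqv (m : F) v)
    (sqv_pos (rs2_coe_ne hm)))).const_mul z).const_mul ((Nin (m : F) ^ (-(1 / 3) : ℝ) : ℝ) : ℂ)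
  refine k1.congr' ?_
  filter_upwards [eventually_Fz_pos] with t ht
  rw [Rsum_mul (a' := fun c => z * a' c) hm h1 h2 _ ht, Rsum_const_mul]
  rfl

theorem rho_unit_left {s : R F} (hs : IsUnit s) {y : F} (hy : y ≠ 0) {r : R F} (hr : r ≠ 0) :
    rho ((s : F) * y) r = B3 (s : F) y * ((nf (s : F) ^ (-(1 / 3) : ℝ) : ℝ) : ℂ) * rho y r := by
  have hs0 : (s : F) ≠ 0 := rs2_coe_ne hs.ne_zero
  have k1 := rs2_mul (a := aII ((s : F) * y) r) (z := B3 (s : F) y) hs.ne_zero (fun c => ?_)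
    (fun c hc => absurd (hs.dvd) hc) (rho_tendsto hy hr)
  · rw [tendsto_nhds_unique (rho_tendsto (mul_ne_zero hs0 hy) hr) k1, Nin_eq_N_mul, N_unit hs,
      one_mul]
    ring
  · have e : ((s * c : R F) : F) / ((s : F) * y) = c / y := by
      push_cast
      field_simp
    unfold aII
    rw [e]
    split_ifs with h
    · have hc : c ≠ 0 := by
        rintro rfl
        exact h.left_ne (by norm_num) rfl
      rw [gauss_cub_unit hs hc, cub_unit_left hs hc, B3_inU_right _ h, N_mul, N_unit hs, one_mul]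
      ring
    · simp

theorem rho_unit_right {s : R F} (hs : IsUnit s) {y : F} (hy : y ≠ 0) {r : R F} (hr : r ≠ 0) :
    rho y (r * s) = conj (B3 (s : F) y) * rho y r := by
  have e : aII y (r * s) = fun c => conj (B3 (s : F) y) * aII y r c := by
    funext c
    unfold aII
    split_ifs with h
    · have hc : c ≠ 0 := by
        rintro rfl
        exact h.left_ne (by norm_num) rfl
      rw [gauss_cub_freq hc (isCoprime_one_left.of_isCoprime_of_dvd_left hs.dvd),
        cub_unit_left hs hc, B3_inU_right _ h]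
      ring
    · simp
  have k1 := rho_tendsto hy (mul_ne_zero hr hs.ne_zero)
  rw [e] at k1
  refine tendsto_nhds_unique k1 (((rho_tendsto hy hr).const_mul _).congr fun t => ?_)
  rw [Rsum_const_mul]

theorem rho_cube {p : R F} (hp : Prime p) {y : F} (hy : y ≠ 0) {r : R F} (hr : r ≠ 0) :
    rho y (r * p ^ 3) = rho y r := by
  have k1 := rho_off hy (mul_ne_zero hr (pow_ne_zero 3 hp.ne_zero)) hp
  have e : (fun c => if p ∣ c then 0 else aII y (r * p ^ 3) c) =
      fun c => if p ∣ c then 0 else aII y r c := by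
    funext c
    split_ifs with h
    · rfl
    · have hc : c ≠ 0 := by
        rintro rfl
        exact h (dvd_zero p)
      have hco : IsCoprime p c := (hp.irreducible.coprime_iff_not_dvd).2 h
      unfold aII
      rw [gauss_cub_freq hc hco.pow_left, cub_pow_left, cub_cube hco, map_one, one_mul]
  rw [e] at k1
  have hN := N_pos hp.ne_zero
  exact mul_left_cancel₀ (by exact_mod_cast (by positivity))
    (tendsto_nhds_unique k1 (rho_off hy hr hp))

theorem rs2_B3 (y : F) {p : F} (hp : p ≠ 0) (hy : y ≠ 0) (k : ℕ) : B3 (y / p ^ k) p = B3 y p := by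
  rw [div_eq_mul_inv, B3_mul_left hy (inv_ne_zero (pow_ne_zero _ hp)), B3_inv_left,
    B3_pow_left hp, B3_self, one_pow, map_one, mul_one]

theorem rs2_aII {p : R F} (hp : Prime p) {y : F} (hy : y ≠ 0) (r : R F) (k : ℕ) {c : R F}
    (hc : ¬ p ∣ c) : aII y r (p ^ k * c) =
      B3 y (p : F) ^ k * gauss (fun u => cub u p ^ k) (p ^ k) r / (N p : ℂ) ^ k *
        aII (y / (p : F) ^ k) (r * p ^ k) c := by
  have hp0 : (p : F) ≠ 0 := rs2_coe_ne hp.ne_zero
  have e : ((p ^ k * c : R F) : F) / y = c / (y / (p : F) ^ k) := by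
    push_cast
    field_simp
  unfold aII
  rw [e]
  split_ifs with h
  · rw [gauss_cub_split hp hc, B3_inU_left h, rs2_B3 y hp0 hy, N_mul, N_pow]
    push_cast
    ring
  · simp

/-- Splitting off the powers of a prime. -/
theorem rho_split {p : R F} (hp : Prime p) {y : F} (hy : y ≠ 0) {r : R F} (hr : r ≠ 0) {n : ℕ}
    (hn : ¬ p ^ n ∣ r) :
    rho y r = ((N p / (N p + 1) : ℝ) : ℂ) * ∑ k ∈ Finset.range (n + 1),
      B3 y (p : F) ^ k * gauss (fun u => cub u p ^ k) (p ^ k) r / (N p : ℂ) ^ k *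
        ((Nin (p : F) ^ (-(k : ℝ) / 3) : ℝ) : ℂ) * rho (y / (p : F) ^ k) (r * p ^ k) := by
  have hp0 : (p : F) ≠ 0 := rs2_coe_ne hp.ne_zero
  let a : ℕ → R F → ℂ := fun k c => if p ^ k ∣ c ∧ ¬ p ^ (k + 1) ∣ c then aII y r c else 0
  have ha0 : aII y r 0 = 0 := (bdA_aII hy r).1
  have hB : ∀ k, BdA (a k) := by
    intro k
    obtain ⟨-, ⟨A, hA⟩, B, hB⟩ := bdA_aII hy r
    refine ⟨by simp [a], ⟨A, fun c hc => hA c fun h => hc (by simp [a, h])⟩, B, fun c => ?_⟩
    simp only [a]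
    split_ifs
    · exact hB c
    · rw [norm_zero]
      exact (norm_nonneg _).trans (hB 0)
  have hsum : aII y r = fun c => ∑ k ∈ Finset.range (n + 1), a k c := by
    funext c
    by_cases hc : c = 0
    · subst hc
      simp [a, ha0]
    obtain ⟨j, c', hc', rfl⟩ := WfDvdMonoid.max_power_factor hc hp.irreducible
    have hj : ∀ k, p ^ k ∣ p ^ j * c' ↔ k ≤ j := by
      intro k
      constructor
      · intro h
        by_contra hk
        have h1 : p ^ (j + 1) ∣ p ^ j * c' := (pow_dvd_pow p (by omega)).trans h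
        rw [pow_succ] at h1
        exact hc' ((mul_dvd_mul_iff_left (pow_ne_zero j hp.ne_zero)).1 h1)
      · intro h
        exact (pow_dvd_pow p h).mul_right _
    have h2 : ∀ k, a k (p ^ j * c') = if k = j then aII y r (p ^ j * c') else 0 := by
      intro k
      simp only [a, hj]
      congr 1
      apply propext
      omega
    simp only [h2, Finset.sum_ite_eq', Finset.mem_range]
    split_ifs with h
    · rfl
    · rw [rs2_aII hp hy r j hc', gauss_prime_pow hp (by omega), dif_neg]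
      · simp
      · intro h'
        exact hn ((pow_dvd_pow p (by omega)).trans h')
  have hlim : ∀ k, Tendsto (Rsum (a k) phi0) (Fz F) (𝓝 (((N p / (N p + 1) : ℝ) : ℂ) *
      (B3 y (p : F) ^ k * gauss (fun u => cub u p ^ k) (p ^ k) r / (N p : ℂ) ^ k *
        ((Nin (p : F) ^ (-(k : ℝ) / 3) : ℝ) : ℂ) * rho (y / (p : F) ^ k) (r * p ^ k)))) := by
    intro k
    have k1 := rs2_mul (a := a k) (pow_ne_zero k hp.ne_zero)
      (z := B3 y (p : F) ^ k * gauss (fun u => cub u p ^ k) (p ^ k) r / (N p : ℂ) ^ k)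
      (fun c => ?_) (fun c hc => by simp [a, hc])
      (rho_off (div_ne_zero hy (pow_ne_zero k hp0)) (mul_ne_zero hr (pow_ne_zero k hp.ne_zero)) hp)
    · have e : Nin ((p ^ k : R F) : F) ^ (-(1 / 3) : ℝ) = Nin (p : F) ^ (-(k : ℝ) / 3) := by
        push_cast
        rw [Nin_pow, ← Real.rpow_natCast, ← Real.rpow_mul (Nin_nonneg _)]
        congr 1
        ring
      rw [e] at k1
      refine k1.trans (le_of_eq ?_)
      congr 1
      ring
    · have e : p ^ (k + 1) ∣ p ^ k * c ↔ p ∣ c := by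
        rw [pow_succ]
        exact mul_dvd_mul_iff_left (pow_ne_zero k hp.ne_zero)
      simp only [a, e, dvd_mul_right, true_and]
      by_cases h : p ∣ c
      · simp [h]
      · rw [if_pos h, if_neg h, rs2_aII hp hy r k h]
  have k2 := tendsto_finsetSum (Finset.range (n + 1)) fun k _ => hlim k
  rw [Finset.mul_sum]
  refine tendsto_nhds_unique (rho_tendsto hy hr) (k2.congr' ?_)
  filter_upwards [eventually_Fz_pos] with t ht
  rw [hsum, Rsum_sum _ (fun k _ => hB k) testF_phi0 ht]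

end Vale.Agent.P319B
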