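import Vale.Agent.P319B.Geo2
import Vale.Agent.P319B.Units
import Vale.Agent.P026.Res1B

/-! Auxiliary lemmas for the convolution trick. -/

namespace Vale.Agent.P319B

open Complex NumberField MeasureTheory Filter Topology
open scoped Classical ComplexConjugate
open Vale.Agent.P026 (w kk fk)

section Gen

variable {ι : Type} [Fintype ι]

theorem rc_meas : MeasurableSet {y : ι → ℝ | ∀ v, 0 < y v} := by
  rw [Set.ofPred_forall]
  exact MeasurableSet.iInter fun v => measurableSet_lt measurable_const (measurable_pi_apply v)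

theorem rc_pi : (volume : Measure (ι → ℝ)).restrict {y | ∀ v, 0 < y v} =
    Measure.pi fun _ => volume.restrict (Set.Ioi 0) := by
  rw [← Measure.restrict_pi_pi, volume_pi]
  congr 1
  ext y
  simp

theorem rc_swap {J X : Type} [Countable J] [MeasurableSpace X] {μ : Measure X} {u : J → X → ℂ}
    (hu : ∀ c, Measurable (u c)) {h : X → ℝ} (hh : Integrable h μ)
    (hb : ∀ᵐ x ∂μ, Summable (fun c => ‖u c x‖) ∧ ∑' c, ‖u c x‖ ≤ h x) :
    ∫ x, ∑' c, u c x ∂μ = ∑' c, ∫ x, u c x ∂μ := by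
  refine integral_tsum (fun c => (hu c).aestronglyMeasurable) ?_
  rw [← lintegral_tsum fun c => (hu c).enorm.aemeasurable]
  refine ne_top_of_le_ne_top hh.2.ne (lintegral_mono_ae ?_)
  filter_upwards [hb] with x hx
  simp only [← ofReal_norm (u _ x), ← ENNReal.ofReal_tsum_of_nonneg (fun c => norm_nonneg _) hx.1]
  exact (ENNReal.ofReal_le_ofReal hx.2).trans (Real.ofReal_le_enorm _)

/-- The inversion s ↦ u / s preserves the multiplicative Haar measure. -/
theorem rc_symm (f g : (ι → ℝ) → ℂ) {u : ι → ℝ} (hu : ∀ v, 0 < u v) :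
    ∫ s in {y : ι → ℝ | ∀ v, 0 < y v}, (((∏ v, s v)⁻¹ : ℝ) : ℂ) * g s * f (fun v => u v / s v) =
      ∫ s in {y : ι → ℝ | ∀ v, 0 < y v},
        (((∏ v, s v)⁻¹ : ℝ) : ℂ) * f s * g (fun v => u v / s v) := by
  have hinv : ∀ s : ι → ℝ, (fun v => u v / (u v / s v)) = s := fun s => by
    funext v
    rw [div_div_cancel₀ (hu v).ne']
  have himg : (fun (s : ι → ℝ) v => u v / s v) '' {y | ∀ v, 0 < y v} = {y | ∀ v, 0 < y v} := by
    ext y
    constructor
    · rintro ⟨s, hs, rfl⟩ v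
      exact div_pos (hu v) (hs v)
    · exact fun hy => ⟨_, fun v => div_pos (hu v) (hy v), hinv y⟩
  let D : (ι → ℝ) → (ι → ℝ) →L[ℝ] (ι → ℝ) := fun s =>
    ContinuousLinearMap.pi fun v => (u v * -(s v ^ 2)⁻¹) • ContinuousLinearMap.proj v
  have hD : ∀ s ∈ {y : ι → ℝ | ∀ v, 0 < y v}, HasFDerivWithinAt
      (fun (s : ι → ℝ) v => u v / s v) (D s) {y | ∀ v, 0 < y v} s := fun s hs => by
    refine (hasFDerivAt_pi.2 fun v => ?_).hasFDerivWithinAt
    exact HasDerivAt.comp_hasFDerivAt (h₂ := fun x => u v * x⁻¹) s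
      ((hasDerivAt_inv (hs v).ne').const_mul (u v)) (hasFDerivAt_apply v s)
  have hdet : ∀ s, (D s).det = ∏ v, u v * -(s v ^ 2)⁻¹ := fun s => by
    have : ((D s : (ι → ℝ) →L[ℝ] (ι → ℝ)) : (ι → ℝ) →ₗ[ℝ] (ι → ℝ)) =
        Matrix.toLin' (Matrix.diagonal fun v => u v * -(s v ^ 2)⁻¹) := by
      refine LinearMap.ext fun x => funext fun v => ?_
      simp [D, Matrix.mulVec_diagonal]
    rw [ContinuousLinearMap.det, this, LinearMap.det_toLin', Matrix.det_diagonal]
  conv_lhs => rw [← himg]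
  rw [integral_image_eq_integral_abs_det_fderiv_smul volume rc_meas hD
    fun s _ s' _ e => by rw [← hinv s, ← hinv s']; exact congrArg (fun x v => u v / x v) e]
  refine setIntegral_congr_fun rc_meas fun s hs => ?_
  have e : |∏ v, u v * -(s v ^ 2)⁻¹| * (∏ v, u v / s v)⁻¹ = (∏ v, s v)⁻¹ := by
    rw [Finset.abs_prod, ← Finset.prod_inv_distrib, ← Finset.prod_inv_distrib,
      ← Finset.prod_mul_distrib]
    refine Finset.prod_congr rfl fun v _ => ?_
    have h1 := hu v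
    have h2 := hs v
    rw [mul_neg, abs_neg, abs_of_pos (by positivity)]
    field_simp
  simp only [hinv, hdet, real_smul]
  rw [← e]
  push_cast
  ring

theorem rc_int1 {σ : ℝ} (h1 : -1 < σ) (h2 : σ ≤ 0) :
    IntegrableOn (fun y : ℝ => y ^ σ * ((1 + y) ^ 2)⁻¹) (Set.Ioi 0) := by
  have hm : Measurable fun y : ℝ => y ^ σ * ((1 + y) ^ 2)⁻¹ := by fun_prop
  rw [← Set.Ioc_union_Ioi_eq_Ioi zero_le_one]
  refine IntegrableOn.union ?_ ?_
  · refine ((intervalIntegral.intervalIntegrable_rpow' h1 (a := 0) (b := 1)).1).mono'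
      hm.aestronglyMeasurable ?_
    filter_upwards [ae_restrict_mem measurableSet_Ioc] with y hy
    have := hy.1
    rw [Real.norm_of_nonneg (by positivity)]
    exact mul_le_of_le_one_right (by positivity) (inv_le_one_of_one_le₀ (by nlinarith))
  · refine (integrableOn_Ioi_rpow_of_lt (a := -2) (by norm_num) one_pos).mono'
      hm.aestronglyMeasurable ?_
    filter_upwards [ae_restrict_mem measurableSet_Ioi] with y hy
    have h3 : 1 < y := hy
    have h4 : 0 < y := by linarith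
    rw [Real.norm_of_nonneg (by positivity), Real.rpow_neg h4.le, Real.rpow_two]
    refine (mul_le_of_le_one_left (by positivity)
      (Real.rpow_le_one_of_one_le_of_nonpos h3.le h2)).trans ?_
    gcongr
    linarith

theorem rc_int {σ : ℝ} (h1 : -1 < σ) (h2 : σ ≤ 0) {f : (ι → ℝ) → ℂ} (hm : Measurable f) {C : ℝ}
    (hf : ∀ y : ι → ℝ, (∀ v, 0 < y v) → ‖f y‖ ≤ C * ∏ v, ((1 + y v) ^ 2)⁻¹) :
    IntegrableOn (fun y : ι → ℝ => (((∏ v, y v) ^ σ : ℝ) : ℂ) * f y) {y | ∀ v, 0 < y v} := by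
  have h := Integrable.fintype_prod (ι := ι) (f := fun _ (y : ℝ) => y ^ σ * ((1 + y) ^ 2)⁻¹)
    fun _ => rc_int1 h1 h2
  rw [← rc_pi] at h
  refine (h.const_mul C).mono' (Measurable.aestronglyMeasurable (by fun_prop)) ?_
  filter_upwards [ae_restrict_mem rc_meas] with y hy
  have h3 : 0 ≤ ∏ v, y v := Finset.prod_nonneg fun v _ => (hy v).le
  rw [norm_mul, norm_real, Real.norm_of_nonneg (by positivity), Finset.prod_mul_distrib,
    Real.finsetProd_rpow _ _ (fun v _ => (hy v).le), mul_left_comm]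
  exact mul_le_mul_of_nonneg_left (hf y hy) (by positivity)

theorem rc_nonneg {f : (ι → ℝ) → ℂ} {C : ℝ}
    (hf : ∀ y : ι → ℝ, (∀ v, 0 < y v) → ‖f y‖ ≤ C * ∏ v, ((1 + y v) ^ 2)⁻¹) : 0 ≤ C :=
  nonneg_of_mul_nonneg_left ((norm_nonneg _).trans (hf (fun _ => 1) fun _ => one_pos))
    (Finset.prod_pos fun _ _ => by positivity)

end Gen

variable {F : Type} [Field F] [NumberField F] [Ctx0 F]

/-- The basic absolute bound. -/
theorem rc_sum {a : R F → ℂ} (ha : BdA a) : ∃ C : ℝ, 0 < C ∧ ∀ (f : (Io F → ℝ) → ℂ) (B : ℝ),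
    (∀ y : Io F → ℝ, (∀ v, 0 < y v) → ‖f y‖ ≤ B * ∏ v, ((1 + y v) ^ 2)⁻¹) →
      ∀ t : Io F → ℝ, (∀ v, 0 < t v) →
        Summable (fun c : R F => ‖a c * f (fun v => t v * sqv (c : F) v)‖) ∧
        ∑' c : R F, ‖a c * f (fun v => t v * sqv (c : F) v)‖ ≤ C * B / ∏ v, t v := by
  obtain ⟨h0, ⟨A, hA⟩, B0, hB0⟩ := ha
  obtain ⟨C, hC, h⟩ := box_sum (F := F) (pow_ne_zero A (Ctx0.M_ne (F := F)))
  have hB1 : 0 ≤ B0 := (norm_nonneg _).trans (hB0 0)
  refine ⟨(B0 + 1) * C, by positivity, fun f B hf t ht => ?_⟩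
  have hB := rc_nonneg hf
  obtain ⟨h1, h2⟩ := h t ht
  set u : F → ℝ := fun x => if x ≠ 0 ∧ IsIntegral ℤ (((Ctx0.M F ^ A : ℕ) : F) * x) then
      ∏ v, ((1 + t v * sqv x v) ^ 2)⁻¹ else 0 with hu
  have hu0 : ∀ x, 0 ≤ u x := fun x => by
    simp only [hu]
    split_ifs
    · exact Finset.prod_nonneg fun v _ => by positivity
    · exact le_rfl
  have h3 : Summable fun c : R F => (B0 + 1) * B * u c :=
    (h1.comp_injective Subtype.val_injective).mul_left _
  have h4 : ∀ c : R F, ‖a c * f (fun v => t v * sqv (c : F) v)‖ ≤ (B0 + 1) * B * u c := fun c => by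
    by_cases hc : a c = 0
    · have := hu0 c
      rw [hc, zero_mul, norm_zero]
      positivity
    have hc0 : (c : F) ≠ 0 := fun e => hc (by rw [show c = 0 from Subtype.ext e, h0])
    rw [norm_mul, mul_assoc, hu]
    simp only [if_pos (And.intro hc0 (int_of_Hi (hA c hc)))]
    exact mul_le_mul ((hB0 c).trans (by linarith))
      (hf _ fun v => mul_pos (ht v) (sqv_pos hc0 v)) (norm_nonneg _) (by positivity)
  have h5 := h3.of_nonneg_of_le (fun c => norm_nonneg _) h4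
  refine ⟨h5, (h5.tsum_le_tsum h4 h3).trans ?_⟩
  rw [tsum_mul_left, mul_right_comm _ C, mul_div_assoc]
  exact mul_le_mul_of_nonneg_left
    ((tsum_comp_le_tsum_of_inj h1 hu0 Subtype.val_injective).trans h2) (by positivity)

theorem rc_measR (a : R F → ℂ) {f : (Io F → ℝ) → ℂ} (hf : Measurable f) :
    Measurable (Rsum a f) := by
  unfold Rsum
  exact Measurable.mul (by fun_prop) (Measurable.tsum fun c => by fun_prop)

theorem rc_conv_eq {a : R F → ℂ} (ha : BdA a) {f g : (Io F → ℝ) → ℂ} (hf : TestF f)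
    (hg : TestF g) {t : Io F → ℝ} (ht : ∀ v, 0 < t v) :
    ∫ s in {y : Io F → ℝ | ∀ v, 0 < y v}, (((∏ v, s v) ^ (-(2 / 3) : ℝ) : ℝ) : ℂ) * g s *
        Rsum a f (fun v => t v * (s v)⁻¹) =
      (((∏ v, t v) ^ (1 / 3 : ℝ) : ℝ) : ℂ) * ∑' c : R F, a c *
        ∫ s in {y : Io F → ℝ | ∀ v, 0 < y v},
          (((∏ v, s v)⁻¹ : ℝ) : ℂ) * g s * f (fun v => t v * sqv (c : F) v / s v) := by
  obtain ⟨hfm, B, hB⟩ := hf
  obtain ⟨hgm, B', hB'⟩ := hg
  obtain ⟨C, hC, h⟩ := rc_sum ha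
  have ht0 : 0 < ∏ v, t v := Finset.prod_pos fun v _ => ht v
  have e1 : ∀ (s : Io F → ℝ) (c : R F), (fun v => t v * sqv (c : F) v / s v) =
      fun v => t v * (s v)⁻¹ * sqv (c : F) v := fun s c => funext fun v => by ring
  simp only [← integral_const_mul]
  rw [← rc_swap (h := fun s => ‖(((∏ v, s v) ^ (0 : ℝ) : ℝ) : ℂ) * g s‖ * (C * B / ∏ v, t v))
    (fun c => by fun_prop) ((rc_int (by norm_num) le_rfl hgm hB').norm.mul_const _),
    ← integral_const_mul]
  · refine setIntegral_congr_fun rc_meas fun s hs => ?_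
    have hs0 : 0 < ∏ v, s v := Finset.prod_pos fun v _ => hs v
    have e : (∏ v, s v) ^ (-(2 / 3) : ℝ) * (∏ v, t v * (s v)⁻¹) ^ (1 / 3 : ℝ) =
        (∏ v, t v) ^ (1 / 3 : ℝ) * (∏ v, s v)⁻¹ := by
      rw [Finset.prod_mul_distrib, Finset.prod_inv_distrib, ← div_eq_mul_inv,
        Real.div_rpow ht0.le hs0.le, ← Real.rpow_neg_one, mul_div_left_comm, ← Real.rpow_sub hs0]
      norm_num
    have e' := congrArg (fun x : ℝ => (x : ℂ)) e
    simp only [ofReal_mul] at e'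
    simp only [Rsum, e1, mul_left_comm (a _), tsum_mul_left]
    linear_combination (g s * ∑' c, a c * f (fun v => t v * (s v)⁻¹ * sqv (c : F) v)) * e'
  · filter_upwards [ae_restrict_mem rc_meas] with s hs
    have hs0 : 0 < ∏ v, s v := Finset.prod_pos fun v _ => hs v
    obtain ⟨h1, h2⟩ := h f B hB (fun v => t v * (s v)⁻¹) fun v => mul_pos (ht v) (inv_pos.2 (hs v))
    simp only [e1, mul_left_comm (a _), norm_mul (_ * g s), tsum_mul_left]
    refine ⟨h1.mul_left _, (mul_le_mul_of_nonneg_left h2 (norm_nonneg _)).trans (le_of_eq ?_)⟩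
    rw [Real.rpow_zero, norm_mul, norm_mul, norm_real, norm_real, norm_one,
      Real.norm_of_nonneg (by positivity), Finset.prod_mul_distrib, Finset.prod_inv_distrib]
    field_simp

/-- The averaged test function at one place. -/
theorem rc_one : ∃ φ : ℝ → ℂ, (∀ y : Io F → ℝ, phi0 y = ∏ v, φ (y v)) ∧ P026.r1T φ ∧
    ∃ M : ℝ, 0 < M ∧ P026.r1M φ = M := by
  have hr : (0 : ℝ) < rr F := Nat.cast_pos.2 rr_pos
  have h1 : (1 : ℝ) < 2 ^ ((rr F : ℝ)⁻¹) := Real.one_lt_rpow one_lt_two (inv_pos.2 hr)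
  have h2 : (2 : ℝ) ^ ((rr F : ℝ)⁻¹) ≤ 2 := by
    conv_rhs => rw [← Real.rpow_one 2]
    exact Real.rpow_le_rpow_of_exponent_le one_le_two
      (inv_le_one_of_one_le₀ (Nat.one_le_cast.2 rr_pos))
  set s := Set.Icc (1 : ℝ) 2 ×ˢ Set.Icc (1 : ℝ) (2 ^ ((rr F : ℝ)⁻¹)) with hs
  have hsub : s ⊆ P026.r1B 1 2 := fun p hp => ⟨hp.1, hp.2.1, hp.2.2.trans h2⟩
  have hm : MeasurableSet s := measurableSet_Icc.prod measurableSet_Icc
  refine ⟨P026.r1phi 1 s, fun y => rfl, P026.r1T_phi one_pos one_le_two hsub, ?_⟩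
  obtain ⟨h3, h4⟩ := P026.r1M_phi (a := 1) one_pos one_le_two hm hsub
  have hpos : ∀ p ∈ s, 0 < p.1 * P026.r1K 1 p := fun p hp =>
    mul_pos (one_pos.trans_le hp.1.1)
      (P026.r1K_pos 1 (one_pos.trans_le hp.1.1) (one_pos.trans_le hp.2.1))
  refine ⟨∫ p in s, p.1 * P026.r1K 1 p, ?_, by rw [h4, integral_complex_ofReal]⟩
  rw [setIntegral_pos_iff_support_of_nonneg_ae]
  · rw [Set.inter_eq_self_of_subset_right fun p hp => Function.mem_support.2 (hpos p hp).ne',
      hs, Measure.volume_eq_prod, Measure.prod_prod, Real.volume_Icc, Real.volume_Icc]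
    exact ENNReal.mul_pos (ENNReal.ofReal_pos.2 (by norm_num)).ne'
      (ENNReal.ofReal_pos.2 (by linarith)).ne'
  · filter_upwards [ae_restrict_mem hm] with p hp using (hpos p hp).le
  · simpa [IntegrableOn] using h3.re

end Vale.Agent.P319B
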