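import Vale.Agent.P319B.Geo2
import Vale.Agent.P319B.Units
import Vale.Agent.P319B.ResCA

/-! The convolution trick. -/

namespace Vale.Agent.P319B

open Complex NumberField MeasureTheory Filter Topology
open scoped Classical ComplexConjugate
open Vale.Agent.P026 (w kk fk)

variable {F : Type} [Field F] [NumberField F] [Ctx0 F]

theorem summable_Rsum {a : R F → ℂ} (ha : BdA a) {f : (Io F → ℝ) → ℂ} (hf : TestF f)
    {t : Io F → ℝ} (ht : ∀ v, 0 < t v) :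
    Summable (fun c : R F => a c * f (fun v => t v * sqv (c : F) v)) := by
  obtain ⟨C, -, h⟩ := rc_sum ha
  obtain ⟨-, B, hB⟩ := hf
  exact (h f B hB t ht).1.of_norm
theorem Rsum_crude {a : R F → ℂ} (ha : BdA a) : ∃ C : ℝ, 0 < C ∧ ∀ (f : (Io F → ℝ) → ℂ) (B : ℝ),
    (∀ y : Io F → ℝ, (∀ v, 0 < y v) → ‖f y‖ ≤ B * ∏ v, ((1 + y v) ^ 2)⁻¹) →
      ∀ t : Io F → ℝ, (∀ v, 0 < t v) → ‖Rsum a f t‖ ≤ C * B * (∏ v, t v) ^ (-(2 / 3) : ℝ) := by
  obtain ⟨C, hC, h⟩ := rc_sum ha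
  refine ⟨C, hC, fun f B hB t ht => ?_⟩
  obtain ⟨h1, h2⟩ := h f B hB t ht
  have ht0 : 0 < ∏ v, t v := Finset.prod_pos fun v _ => ht v
  have e : (∏ v, t v) ^ (-(2 / 3) : ℝ) = (∏ v, t v) ^ (1 / 3 : ℝ) / ∏ v, t v := by
    rw [← Real.rpow_sub_one ht0.ne']
    norm_num
  rw [Rsum, norm_mul, norm_real, Real.norm_of_nonneg (by positivity), e]
  refine (mul_le_mul_of_nonneg_left ((norm_tsum_le_tsum_norm h1).trans h2)
    (by positivity)).trans (le_of_eq ?_)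
  ring
theorem Rsum_const_mul (z : ℂ) (a : R F → ℂ) (f : (Io F → ℝ) → ℂ) (t : Io F → ℝ) :
    Rsum (fun c => z * a c) f t = z * Rsum a f t := by
  simp only [Rsum, mul_assoc, tsum_mul_left]
  ring
theorem Rsum_sum {ι : Type} (s : Finset ι) {a : ι → R F → ℂ} (ha : ∀ i ∈ s, BdA (a i))
    {f : (Io F → ℝ) → ℂ} (hf : TestF f) {t : Io F → ℝ} (ht : ∀ v, 0 < t v) :
    Rsum (fun c => ∑ i ∈ s, a i c) f t = ∑ i ∈ s, Rsum (a i) f t := by
  simp only [Rsum, Finset.sum_mul]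
  rw [Summable.tsum_finsetSum fun i hi => summable_Rsum (ha i hi) hf ht, Finset.mul_sum]
/-- Restriction of the sum to multiples of m. -/
theorem Rsum_mul {a a' : R F → ℂ} {m : R F} (hm : m ≠ 0) (h1 : ∀ c, a (m * c) = a' c)
    (h2 : ∀ c, ¬ m ∣ c → a c = 0) (f : (Io F → ℝ) → ℂ) {t : Io F → ℝ} (ht : ∀ v, 0 < t v) :
    Rsum a f t = ((Nin (m : F) ^ (-(1 / 3) : ℝ) : ℝ) : ℂ) *
      Rsum a' f (fun v => t v * sqv (m : F) v) := by
  have hN : 0 < Nin (m : F) := Nin_pos fun e => hm (Subtype.ext e)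
  have ht0 : 0 < ∏ v, t v := Finset.prod_pos fun v _ => ht v
  have e : Nin (m : F) ^ (-(1 / 3) : ℝ) * (∏ v, t v * sqv (m : F) v) ^ (1 / 3 : ℝ) =
      (∏ v, t v) ^ (1 / 3 : ℝ) := by
    rw [Finset.prod_mul_distrib, ← Nin, Real.mul_rpow ht0.le hN.le, mul_left_comm,
      ← Real.rpow_add hN, neg_add_cancel, Real.rpow_zero, mul_one]
  rw [Rsum, Rsum, ← mul_assoc, ← ofReal_mul, e, ← (mul_right_injective₀ hm).tsum_eq]
  · simp only [h1, Subring.coe_mul, sqv_mul, mul_assoc]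
  · intro c hc
    by_contra h
    exact hc (by
      have := h2 c fun ⟨d, hd⟩ => h ⟨d, hd.symm⟩
      simp only [this, zero_mul])
theorem Rsum_dilate (a : R F → ℂ) (f : (Io F → ℝ) → ℂ) {s t : Io F → ℝ} (hs : ∀ v, 0 < s v)
    (ht : ∀ v, 0 < t v) : Rsum a (fun y => f (fun v => y v * s v)) t =
      (((∏ v, s v) ^ (-(1 / 3) : ℝ) : ℝ) : ℂ) * Rsum a f (fun v => t v * s v) := by
  have hs0 : 0 < ∏ v, s v := Finset.prod_pos fun v _ => hs v
  have ht0 : 0 < ∏ v, t v := Finset.prod_pos fun v _ => ht v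
  have e : (∏ v, s v) ^ (-(1 / 3) : ℝ) * (∏ v, t v * s v) ^ (1 / 3 : ℝ) =
      (∏ v, t v) ^ (1 / 3 : ℝ) := by
    rw [Finset.prod_mul_distrib, Real.mul_rpow ht0.le hs0.le, mul_left_comm,
      ← Real.rpow_add hs0, neg_add_cancel, Real.rpow_zero, mul_one]
  rw [Rsum, Rsum, ← mul_assoc, ← ofReal_mul, e]
  simp only [mul_right_comm (t _) (s _)]
theorem integrableOn_Mf {f : (Io F → ℝ) → ℂ} (hf : TestF f) :
    IntegrableOn (fun y : Io F → ℝ => (((∏ v, y v) ^ (-(2 / 3) : ℝ) : ℝ) : ℂ) * f y)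
      {y | ∀ v, 0 < y v} := by
  obtain ⟨hm, B, hB⟩ := hf
  exact rc_int (by norm_num) (by norm_num) hm hB
theorem rc_bdd {a : R F → ℂ} (ha : BdA a) {f : (Io F → ℝ) → ℂ} (hf : TestF f) {x : ℂ}
    (hx : Tendsto (Rsum a f) (Fz F) (𝓝 x)) :
    ∃ B : ℝ, ∀ t : Io F → ℝ, (∀ v, 0 < t v) → ‖Rsum a f t‖ ≤ B := by
  obtain ⟨-, B, hB⟩ := hf
  obtain ⟨C, hC, h⟩ := Rsum_crude ha
  have hB0 := rc_nonneg hB
  obtain ⟨δ, hδ, h3⟩ := mem_Fz.1 (hx.norm.eventually (gt_mem_nhds (lt_add_one _)))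
  refine ⟨max (‖x‖ + 1) (C * B * δ ^ (-(2 / 3) : ℝ)), fun t ht => ?_⟩
  by_cases h4 : ∏ v, t v < δ
  · exact (le_of_lt (h3 t ht h4)).trans (le_max_left _ _)
  · refine (h f B hB t ht).trans (le_trans ?_ (le_max_right _ _))
    exact mul_le_mul_of_nonneg_left
      (Real.rpow_le_rpow_of_nonpos hδ (not_lt.1 h4) (by norm_num)) (by positivity)
theorem rc_lim {a : R F → ℂ} (ha : BdA a) {f g : (Io F → ℝ) → ℂ} (hf : TestF f) (hg : TestF g)
    {x : ℂ} (hx : Tendsto (Rsum a f) (Fz F) (𝓝 x)) :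
    Tendsto (fun t : Io F → ℝ => ∫ s in {y : Io F → ℝ | ∀ v, 0 < y v},
      (((∏ v, s v) ^ (-(2 / 3) : ℝ) : ℝ) : ℂ) * g s * Rsum a f (fun v => t v * (s v)⁻¹))
      (Fz F) (𝓝 (Mf g * x)) := by
  obtain ⟨B, hB⟩ := rc_bdd ha hf hx
  rw [Mf, ← integral_mul_const]
  refine tendsto_integral_filter_of_dominated_convergence
    (fun s => ‖(((∏ v, s v) ^ (-(2 / 3) : ℝ) : ℝ) : ℂ) * g s‖ * B)
    (Eventually.of_forall fun t => ?_) ?_ ((integrableOn_Mf hg).norm.mul_const _) ?_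
  · have := hg.1
    have := rc_measR a hf.1
    exact Measurable.aestronglyMeasurable (by fun_prop)
  · filter_upwards [eventually_Fz_pos] with t ht
    filter_upwards [ae_restrict_mem rc_meas] with s hs
    rw [norm_mul]
    exact mul_le_mul_of_nonneg_left (hB _ fun v => mul_pos (ht v) (inv_pos.2 (hs v)))
      (norm_nonneg _)
  · filter_upwards [ae_restrict_mem rc_meas] with s hs
    exact Tendsto.const_mul _ (hx.comp (tendsto_Fz_mul fun v => inv_pos.2 (hs v)))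
theorem conv_trick {a : R F → ℂ} (ha : BdA a) {f g : (Io F → ℝ) → ℂ} (hf : TestF f) (hg : TestF g)
    {x y : ℂ} (hx : Tendsto (Rsum a f) (Fz F) (𝓝 x)) (hy : Tendsto (Rsum a g) (Fz F) (𝓝 y)) :
    Mf g * x = Mf f * y := by
  refine tendsto_nhds_unique (rc_lim ha hf hg hx) ((rc_lim ha hg hf hy).congr' ?_)
  filter_upwards [eventually_Fz_pos] with t ht
  rw [rc_conv_eq ha hf hg ht, rc_conv_eq ha hg hf ht]
  refine congrArg _ (tsum_congr fun c => ?_)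
  by_cases hc : c = 0
  · simp only [hc, ha.1, zero_mul]
  · rw [rc_symm f g fun v => mul_pos (ht v) (sqv_pos (fun e => hc (Subtype.ext e)) v)]
theorem testF_phi0 : TestF (phi0 (F := F)) := by
  obtain ⟨φ, e, ⟨hm, C, b, hC, hb, h⟩, -⟩ := rc_one (F := F)
  have e' : phi0 (F := F) = fun y => ∏ v, φ (y v) := funext e
  refine ⟨by rw [e']; fun_prop, ∏ _v : Io F, C * (2 + 4 / b ^ 2), fun y hy => ?_⟩
  rw [e, norm_prod, ← Finset.prod_mul_distrib]
  refine Finset.prod_le_prod (fun v _ => norm_nonneg _) fun v _ => (h _ (hy v)).trans ?_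
  have h0 := hy v
  rw [mul_assoc, Real.exp_neg, ← div_eq_mul_inv (2 + 4 / b ^ 2)]
  refine mul_le_mul_of_nonneg_left ?_ hC
  have h1 := Real.pow_div_factorial_le_exp _ (mul_pos hb h0).le 2
  have h2 := Real.one_le_exp (mul_pos hb h0).le
  have h3 : y v ^ 2 * 2 ≤ 4 / b ^ 2 * Real.exp (b * y v) := by
    rw [div_mul_eq_mul_div, le_div_iff₀ (by positivity)]
    norm_num [Nat.factorial] at h1
    nlinarith
  rw [inv_eq_one_div, div_le_div_iff₀ (Real.exp_pos _) (by positivity)]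
  nlinarith [sq_nonneg (y v - 1)]
theorem rc_Mf : ∃ M : ℝ, 0 < M ∧ Mf (phi0 (F := F)) = M ∧ mm F = Real.pi ^ rr F / M := by
  obtain ⟨φ, e, -, M, hM, h⟩ := rc_one (F := F)
  have h1 : Mf (phi0 (F := F)) = ((M ^ rr F : ℝ) : ℂ) := by
    rw [ofReal_pow, ← h, P026.r1M, rr, ← integral_fintype_prod_eq_pow, ← rc_pi, Mf]
    refine setIntegral_congr_fun rc_meas fun y hy => ?_
    simp only [e, Finset.prod_mul_distrib, ← ofReal_prod,
      Real.finsetProd_rpow _ _ (fun v _ => (hy v).le)]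
  refine ⟨M ^ rr F, by positivity, h1, ?_⟩
  have h2 := integral_re (integrableOn_Mf (testF_phi0 (F := F)))
  rw [← Mf, h1] at h2
  simp only [RCLike.re_to_complex, re_ofReal_mul, ofReal_re] at h2
  rw [mm, h2]
theorem mm_pos : 0 < mm F := by
  obtain ⟨M, hM, -, h⟩ := rc_Mf (F := F)
  have := Real.pi_pos
  rw [h]
  positivity
theorem mm_mul_Mf : (mm F : ℂ) * Mf (phi0 (F := F)) = (Real.pi : ℂ) ^ rr F := by
  obtain ⟨M, hM, h1, h⟩ := rc_Mf (F := F)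
  rw [h1, h, ← ofReal_mul, div_mul_cancel₀ _ hM.ne', ofReal_pow]

end Vale.Agent.P319B
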