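import Vale.Agent.P319B.Psi

/-! Residue systems, periodic functions, additive characters modulo c. -/

namespace Vale.Agent.P319B

open Complex NumberField
open scoped Classical ComplexConjugate
open Vale.Agent.P026 (w kk fk)

variable {F : Type} [Field F] [NumberField F] [Ctx0 F]

theorem resid_mk_eq {c x y : R F} :
    Ideal.Quotient.mk (Ideal.span {c}) x = Ideal.Quotient.mk _ y ↔ c ∣ x - y := by
  rw [Ideal.Quotient.eq, Ideal.mem_span_singleton]

/-- The chosen representative of x modulo c. -/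
noncomputable def residRep (c x : R F) : R F :=
  Quotient.out (Ideal.Quotient.mk (Ideal.span {c}) x)

theorem resid_dvd (c x : R F) : c ∣ x - residRep c x :=
  resid_mk_eq.1 (Ideal.Quotient.mk_out _).symm

theorem resid_mem {c : R F} (hc : c ≠ 0) (x : R F) : residRep c x ∈ res c := by
  have := finite_quot hc
  rw [res, dif_pos (Set.finite_range _), Set.Finite.mem_toFinset]
  exact ⟨_, rfl⟩

theorem exists_res {c : R F} (hc : c ≠ 0) (x : R F) : ∃ y ∈ res c, c ∣ x - y :=
  ⟨_, resid_mem hc x, resid_dvd c x⟩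
theorem res_unique {c x y : R F} (hx : x ∈ res c) (hy : y ∈ res c) (h : c ∣ x - y) :
    x = y := by
  unfold res at hx hy
  split_ifs at hx hy with hf
  · rw [Set.Finite.mem_toFinset] at hx hy
    obtain ⟨p, rfl⟩ := hx
    obtain ⟨q, rfl⟩ := hy
    have h1 := resid_mk_eq.2 h
    simp only [Ideal.Quotient.mk_out] at h1
    rw [h1]
  · exact absurd hx (Finset.notMem_empty _)

theorem resid_quot {c : R F} (hc : c ≠ 0) [Fintype (R F ⧸ Ideal.span {c})]
    (G : R F ⧸ Ideal.span {c} → ℂ) :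
    ∑ x ∈ res c, G (Ideal.Quotient.mk _ x) = ∑ z, G z := by
  refine Finset.sum_bij (fun x _ => Ideal.Quotient.mk _ x) (fun _ _ => Finset.mem_univ _)
    (fun x hx y hy h => res_unique hx hy (resid_mk_eq.1 h)) (fun z _ => ?_) fun _ _ => rfl
  obtain ⟨x, rfl⟩ := Ideal.Quotient.mk_surjective z
  exact ⟨_, resid_mem hc x, (resid_mk_eq.2 (resid_dvd c x)).symm⟩

theorem card_res {c : R F} (hc : c ≠ 0) : ((res c).card : ℝ) = N c := by
  have := finite_quot hc
  have := Fintype.ofFinite (R F ⧸ Ideal.span {c})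
  have h := resid_quot hc fun _ => 1
  simp only [Finset.sum_const, nsmul_eq_mul, mul_one, Finset.card_univ, Nat.cast_inj] at h
  rw [h, ← Nat.card_eq_fintype_card, N_eq_Nn hc, Nn]
theorem Pe.of_dvd {q q' : R F} {G : R F → ℂ} (hG : Pe q G) (h : q ∣ q') : Pe q' G :=
  fun x y h' => hG x y (h.trans h')
theorem Pe.mul {q : R F} {G H : R F → ℂ} (hG : Pe q G) (hH : Pe q H) :
    Pe q (fun x => G x * H x) := fun x y h => by simp only [hG x y h, hH x y h]
theorem Pe.comp_mul {q : R F} {G : R F → ℂ} (hG : Pe q G) (s : R F) :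
    Pe q (fun x => G (s * x)) := fun x y h => hG _ _ (mul_sub s x y ▸ h.mul_left s)
theorem pe_cop (D : R F) : Pe D (cop D) := by
  rintro x y ⟨t, ht⟩
  rw [sub_eq_iff_eq_add'.1 ht]
  simp only [cop, IsCoprime.add_mul_left_left_iff]

theorem resid_sum {c : R F} (hc : c ≠ 0) {G : R F → ℂ} (hG : Pe c G) {ι : Type*} (s : Finset ι)
    (g : ι → R F) (hg : ∀ i ∈ s, ∀ j ∈ s, c ∣ g i - g j → i = j) (hs : (s.card : ℝ) = N c) :
    ∑ i ∈ s, G (g i) = ∑ x ∈ res c, G x := by
  have h1 : Set.InjOn (fun i => residRep c (g i)) s :=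
    fun i hi j hj (h : residRep c (g i) = residRep c (g j)) =>
    hg i hi j hj (by simpa [h] using (resid_dvd c (g i)).sub (resid_dvd c (g j)))
  have h2 : s.image (fun i => residRep c (g i)) = res c :=
    Finset.eq_of_subset_of_card_le (Finset.image_subset_iff.2 fun i _ => resid_mem hc _)
      (by rw [Finset.card_image_of_injOn h1, ← Nat.cast_le (α := ℝ), hs, card_res hc])
  rw [← h2, Finset.sum_image h1]
  exact Finset.sum_congr rfl fun i _ => hG _ _ (resid_dvd c _)

/-- Reindexing by any map that is injective modulo c. -/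
theorem sum_res_reindex {c : R F} (hc : c ≠ 0) {G : R F → ℂ} (hG : Pe c G) (g : R F → R F)
    (hg : ∀ x y, c ∣ g x - g y → c ∣ x - y) : ∑ x ∈ res c, G (g x) = ∑ x ∈ res c, G x :=
  resid_sum hc hG _ g (fun _ hx _ hy h => res_unique hx hy (hg _ _ h)) (card_res hc)
theorem sum_res_affine {c s : R F} (hc : c ≠ 0) {G : R F → ℂ} (hG : Pe c G) (hs : IsCoprime s c)
    (t : R F) : ∑ x ∈ res c, G (s * x + t) = ∑ x ∈ res c, G x :=
  sum_res_reindex hc hG (fun x => s * x + t) fun x y h =>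
    hs.symm.dvd_of_dvd_mul_left (by rwa [add_sub_add_right_eq_sub, ← mul_sub] at h)
theorem sum_res_assoc {c u : R F} (hc : c ≠ 0) (hu : IsUnit u) {G : R F → ℂ} (hG : Pe c G) :
    ∑ x ∈ res (u * c), G x = ∑ x ∈ res c, G x :=
  resid_sum hc hG _ id (fun _ hx _ hy h => res_unique hx hy (hu.mul_left_dvd.2 h)) (by
    rw [card_res (mul_ne_zero hu.ne_zero hc), N_mul, N_unit hu, one_mul])
theorem sum_res_unit {u : R F} (hu : IsUnit u) {G : R F → ℂ} (hG : Pe u G) :
    ∑ x ∈ res u, G x = G 0 := by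
  rw [← resid_sum hu.ne_zero hG {()} (fun _ => 0) (fun _ _ _ _ _ => rfl)
    (by rw [N_unit hu, Finset.card_singleton, Nat.cast_one]), Finset.sum_singleton]

theorem resid_card {c d : R F} (hc : c ≠ 0) (hd : d ≠ 0) :
    ((res c ×ˢ res d).card : ℝ) = N (c * d) := by
  rw [Finset.card_product, Nat.cast_mul, card_res hc, card_res hd, N_mul]

theorem sum_res_mul {c d : R F} (hc : c ≠ 0) (hd : d ≠ 0) {G : R F → ℂ} (hG : Pe (c * d) G) :
    ∑ x ∈ res (c * d), G x = ∑ u ∈ res c, ∑ v ∈ res d, G (u + c * v) := by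
  rw [← Finset.sum_product']
  refine (resid_sum (mul_ne_zero hc hd) hG _ (fun p : R F × R F => p.1 + c * p.2)
    (fun p hp q hq h => ?_) (resid_card hc hd)).symm
  obtain ⟨hp, hp'⟩ := Finset.mem_product.1 hp
  obtain ⟨hq, hq'⟩ := Finset.mem_product.1 hq
  obtain ⟨t, ht⟩ := h
  have h1 := res_unique hp hq ⟨d * t - p.2 + q.2, by linear_combination ht⟩
  exact Prod.ext h1
    (res_unique hp' hq' ⟨t, mul_left_cancel₀ hc (by linear_combination ht - h1)⟩)
theorem sum_res_crt {c d : R F} (hc : c ≠ 0) (hd : d ≠ 0) (h : IsCoprime c d) {G : R F → ℂ}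
    (hG : Pe (c * d) G) :
    ∑ x ∈ res (c * d), G x = ∑ u ∈ res c, ∑ v ∈ res d, G (d * u + c * v) := by
  rw [← Finset.sum_product']
  refine (resid_sum (mul_ne_zero hc hd) hG _ (fun p : R F × R F => d * p.1 + c * p.2)
    (fun p hp q hq h' => ?_) (resid_card hc hd)).symm
  obtain ⟨hp, hp'⟩ := Finset.mem_product.1 hp
  obtain ⟨hq, hq'⟩ := Finset.mem_product.1 hq
  obtain ⟨t, ht⟩ := h'
  exact Prod.ext
    (res_unique hp hq (h.dvd_of_dvd_mul_left ⟨d * t - p.2 + q.2, by linear_combination ht⟩))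
    (res_unique hp' hq'
      (h.symm.dvd_of_dvd_mul_left ⟨c * t - p.1 + q.1, by linear_combination ht⟩))
/-- Passage to the quotient ring. -/
theorem sum_res_quot {c : R F} (hc : c ≠ 0) [Fintype (R F ⧸ Ideal.span {c})]
    (G : R F ⧸ Ideal.span {c} → ℂ) :
    ∑ x ∈ res c, G (Ideal.Quotient.mk _ x) = ∑ z, G z := resid_quot hc G

theorem psi_add (c x y : R F) : psi c (x + y) = psi c x * psi c y := by
  rw [psi, psi, psi, Subring.coe_add, add_div, psiP_add]
@[simp] theorem psi_zero (c : R F) : psi c 0 = 1 := by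
  rw [psi, Subring.coe_zero, zero_div, psiP_zero]
theorem psi_neg (c x : R F) : psi c (-x) = conj (psi c x) := by
  rw [psi, psi, Subring.coe_neg, neg_div, psiP_neg]
theorem norm_psi (c x : R F) : ‖psi c x‖ = 1 := norm_psiP _
theorem psi_mul_left {d : R F} (hd : d ≠ 0) (c x : R F) : psi (c * d) (d * x) = psi c x := by
  have hd' : (d : F) ≠ 0 := fun h => hd (Subtype.ext h)
  rw [psi, psi, Subring.coe_mul, Subring.coe_mul, mul_comm (c : F), mul_div_mul_left _ _ hd']
theorem psi_of_dvd {c x : R F} (h : c ∣ x) : psi c x = 1 := by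
  rcases eq_or_ne c 0 with rfl | hc
  · rw [zero_dvd_iff.1 h, psi_zero]
  exact psiP_of_mem_R ((dvd_iff_div hc).1 h)
theorem psi_congr {c x y : R F} (h : c ∣ x - y) : psi c x = psi c y := by
  rw [← sub_add_cancel x y, psi_add, psi_of_dvd h, one_mul]
theorem pe_psi (c h : R F) : Pe c (fun x => psi c (h * x)) :=
  Pe.comp_mul (fun _ _ => psi_congr) h
theorem sum_psi {c : R F} (hc : c ≠ 0) (h : R F) :
    ∑ x ∈ res c, psi c (h * x) = if c ∣ h then (N c : ℂ) else 0 := by
  split_ifs with hh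
  · rw [Finset.sum_congr rfl fun x _ => psi_of_dvd (hh.mul_right x), Finset.sum_const,
      nsmul_eq_mul, mul_one, ← card_res hc, ofReal_natCast]
  by_contra h0
  refine hh ((dvd_iff_div hc).2 (mem_R_iff_psiP.2 fun t => ?_))
  have h1 := sum_res_affine hc (pe_psi c h) isCoprime_one_left t
  simp only [one_mul, mul_add, psi_add, ← Finset.sum_mul] at h1
  have h2 := (mul_eq_left₀ h0).1 h1
  rwa [psi, Subring.coe_mul, ← div_mul_eq_mul_div] at h2
theorem exists_addChar {c : R F} (hc : c ≠ 0) :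
    ∃ e : AddChar (R F ⧸ Ideal.span {c}) ℂ,
      (∀ a, e (Ideal.Quotient.mk _ a) = psi c a) ∧ e.IsPrimitive := by
  have key : ∀ a, psi c (Quotient.out (Ideal.Quotient.mk (Ideal.span {c}) a)) = psi c a :=
    fun a => (psi_congr (resid_dvd c a)).symm
  obtain ⟨e, he⟩ : ∃ e : AddChar (R F ⧸ Ideal.span {c}) ℂ,
      ∀ a, e (Ideal.Quotient.mk _ a) = psi c a := by
    refine ⟨⟨fun z => psi c (Quotient.out z), (key 0).trans (psi_zero c), fun x y => ?_⟩, key⟩
    obtain ⟨a, rfl⟩ := Ideal.Quotient.mk_surjective x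
    obtain ⟨b, rfl⟩ := Ideal.Quotient.mk_surjective y
    rw [← map_add, key, key, key, psi_add]
  refine ⟨e, he, fun z hz h1 => hz ?_⟩
  obtain ⟨h, rfl⟩ := Ideal.Quotient.mk_surjective z
  have h2 : ∀ x, psi c (h * x) = 1 := fun x => by
    rw [← he, map_mul, ← AddChar.mulShift_apply, h1, AddChar.one_apply]
  have h3 := sum_psi hc h
  by_contra h4
  rw [if_neg fun h5 => h4 (Ideal.Quotient.eq_zero_iff_mem.2 (Ideal.mem_span_singleton.2 h5))] at h3
  simp only [h2, Finset.sum_const, nsmul_eq_mul, mul_one] at h3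
  have h5 := card_res hc
  rw [Nat.cast_eq_zero.1 h3, Nat.cast_zero] at h5
  exact (N_pos hc).ne h5
theorem norm_gauss_le {c : R F} (hc : c ≠ 0) {f : R F → ℂ} {B : ℝ} (hf : ∀ x, ‖f x‖ ≤ B)
    (h : R F) : ‖gauss f c h‖ ≤ B * N c := by
  rw [gauss, ← card_res hc, mul_comm, ← nsmul_eq_mul]
  refine (norm_sum_le _ _).trans (Finset.sum_le_card_nsmul _ _ _ fun x _ => ?_)
  rw [norm_mul, norm_psi, mul_one]
  exact hf x
/-- Finite Fourier inversion. -/
theorem fourier_inv {q : R F} (hq : q ≠ 0) {G : R F → ℂ} (hG : Pe q G) (x : R F) :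
    G x = ∑ y ∈ res q, (gauss G q (-y) / (N q : ℂ)) * psi q (x * y) := by
  have h1 : (N q : ℂ) ≠ 0 := ofReal_ne_zero.2 (N_pos hq).ne'
  have h2 : ∀ y z, G z * psi q (-y * z) / N q * psi q (x * y) =
      G z / N q * psi q ((x - z) * y) := fun y z => by
    rw [show (x - z) * y = -y * z + x * y by ring, psi_add]
    ring
  simp only [gauss, Finset.sum_div, Finset.sum_mul, h2]
  rw [Finset.sum_comm, Finset.sum_eq_single_of_mem _ (resid_mem hq x) fun z hz h => ?_]
  all_goals rw [← Finset.mul_sum, sum_psi hq]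
  · rw [if_pos (resid_dvd q x), div_mul_cancel₀ _ h1, hG _ _ (resid_dvd q x)]
  · rw [if_neg fun h' => h (res_unique hz (resid_mem hq x) (by
      simpa using (resid_dvd q x).sub h')), mul_zero]
/-- The l1 norm of the Fourier coefficients. -/
theorem fourier_l1 {q : R F} (hq : q ≠ 0) {G : R F → ℂ} (hB : Bd1 G) :
    ∑ y ∈ res q, ‖gauss G q (-y) / (N q : ℂ)‖ ≤ ab q := by
  have h1 := N_pos hq
  have h2 : ∀ y z z', G z * psi q (-y * z) * conj (G z' * psi q (-y * z')) =
      G z * conj (G z') * psi q ((z' - z) * y) := fun y z z' => by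
    rw [show (z' - z) * y = -y * z + -(-y * z') by ring, psi_add, psi_neg, map_mul]
    ring
  have h3 : ∑ y ∈ res q, ‖gauss G q (-y)‖ ^ 2 = ∑ z ∈ res q, ‖G z‖ ^ 2 * N q := by
    rw [← ofReal_inj]
    push_cast
    simp only [← mul_conj', gauss, map_sum, Finset.sum_mul_sum, h2]
    rw [Finset.sum_comm]
    refine Finset.sum_congr rfl fun z hz => ?_
    rw [Finset.sum_comm, Finset.sum_eq_single_of_mem z hz fun z' hz' h => ?_]
    all_goals rw [← Finset.mul_sum, sum_psi hq]
    · rw [sub_self, if_pos (dvd_zero q)]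
    · rw [if_neg fun h' => h (res_unique hz' hz h'), mul_zero]
  have h4 : ∑ z ∈ res q, ‖G z‖ ^ 2 * N q ≤ N q * N q := by
    rw [← Finset.sum_mul, ← card_res hq]
    refine mul_le_mul_of_nonneg_right ?_ (Nat.cast_nonneg _)
    simpa using Finset.sum_le_card_nsmul _ _ (1 : ℝ) fun z (_ : z ∈ res q) =>
      pow_le_one₀ (n := 2) (norm_nonneg _) (hB z)
  have h5 := sq_sum_le_card_mul_sum_sq (s := res q) (f := fun y => ‖gauss G q (-y)‖)
  simp only [norm_div, Complex.norm_real, Real.norm_of_nonneg h1.le, ← Finset.sum_div]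
  rw [div_le_iff₀ h1]
  refine (pow_le_pow_iff_left₀ (Finset.sum_nonneg fun _ _ => norm_nonneg _)
    (mul_nonneg (ab_nonneg q) h1.le) two_ne_zero).1 (h5.trans ?_)
  rw [h3, card_res hq, mul_pow, ab_sq, sq]
  exact mul_le_mul_of_nonneg_left h4 h1.le

end Vale.Agent.P319B
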