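import Vale.Agent.P319B.Defs

/-! Algebra of R and Ol: congruences, approximation, local sixth powers, classes. -/

namespace Vale.Agent.P319B

open Complex NumberField
open scoped Classical ComplexConjugate
open Vale.Agent.P026 (w kk fk)

variable {F : Type} [Field F] [NumberField F] [Ctx0 F]

theorem mem_Rr {x : F} : x ∈ Rr F (Ctx0.M F) ↔ ∃ k : ℕ, IsIntegral ℤ (MF F ^ k * x) :=
  Iff.rfl
theorem mem_Ol {x : F} :
    x ∈ Ol F ↔ ∃ m : ℕ, m.Coprime (Ctx0.M F) ∧ IsIntegral ℤ ((m : F) * x) :=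
  Iff.rfl
theorem six_le_M : 6 ≤ Ctx0.M F :=
  Nat.le_of_dvd (Nat.pos_of_ne_zero Ctx0.M_ne) Ctx0.six
theorem MF_ne : MF F ≠ 0 :=
  Nat.cast_ne_zero.2 Ctx0.M_ne
theorem coe_M : (((Ctx0.M F : ℕ) : R F) : F) = MF F := by simp [MF]
theorem coe_omR : ((omR F : R F) : F) = Om.om :=
  rfl
theorem omR_eq : omR F ^ 2 + omR F + 1 = 0 :=
  Subtype.ext (by simpa [coe_omR] using Om.om_eq (F := F))
theorem ring_int (a : ℤ) : IsIntegral ℤ (a : F) := isIntegral_algebraMap (R := ℤ) (x := a)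
theorem ring_nat (a : ℕ) : IsIntegral ℤ (a : F) := by exact_mod_cast ring_int (F := F) a
theorem ring_bez {m : ℕ} (h : m.Coprime (Ctx0.M F)) (k : ℕ) :
    ∃ a b : ℤ, (a : F) * m + b * MF F ^ k = 1 := by
  obtain ⟨a, b, hab⟩ := Nat.isCoprime_iff_coprime.2 (h.pow_right k)
  exact ⟨a, b, by unfold MF; exact_mod_cast congrArg (Int.cast : ℤ → F) hab⟩
theorem ring_fac (M : ℕ) (d : ℕ) (hd : d ≠ 0) :
    ∃ m k c : ℕ, m.Coprime M ∧ m * M ^ k = c * d := by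
  induction d using Nat.strong_induction_on with
  | _ d ih =>
    by_cases h : d.Coprime M
    · exact ⟨d, 0, 1, h, by simp⟩
    · obtain ⟨d', hd'⟩ := Nat.gcd_dvd_left d M
      obtain ⟨M', hM'⟩ := Nat.gcd_dvd_right d M
      have h0 : d' ≠ 0 := fun h0 => hd (by rw [hd', h0, mul_zero])
      have h1 : 1 < d.gcd M := lt_of_le_of_ne (Nat.gcd_pos_of_pos_left _ (Nat.pos_of_ne_zero hd))
        (Ne.symm h)
      generalize d.gcd M = g at hd' hM' h1
      obtain ⟨m, k, c, h2, h3⟩ := ih d' (by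
        rw [hd']; exact lt_mul_of_one_lt_left (Nat.pos_of_ne_zero h0) h1) h0
      refine ⟨m, k + 1, c * M', h2, ?_⟩
      rw [pow_succ, ← mul_assoc, h3, hd']
      conv_lhs => rw [hM']
      ring
theorem ring_key (x : F) :
    ∃ m k : ℕ, m.Coprime (Ctx0.M F) ∧ IsIntegral ℤ ((m : F) * (MF F ^ k * x)) := by
  have hx : IsAlgebraic ℤ x :=
    (IsFractionRing.isAlgebraic_iff ℤ ℚ F).2 (Algebra.IsAlgebraic.isAlgebraic x)
  obtain ⟨d, hd, h⟩ := hx.exists_integral_multiple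
  obtain ⟨m, k, c, h1, h2⟩ := ring_fac (Ctx0.M F) d.natAbs (Int.natAbs_ne_zero.2 hd)
  refine ⟨m, k, h1, ?_⟩
  have h3 : (m : F) * MF F ^ k = c * (d.sign * d : ℤ) := by
    rw [Int.sign_mul_self_eq_natAbs]
    unfold MF
    exact_mod_cast congrArg (Nat.cast : ℕ → F) h2
  rw [← mul_assoc, h3, Int.cast_mul, mul_assoc, mul_assoc, ← zsmul_eq_mul x]
  exact (ring_nat c).mul ((ring_int _).mul h)
theorem int_mem_R {x : F} (h : IsIntegral ℤ x) : x ∈ Rr F (Ctx0.M F) :=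
  ⟨0, by simpa using h⟩
theorem int_mem_Ol {x : F} (h : IsIntegral ℤ x) : x ∈ Ol F :=
  ⟨1, Nat.coprime_one_left _, by simpa using h⟩
theorem int_of_mem {x : F} (h1 : x ∈ Rr F (Ctx0.M F)) (h2 : x ∈ Ol F) : IsIntegral ℤ x := by
  obtain ⟨k, hk⟩ := mem_Rr.1 h1
  obtain ⟨m, hm, h⟩ := h2
  obtain ⟨a, b, hab⟩ := ring_bez hm k
  have : x = a * (m * x) + b * (MF F ^ k * x) := by linear_combination (-x) * hab
  rw [this]
  exact ((ring_int a).mul h).add ((ring_int b).mul hk)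
theorem MF_mem_Ol : MF F ∈ Ol F :=
  natCast_mem _ _
theorem MF_inv_mem_R : (MF F)⁻¹ ∈ Rr F (Ctx0.M F) :=
  mem_Rr.2 ⟨1, by rw [pow_one, mul_inv_cancel₀ MF_ne]; exact isIntegral_one⟩
theorem ring_ne {m : ℕ} (h : m.Coprime (Ctx0.M F)) : (m : F) ≠ 0 := by
  rintro h0
  rw [Nat.cast_eq_zero.1 h0, Nat.coprime_zero_left] at h
  have := six_le_M (F := F)
  omega
theorem nat_inv_mem_Ol {m : ℕ} (h : m.Coprime (Ctx0.M F)) : (m : F)⁻¹ ∈ Ol F :=
  ⟨m, h, by rw [mul_inv_cancel₀ (ring_ne h)]; exact isIntegral_one⟩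
theorem isUnit_iff_inv {c : R F} : IsUnit c ↔ (c : F) ≠ 0 ∧ (c : F)⁻¹ ∈ Rr F (Ctx0.M F) := by
  constructor
  · rintro ⟨u, rfl⟩
    have h : ((u : R F) : F) * ((u⁻¹ : (R F)ˣ) : R F) = 1 := by
      rw [← Subring.coe_mul, u.mul_inv, Subring.coe_one]
    exact ⟨left_ne_zero_of_mul_eq_one h, by
      rw [← eq_inv_of_mul_eq_one_right h]; exact SetLike.coe_mem _⟩
  · rintro ⟨h1, h2⟩
    exact IsUnit.of_mul_eq_one ⟨_, h2⟩ (Subtype.ext (mul_inv_cancel₀ h1))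
theorem dvd_iff_div {c x : R F} (hc : c ≠ 0) : c ∣ x ↔ (x : F) / c ∈ Rr F (Ctx0.M F) := by
  have h0 : (c : F) ≠ 0 := fun h => hc (Subtype.ext h)
  constructor
  · rintro ⟨d, rfl⟩
    rw [Subring.coe_mul, mul_div_cancel_left₀ _ h0]
    exact d.2
  · exact fun h => ⟨⟨_, h⟩, Subtype.ext (mul_div_cancel₀ _ h0).symm⟩
theorem isUnit_M : IsUnit ((Ctx0.M F : ℕ) : R F) :=
  isUnit_iff_inv.2 (by rw [coe_M]; exact ⟨MF_ne, MF_inv_mem_R⟩)
theorem isUnit_two : IsUnit (2 : R F) := by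
  refine isUnit_of_dvd_unit ?_ isUnit_M
  exact_mod_cast Nat.cast_dvd_cast (α := R F) ((by norm_num : 2 ∣ 6).trans Ctx0.six)
theorem isUnit_three : IsUnit (3 : R F) := by
  refine isUnit_of_dvd_unit ?_ isUnit_M
  exact_mod_cast Nat.cast_dvd_cast (α := R F) ((by norm_num : 3 ∣ 6).trans Ctx0.six)
theorem isUnit_omR : IsUnit (omR F) :=
  IsUnit.of_mul_eq_one (-omR F - 1) (by linear_combination -omR_eq (F := F))
theorem exists_Hi (x : F) : ∃ a : ℕ, Hi a x :=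
  let ⟨m, k, h1, h2⟩ := ring_key x; ⟨k, m, h1, h2⟩
theorem exists_mul_mem_R (x : F) :
    ∃ m : ℕ, m.Coprime (Ctx0.M F) ∧ (m : F) * x ∈ Rr F (Ctx0.M F) :=
  let ⟨m, k, h1, h2⟩ := ring_key x; ⟨m, h1, mem_Rr.2 ⟨k, by rwa [mul_left_comm] at h2⟩⟩
/-- Every element is a quotient of elements of R. -/
theorem exists_div_R (x : F) : ∃ a b : R F, b ≠ 0 ∧ OlU (b : F) ∧ x = (a : F) / b := by
  obtain ⟨m, h1, h2⟩ := exists_mul_mem_R x
  have h3 := ring_ne h1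
  refine ⟨⟨_, h2⟩, m, fun h => h3 (by simpa using congrArg Subtype.val h), ?_, ?_⟩
  · rw [Subring.coe_natCast]
    exact ⟨h3, natCast_mem _ _, nat_inv_mem_Ol h1⟩
  · rw [Subring.coe_natCast, mul_div_cancel_left₀ _ h3]

theorem Lo_zero_iff {z : F} : Lo 0 z ↔ z ∈ Ol F := by simp [Lo]
theorem Hi_zero_iff {z : F} : Hi 0 z ↔ z ∈ Ol F := by simp [Hi]
theorem Lo.zero (e : ℕ) : Lo e (0 : F) := by simp [Lo]
theorem Lo.mono {e e' : ℕ} (h : e ≤ e') {z : F} (hz : Lo e' z) : Lo e z := by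
  obtain ⟨d, rfl⟩ := Nat.exists_eq_add_of_le h
  have h1 := MF_ne (F := F)
  have : z / MF F ^ e = z / MF F ^ (e + d) * MF F ^ d := by field_simp; ring
  unfold Lo
  rw [this]
  exact mul_mem hz (pow_mem MF_mem_Ol d)
theorem Lo.mem {e : ℕ} {z : F} (hz : Lo e z) : z ∈ Ol F :=
  Lo_zero_iff.1 (hz.mono (Nat.zero_le e))
theorem Lo.add {e : ℕ} {x y : F} (hx : Lo e x) (hy : Lo e y) : Lo e (x + y) := by unfold Lo; rw [add_div]; exact add_mem hx hy
theorem Lo.neg {e : ℕ} {x : F} (hx : Lo e x) : Lo e (-x) := by unfold Lo; rw [neg_div]; exact neg_mem hx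
theorem Lo.sub {e : ℕ} {x y : F} (hx : Lo e x) (hy : Lo e y) : Lo e (x - y) := by unfold Lo; rw [sub_div]; exact sub_mem hx hy
theorem Lo.mul_left {e : ℕ} {x y : F} (hx : x ∈ Ol F) (hy : Lo e y) : Lo e (x * y) := by unfold Lo; rw [mul_div_assoc]; exact mul_mem hx hy
theorem Lo.mul_right {e : ℕ} {x y : F} (hx : Lo e x) (hy : y ∈ Ol F) : Lo e (x * y) :=
  mul_comm y x ▸ Lo.mul_left hy hx
theorem Lo.mul {e e' : ℕ} {x y : F} (hx : Lo e x) (hy : Lo e' y) : Lo (e + e') (x * y) := by unfold Lo; rw [pow_add, mul_div_mul_comm]; exact mul_mem hx hy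
theorem Lo_MF_pow (e : ℕ) : Lo e (MF F ^ e) := by unfold Lo; rw [div_self (pow_ne_zero e MF_ne)]; exact one_mem _
theorem Hi.zero (a : ℕ) : Hi a (0 : F) := by simp [Hi]
theorem Hi.mono {a a' : ℕ} (h : a ≤ a') {z : F} (hz : Hi a z) : Hi a' z := by
  obtain ⟨d, rfl⟩ := Nat.exists_eq_add_of_le h
  unfold Hi
  rw [pow_add, mul_right_comm]
  exact mul_mem hz (pow_mem MF_mem_Ol d)
theorem Hi.of_mem (a : ℕ) {z : F} (hz : z ∈ Ol F) : Hi a z :=
  mul_mem (pow_mem MF_mem_Ol a) hz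
theorem Hi.add {a : ℕ} {x y : F} (hx : Hi a x) (hy : Hi a y) : Hi a (x + y) := by unfold Hi; rw [mul_add]; exact add_mem hx hy
theorem Hi.neg {a : ℕ} {x : F} (hx : Hi a x) : Hi a (-x) := by unfold Hi; rw [mul_neg]; exact neg_mem hx
theorem Hi.sub {a : ℕ} {x y : F} (hx : Hi a x) (hy : Hi a y) : Hi a (x - y) := by unfold Hi; rw [mul_sub]; exact sub_mem hx hy
theorem Hi.mul {a b : ℕ} {x y : F} (hx : Hi a x) (hy : Hi b y) : Hi (a + b) (x * y) := by unfold Hi; rw [pow_add, mul_mul_mul_comm]; exact mul_mem hx hy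
theorem Hi.mul_Lo {a e : ℕ} {x y : F} (hx : Hi a x) (hy : Lo (a + e) y) : Lo e (x * y) := by
  have h1 := MF_ne (F := F)
  have : x * y / MF F ^ e = MF F ^ a * x * (y / MF F ^ (a + e)) := by field_simp; ring
  unfold Lo
  rw [this]
  exact mul_mem hx hy
theorem exists_Lo_div {z : F} (hz : z ≠ 0) (e : ℕ) :
    ∃ K : ℕ, ∀ x : F, Lo K x → Lo e (x / z) := by
  obtain ⟨a, ha⟩ := exists_Hi z⁻¹
  exact ⟨a + e, fun x hx => by rw [div_eq_inv_mul]; exact ha.mul_Lo hx⟩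

theorem ring_unit {y : F} (hy : y ∈ Ol F) :
    1 + MF F * y ≠ 0 ∧ (1 + MF F * y)⁻¹ ∈ Ol F := by
  obtain ⟨m, hm, hb⟩ := hy
  obtain ⟨b, hb'⟩ : ∃ b : 𝓞 F, (b : F) = m * y := ⟨⟨_, hb⟩, rfl⟩
  have hn : (Ideal.absNorm (Ideal.span {(m : 𝓞 F) + (Ctx0.M F : ℕ) * b})).Coprime (Ctx0.M F) := by
    refine Nat.coprime_of_dvd fun l hl h1 h2 => ?_
    obtain ⟨P, hP, h3, h4⟩ := Ideal.exists_isMaximal_dvd_of_dvd_absNorm' hl _ h1
    have h5 : ((l : ℤ) : 𝓞 F) ∈ P := by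
      have : (l : ℤ) ∈ P.under ℤ := h3 ▸ Ideal.mem_span_singleton_self _
      exact this
    have h6 : ((Ctx0.M F : ℕ) : 𝓞 F) ∈ P := by
      obtain ⟨c, hc⟩ := h2
      rw [hc, Nat.cast_mul]
      exact P.mul_mem_right _ (by exact_mod_cast h5)
    have h7 : (m : 𝓞 F) ∈ P := (P.add_mem_iff_left (P.mul_mem_right b h6)).1
      (Ideal.le_of_dvd h4 (Ideal.mem_span_singleton_self _))
    obtain ⟨u, v, huv⟩ := Nat.isCoprime_iff_coprime.2 hm
    refine hP.ne_top ((Ideal.eq_top_iff_one P).2 ?_)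
    have h8 : (u : 𝓞 F) * m + v * (Ctx0.M F : ℕ) = 1 := by
      exact_mod_cast congrArg (Int.cast : ℤ → 𝓞 F) huv
    rw [← h8]
    exact P.add_mem (P.mul_mem_left _ h7) (P.mul_mem_left _ h6)
  obtain ⟨c, hc⟩ := Ideal.mem_span_singleton'.1
    (Ideal.absNorm_mem (Ideal.span {(m : 𝓞 F) + (Ctx0.M F : ℕ) * b}))
  generalize Ideal.absNorm (Ideal.span {(m : 𝓞 F) + (Ctx0.M F : ℕ) * b}) = n at hn hc
  have h1 : (c : F) * m * (1 + MF F * y) = n := by
    have := congrArg (algebraMap (𝓞 F) F) hc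
    simp only [map_mul, map_add, map_natCast] at this
    rw [← this, show algebraMap (𝓞 F) F b = m * y from hb', MF]
    ring
  have h2 : 1 + MF F * y ≠ 0 := fun h => ring_ne hn (by rw [← h1, h, mul_zero])
  refine ⟨h2, n, hn, ?_⟩
  rw [← h1, mul_assoc, mul_inv_cancel₀ h2, mul_one]
  exact c.isIntegral_coe.mul (ring_nat m)

theorem OlU.one : OlU (1 : F) :=
  ⟨one_ne_zero, one_mem _, by simp⟩
theorem OlU.mul {x y : F} (hx : OlU x) (hy : OlU y) : OlU (x * y) :=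
  ⟨mul_ne_zero hx.1 hy.1, mul_mem hx.2.1 hy.2.1, by rw [mul_inv]; exact mul_mem hx.2.2 hy.2.2⟩
theorem OlU.inv {x : F} (hx : OlU x) : OlU x⁻¹ :=
  ⟨inv_ne_zero hx.1, hx.2.2, by rw [inv_inv]; exact hx.2.1⟩
theorem OlU.div {x y : F} (hx : OlU x) (hy : OlU y) : OlU (x / y) :=
  div_eq_mul_inv x y ▸ hx.mul hy.inv
theorem OlU.pow {x : F} (hx : OlU x) (k : ℕ) : OlU (x ^ k) :=
  ⟨pow_ne_zero k hx.1, pow_mem hx.2.1 k, by rw [← inv_pow]; exact pow_mem hx.2.2 k⟩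
theorem InU.one (e : ℕ) : InU e (1 : F) := by unfold InU; rw [sub_self]; exact Lo.zero e
theorem InU.mono {e e' : ℕ} (h : e ≤ e') {z : F} (hz : InU e' z) : InU e z :=
  Lo.mono h hz
theorem InU.mem {e : ℕ} {z : F} (hz : InU e z) : z ∈ Ol F := by simpa using add_mem (Lo.mem hz) (one_mem (Ol F))
theorem InU.olU {e : ℕ} (he : 1 ≤ e) {z : F} (hz : InU e z) : OlU z := by
  have h := ring_unit (Lo.mono he hz)
  rw [pow_one, mul_div_cancel₀ _ MF_ne, add_sub_cancel] at h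
  exact ⟨h.1, hz.mem, h.2⟩
theorem InU.ne_zero {e : ℕ} (he : 1 ≤ e) {z : F} (hz : InU e z) : z ≠ 0 :=
  (hz.olU he).1
theorem InU.mul {e : ℕ} {x y : F} (hx : InU e x) (hy : InU e y) : InU e (x * y) := by
  have : x * y - 1 = x * (y - 1) + (x - 1) := by ring
  unfold InU
  rw [this]
  exact (Lo.mul_left hx.mem hy).add hx
theorem InU.pow {e : ℕ} {x : F} (hx : InU e x) (k : ℕ) : InU e (x ^ k) := by
  induction k with
  | zero => simpa using InU.one e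
  | succ k ih => rw [pow_succ]; exact ih.mul hx
theorem InU.inv {e : ℕ} (he : 1 ≤ e) {x : F} (hx : InU e x) : InU e x⁻¹ := by
  have h := hx.olU he
  have : x⁻¹ - 1 = -(x⁻¹ * (x - 1)) := by rw [mul_sub, inv_mul_cancel₀ h.1]; ring
  unfold InU
  rw [this]
  exact (Lo.mul_left h.2.2 hx).neg
theorem InU.div {e : ℕ} (he : 1 ≤ e) {x y : F} (hx : InU e x) (hy : InU e y) :
    InU e (x / y) :=
  div_eq_mul_inv x y ▸ hx.mul (hy.inv he)
theorem InU.add_Lo {e : ℕ} {x y : F} (hx : InU e x) (hy : Lo e y) : InU e (x + y) := by unfold InU; rw [add_sub_right_comm]; exact Lo.add hx hy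
theorem InU.div_self {e : ℕ} {x : F} (hx : x ≠ 0) : InU e (x / x) := by rw [_root_.div_self hx]; exact InU.one e
theorem InU.symm {e : ℕ} (he : 1 ≤ e) {x y : F} (h : InU e (x / y)) : InU e (y / x) :=
  inv_div x y ▸ h.inv he
theorem InU.trans {e : ℕ} (he : 1 ≤ e) {x y z : F} (h : InU e (x / y)) (h' : InU e (y / z)) :
    InU e (x / z) := by
  have hy : y ≠ 0 := (div_ne_zero_iff.1 (h.ne_zero he)).2
  have := h.mul h'
  rwa [div_mul_div_cancel₀ hy] at this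
theorem InU.left_ne {e : ℕ} (he : 1 ≤ e) {x y : F} (h : InU e (x / y)) : x ≠ 0 :=
  (div_ne_zero_iff.1 (h.ne_zero he)).1
theorem InU.right_ne {e : ℕ} (he : 1 ≤ e) {x y : F} (h : InU e (x / y)) : y ≠ 0 :=
  (div_ne_zero_iff.1 (h.ne_zero he)).2
theorem InU.mul_div {e : ℕ} {x y x' y' : F} (h : InU e (x / y)) (h' : InU e (x' / y')) :
    InU e (x * x' / (y * y')) :=
  mul_div_mul_comm x x' y y' ▸ h.mul h'

theorem ring_split (z : F) (K : ℕ) : ∃ t : R F, Lo K (z - t) := by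
  obtain ⟨m, k, hm, h⟩ := ring_key z
  obtain ⟨a, b, hab⟩ := ring_bez hm (k + K)
  refine ⟨⟨a * (m * z), mul_mem (intCast_mem _ a) ⟨k, by rwa [mul_left_comm] at h⟩⟩, ?_⟩
  have : z - a * (m * z) = b * (MF F ^ k * z) * MF F ^ K := by
    linear_combination (-z) * hab
  show Lo K (z - a * (m * z))
  rw [this]
  exact Lo.mul_left (mul_mem (intCast_mem _ b) ⟨m, hm, h⟩) (Lo_MF_pow K)

theorem ring_cop {A : Type} [CommRing A] [IsDomain A] [IsPrincipalIdealRing A] {c d n : A}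
    (h : IsCoprime c d) (hn : n ≠ 0) : ∃ y : A, IsCoprime n (d + y * c) := by
  have h1 : ∀ n : A, n ≠ 0 → ∃ y, IsCoprime y d ∧ ∀ p, Prime p → p ∣ n → p ∣ d ∨ p ∣ y := by
    intro n
    induction n using UniqueFactorizationMonoid.induction_on_prime with
    | h₁ => exact fun h => absurd rfl h
    | h₂ x hx => exact fun _ => ⟨1, isCoprime_one_left, fun p hp h =>
        absurd (isUnit_of_dvd_unit h hx) hp.not_isUnit⟩
    | h₃ a q ha hq ih =>
      intro _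
      obtain ⟨y, h2, h3⟩ := ih ha
      by_cases h4 : q ∣ d
      · refine ⟨y, h2, fun p hp h5 => (hp.dvd_or_dvd h5).elim
          (fun h6 => Or.inl (h6.trans h4)) (h3 p hp)⟩
      · refine ⟨q * y, (hq.coprime_iff_not_dvd.2 h4).mul_left h2, fun p hp h5 =>
          (hp.dvd_or_dvd h5).elim (fun h6 => Or.inr (h6.mul_right _))
            fun h6 => (h3 p hp h6).imp_right fun h7 => h7.mul_left _⟩
  obtain ⟨y, h2, h3⟩ := h1 n hn
  refine ⟨y, isCoprime_of_prime_dvd (fun h => hn h.1) fun p hp h4 h5 => hp.not_isUnit ?_⟩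
  rcases h3 p hp h4 with h6 | h6
  · rcases hp.dvd_or_dvd ((dvd_add_right h6).1 h5) with h7 | h7
    · exact h2.isUnit_of_dvd' h7 h6
    · exact h.isUnit_of_dvd' h7 h6
  · exact h2.isUnit_of_dvd' h6 ((dvd_add_left (h6.mul_right c)).1 h5)

theorem ring_six {k : ℕ} {δ : F} (h : Lo (k + 1) δ) : Lo k (δ / 6) := by
  obtain ⟨c, hc⟩ := Ctx0.six (F := F)
  have h1 : MF F = 6 * c := by rw [MF, hc]; push_cast; rfl
  have h2 := MF_ne (F := F)
  have h3 : δ / 6 / MF F ^ k = δ / MF F ^ (k + 1) * c := by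
    have : (c : F) = MF F / 6 := by rw [h1]; ring
    rw [this]
    field_simp
    ring
  unfold Lo at h ⊢
  rw [h3]
  exact mul_mem h (natCast_mem _ c)

/-- Approximation: a congruence modulo c and a local condition at M can be met together. -/
theorem exists_approx {c : R F} (hc : c ≠ 0) (x : R F) (z : F) {y : F} (hy : y ≠ 0) :
    ∃ x' : R F, c ∣ x' - x ∧ ((x' : F) - z) / y ∈ Ol F := by
  have h0 : (c : F) ≠ 0 := fun h => hc (Subtype.ext h)
  obtain ⟨K, hK⟩ := exists_Lo_div (div_ne_zero hy h0) 0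
  obtain ⟨t, ht⟩ := ring_split ((z - x) / c) K
  refine ⟨x + c * t, ⟨t, by ring⟩, ?_⟩
  have : (((x + c * t : R F) : F) - z) / y = -(((z - x) / c - t) / (y / c)) := by
    push_cast
    field_simp
    ring
  rw [this]
  exact neg_mem (hK _ ht).mem
theorem exists_cong_Lo {c : R F} (hc : c ≠ 0) (x : R F) (K : ℕ) :
    ∃ x' : R F, c ∣ x' - x ∧ Lo K (x' : F) := by simpa [Lo] using exists_approx hc x 0 (pow_ne_zero K (MF_ne (F := F)))
theorem exists_inU_cong {c : R F} (hc : c ≠ 0) (x : R F) {z : F} (hz : z ≠ 0) (e : ℕ) :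
    ∃ x' : R F, c ∣ x' - x ∧ InU e ((x' : F) / z) := by
  obtain ⟨x', h1, h2⟩ := exists_approx hc x z (mul_ne_zero hz (pow_ne_zero e MF_ne))
  refine ⟨x', h1, ?_⟩
  unfold InU Lo
  rwa [div_sub_one hz, div_div]
theorem exists_inU_coprime {c : R F} (hc : c ≠ 0) {z : F} (hz : z ≠ 0) (e : ℕ) :
    ∃ x : R F, IsCoprime x c ∧ InU e ((x : F) / z) := by
  obtain ⟨x, ⟨t, h1⟩, h2⟩ := exists_inU_cong hc 1 hz e
  exact ⟨x, ⟨1, -t, by linear_combination h1⟩, h2⟩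
theorem exists_coprime_add {c d n : R F} (h : IsCoprime c d) (hn : n ≠ 0) (K : ℕ) :
    ∃ y : R F, Lo K (y : F) ∧ IsCoprime n (d + y * c) := by
  obtain ⟨y, hy⟩ := ring_cop h hn
  obtain ⟨y', ⟨t, h1⟩, h2⟩ := exists_cong_Lo hn y K
  refine ⟨y', h2, ?_⟩
  rw [show d + y' * c = d + y * c + n * (t * c) by linear_combination c * h1]
  exact hy.add_mul_left_right _
/-- Newton approximation of sixth roots. -/
theorem exists_sixth {u : F} (hu : InU 3 u) (K : ℕ) : ∃ t : F, InU 1 t ∧ InU K (u / t ^ 6) := by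
  have h : ∀ k : ℕ, ∃ t : F, InU 1 t ∧ InU (k + 3) (u / t ^ 6) := by
    intro k
    induction k with
    | zero => exact ⟨1, InU.one 1, by simpa using hu⟩
    | succ k ih =>
      obtain ⟨t, h1, h2⟩ := ih
      have h3 : Lo (k + 2) ((u / t ^ 6 - 1) / 6) := ring_six h2
      obtain ⟨ε, hε⟩ : ∃ ε, ε = (u / t ^ 6 - 1) / 6 := ⟨_, rfl⟩
      rw [← hε] at h3
      have h4 : InU 1 (1 + ε) := (InU.one 1).add_Lo (h3.mono (by omega))
      have h5 := (h4.olU le_rfl).pow 6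
      refine ⟨t * (1 + ε), h1.mul h4, ?_⟩
      have h6 : u / (t * (1 + ε)) ^ 6 - 1 =
          -(((1 + ε) ^ 6)⁻¹ * (15 + 20 * ε + 15 * ε ^ 2 + 6 * ε ^ 3 + ε ^ 4)) * (ε * ε) := by
        have h7 : u / t ^ 6 = 1 + 6 * ε := by rw [hε]; ring
        have h8 := inv_mul_cancel₀ h5.1
        rw [mul_pow, ← div_div, h7, div_eq_inv_mul]
        generalize ((1 + ε) ^ 6)⁻¹ = s at h8
        linear_combination h8
      have h9 := h3.mem
      unfold InU
      rw [h6]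
      refine Lo.mul_left (neg_mem (mul_mem h5.2.2 ?_)) ((h3.mul h3).mono (by omega))
      exact add_mem (add_mem (add_mem (add_mem (ofNat_mem _ _) (mul_mem (ofNat_mem _ _) h9))
        (mul_mem (ofNat_mem _ _) (pow_mem h9 _))) (mul_mem (ofNat_mem _ _) (pow_mem h9 _)))
        (pow_mem h9 _)
  obtain ⟨t, h1, h2⟩ := h K
  exact ⟨t, h1, h2.mono (by omega)⟩

theorem S6.ne_zero {z : F} (h : S6 z) : z ≠ 0 :=
  let ⟨_, _, h1⟩ := h; h1.left_ne (by norm_num)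
theorem S6.of_inU {z : F} (h : InU 3 z) : S6 z :=
  ⟨1, one_ne_zero, by simpa using h⟩
theorem S6.pow_six {t : F} (ht : t ≠ 0) : S6 (t ^ 6) :=
  ⟨t, ht, InU.div_self (pow_ne_zero 6 ht)⟩
theorem S6.mul {x y : F} (hx : S6 x) (hy : S6 y) : S6 (x * y) := by
  obtain ⟨s, h1, h2⟩ := hx
  obtain ⟨t, h3, h4⟩ := hy
  exact ⟨s * t, mul_ne_zero h1 h3, by rw [mul_pow]; exact h2.mul_div h4⟩
theorem S6.inv {x : F} (hx : S6 x) : S6 x⁻¹ := by
  obtain ⟨s, h1, h2⟩ := hx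
  exact ⟨s⁻¹, inv_ne_zero h1, by rw [inv_pow, inv_div_inv]; exact h2.symm (by norm_num)⟩
theorem Omg.one : Omg (1 : R F) :=
  ⟨isUnit_one, S6.of_inU (InU.one 3)⟩
theorem Omg.ne_zero {u : R F} (h : Omg u) : u ≠ 0 :=
  h.1.ne_zero
theorem Omg.coe_ne {u : R F} (h : Omg u) : (u : F) ≠ 0 :=
  h.2.ne_zero
theorem Omg.mul {u v : R F} (hu : Omg u) (hv : Omg v) : Omg (u * v) :=
  ⟨hu.1.mul hv.1, hu.2.mul hv.2⟩
theorem Omg.exists_inv {u : R F} (hu : Omg u) : ∃ v : R F, Omg v ∧ u * v = 1 := by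
  obtain ⟨v, hv⟩ := hu.1.exists_right_inv
  have h5 : (v : F) = (u : F)⁻¹ :=
    eq_inv_of_mul_eq_one_right (by rw [← Subring.coe_mul, hv, Subring.coe_one])
  exact ⟨v, ⟨IsUnit.of_mul_eq_one_right u hv, h5 ▸ hu.2.inv⟩, hv⟩
theorem Omg.of_inU {u : R F} (hu : IsUnit u) (h : InU 3 (u : F)) : Omg u :=
  ⟨hu, S6.of_inU h⟩
theorem Omg.pow_six {s : R F} (hs : IsUnit s) : Omg (s ^ 6) :=
  ⟨hs.pow 6, S6.pow_six (isUnit_iff_inv.1 hs).1⟩

theorem mem_Eu {e : ℕ} (he : 1 ≤ e) {u : Fˣ} :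
    u ∈ Eu F e ↔ ∃ x : R F, IsUnit x ∧ InU e (x : F) ∧ (x : F) = (u : F) := by
  refine ⟨fun h => ?_, fun h => Subgroup.subset_closure h⟩
  induction h using Subgroup.closure_induction with
  | mem x hx => exact hx
  | one => exact ⟨1, isUnit_one, InU.one e, rfl⟩
  | mul x y _ _ hx hy =>
    obtain ⟨a, h1, h2, h3⟩ := hx
    obtain ⟨b, h4, h5, h6⟩ := hy
    exact ⟨a * b, h1.mul h4, h2.mul h5, by rw [Subring.coe_mul, h3, h6, Units.val_mul]⟩
  | inv x _ hx =>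
    obtain ⟨a, h1, h2, h3⟩ := hx
    obtain ⟨h4, h5⟩ := isUnit_iff_inv.1 h1
    exact ⟨⟨_, h5⟩, isUnit_iff_inv.2 ⟨inv_ne_zero h4, by simp⟩, h2.inv he, by
      rw [Units.val_inv_eq_inv_val, ← h3]⟩
theorem unitGrp_Eu {e : ℕ} (he : 1 ≤ e) : UnitGrp (Eu F e) := by
  refine ⟨fun u hu => ?_, ?_⟩
  · obtain ⟨x, -, h1, h2⟩ := (mem_Eu he).1 hu
    exact h2 ▸ int_of_mem x.2 h1.mem
  · let J : Ideal (𝓞 F) := Ideal.span {((Ctx0.M F : ℕ) : 𝓞 F) ^ e}
    have : Finite (𝓞 F ⧸ J) := Ideal.finiteQuotientOfFreeOfNeBot J (by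
      rw [Ne, Ideal.span_singleton_eq_bot]
      exact pow_ne_zero e (Nat.cast_ne_zero.2 Ctx0.M_ne))
    refine ⟨Nat.card (𝓞 F ⧸ J)ˣ, Nat.card_pos, fun u h1 h2 => ?_⟩
    let a : (𝓞 F)ˣ := ⟨⟨u, h1⟩, ⟨(u⁻¹ : Fˣ), h2⟩, Subtype.ext u.mul_inv, Subtype.ext u.inv_mul⟩
    have h3 := congrArg Units.val
      (pow_card_eq_one' (x := Units.map (Ideal.Quotient.mk J).toMonoidHom a))
    generalize Nat.card (𝓞 F ⧸ J)ˣ = k at h3
    have h4 : Ideal.Quotient.mk J ((a : 𝓞 F) ^ k) = Ideal.Quotient.mk J 1 := by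
      rw [map_pow, map_one]
      simpa using h3
    obtain ⟨c, hc⟩ := Ideal.mem_span_singleton'.1 (Ideal.Quotient.eq.1 h4)
    have h5 : (u : F) ^ k - 1 = c * MF F ^ e := by
      have := congrArg (algebraMap (𝓞 F) F) hc
      simp only [map_mul, map_pow, map_natCast, map_sub, map_one] at this
      exact this.symm
    refine (mem_Eu he).2 ⟨⟨u, int_mem_R h1⟩ ^ k, IsUnit.pow k (isUnit_iff_inv.2
      ⟨u.ne_zero, int_mem_R (by simpa using h2)⟩), ?_, by simp⟩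
    show Lo e ((u : F) ^ k - 1)
    rw [h5]
    exact Lo.mul_left (int_mem_Ol c.isIntegral_coe) (Lo_MF_pow e)
theorem ring_su {e : ℕ} (he : 1 ≤ e) (a b : (R F)ˣ) : (QuotientGroup.mk a : (R F)ˣ ⧸
    (Eu F e).comap (Units.map (Rr F (Ctx0.M F)).subtype.toMonoidHom)) = QuotientGroup.mk b ↔
      InU e (((b : R F) : F) / (a : R F)) := by
  rw [QuotientGroup.eq, Subgroup.mem_comap, mem_Eu he]
  have h1 : (((a⁻¹ * b : (R F)ˣ) : R F) : F) = ((b : R F) : F) / (a : R F) := by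
    have ha : ((a : R F) : F) ≠ 0 := (isUnit_iff_inv.1 a.isUnit).1
    rw [eq_div_iff ha, ← Subring.coe_mul, ← Units.val_mul, mul_comm, mul_inv_cancel_left]
  rw [← h1]
  exact ⟨fun ⟨x, _, h2, h3⟩ => by rw [h3] at h2; exact h2, fun h => ⟨_, Units.isUnit _, h, rfl⟩⟩
theorem SU_unit {e : ℕ} {s : R F} (h : s ∈ SU F e) : IsUnit s := by obtain ⟨q, rfl⟩ := h; exact Units.isUnit _
theorem SU_ex {e : ℕ} (he : 1 ≤ e) {u : R F} (hu : IsUnit u) :
    ∃! s : R F, s ∈ SU F e ∧ InU e ((u : F) / s) := by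
  obtain ⟨u, rfl⟩ := hu
  refine ⟨_, ⟨⟨QuotientGroup.mk u, rfl⟩, (ring_su he _ u).1 (QuotientGroup.out_eq' _)⟩, ?_⟩
  rintro _ ⟨⟨q, rfl⟩, h⟩
  rw [← (ring_su he _ u).2 h, QuotientGroup.out_eq']

theorem ring_cl {z : Fˣ} :
    z ∈ Subgroup.closure {z : Fˣ | ∃ u : R F, Omg u ∧ InU 3 ((z : F) / u)} ↔
      ∃ u : R F, Omg u ∧ InU 3 ((z : F) / u) := by
  refine ⟨fun h => ?_, fun h => Subgroup.subset_closure h⟩
  induction h using Subgroup.closure_induction with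
  | mem x hx => exact hx
  | one => exact ⟨1, Omg.one, by simpa using InU.one 3⟩
  | mul x y _ _ hx hy =>
    obtain ⟨u, h1, h2⟩ := hx
    obtain ⟨v, h3, h4⟩ := hy
    exact ⟨u * v, h1.mul h3, by simpa using h2.mul_div h4⟩
  | inv x _ hx =>
    obtain ⟨u, h1, h2⟩ := hx
    obtain ⟨v, h3, h4⟩ := h1.exists_inv
    have h5 : (v : F) = (u : F)⁻¹ :=
      eq_inv_of_mul_eq_one_right (by rw [← Subring.coe_mul, h4, Subring.coe_one])
    refine ⟨v, h3, ?_⟩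
    rw [h5, Units.val_inv_eq_inv_val, inv_div_inv]
    exact h2.symm (by norm_num)
theorem ring_cls (z : Fˣ) : cls (z : F) = QuotientGroup.mk z := by
  exact (dif_neg z.ne_zero).trans (congrArg QuotientGroup.mk (Units.mk0_val z z.ne_zero))

theorem cls_one : cls (1 : F) = 1 :=
  ring_cls 1
theorem cls_mul {x y : F} (hx : x ≠ 0) (hy : y ≠ 0) : cls (x * y) = cls x * cls y := by
  lift x to Fˣ using hx.isUnit
  lift y to Fˣ using hy.isUnit
  rw [← Units.val_mul, ring_cls, ring_cls, ring_cls]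
  rfl
theorem cls_inv (x : F) : cls x⁻¹ = (cls x)⁻¹ := by
  rcases eq_or_ne x 0 with rfl | hx
  · simp [cls]
  lift x to Fˣ using hx.isUnit
  rw [← Units.val_inv_eq_inv_val, ring_cls, ring_cls]
  rfl
theorem cls_div {x y : F} (hx : x ≠ 0) (hy : y ≠ 0) : cls (x / y) = cls x / cls y := by rw [div_eq_mul_inv, cls_mul hx (inv_ne_zero hy), cls_inv, div_eq_mul_inv]
theorem cls_pow {x : F} (hx : x ≠ 0) (k : ℕ) : cls (x ^ k) = cls x ^ k := by
  lift x to Fˣ using hx.isUnit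
  rw [← Units.val_pow_eq_pow_val, ring_cls, ring_cls]
  rfl
theorem cls_eq_iff {x y : F} (hx : x ≠ 0) (hy : y ≠ 0) :
    cls x = cls y ↔ ∃ u : R F, Omg u ∧ InU 3 ((u : F) * x / y) := by
  lift x to Fˣ using hx.isUnit
  lift y to Fˣ using hy.isUnit
  rw [ring_cls, ring_cls]
  refine (QuotientGroup.eq.trans ring_cl).trans (exists_congr fun u => and_congr_right fun _ => ?_)
  have : ((x⁻¹ * y : Fˣ) : F) / u = y / (u * x) := by
    rw [Units.val_mul, Units.val_inv_eq_inv_val]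
    ring
  rw [this]
  exact ⟨fun h => h.symm (by norm_num), fun h => h.symm (by norm_num)⟩
theorem cls_of_inU {x y : F} (h : InU 3 (x / y)) : cls x = cls y :=
  (cls_eq_iff (h.left_ne (by norm_num)) (h.right_ne (by norm_num))).2
    ⟨1, Omg.one, by simpa using h⟩
theorem cls_omg {u : R F} (hu : Omg u) (x : F) : cls ((u : F) * x) = cls x := by
  rcases eq_or_ne x 0 with rfl | hx
  · rw [mul_zero]
  have h0 := mul_ne_zero hu.coe_ne hx
  exact ((cls_eq_iff hx h0).2 ⟨u, hu, InU.div_self h0⟩).symm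
theorem rep_ne (κ : Cl F) : rep κ ≠ 0 :=
  Units.ne_zero _
theorem cls_rep (κ : Cl F) : cls (rep κ) = κ :=
  (ring_cls _).trans (QuotientGroup.out_eq' κ)
theorem tw_omg (z : F) : Omg (tw z) := by
  unfold tw
  split_ifs with h
  exacts [h.choose_spec.1, Omg.one]
theorem tw_inU {z : F} (hz : z ≠ 0) : InU 3 ((tw z : F) * z / rep (cls z)) := by
  have h := (cls_eq_iff hz (rep_ne (cls z))).1 (cls_rep _).symm
  unfold tw
  rw [dif_pos h]
  exact h.choose_spec.2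
theorem tilde_inU {c : R F} (hc : c ≠ 0) : InU 3 ((tilde c : F) / rep (cls (c : F))) :=
  tw_inU fun h => hc (Subtype.ext h)
theorem sameO_of_cls {x y : F} (hx : x ≠ 0) (hy : y ≠ 0) (h : cls x = cls y) : SameO x y :=
  let ⟨u, h1, h2⟩ := (cls_eq_iff hx hy).1 h; ⟨u, h1.1, h2.olU (by norm_num)⟩
theorem SameO.refl {x : F} (hx : x ≠ 0) : SameO x x :=
  ⟨1, isUnit_one, by simpa [hx] using OlU.one (F := F)⟩
theorem SameO.symm {x y : F} (h : SameO x y) : SameO y x := by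
  obtain ⟨s, h1, h2⟩ := h
  obtain ⟨h3, h4⟩ := isUnit_iff_inv.1 h1
  refine ⟨⟨_, h4⟩, isUnit_iff_inv.2 ⟨inv_ne_zero h3, by simp⟩, ?_⟩
  have : (s : F)⁻¹ * y / x = ((s : F) * x / y)⁻¹ := by rw [inv_div]; ring
  exact this ▸ h2.inv
theorem SameO.trans {x y z : F} (h : SameO x y) (h' : SameO y z) : SameO x z := by
  obtain ⟨s, h1, h2⟩ := h
  obtain ⟨t, h3, h4⟩ := h'
  have hy : y ≠ 0 := (div_ne_zero_iff.1 h2.1).2
  refine ⟨s * t, h1.mul h3, ?_⟩
  have : ((s * t : R F) : F) * x / z = (s : F) * x / y * ((t : F) * y / z) := by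
    push_cast
    field_simp
  exact this ▸ h2.mul h4
theorem SameO.mul {x y x' y' : F} (h : SameO x y) (h' : SameO x' y') :
    SameO (x * x') (y * y') := by
  obtain ⟨s, h1, h2⟩ := h
  obtain ⟨t, h3, h4⟩ := h'
  refine ⟨s * t, h1.mul h3, ?_⟩
  have : ((s * t : R F) : F) * (x * x') / (y * y') = (s : F) * x / y * ((t : F) * x' / y') := by
    push_cast
    ring
  exact this ▸ h2.mul h4

theorem Per.congr {q : R F} {G : R F → ℂ} (hG : Per q G) {x y : R F} (h : InU 3 ((x : F) / y))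
    (hq : q ∣ x - y) : G x = G y := hG.1 x y h hq
theorem Per.of_dvd {q q' : R F} {G : R F → ℂ} (hG : Per q G) (h : q ∣ q') : Per q' G :=
  ⟨fun x y h1 h2 => hG.1 x y h1 (h.trans h2), hG.2⟩
theorem Per.mul {q : R F} {G H : R F → ℂ} (hG : Per q G) (hH : Per q H) :
    Per q (fun x => G x * H x) :=
  ⟨fun x y h1 h2 => congrArg₂ (· * ·) (hG.1 x y h1 h2) (hH.1 x y h1 h2),
    fun u x hu => congrArg₂ (· * ·) (hG.2 u x hu) (hH.2 u x hu)⟩
theorem Per.conj {q : R F} {G : R F → ℂ} (hG : Per q G) : Per q (fun x => conj (G x)) :=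
  ⟨fun x y h1 h2 => congrArg _ (hG.1 x y h1 h2), fun u x hu => congrArg _ (hG.2 u x hu)⟩
theorem Per.const (q : R F) (z : ℂ) : Per q (fun _ => z) :=
  ⟨fun _ _ _ _ => rfl, fun _ _ _ => rfl⟩
theorem Per.comp_mul {q : R F} {G : R F → ℂ} (hG : Per q G) {s : R F} (hs : s ≠ 0) :
    Per q (fun x => G (s * x)) := by
  refine ⟨fun x y h1 h2 => hG.1 _ _ ?_ ?_, fun u x hu => ?_⟩
  · exact (InU.div_self fun h => hs (Subtype.ext h)).mul_div h1
  · rw [← mul_sub]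
    exact h2.mul_left s
  · exact (congrArg G (mul_left_comm s u x)).trans (hG.2 u _ hu)
theorem Per.comp_mul' {q : R F} {G : R F → ℂ} (hG : Per q G) {s : R F} (hs : s ≠ 0) :
    Per q (fun x => G (x * s)) := by simpa only [mul_comm s] using hG.comp_mul hs
theorem per_cop (D : R F) : Per D (cop D) := by
  refine ⟨fun x y _ ⟨t, ht⟩ => ?_, fun u x hu => ?_⟩
  · rw [cop, cop, show x = y + D * t by linear_combination ht, IsCoprime.add_mul_left_left_iff]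
  · rw [cop, cop, isCoprime_mul_unit_left_left hu.1]
theorem per_clsI (q : R F) (κ : Cl F) : Per q (clsI κ) :=
  ⟨fun x y h _ => by rw [clsI, clsI, cls_of_inU h],
    fun u x hu => by rw [clsI, clsI, Subring.coe_mul, cls_omg hu]⟩
/-- A class function is periodic. -/
theorem Per.of_cls (q : R F) {G : R F → ℂ}
    (h : ∀ x y : R F, x ≠ 0 → y ≠ 0 → cls (x : F) = cls (y : F) → G x = G y) : Per q G := by
  refine ⟨fun x y h1 _ => h x y (fun h2 => h1.left_ne (by norm_num) (by simp [h2]))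
    (fun h2 => h1.right_ne (by norm_num) (by simp [h2])) (cls_of_inU h1), fun u x hu => ?_⟩
  rcases eq_or_ne x 0 with rfl | hx
  · rw [mul_zero]
  · exact h _ _ (mul_ne_zero hu.ne_zero hx) hx (cls_omg hu _)
theorem Per.eq_of_cls {G : R F → ℂ} (hG : Per 1 G) {x y : R F} (hx : x ≠ 0) (hy : y ≠ 0)
    (h : cls (x : F) = cls (y : F)) : G x = G y := by
  obtain ⟨u, h1, h2⟩ := (cls_eq_iff (fun h => hx (Subtype.ext h))
    (fun h => hy (Subtype.ext h))).1 h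
  exact (hG.2 u x h1).symm.trans (hG.1 _ _ h2 (one_dvd _))
theorem norm_clsI_le (κ : Cl F) (c : R F) : ‖clsI κ c‖ ≤ 1 := by unfold clsI; split_ifs <;> simp
theorem norm_cop_le (D c : R F) : ‖cop D c‖ ≤ 1 := by unfold cop; split_ifs <;> simp

end Vale.Agent.P319B
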