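import Mathlib

/-! Valuations of Gauss sums of powers of the Teichmueller character. -/

namespace Vale.Agent.P319B

open scoped Classical

open Finset

variable {k : Type} [Field k] [Fintype k] {l f : ℕ}

theorem skA_trace [Fact l.Prime] [CharP k l] (hN : Fintype.card k = l ^ f) :
    ∃ T : k →+ ZMod l, ∀ x, (((T x).val : ℕ) : k) = ∑ i ∈ range f, x ^ l ^ i := by
  let := ZMod.algebra k l
  have hf : Module.finrank (ZMod l) k = f := by
    have h1 := Module.card_eq_pow_finrank (K := ZMod l) (V := k)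
    rw [ZMod.card, hN] at h1
    exact (Nat.pow_right_injective (Fact.out : l.Prime).two_le h1).symm
  refine ⟨(Algebra.trace (ZMod l) k).toAddMonoidHom, fun x => ?_⟩
  have h2 := FiniteField.algebraMap_trace_eq_sum_pow (ZMod l) k x
  rw [hf, Nat.card_zmod] at h2
  rw [← h2, ← map_natCast (algebraMap (ZMod l) k), ZMod.natCast_zmod_val]
  rfl

theorem skA_trace_frob [Fact l.Prime] [CharP k l] (hN : Fintype.card k = l ^ f) {T : k →+ ZMod l}
    (hT : ∀ x, (((T x).val : ℕ) : k) = ∑ i ∈ range f, x ^ l ^ i) (x : k) : T (x ^ l) = T x := by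
  have h1 : (((T (x ^ l)).val : ℕ) : k) = (((T x).val : ℕ) : k) := by
    rw [hT, hT]
    have h2 := sum_range_succ (fun i => x ^ l ^ i) f
    rw [sum_range_succ', ← hN, FiniteField.pow_card, pow_zero, pow_one, add_left_inj] at h2
    rw [← h2]
    exact sum_congr rfl fun i _ => by rw [← pow_mul, ← pow_succ']
  rw [CharP.natCast_eq_natCast k l, ← ZMod.natCast_eq_natCast_iff, ZMod.natCast_zmod_val,
    ZMod.natCast_zmod_val] at h1
  exact h1

theorem skA_sum (hl : l.Prime) (hN : Fintype.card k = l ^ f) :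
    ∑ x : k, x⁻¹ * ∑ i ∈ range f, x ^ l ^ i = -1 := by
  obtain _ | f := f
  · have := Fintype.one_lt_card (α := k)
    rw [hN, pow_zero] at this
    omega
  simp_rw [mul_sum]
  rw [sum_comm, sum_range_succ', sum_eq_zero, zero_add]
  · have h1 : ∀ x : k, x⁻¹ * x ^ l ^ 0 = 1 - if x = 0 then 1 else 0 := by
      intro x
      by_cases hx : x = 0 <;> simp [hx]
    simp only [h1, sum_sub_distrib, sum_const, card_univ, nsmul_one, FiniteField.cast_card_eq_zero,
      sum_ite_eq', mem_univ, if_true, zero_sub]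
  · intro i hi
    have h1 : 1 < l ^ (i + 1) := Nat.one_lt_pow (by omega) hl.one_lt
    have h2 : l ^ (i + 1) < l ^ (f + 1) :=
      Nat.pow_lt_pow_right hl.one_lt (by simpa using hi)
    rw [← FiniteField.sum_pow_lt_card_sub_one k (l ^ (i + 1) - 1) (by omega)]
    refine sum_congr rfl fun x _ => ?_
    obtain ⟨m, hm⟩ : ∃ m, l ^ (i + 1) = m + 2 := ⟨l ^ (i + 1) - 2, by omega⟩
    rw [hm]
    by_cases hx : x = 0
    · simp [hx]
    · rw [pow_succ', inv_mul_cancel_left₀ hx]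
      rfl

variable {B κ : Type} [CommRing B] [IsDomain B] [Field κ]

theorem skA_root_eq (r : B →+* κ) {n : ℕ} (hn : (n : κ) ≠ 0) {x y : B} (hx : x ^ n = 1)
    (hy : y ^ n = 1) (h : r x = r y) : x = y := by
  by_contra hne
  have h1 := (Commute.all x y).geom_sum₂_mul n
  rw [hx, hy, sub_self] at h1
  have h2 := congrArg r ((mul_eq_zero.1 h1).resolve_right (sub_ne_zero.2 hne))
  simp only [map_sum, map_mul, map_pow, map_zero, h] at h2
  rw [geom_sum₂_self] at h2
  have h3 : r y ≠ 0 := by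
    intro h0
    have := congrArg r hy
    rw [map_pow, h0, map_one, zero_pow (by rintro rfl; simp at hn)] at this
    exact zero_ne_one this
  exact mul_ne_zero hn (pow_ne_zero _ h3) h2

theorem skA_cast_ne (ι : k →+* κ) : ((Fintype.card k - 1 : ℕ) : κ) ≠ 0 := by
  rw [Nat.cast_pred Fintype.card_pos, ← map_natCast ι, FiniteField.cast_card_eq_zero]
  simp

theorem skA_teich (r : B →+* κ) (ι : k →+* κ) {μ : B}
    (hμ : IsPrimitiveRoot μ (Fintype.card k - 1)) :
    ∃ ω : MulChar k B, ∀ x, r (ω x) = ι x := by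
  have hn := skA_cast_ne ι
  have hn0 : Fintype.card k - 1 ≠ 0 := by
    intro h
    rw [h] at hn
    simp at hn
  have : NeZero (Fintype.card k - 1) := ⟨hn0⟩
  have hr : IsPrimitiveRoot (r μ) (Fintype.card k - 1) := by
    refine ⟨by rw [← map_pow, hμ.pow_eq_one, map_one], fun m hm => hμ.dvd_of_pow_eq_one m ?_⟩
    refine skA_root_eq r hn ?_ (one_pow _) (by rw [map_pow, hm, map_one])
    rw [← pow_mul, mul_comm, pow_mul, hμ.pow_eq_one, one_pow]
  have h : ∀ x : k, ∃ η : B, (x ≠ 0 → η ^ (Fintype.card k - 1) = 1) ∧ (x = 0 → η = 0) ∧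
      r η = ι x := by
    intro x
    by_cases hx : x = 0
    · exact ⟨0, fun h => absurd hx h, fun _ => rfl, by rw [hx, map_zero, map_zero]⟩
    · obtain ⟨i, -, hi⟩ := hr.eq_pow_of_pow_eq_one (ξ := ι x)
        (by rw [← map_pow, FiniteField.pow_card_sub_one_eq_one x hx, map_one])
      refine ⟨μ ^ i, fun _ => ?_, fun h => absurd h hx, by rw [map_pow, hi]⟩
      rw [← pow_mul, mul_comm, pow_mul, hμ.pow_eq_one, one_pow]
  choose η h1 h2 h3 using h
  refine ⟨⟨⟨⟨η, ?_⟩, fun x y => ?_⟩, fun x hx => h2 x ?_⟩, h3⟩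
  · exact skA_root_eq r hn (h1 1 one_ne_zero) (one_pow _) (by rw [h3, map_one, map_one])
  · show η (x * y) = η x * η y
    by_cases hx : x = 0
    · rw [h2 x hx, h2 _ (by rw [hx, zero_mul]), zero_mul]
    by_cases hy : y = 0
    · rw [h2 y hy, h2 _ (by rw [hy, mul_zero]), mul_zero]
    refine skA_root_eq r hn (h1 _ (mul_ne_zero hx hy)) ?_ ?_
    · rw [mul_pow, h1 x hx, h1 y hy, one_mul]
    · rw [map_mul, h3, h3, h3, map_mul]
  · simpa using hx

variable {Γ : Type} [LinearOrderedCommGroupWithZero Γ]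

theorem skA_add (v : Valuation B Γ) (hv : ∀ x, v x ≤ 1) {ψ : AddChar k B} (hψ : ψ ≠ 1)
    (χ φ : MulChar k B) : v (gaussSum χ ψ) * v (gaussSum φ ψ) ≤ v (gaussSum (χ * φ) ψ) := by
  by_cases h : χ * φ = 1
  · rw [h, gaussSum_one_left hψ, v.map_neg, v.map_one]
    exact mul_le_one' (hv _) (hv _)
  · rw [← v.map_mul, ← jacobiSum_mul_nontrivial h, v.map_mul]
    exact mul_le_of_le_one_right' (hv _)

omit [IsDomain B] in
theorem skA_frob [Fact l.Prime] [CharP k l] {ψ : AddChar k B} (hψ : ∀ x, ψ (x ^ l) = ψ x)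
    (χ : MulChar k B) : gaussSum (χ ^ l) ψ = gaussSum χ ψ := by
  unfold gaussSum
  refine Fintype.sum_bijective (frobenius k l)
    (Finite.injective_iff_bijective.1 (frobenius k l).injective) _ _ fun x => ?_
  rw [frobenius_def, hψ, map_pow, MulChar.pow_apply' _ (Fact.out : l.Prime).ne_zero]

theorem skA_one [Fact l.Prime] [CharP k l] (hN : Fintype.card k = l ^ f)
    (h2 : 2 < Fintype.card k) (v : Valuation B Γ) (r : B →+* κ) (hr : ∀ x, r x ≠ 0 → v x = 1)
    (ι : k →+* κ) {ω : MulChar k B} (hω : ∀ x, r (ω x) = ι x) {z : B} (hz : z ^ l = 1)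
    {T : k →+ ZMod l} (hT : ∀ x, (((T x).val : ℕ) : k) = ∑ i ∈ range f, x ^ l ^ i)
    {ψ : AddChar k B} (hψ : ∀ x, ψ x = z ^ (T x).val) : v (gaussSum ω⁻¹ ψ) = v (z - 1) := by
  have : CharP κ l := charP_of_injective_ringHom ι.injective l
  have hz1 : r z = 1 := by
    have h1 : (r z - 1) ^ l = 0 := by
      rw [sub_pow_char, ← map_pow, hz, map_one, one_pow, sub_self]
    exact sub_eq_zero.1 (pow_eq_zero_iff (Fact.out : l.Prime).ne_zero |>.1 h1)
  have hne : ω⁻¹ ≠ 1 := by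
    intro h
    rw [inv_eq_one] at h
    obtain ⟨x, hx⟩ : ∃ x : k, x ∉ ({0, 1} : Finset k) := by
      by_contra hc
      push Not at hc
      have := card_le_card (fun x _ => hc x : (univ : Finset k) ⊆ {0, 1})
      rw [card_univ] at this
      exact absurd (this.trans card_le_two) (by omega)
    simp only [mem_insert, mem_singleton, not_or] at hx
    have h1 := hω x
    rw [h, MulChar.one_apply (isUnit_iff_ne_zero.2 hx.1), map_one, ← map_one ι] at h1
    exact hx.2 (ι.injective h1).symm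
  have h0 := MulChar.sum_eq_zero_of_ne_one hne
  have h1 : gaussSum ω⁻¹ ψ = (∑ x, ω⁻¹ x * ∑ i ∈ range (T x).val, z ^ i) * (z - 1) := by
    rw [sum_mul, ← sub_zero (gaussSum _ _), ← h0, gaussSum, ← sum_sub_distrib]
    refine sum_congr rfl fun x _ => ?_
    rw [mul_assoc, geom_sum_mul, hψ]
    ring
  rw [h1, v.map_mul, hr, one_mul]
  have h3 : r (∑ x, ω⁻¹ x * ∑ i ∈ range (T x).val, z ^ i) =
      ι (∑ x : k, x⁻¹ * ∑ i ∈ range f, x ^ l ^ i) := by
    rw [map_sum, map_sum]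
    refine sum_congr rfl fun x _ => ?_
    rw [map_mul, map_mul, MulChar.inv_apply', hω, ← hT, map_natCast, map_sum]
    simp only [map_pow, hz1, one_pow, sum_const, card_range, nsmul_one]
  rw [h3, skA_sum Fact.out hN]
  simp

theorem skA_digits [Fact l.Prime] [CharP k l] (v : Valuation B Γ) (hv : ∀ x, v x ≤ 1)
    {ψ : AddChar k B} (hψ : ψ ≠ 1) (hψ' : ∀ x, ψ (x ^ l) = ψ x) (θ : MulChar k B) (q t n : ℕ) :
    ∃ D C : ℕ, q * D + t * l ^ n % q = l ^ n * (t % q) ∧
      q * C + t * l ^ n % q + ∑ i ∈ range n, t * l ^ i % q =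
        t % q + l * ∑ i ∈ range n, t * l ^ i % q ∧
      v (gaussSum θ ψ) ^ C ≤ v (gaussSum (θ ^ D) ψ) := by
  have h0 : v (gaussSum (θ ^ 0) ψ) = 1 := by
    rw [pow_zero, gaussSum_one_left hψ, v.map_neg, v.map_one]
  have h1 : ∀ c : ℕ, v (gaussSum θ ψ) ^ c ≤ v (gaussSum (θ ^ c) ψ) := by
    intro c
    induction c with
    | zero => rw [h0, pow_zero]
    | succ c ih =>
      rw [pow_succ, pow_succ]
      exact (mul_le_mul_left ih _).trans (skA_add v hv hψ _ _)
  induction n with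
  | zero => exact ⟨0, 0, by simp, by simp, by rw [h0, pow_zero]⟩
  | succ n ih =>
    obtain ⟨D, C, e1, e2, e3⟩ := ih
    have e4 : q * (l * (t * l ^ n % q) / q) + t * l ^ (n + 1) % q = l * (t * l ^ n % q) := by
      have := Nat.div_add_mod (l * (t * l ^ n % q)) q
      rw [Nat.mul_mod_mod, show l * (t * l ^ n) = t * l ^ (n + 1) by ring] at this
      exact this
    refine ⟨D * l + l * (t * l ^ n % q) / q, C + l * (t * l ^ n % q) / q, ?_, ?_, ?_⟩
    · rw [pow_succ l n, mul_add, add_assoc, ← pow_succ l n, e4, pow_succ' l n, mul_assoc l,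
        ← e1]
      ring
    · rw [sum_range_succ, mul_add, mul_add]
      omega
    · rw [pow_add, pow_add θ, pow_mul θ]
      refine (mul_le_mul' e3 (h1 _)).trans ?_
      rw [← skA_frob hψ' (θ ^ D)]
      exact skA_add v hv hψ _ _

theorem skA_pi (v : Valuation B Γ) (hv : ∀ x, v x ≤ 1) {z : B} {n : ℕ}
    (hz : IsPrimitiveRoot z (n + 1)) : v ((n + 1 : ℕ) : B) ≤ v (z - 1) ^ n := by
  rw [Nat.cast_succ, ← hz.prod_one_sub_pow_eq_order, map_prod]
  conv_rhs => rw [← card_range n, ← prod_const]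
  refine prod_le_prod' fun i _ => ?_
  rw [← neg_sub, v.map_neg, ← geom_sum_mul, v.map_mul]
  exact mul_le_of_le_one_left' (hv _)

/-- The core of the theorem of Stickelberger. -/
theorem skA_core [Fact l.Prime] [CharP k l] (hN : Fintype.card k = l ^ f)
    (h2 : 2 < Fintype.card k) (v : Valuation B Γ) (hv : ∀ x, v x ≤ 1) (r : B →+* κ)
    (hr : ∀ x, r x ≠ 0 → v x = 1) (ι : k →+* κ) {ω : MulChar k B} (hω : ∀ x, r (ω x) = ι x)
    {z : B} (hz : IsPrimitiveRoot z l) :
    ∃ ψ : AddChar k B, ψ ≠ 1 ∧ ∀ q d t : ℕ, l ^ f = q * d + 1 → t < q →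
      v (l : B) ^ (∑ i ∈ range f, t * l ^ i % q) ≤ v (gaussSum (ω⁻¹ ^ (d * t)) ψ) ^ q := by
  have hl : l.Prime := Fact.out
  obtain ⟨T, hT⟩ := skA_trace hN
  let ψ : AddChar k B := (AddChar.zmodChar l hz.pow_eq_one).compAddMonoidHom T
  have hψ : ∀ x, ψ x = z ^ (T x).val := fun _ => rfl
  have hψ1 : ψ ≠ 1 := by
    intro h
    have h1 := skA_sum hl hN
    rw [sum_eq_zero] at h1
    · exact one_ne_zero (neg_eq_zero.1 h1.symm)
    intro x _
    have h3 := hψ x
    rw [h, AddChar.one_apply] at h3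
    rw [← hT, Nat.eq_zero_of_dvd_of_lt (hz.dvd_of_pow_eq_one _ h3.symm) (ZMod.val_lt _)]
    simp
  refine ⟨ψ, hψ1, fun q d t hd ht => ?_⟩
  obtain ⟨D, C, e1, e2, e3⟩ := skA_digits v hv hψ1
    (fun x => by rw [hψ, hψ, skA_trace_frob hN hT]) ω⁻¹ q t f
  have e4 : t * l ^ f % q = t := by
    rw [hd, mul_add, mul_one, mul_left_comm, Nat.mul_add_mod, Nat.mod_eq_of_lt ht]
  rw [e4, Nat.mod_eq_of_lt ht] at e1 e2
  have e5 : D = d * t := by
    refine Nat.eq_of_mul_eq_mul_left (by omega : 0 < q) ?_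
    rw [hd, add_mul, one_mul, mul_assoc] at e1
    omega
  obtain ⟨n, rfl⟩ : ∃ n, l = n + 1 := ⟨l - 1, by have := hl.pos; omega⟩
  have e6 : C * q = n * ∑ i ∈ range f, t * (n + 1) ^ i % q := by
    rw [add_mul, one_mul, mul_comm q] at e2
    omega
  rw [skA_one hN h2 v r hr ι hω hz.pow_eq_one hT hψ, e5] at e3
  refine le_trans ?_ (pow_le_pow_left' e3 q)
  rw [← pow_mul, e6, pow_mul]
  exact pow_le_pow_left' (skA_pi v hv hz) _

end Vale.Agent.P319B
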