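import Vale.Agent.P319B.Prs
import Vale.Agent.P319B.StickA

/-! The upper bound in the theorem of Stickelberger. -/

namespace Vale.Agent.P319B

open Complex NumberField
open scoped Classical ComplexConjugate
open Vale.Agent.P026 (w kk fk)

variable {F : Type} [Field F] [NumberField F] {q : ℕ} {ζ : 𝓞 F}

theorem sk_val {P : Ideal (𝓞 F)} (hP : P.IsMaximal) :
    ∃ (V : ValuationSubring ℂ) (φ : 𝓞 F →+* V),
      ∀ x, x ∈ P ↔ φ x ∈ IsLocalRing.maximalIdeal V := by
  obtain ⟨σ⟩ : Nonempty (F →+* ℂ) := inferInstance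
  let g : 𝓞 F →+* ℂ := σ.comp (algebraMap (𝓞 F) F)
  have hg : Function.Injective g := σ.injective.comp (RingOfIntegers.coe_injective)
  have hb : Function.Bijective g.rangeRestrict :=
    ⟨fun x y h => hg (congrArg Subtype.val h), g.rangeRestrict_surjective⟩
  obtain ⟨V, h1, h2⟩ := Ideal.image_subset_nonunits_valuationSubring (P.map g.rangeRestrict)
    (fun h => hP.ne_top ((Ideal.map_eq_top_of_bijective _ hb).1 h))
  let φ : 𝓞 F →+* V := g.codRestrict V.toSubring fun x => h1 ⟨x, rfl⟩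
  have h3 : P ≤ (IsLocalRing.maximalIdeal V).comap φ := fun x hx =>
    V.coe_mem_nonunits_iff.1 (h2 ⟨_, Ideal.mem_map_of_mem _ hx, rfl⟩)
  refine ⟨V, φ, fun x => ?_⟩
  rw [hP.eq_of_le (Ideal.comap_ne_top φ (IsLocalRing.maximalIdeal.isMaximal V).ne_top) h3]
  rfl

theorem sk_root (V : ValuationSubring ℂ) {n : ℕ} (hn : n ≠ 0) : ∃ z : V, IsPrimitiveRoot z n := by
  have h := Complex.isPrimitiveRoot_exp n hn
  have h1 := congrArg V.valuation h.pow_eq_one
  rw [map_pow, map_one, pow_eq_one_iff_left hn] at h1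
  exact ⟨⟨_, V.mem_of_valuation_le_one _ h1.le⟩,
    IsPrimitiveRoot.coe_submonoidClass_iff.1 h⟩

theorem stick_le (h : PR q ζ) {P : Ideal (𝓞 F)} (hP : GoodP q P) (hu : Unram P) {Φ : 𝓞 F}
    (hΦ : IsPhi q ζ P Φ) {l f : ℕ} (hl : l.Prime) (hN : Ideal.absNorm P = l ^ f)
    (τ : F ≃ₐ[ℚ] F) {j : ℕ} (hj : P ^ j ∣ Ideal.span {τ • Φ}) :
    j ≤ ∑ i ∈ Finset.range f, ea q ζ τ * l ^ i % q := by
  have hpr := hP.1
  have hmax : P.IsMaximal := hpr.isMaximal hP.2.1
  let := Ideal.Quotient.field P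
  have := finite_quot_of_good hP
  have := Fintype.ofFinite (𝓞 F ⧸ P)
  have : Fact l.Prime := ⟨hl⟩
  have hcard : Fintype.card (𝓞 F ⧸ P) = Ideal.absNorm P := by
    rw [Ideal.absNorm_apply, Submodule.cardQuot_apply, Nat.card_eq_fintype_card]
  have hlP : (l : 𝓞 F) ∈ P := by
    have h1 := Ideal.absNorm_mem P
    rw [hN, Nat.cast_pow] at h1
    exact hpr.mem_of_pow_mem _ h1
  have : CharP (𝓞 F ⧸ P) l := (CharP.charP_iff_prime_eq_zero hl).2 (by
    rw [← map_natCast (Ideal.Quotient.mk P)]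
    exact Ideal.Quotient.eq_zero_iff_mem.2 hlP)
  obtain ⟨⟨d, hd⟩, hlt⟩ := dvd_absNorm_sub h hP
  obtain ⟨V, φ, hφ⟩ := sk_val hmax
  let r := IsLocalRing.residue V
  have hr0 : ∀ x, r (φ x) = 0 ↔ x ∈ P := fun x =>
    (IsLocalRing.residue_eq_zero_iff _).trans (hφ x).symm
  let ι : 𝓞 F ⧸ P →+* IsLocalRing.ResidueField V :=
    Ideal.Quotient.lift P (r.comp φ) fun x hx => (hr0 x).2 hx
  have hι : ∀ x, ι (Ideal.Quotient.mk P x) = r (φ x) := fun _ => rfl
  let v := V.valuation.comap V.subtype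
  have hv : ∀ x, v x ≤ 1 := fun x => V.valuation_le_one x
  have hr : ∀ x, r x ≠ 0 → v x = 1 := fun x hx =>
    (V.valuation_eq_one_iff x).1 ((IsLocalRing.residue_ne_zero_iff_isUnit x).1 hx)
  have hq2 := h.2.1
  obtain ⟨z, hz⟩ := sk_root V hl.ne_zero
  obtain ⟨μ, hμ⟩ := sk_root V (n := Fintype.card (𝓞 F ⧸ P) - 1) (by omega)
  obtain ⟨ω, hω⟩ := skA_teich r ι hμ
  obtain ⟨ψ, hψ, key⟩ := skA_core (hcard.trans hN) (by omega) v hv r hr ι hω hz
  obtain ⟨t0, tq, -⟩ := ea_spec h τ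
  replace key := key q d _ (by omega) tq
  have hd0 : d ≠ 0 := by
    rintro rfl
    omega
  have hdq : (Ideal.absNorm P - 1) / q = d := by rw [hd, Nat.mul_div_cancel_left _ (by omega)]
  have hqr : ((q : ℕ) : IsLocalRing.ResidueField V) ≠ 0 := by
    rw [← map_natCast r, ← map_natCast φ, Ne, hr0]
    exact hP.2.2
  have hΦ' := hΦ V (φ.comp (MulSemiringAction.toRingHom _ _ τ)) ψ
    (Nat.cast_ne_zero.2 (by omega)) (AddChar.IsPrimitive.of_ne_one hψ)
  have hterm : ∀ x : 𝓞 F ⧸ P, φ (τ • prs q ζ P x.out ^ (q - 1)) = (ω⁻¹ ^ (d * ea q ζ τ)) x := by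
    intro x
    rw [MulChar.pow_apply' _ (mul_ne_zero hd0 t0.ne')]
    by_cases hx : x.out ∈ P
    · have hx0 : x = 0 := by
        rw [← Ideal.Quotient.mk_out x]
        exact Ideal.Quotient.eq_zero_iff_mem.2 hx
      rw [(prs_eq_zero h hP).2 hx, zero_pow (by omega), smul_zero, map_zero, hx0, MulChar.map_zero,
        zero_pow (mul_ne_zero hd0 t0.ne')]
    · have hx0 : x ≠ 0 := fun h0 => hx (Ideal.Quotient.eq_zero_iff_mem.1 (by
        rw [Ideal.Quotient.mk_out, h0]))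
      have h1 := prs_pow_q h hP hx
      obtain ⟨i, h2, h3⟩ := prs_spec h hP hx
      rw [← h2, hdq, ← hr0, map_sub, map_sub, sub_eq_zero, map_pow, map_pow, ← hι,
        Ideal.Quotient.mk_out, ← hω, ← map_pow] at h3
      have h4 : ω x ^ d = φ (prs q ζ P x.out) := by
        refine skA_root_eq r hqr ?_ (by rw [← map_pow, h1, map_one]) h3
        rw [← pow_mul, mul_comm, ← hd, ← hcard, ← map_pow,
          FiniteField.pow_card_sub_one_eq_one x hx0, map_one]
      have h5 : ω⁻¹ x * ω x = 1 := by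
        rw [← MulChar.mul_apply, inv_mul_cancel, MulChar.one_apply (isUnit_iff_ne_zero.2 hx0)]
      have h6 : φ (prs q ζ P x.out ^ (q - 1)) * ω x ^ d = 1 := by
        rw [h4, ← map_mul, ← pow_succ, Nat.sub_add_cancel (by omega), h1, map_one]
      rw [smul_root h τ (by rw [← pow_mul, mul_comm, pow_mul, h1, one_pow]), map_pow, pow_mul]
      congr 1
      refine left_inv_eq_right_inv h6 ?_
      rw [← mul_pow, mul_comm, h5, one_pow]
  have hg : gaussSum (ω⁻¹ ^ (d * ea q ζ τ)) ψ ^ q = φ (τ • Φ) := by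
    refine Eq.trans ?_ hΦ'
    rw [finsum_eq_sum_of_fintype, gaussSum]
    exact congrArg (· ^ q) (Finset.sum_congr rfl fun x _ => by rw [← hterm]; rfl)
  rw [← v.map_pow (gaussSum _ _), hg] at key
  obtain ⟨J, hJ⟩ : P ∣ Ideal.span {(l : 𝓞 F)} := Ideal.dvd_span_singleton.2 hlP
  obtain ⟨y, hy, hy'⟩ : ∃ y ∈ J, y ∉ P := by
    by_contra hc
    push Not at hc
    refine hu l hl hlP ?_
    rw [hJ, pow_two]
    exact mul_dvd_mul_left P (Ideal.dvd_iff_le.2 hc)
  have h7 : τ • Φ * y ^ j ∈ Ideal.span {(l : 𝓞 F) ^ j} := by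
    rw [← Ideal.span_singleton_pow, hJ, mul_pow]
    exact Ideal.mul_mem_mul (Ideal.dvd_span_singleton.1 hj) (Ideal.pow_mem_pow hy j)
  obtain ⟨c, hc⟩ := Ideal.mem_span_singleton.1 h7
  have h8 := congrArg (fun x => v (φ x)) hc
  simp only [map_mul, map_pow, map_natCast] at h8
  rw [hr _ (fun h0 => hy' ((hr0 y).1 h0)), one_pow, mul_one] at h8
  rw [h8] at key
  replace key := key.trans (mul_le_of_le_one_right' (hv _))
  have h9 : v (l : V) < 1 := by
    rw [← map_natCast φ]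
    exact (V.valuation_lt_one_iff _).1 ((hφ _).1 hlP)
  have h10 : 0 < v (l : V) := by
    rw [zero_lt_iff]
    exact (map_ne_zero V.valuation).2 (by simpa using hl.ne_zero)
  exact (pow_le_pow_iff_right_of_lt_one₀ h10 h9).1 key

end Vale.Agent.P319B
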