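import Vale.Agent.P319B.Stick
import Vale.Agent.P319B.PhiA

/-! The theorem of Stickelberger and Eisenstein reciprocity. -/

namespace Vale.Agent.P319B

open Complex NumberField
open scoped Classical ComplexConjugate
open Vale.Agent.P026 (w kk fk)

variable {F : Type} [Field F] [NumberField F] {q : ℕ} {ζ : 𝓞 F}


open scoped Pointwise

omit [NumberField F] in
theorem sk2_under {P : Ideal (𝓞 F)} (hP : P.IsPrime) {l : ℕ} (hl : l.Prime)
    (h : (l : 𝓞 F) ∈ P) : P.under ℤ = Ideal.span {(l : ℤ)} := by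
  have : Fact l.Prime := ⟨hl⟩
  refine ((Int.ideal_span_isMaximal_of_prime l).eq_of_le (Ideal.comap_ne_top _ hP.ne_top) ?_).symm
  rw [Ideal.span_singleton_le_iff_mem, Ideal.mem_comap, map_natCast]
  exact h

theorem sk2_span (τ : F ≃ₐ[ℚ] F) (x : 𝓞 F) : τ • Ideal.span {x} = Ideal.span {τ • x} := by
  rw [Ideal.smul_closure, Set.smul_set_singleton]

theorem sk2_frob [IsGalois ℚ F] (h : PR q ζ) {P : Ideal (𝓞 F)} (hP : GoodP q P) :
    ∃ (l f : ℕ) (φ : F ≃ₐ[ℚ] F), l.Prime ∧ (l : 𝓞 F) ∈ P ∧ Ideal.absNorm P = l ^ f ∧ φ • P = P ∧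
      φ • ζ = ζ ^ l ∧ ∀ i < f, ∀ j < f, φ ^ i = φ ^ j → i = j := by
  have hpr := hP.1
  have hmax : P.IsMaximal := hpr.isMaximal hP.2.1
  let := Ideal.Quotient.field P
  have := finite_quot_of_good hP
  have := Fintype.ofFinite (𝓞 F ⧸ P)
  have hcard : Fintype.card (𝓞 F ⧸ P) = Ideal.absNorm P := by
    rw [Ideal.absNorm_apply, Submodule.cardQuot_apply, Nat.card_eq_fintype_card]
  obtain ⟨l, hc⟩ := CharP.exists (𝓞 F ⧸ P)
  obtain ⟨f, hl, hf⟩ := FiniteField.card (𝓞 F ⧸ P) l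
  have hlP : (l : 𝓞 F) ∈ P := by
    rw [← Ideal.Quotient.eq_zero_iff_mem, map_natCast]
    exact CharP.cast_eq_zero _ l
  obtain ⟨φ, hφ⟩ := IsArithFrobAt.exists_of_isInvariant ℤ (F ≃ₐ[ℚ] F) P
  have hcd : Nat.card (ℤ ⧸ P.under ℤ) = l := by
    rw [sk2_under hpr hl hlP, Nat.card_congr (Int.quotientSpanNatEquivZMod l).toEquiv,
      Nat.card_zmod]
  have hst : φ • P = P := hφ.mem_stabilizer
  have h1 : ∀ x : 𝓞 F, φ • x - x ^ l ∈ P := fun x => hcd ▸ hφ x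
  have h2 : ∀ (i : ℕ) (x : 𝓞 F),
      Ideal.Quotient.mk P ((φ ^ i) • x) = Ideal.Quotient.mk P x ^ l ^ i := by
    intro i
    induction i with
    | zero => simp
    | succ i ih =>
      intro x
      rw [pow_succ', mul_smul, Ideal.Quotient.eq.2 (h1 _), map_pow, ih, ← pow_mul, ← pow_succ]
  have h3 : ∀ i j : ℕ, i < j → j < f → φ ^ i ≠ φ ^ j := by
    intro i j hij hj e
    have l1 : l ^ i < l ^ j := Nat.pow_lt_pow_right hl.one_lt hij
    have l2 : l ^ j < l ^ (f : ℕ) := Nat.pow_lt_pow_right hl.one_lt hj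
    have l3 : 0 < l ^ i := pow_pos hl.pos i
    have h4 := (FiniteField.forall_pow_eq_one_iff (𝓞 F ⧸ P) (l ^ j - l ^ i)).1 fun u => by
      obtain ⟨x, hx⟩ := Ideal.Quotient.mk_surjective (u : 𝓞 F ⧸ P)
      have h5 := h2 i x
      rw [e, h2, hx, ← Units.val_pow_eq_pow_val, ← Units.val_pow_eq_pow_val, Units.val_inj] at h5
      rw [pow_sub _ l1.le, h5, mul_inv_cancel]
    have := Nat.le_of_dvd (by omega) h4
    omega
  refine ⟨l, f, φ, hl, hlP, hcard.symm.trans hf, hst, ?_, fun i hi j hj e => ?_⟩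
  · have := AlgHom.IsArithFrobAt.apply_of_pow_eq_one hφ h.2.2.pow_eq_one hP.2.2
    rw [hcd] at this
    exact this
  · rcases lt_trichotomy i j with h' | h' | h'
    · exact absurd e (h3 i j h' hj)
    · exact h'
    · exact absurd e.symm (h3 j i h' hi)

theorem stick [IsGalois ℚ F] (h : PR q ζ) {P : Ideal (𝓞 F)} (hP : GoodP q P) (hu : Unram P)
    {Φ : 𝓞 F} (hΦ : IsPhi q ζ P Φ) :
    Ideal.span {Φ} = ∏ τ : F ≃ₐ[ℚ] F, (τ⁻¹ • P) ^ ea q ζ τ := by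
  obtain ⟨l, f, φ, hl, hlP, hN, hst, hζ, hinj⟩ := sk2_frob h hP
  have hpr := hP.1
  have h5 : ∀ i : ℕ, (φ ^ i) • ζ = ζ ^ l ^ i := by
    intro i
    induction i with
    | zero => simp
    | succ i ih => rw [pow_succ, mul_smul, hζ, smul_pow', ih, ← pow_mul, ← pow_succ]
  have hn : Ideal.absNorm (Ideal.span {Φ}) ^ 2 = (Ideal.absNorm P ^ q) ^ dg F := by
    have := absNorm_of_abs (by positivity) (phi_abs h hP hΦ)
    exact_mod_cast this
  have hn0 : Ideal.absNorm (Ideal.span {Φ}) ≠ 0 := by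
    intro h0
    rw [h0, hN] at hn
    exact pow_ne_zero _ (pow_ne_zero _ (pow_ne_zero _ hl.ne_zero)) hn.symm
  have hn2 : Ideal.absNorm (∏ τ : F ≃ₐ[ℚ] F, (τ⁻¹ • P) ^ ea q ζ τ) =
      Ideal.absNorm (Ideal.span {Φ}) := by
    refine Nat.pow_left_injective two_ne_zero ?_
    simp only [map_prod, map_pow, absNorm_smul]
    rw [hn, Finset.prod_pow_eq_pow_sum, ← pow_mul, ← pow_mul, mul_comm _ 2, sum_ea h]
  have hd : Ideal.span {Φ} ∣ ∏ τ : F ≃ₐ[ℚ] F, (τ⁻¹ • P) ^ ea q ζ τ := by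
    rw [UniqueFactorizationMonoid.dvd_iff_emultiplicity_le
      (fun h0 => hn0 (Ideal.absNorm_eq_zero_iff.2 h0))]
    intro Q hQ
    rw [emultiplicity_le_emultiplicity_iff]
    intro j hj
    obtain _ | j := j
    · simp
    have hQp := Ideal.isPrime_of_prime hQ
    have hlQ : (l : 𝓞 F) ∈ Q := by
      have h1 : Ideal.span {Φ} ≤ Q := Ideal.le_of_dvd ((dvd_pow_self Q j.succ_ne_zero).trans hj)
      have h2 := Q.pow_mem_of_mem (h1 (Ideal.absNorm_mem _)) 2 two_pos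
      rw [← Nat.cast_pow, hn, hN, ← pow_mul, ← pow_mul, Nat.cast_pow] at h2
      exact hQp.mem_of_pow_mem _ h2
    obtain ⟨g, rfl⟩ := Algebra.IsInvariant.exists_smul_of_under_eq ℤ (𝓞 F) (F ≃ₐ[ℚ] F) P Q
      ((sk2_under hpr hl hlP).trans (sk2_under hQp hl hlQ).symm)
    have h3 : P ^ (j + 1) ∣ Ideal.span {g⁻¹ • Φ} := by
      obtain ⟨J, hJ⟩ := hj
      rw [← sk2_span, hJ, smul_mul', smul_pow', inv_smul_smul]
      exact dvd_mul_right _ _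
    refine (pow_dvd_pow _ (stick_le h hP hu hΦ hl hN g⁻¹ h3)).trans ?_
    refine dvd_trans ?_ (Finset.prod_dvd_prod_of_subset
      ((Finset.range f).image fun i => φ ^ i * g⁻¹) _ _ (Finset.subset_univ _))
    rw [Finset.prod_image, ← Finset.prod_pow_eq_pow_sum]
    · refine dvd_of_eq (Finset.prod_congr rfl fun i _ => ?_)
      have h4 : (φ ^ i)⁻¹ • P = P :=
        (MulAction.stabilizer (F ≃ₐ[ℚ] F) P).inv_mem (pow_mem hst i)
      rw [mul_inv_rev, inv_inv, mul_smul, h4,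
        ea_eq h (τ := φ ^ i * g⁻¹) (a := ea q ζ g⁻¹ * l ^ i)]
      rw [mul_smul, (ea_spec h g⁻¹).2.2, smul_pow', h5, ← pow_mul, mul_comm]
    · intro i hi i' hi' e
      exact hinj i (Finset.mem_range.1 hi) i' (Finset.mem_range.1 hi') (mul_right_cancel e)
  obtain ⟨J, hJ⟩ := hd
  rw [hJ, map_mul, mul_eq_left₀ hn0, Ideal.absNorm_eq_one_iff] at hn2
  rw [hJ, hn2, Ideal.mul_top]

theorem sk2_multi [IsGalois ℚ F] (h : PR q ζ) {Q : Ideal (𝓞 F)} (hQ : GoodP q Q)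
    (s : Multiset (Ideal (𝓞 F)))
    (hs : ∀ P ∈ s, GoodP q P ∧ Unram P ∧ ((Ideal.absNorm Q : ℕ) : 𝓞 F) ∉ P) :
    ∃ Φ : 𝓞 F, Ideal.span {Φ} = ∏ τ : F ≃ₐ[ℚ] F, (τ⁻¹ • s.prod) ^ ea q ζ τ ∧
      (q : 𝓞 F) ∣ Φ ^ 2 - 1 ∧
      (∀ σ : F →+* ℂ, ‖σ (Φ : F)‖ ^ 2 = (Ideal.absNorm s.prod : ℝ) ^ q) ∧
      prs q ζ Q Φ = (s.map fun P => prs q ζ P ((Ideal.absNorm Q : ℕ) : 𝓞 F)).prod := by
  induction s using Multiset.induction_on with
  | empty =>
    refine ⟨1, ?_, by simp, by simp, by simp [prs_one h hQ]⟩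
    simp only [Multiset.prod_zero, smul_one, one_pow, Finset.prod_const_one]
    rw [Ideal.one_eq_top, Ideal.span_singleton_one]
  | cons P s ih =>
    obtain ⟨Ψ, e1, e2, e3, e4⟩ := ih fun P' hP' => hs P' (Multiset.mem_cons_of_mem hP')
    obtain ⟨hP, hu, hc⟩ := hs P (Multiset.mem_cons_self _ _)
    obtain ⟨Φ, hΦ⟩ := exists_isPhi h hP
    refine ⟨Φ * Ψ, ?_, ?_, fun σ => ?_, ?_⟩
    · rw [← Ideal.span_singleton_mul_span_singleton, stick h hP hu hΦ, e1, Multiset.prod_cons,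
        ← Finset.prod_mul_distrib]
      exact Finset.prod_congr rfl fun τ _ => by rw [smul_mul', mul_pow]
    · have e : (Φ * Ψ) ^ 2 - 1 = (Φ + 1) * ((Φ - 1) * Ψ ^ 2) + (Ψ ^ 2 - 1) := by ring
      rw [e]
      exact ((phi_mod h hP hΦ).mul_right _).add e2
    · rw [Multiset.prod_cons, map_mul, Nat.cast_mul, mul_pow, ← phi_abs h hP hΦ σ, ← e3 σ,
        ← mul_pow, ← norm_mul, ← map_mul]
      rfl
    · rw [Multiset.map_cons, Multiset.prod_cons, prs_mul h hQ, e4, phi_frob h hP hΦ hQ hc]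

theorem eis_recip [IsGalois ℚ F] (h : PR q ζ) {α : 𝓞 F} (h1 : (q : 𝓞 F) ∣ α - 1)
    (hu : ∀ P : Ideal (𝓞 F), P.IsPrime → α ∈ P → Unram P) {Q : Ideal (𝓞 F)} (hQ : GoodP q Q)
    (hc : IsCoprime α ((Ideal.absNorm Q : ℕ) : 𝓞 F)) :
    psym q ζ ((Ideal.absNorm Q : ℕ) : 𝓞 F) (Ideal.span {α}) =
      ∏ τ : F ≃ₐ[ℚ] F, prs q ζ (τ • Q) α := by
  have hcop : ∀ P : Ideal (𝓞 F), P.IsPrime → α ∈ P → ((Ideal.absNorm Q : ℕ) : 𝓞 F) ∉ P := by
    intro P hP ha hb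
    obtain ⟨u, v, e⟩ := hc
    exact hP.ne_top ((Ideal.eq_top_iff_one P).2
      (e ▸ P.add_mem (P.mul_mem_left u ha) (P.mul_mem_left v hb)))
  have hα : α ≠ 0 := fun h0 => hcop Q hQ.1 (h0 ▸ Q.zero_mem) (Ideal.absNorm_mem Q)
  have hs0 : Ideal.span {α} ≠ ⊥ := by rwa [Ne, Ideal.span_singleton_eq_bot]
  obtain ⟨Φ, e1, e2, e3, e4⟩ := sk2_multi h hQ
    (UniqueFactorizationMonoid.normalizedFactors (Ideal.span {α})) fun P hP => by
      have h0 := UniqueFactorizationMonoid.ne_zero_of_mem_normalizedFactors hP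
      obtain ⟨hp, hle⟩ := (Ideal.mem_normalizedFactors_iff hs0).1 hP
      have ha : α ∈ P := hle (Ideal.mem_span_singleton_self α)
      refine ⟨⟨hp, h0, fun hq => hp.ne_top ((Ideal.eq_top_iff_one P).2 ?_)⟩, hu P hp ha,
        hcop P hp ha⟩
      have := P.sub_mem ha (P.mem_of_dvd h1 hq)
      rwa [sub_sub_cancel] at this
  rw [Ideal.prod_normalizedFactors_eq_self hs0] at e1 e3
  simp only [sk2_span, Ideal.span_singleton_pow, Ideal.prod_span_singleton] at e1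
  have e5 := abs_gamma h α
  have e6 : (q : 𝓞 F) ∣ (∏ τ : F ≃ₐ[ℚ] F, (τ⁻¹ • α) ^ ea q ζ τ) - 1 := by
    rw [← Ideal.mem_span_singleton, ← Ideal.Quotient.eq, map_prod, map_one]
    refine Finset.prod_eq_one fun τ _ => ?_
    obtain ⟨c, hc⟩ := h1
    have : Ideal.Quotient.mk (Ideal.span {(q : 𝓞 F)}) (τ⁻¹ • α) = 1 := by
      rw [← map_one (Ideal.Quotient.mk _), Ideal.Quotient.eq, Ideal.mem_span_singleton]
      refine ⟨τ⁻¹ • c, ?_⟩
      have h7 : τ⁻¹ • (1 : 𝓞 F) = 1 := smul_one _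
      rw [← h7, ← smul_sub, hc, smul_mul']
      exact congrArg (· * _) (map_natCast (MulSemiringAction.toRingHom _ (𝓞 F) τ⁻¹) q)
    rw [map_pow, this, one_pow]
  have e7 : prs q ζ Q (∏ τ : F ≃ₐ[ℚ] F, (τ⁻¹ • α) ^ ea q ζ τ) =
      ∏ τ : F ≃ₐ[ℚ] F, prs q ζ (τ • Q) α := by
    rw [prs_prod h hQ]
    refine Finset.prod_congr rfl fun τ _ => ?_
    have hτ := hQ.smul τ
    have ha : α ∉ τ • Q := fun ha => hcop _ hτ.1 ha (absNorm_smul τ Q ▸ Ideal.absNorm_mem _)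
    have h2 := prs_smul h hτ τ⁻¹ α
    rw [inv_smul_smul] at h2
    rw [prs_pow h hQ, h2, ← smul_root h τ, smul_inv_smul]
    rw [← smul_pow', prs_pow_q h hτ ha, smul_one]
  generalize (∏ τ : F ≃ₐ[ℚ] F, (τ⁻¹ • α) ^ ea q ζ τ) = γ at e1 e5 e6 e7
  obtain ⟨ε, rfl⟩ := (Ideal.span_singleton_eq_span_singleton.1 e1).symm
  have hε := eq_pm_one h.2.1 (ε := (ε : 𝓞 F)) (fun σ => ?_) ?_
  · unfold psym
    rw [← e4, ← e7, prs_mul h hQ]
    rcases hε with h2 | h2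
    · rw [h2, prs_one h hQ, mul_one]
    · rw [h2, prs_neg_one h hQ, mul_one]
  · have h2 := e3 σ
    have h3 : ((γ * ε : 𝓞 F) : F) = (γ : F) * ((ε : 𝓞 F) : F) := rfl
    have h4 : (Ideal.absNorm (Ideal.span {α}) : ℝ) ^ q ≠ 0 :=
      pow_ne_zero _ (Nat.cast_ne_zero.2 fun h0 => hs0 (Ideal.absNorm_eq_zero_iff.1 h0))
    rw [h3, map_mul, norm_mul, mul_pow, e5 σ, mul_eq_left₀ h4] at h2
    exact (pow_eq_one_iff_of_nonneg (norm_nonneg _) two_ne_zero).1 h2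
  · have e : (ε : 𝓞 F) ^ 2 - 1 = ((γ * ε) ^ 2 - 1) - (γ - 1) * ((γ + 1) * ε ^ 2) := by ring
    rw [e]
    exact e2.sub (e6.mul_right _)

end Vale.Agent.P319B
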