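import Vale.Agent.P319B.Vk
import Vale.Agent.P319B.Units
import Vale.Agent.P319B.Pois

/-! Poisson summation averaged over the units. -/

namespace Vale.Agent.P319B

open Complex NumberField MeasureTheory
open scoped Classical ComplexConjugate
open Vale.Agent.P026 (w kk fk)

variable {F : Type} [Field F] [NumberField F] [Om F]

/-- The Gaussian weight. -/
noncomputable def uaK (Y c : ℝ) (z : F) (x : Io F → ℝ) : ℝ :=
  w (Y * Real.exp (∑ v, x v)) * Real.exp (-(Real.pi * ∑ v, Real.exp (x v) * (c * sqv z v)))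

theorem uaK_nonneg (Y c : ℝ) (z : F) (x : Io F → ℝ) : 0 ≤ uaK Y c z x :=
  mul_nonneg (P026.w_pos _).le (Real.exp_pos _).le
theorem uaK_meas (Y c : ℝ) (z : F) : Measurable (uaK Y c z) := by
  unfold uaK w
  fun_prop
theorem uaK_unit {E : Subgroup Fˣ} (hE : UnitGrp E) (Y c : ℝ) (u : E) (z : F) (x : Io F → ℝ) :
    uaK Y c (((u : Fˣ) : F) * z) x = uaK Y c z (x + lg ((u : Fˣ) : F)) := by
  simp only [uaK, Pi.add_apply, Finset.sum_add_distrib, unitGrp_lg_sum hE, add_zero, Real.exp_add,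
    exp_lg (u : Fˣ).ne_zero, sqv_mul, mul_assoc, mul_left_comm c]
theorem uaK_int {Y c : ℝ} (hY : 0 < Y) (hc : 0 < c) {z : F} (hz : z ≠ 0) :
    Integrable (uaK Y c z) ∧ ∫ x, uaK Y c z x = Vk F (c ^ rr F / Y * Nin z) := by
  have h := Vk_shift (y := fun v => c * sqv z v) (fun v => mul_pos hc (sqv_pos hz v)) hY
  rw [Finset.prod_mul_distrib, Finset.prod_const, mul_div_right_comm] at h
  exact h
theorem ua_int {E : Subgroup Fˣ} {β : (Io F → ℝ) → ℝ} (hβ : IsUP E β) {Y c : ℝ} (hY : 0 < Y)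
    (hc : 0 < c) {z : F} (hz : z ≠ 0) : Integrable fun x => β x * uaK Y c z x :=
  (uaK_int hY hc hz).1.bdd_mul (c := 1) hβ.meas.aestronglyMeasurable
    (Filter.Eventually.of_forall fun x => (Real.norm_of_nonneg (hβ.nonneg x)).trans_le (hβ.le_one x))
theorem ua_orb {E : Subgroup Fˣ} (hE : UnitGrp E) {β : (Io F → ℝ) → ℝ} (hβ : IsUP E β) {Y c : ℝ}
    (hY : 0 < Y) (hc : 0 < c) {z : F} (hz : z ≠ 0) :
    HasSum (fun u : E => ∫ x, β x * uaK Y c (((u : Fˣ) : F) * z) x)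
      (Vk F (c ^ rr F / Y * Nin z)) := by
  have := un_countable E
  have h := lintegral_up hβ (uaK_meas Y c z).ennreal_ofReal
  have h0 : ∀ z x, 0 ≤ β x * uaK Y c z x := fun z x => mul_nonneg (hβ.nonneg x) (uaK_nonneg _ _ _ _)
  simp only [← ENNReal.tsum_mul_left, ← ENNReal.ofReal_mul (hβ.nonneg _), ← uaK_unit hE] at h
  rw [lintegral_tsum fun u => (hβ.meas.fun_mul (uaK_meas Y c _)).ennreal_ofReal.aemeasurable,
    ← ofReal_integral_eq_lintegral_ofReal (uaK_int hY hc hz).1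
      (Filter.Eventually.of_forall (uaK_nonneg Y c z)), (uaK_int hY hc hz).2,
    tsum_congr fun u => (ofReal_integral_eq_lintegral_ofReal (ua_int hβ hY hc
      (mul_ne_zero (Units.ne_zero _) hz)) (Filter.Eventually.of_forall (h0 _))).symm] at h
  have h1 := ENNReal.hasSum_toReal (h.trans_ne ENNReal.ofReal_ne_top)
  rw [← ENNReal.tsum_toReal_eq fun _ => ENNReal.ofReal_ne_top, h,
    ENNReal.toReal_ofReal (Vk_nonneg _)] at h1
  simpa only [ENNReal.toReal_ofReal (integral_nonneg (h0 _))] using h1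
omit [NumberField F] [Om F] in
theorem ua_tr {G P : Type} [NormedAddCommGroup G] {L : AddSubgroup F} {S : Set F} (φ : P ≃ S)
    (hS : ∀ x ∈ S, x ≠ 0 ∧ x ∈ L) {H : F → G} (hH : ∀ x ∈ L, x ≠ 0 → H x ≠ 0 → x ∈ S) {a : G}
    (h : HasSum (fun p => H (φ p)) a) : HasSum (fun z : L => H z) (H 0 + a) := by
  have h1 : HasSum (fun z : L => if z = 0 then 0 else H z) a := by
    refine (Function.Injective.hasSum_iff (g := fun p => ⟨φ p, (hS _ (φ p).2).2⟩)
      (fun p q hpq => φ.injective (Subtype.ext (congrArg (fun z : L => (z : F)) hpq)))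
      fun z hz => ?_).1 ?_
    · split_ifs with h0
      · rfl
      · by_contra h2
        exact hz ⟨φ.symm ⟨z, hH z z.2 (fun h3 => h0 (Subtype.ext h3)) h2⟩, by simp⟩
    · refine h.congr_fun fun p => (if_neg fun h0 => (hS _ (φ p).2).1 (congrArg Subtype.val h0))
  refine ((hasSum_ite_eq (0 : L) (H 0)).add h1).congr_fun fun z => ?_
  split_ifs with h0 <;> simp [h0]
theorem ua_sum {E : Subgroup Fˣ} (hE : UnitGrp E) {J : Type} {L : AddSubgroup F} (hL : IsLat L)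
    {S : Set F} {ν : J → F} (hν : IsTr E S ν) (hS : ∀ x ∈ S, x ≠ 0 ∧ x ∈ L) {a : ℝ} (ha : 0 < a) :
    Summable fun j => Vk F (a * Nin (ν j)) := by
  obtain ⟨m, hm, hm'⟩ := hL.exists_mul isLat_latO
  obtain ⟨C, -, hC⟩ := tsum_tr_le hE hm
  obtain ⟨D, -, hD⟩ := Vk_le_min (F := F)
  exact ((hC S ν hν (fun x hx => ⟨(hS x hx).1, mem_latO.1 (hm' x (hS x hx).2)⟩) a ha).1.mul_left
    D).of_nonneg_of_le (fun _ => Vk_nonneg _) fun j => hD _ (mul_pos ha
      (Nin_pos (right_ne_zero_of_mul (hS _ (hν.1 j 1)).1)))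
theorem ua_unf {E : Subgroup Fˣ} (hE : UnitGrp E) {β : (Io F → ℝ) → ℝ} (hβ : IsUP E β) {k : ℝ}
    (hk : ∀ g : ℝ → ℝ, Measurable g → Integrable g →
      Integrable (fun x : Io F → ℝ => β x * g (∑ v, x v)) ∧
        ∫ x : Io F → ℝ, β x * g (∑ v, x v) = k * ∫ s, g s)
    {J : Type} {L : AddSubgroup F} (hL : IsLat L) {S : Set F} {ν : J → F} (hν : IsTr E S ν)
    (hS : ∀ x ∈ S, x ≠ 0 ∧ x ∈ L) {g : F → ℂ} (hg : ∀ x ∈ L, x ≠ 0 → g x ≠ 0 → x ∈ S) {B : ℝ}
    (hB : ∀ x ∈ L, ‖g x‖ ≤ B) (hu : ∀ (u : E), ∀ x ∈ L, g (((u : Fˣ) : F) * x) = g x) {Y c : ℝ}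
    (hY : 0 < Y) (hc : 0 < c) :
    ∫ x, ∑' z : L, g z * ((β x * uaK Y c (z : F) x : ℝ) : ℂ) =
      ((k * ∫ s : ℝ, Real.exp (-1 * s ^ 2) : ℝ) : ℂ) * g 0 +
        ∑' j, g (ν j) * (Vk F (c ^ rr F / Y * Nin (ν j)) : ℂ) := by
  have := IsLat.countable (L := L)
  obtain ⟨φ, hφ⟩ := hν.exists_equiv
  have h0 : ∀ j, ν j ≠ 0 ∧ ν j ∈ L := fun j => hS _ (by simpa using hν.1 j 1)
  have z0 : Integrable (fun x => β x * uaK Y c (0 : F) x) ∧
      ∫ x, β x * uaK Y c (0 : F) x = k * ∫ s : ℝ, Real.exp (-1 * s ^ 2) := by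
    have h := hk (fun s => Real.exp (-1 * (s + Real.log Y) ^ 2)) (by fun_prop)
      ((integrable_exp_neg_mul_sq one_pos).comp_add_right _)
    rw [integral_add_right_eq_self fun s => Real.exp (-1 * s ^ 2)] at h
    simpa [uaK, w, sqv, Real.log_mul hY.ne', add_comm] using h
  have hi : ∀ z : F, Integrable fun x => β x * uaK Y c z x := fun z => by
    rcases eq_or_ne z 0 with rfl | hz
    exacts [z0.1, ua_int hβ hY hc hz]
  have hp : ∀ (z : F) x, 0 ≤ β x * uaK Y c z x := fun z x =>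
    mul_nonneg (hβ.nonneg x) (uaK_nonneg _ _ _ _)
  have s1 : Summable fun p : J × E => ∫ x, β x * uaK Y c (φ p : F) x := by
    simp only [hφ]
    refine (summable_prod_of_nonneg fun p => integral_nonneg (hp _)).2
      ⟨fun j => (ua_orb hE hβ hY hc (h0 j).1).summable, ?_⟩
    simp only [fun j => (ua_orb hE hβ hY hc (h0 j).1).tsum_eq]
    exact ua_sum hE hL hν hS (by positivity)
  have s2 : Summable fun p : J × E => ‖g (φ p)‖ * ∫ x, β x * uaK Y c (φ p : F) x :=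
    (s1.mul_left B).of_nonneg_of_le (fun p => mul_nonneg (norm_nonneg _) (integral_nonneg (hp _)))
      fun p => mul_le_mul_of_nonneg_right (hB _ (hS _ (φ p).2).2) (integral_nonneg (hp _))
  have s3 : Summable fun p : J × E => g (φ p) * ((∫ x, β x * uaK Y c (φ p : F) x : ℝ) : ℂ) :=
    s2.of_norm_bounded fun p => by
      rw [norm_mul, norm_real, Real.norm_of_nonneg (integral_nonneg (hp _))]
  have s4 := ua_tr φ hS (H := fun z => ‖g z‖ * ∫ x, β x * uaK Y c z x) (fun x h1 h2 h3 =>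
    hg x h1 h2 (norm_ne_zero_iff.1 (left_ne_zero_of_mul h3))) s2.hasSum
  have s5 := ua_tr φ hS (H := fun z => g z * ((∫ x, β x * uaK Y c z x : ℝ) : ℂ)) (fun x h1 h2 h3 =>
    hg x h1 h2 (left_ne_zero_of_mul h3)) s3.hasSum
  have s6 := s3.hasSum.prod_fiberwise (g := fun j => g (ν j) * (Vk F (c ^ rr F / Y * Nin (ν j)) : ℂ))
    fun j => by
      simp only [hφ, hu _ _ (h0 j).2]
      exact (hasSum_ofReal.2 (ua_orb hE hβ hY hc (h0 j).1)).mul_left _
  rw [s6.tsum_eq, ← z0.2, mul_comm _ (g 0), ← s5.tsum_eq, ← integral_tsum_of_summable_integral_norm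
    (F := fun (z : L) x => g z * ((β x * uaK Y c (z : F) x : ℝ) : ℂ))
    (fun z => (hi z).ofReal.const_mul (g z)) (s4.summable.congr fun z => ?_)]
  · simp only [integral_const_mul, integral_complex_ofReal]
  · simp only [norm_mul (g _), integral_const_mul, norm_real, Real.norm_of_nonneg (hp _ _)]
theorem ua_neg {E : Subgroup Fˣ} {β : (Io F → ℝ) → ℝ} (hβ : IsUP E β) :
    IsUP E fun x => β (-x) := by
  have h : ∀ x (u : E), -(x + lg ((u : Fˣ) : F)) = -x + lg (((u⁻¹ : E) : Fˣ) : F) := fun x u => by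
    rw [un_lg_inv, neg_add]
  refine ⟨hβ.meas.comp measurable_neg, fun _ => hβ.nonneg _, fun _ => hβ.le_one _,
    hβ.supp.imp fun T hT x hx v v' => ?_, fun x c => ?_, fun x => ?_, fun x => ?_⟩
  · simpa [abs_sub_comm, neg_add_eq_sub] using hT _ hx v v'
  · rw [← hβ.diag (-x) (-c)]
    exact congrArg β (funext fun v => neg_add _ _)
  · simp only [h]
    exact (hβ.fin (-x)).preimage (f := fun u : E => u⁻¹) inv_injective.injOn
  · simp only [h]
    exact (un_inv hβ (-x)).tsum_eq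

theorem ua {E : Subgroup Fˣ} (hE : UnitGrp E) : ∃ k0 : ℝ, 0 ≤ k0 ∧
    ∀ {J J' : Type} (L L' : AddSubgroup F) (f : F → ℂ) (S : Set F) (ν : J → F) (ν' : J' → F),
      IsLat L → IsLat L' → L' ≤ L → (∀ u : E, ∀ x ∈ L', ((u : Fˣ) : F) * x ∈ L') →
      (∀ x, f x ≠ 0 → x ∈ L) → (∀ x y, x - y ∈ L' → f x = f y) →
      (∀ (u : E) x, f (((u : Fˣ) : F) * x) = f x) →
      IsTr E S ν → (∀ x ∈ S, x ≠ 0 ∧ x ∈ L) → (∀ x, x ≠ 0 → f x ≠ 0 → x ∈ S) →
      IsTr E {h | h ≠ 0 ∧ h ∈ dualL L'} ν' → ∀ X : ℝ, 0 < X →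
      Summable (fun j => Vk F (Nin (ν j) / X)) ∧
      Summable (fun j => Vk F (4 ^ rr F * Real.exp (1 / 2) * X * Nin (ν' j))) ∧
      (k0 : ℂ) * f 0 + ∑' j, f (ν j) * (Vk F (Nin (ν j) / X) : ℂ) =
        ((X / cov L' * Real.exp (1 / 4) : ℝ) : ℂ) * ((k0 : ℂ) * qsum L' f +
          ∑' j, qsum L' (fun x => f x * eT (ν' j * x)) *
            (Vk F (4 ^ rr F * Real.exp (1 / 2) * X * Nin (ν' j)) : ℂ)) := by
  obtain ⟨β, hβ⟩ := exists_isUP hE
  obtain ⟨k, hk0, hk⟩ := integral_up_diag hβ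
  have hk' : ∀ g : ℝ → ℝ, Measurable g → Integrable g →
      Integrable (fun x : Io F → ℝ => β (-x) * g (∑ v, x v)) ∧
        ∫ x : Io F → ℝ, β (-x) * g (∑ v, x v) = k * ∫ s, g s := fun g h1 h2 => by
    obtain ⟨h3, h4⟩ := hk (fun s => g (-s)) (h1.comp measurable_neg) h2.comp_neg
    rw [integral_neg_eq_self g, ← integral_neg_eq_self] at h4
    exact ⟨by simpa using h3.comp_neg, by simpa using h4⟩
  refine ⟨k * ∫ s : ℝ, Real.exp (-1 * s ^ 2), mul_nonneg hk0 (integral_nonneg fun _ =>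
    (Real.exp_pos _).le), fun L L' f S ν ν' hL hL' hle hu hs hp hf hν hS hS' hν' X hX => ?_⟩
  obtain ⟨s, -, -, s2, s3⟩ := exists_reps (hL.relIndex_ne hL')
  have hq : ∀ h ∈ dualL L', ∀ x y, x - y ∈ L' → f x * eT (h * x) = f y * eT (h * y) :=
    fun h hh x y hxy => by
      rw [hp x y hxy, show h * x = h * (x - y) + h * y by ring, eT_add, mem_dualL.1 hh _ hxy,
        one_mul]
  have e1 := ua_unf hE hβ hk hL hν hS (g := f) (fun x _ => hS' x) (B := ∑ r ∈ s, ‖f r‖)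
    (fun x hx => by
      obtain ⟨r, hr, hr'⟩ := s3 x hx
      rw [hp x r hr']
      exact Finset.single_le_sum (fun _ _ => norm_nonneg _) hr) (fun u x _ => hf u x) hX one_pos
  have e2 := ua_unf hE (ua_neg hβ) hk' hL'.dual hν' (fun _ h => h)
    (g := fun h => qsum L' fun x => f x * eT (h * x)) (fun x h1 h2 _ => ⟨h2, h1⟩)
    (B := ∑ r ∈ s, ‖f r‖) (fun h hh => by
      rw [qsum_eq_sum (hq h hh) s s2 fun x hx => s3 x (hs x (left_ne_zero_of_mul hx))]
      refine (norm_sum_le _ _).trans_eq (Finset.sum_congr rfl fun r _ => ?_)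
      rw [norm_mul, norm_eT, mul_one]) (fun u h hh => by
      rw [← qsum_scale (L' := L') (hq h hh) (u : Fˣ).ne_zero fun x =>
        ⟨hu u x, fun hx => by simpa using hu u⁻¹ _ hx⟩]
      simp only [hf, mul_assoc, mul_left_comm h])
    (Y := (Real.exp (1 / 2) * X)⁻¹) (by positivity) four_pos
  have a1 : ∀ t : ℝ, 1 ^ rr F / X * t = t / X := fun t => by rw [one_pow, one_div, inv_mul_eq_div]
  have a2 : ∀ t : ℝ, 4 ^ rr F / (Real.exp (1 / 2) * X)⁻¹ * t =
      4 ^ rr F * Real.exp (1 / 2) * X * t := fun t => by rw [div_inv_eq_mul, ← mul_assoc]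
  simp only [a1, a2, zero_mul, eT_zero, mul_one] at e1 e2
  refine ⟨by simpa only [a1] using ua_sum hE hL hν hS (a := 1 ^ rr F / X) (by positivity),
    ua_sum hE hL'.dual hν' (fun _ h => h) (by positivity), ?_⟩
  rw [← e1, ← e2, ← integral_const_mul, ← integral_neg_eq_self]
  refine integral_congr_ae (Filter.Eventually.of_forall fun x => ?_)
  have h := poisson_per hL hL' hle hs hp (a := fun v => Real.exp (-x v)) fun v => Real.exp_pos _
  have h1 : w (X * Real.exp (∑ v, (-x) v)) * (cov L' * ∏ v, Real.exp (-x v))⁻¹ =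
      X / cov L' * Real.exp (1 / 4) * w ((Real.exp (1 / 2) * X)⁻¹ * Real.exp (∑ v, x v)) := by
    simp only [w, Pi.neg_apply, Finset.sum_neg_distrib, ← Real.exp_sum]
    rw [Real.log_mul hX.ne' (Real.exp_pos _).ne', Real.log_mul (by positivity) (Real.exp_pos _).ne',
      Real.log_inv, Real.log_mul (Real.exp_pos _).ne' hX.ne', Real.log_exp, Real.log_exp,
      Real.log_exp, mul_inv, ← Real.exp_neg, mul_left_comm, ← Real.exp_add, mul_assoc,
      ← Real.exp_add, div_eq_inv_mul, mul_assoc]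
    nth_rw 2 [← Real.exp_log hX]
    rw [← Real.exp_add]
    congr 2
    ring
  have h2 : ∀ (z : F), 4 * Real.pi * ∑ v, sqv z v / Real.exp (-x v) =
      Real.pi * ∑ v, Real.exp (x v) * (4 * sqv z v) := fun z => by
    rw [mul_comm 4, mul_assoc, Finset.mul_sum]
    refine congrArg _ (Finset.sum_congr rfl fun v _ => ?_)
    rw [Real.exp_neg, div_inv_eq_mul]
    ring
  simp only [h2] at h
  simp only [uaK, one_mul, ← mul_assoc (β _), ofReal_mul (β _ * _),
    mul_left_comm _ ((β _ * _ : ℝ) : ℂ), tsum_mul_left, Pi.neg_apply x, h]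
  rw [← mul_assoc, ← mul_assoc, ← ofReal_inv, ← ofReal_mul, ← ofReal_mul, mul_assoc (β _),
    mul_assoc (β _), mul_comm (w (_⁻¹ * _)), ← h1]
  rfl

end Vale.Agent.P319B
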