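import Vale.Agent.P319B.Dual
import Vale.Agent.P319B.FEq

/-! Reindexing the two Dirichlet series. -/

namespace Vale.Agent.P319B

open Complex NumberField
open scoped Classical ComplexConjugate
open Vale.Agent.P026 (w kk fk)

variable {F : Type} [Field F] [NumberField F] [Ctx F]

theorem v0_einv {f : R F → ℂ} (hf : EInv f) {u u' : R F} (hu : IsUnit u) (hu' : IsUnit u')
    (h : InU 3 ((u : F) / u')) (z : R F) : f (u * z) = f (u' * z) := by
  obtain ⟨v, hv⟩ := hu'.exists_left_inv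
  have h1 : (v : F) * u' = 1 := congrArg Subtype.val hv
  have h2 : InU 3 ((u * v : R F) : F) := by
    rwa [Subring.coe_mul, eq_inv_of_mul_eq_one_left h1, ← div_eq_mul_inv]
  rw [← hf (u * v) (u' * z) (hu.mul (IsUnit.of_mul_eq_one _ hv)) h2]
  congr 1
  linear_combination (-(u * z)) * hv

theorem v0_per {q s : R F} {f : R F → ℂ} (hf : EInv f) (hq : Pe q f) :
    Per q fun x => f (s * tilde x) := by
  have key : ∀ u u' x y : R F, IsUnit u → IsUnit u' → InU 3 (((u * x : R F) : F) / (u' * y : R F)) →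
      InU 3 ((y : F) / x) → q ∣ x - y → f (s * (u * x)) = f (s * (u' * y)) := by
    intro u u' x y hu hu' h1 h2 h3
    have h4 := h1.mul h2
    have hx := h2.right_ne (by norm_num)
    have hy := h2.left_ne (by norm_num)
    rw [show ((u * x : R F) : F) / (u' * y : R F) * ((y : F) / x) = (u : F) / u' by
      rw [Subring.coe_mul, Subring.coe_mul]; field_simp] at h4
    rw [mul_left_comm, mul_left_comm s, v0_einv hf hu hu' h4]
    refine hq _ _ ?_
    rw [← mul_sub, ← mul_sub]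
    exact (h3.mul_left _).mul_left _
  refine ⟨fun x y h1 h2 => ?_, fun u x hu => ?_⟩
  · have h3 := tilde_inU (r2_ne (h1.left_ne (by norm_num)))
    have h4 := tilde_inU (r2_ne (h1.right_ne (by norm_num)))
    rw [cls_of_inU h1] at h3
    exact key _ _ x y (tw_omg _).1 (tw_omg _).1
      (h3.trans (by norm_num) (h4.symm (by norm_num))) (h1.symm (by norm_num)) h2
  · rcases eq_or_ne x 0 with rfl | hx
    · rw [mul_zero]
    have h3 := tilde_inU (mul_ne_zero hu.ne_zero hx)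
    have h4 := tilde_inU hx
    rw [show cls ((u * x : R F) : F) = cls (x : F) from cls_omg hu x] at h3
    have h5 := h3.trans (by norm_num) (h4.symm (by norm_num))
    beta_reduce
    rw [tilde, ← mul_assoc _ u] at h5 ⊢
    exact key _ _ x x ((tw_omg _).1.mul hu.1) (tw_omg _).1 h5 (InU.div_self (nrm_coe_ne hx))
      (by simp)

theorem v0_comp {q : R F} {G : R F → ℂ} (hG : Per q G) (s : R F) : Per q fun x => G (x * s) := by
  rcases eq_or_ne s 0 with rfl | hs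
  · simpa only [mul_zero] using Per.const q (G 0)
  · exact hG.comp_mul' hs

theorem v0_tau (o : Bool) {s e d : R F} (hs : IsUnit s) (he : P0 e) (hd : P1 d) :
    tau0 (s * tilde (e * d ^ 3)) * ang o (s * tilde (e * d ^ 3)) =
      conj (B3 (s : F) e) * alph o e * bet o d := by
  have h1 := tw_omg ((e * d ^ 3 : R F) : F)
  have h2 := pow_ne_zero 3 hd.ne_zero
  have h3 := mul_ne_zero he.ne_zero h2
  rw [tilde, ang_mul o hs.ne_zero (mul_ne_zero h1.ne_zero h3), ang_mul o h1.ne_zero h3,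
    ang_mul o he.ne_zero h2, ang_pow o d 3 hd.ne_zero, ang_unit o hs, ang_unit o h1.1,
    mul_left_comm s, tau0_omg h1, ← mul_assoc s, tau0_eq hs he hd, g3_unit_mul hs he.ne_zero,
    cub_unit_left hs he.ne_zero, alph, bet, if_pos he, if_pos hd, map_mul]
  ring

theorem v0_supp {s x : R F} (hs : IsUnit s) (hx : P1 x) (h : tau0 (s * tilde x) ≠ 0) :
    ∃ e d, P0 e ∧ P1 d ∧ x = e * d ^ 3 := by
  obtain ⟨s', e, d, h1, h2, h3, h4⟩ := tau0_supp h
  rw [tilde, ← mul_assoc, mul_assoc s'] at h4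
  exact ⟨e, d, h2, h3,
    (unit_P1_unique (hs.mul (tw_omg _).1) h1 hx (h2.1.mul (h3.pow 3)) h4).2⟩

theorem v0_inU {s x : R F} (hs : IsUnit s) (hx : x ≠ 0) :
    InU 3 (((s * tilde x : R F) : F) / (s * rep (cls (x : F)))) := by
  rw [Subring.coe_mul, mul_div_mul_left _ _ (nrm_coe_ne hs.ne_zero)]
  exact tilde_inU hx

theorem v0_Nin {s x : R F} (hs : IsUnit s) (hx : x ≠ 0) :
    Nin ((s * tilde x : R F) : F) = nf (s * rep (cls (x : F))) * N x := by
  rw [Nin_eq_N_mul, nf_eq_of_inU (by norm_num) (v0_inU hs hx), tilde, N_mul, N_mul, N_unit hs,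
    N_unit (tw_omg _).1, one_mul, one_mul, mul_comm]

theorem v0_clsI {κ : Cl F} {x : R F} (h : clsI κ x ≠ 0) : cls (x : F) = κ := by
  by_contra h'
  exact h (if_neg h')

theorem v0_primal (o : Bool) (κ : Cl F) {c : ℂ} (hc0 : c ≠ 0)
    (hc : ∀ r : R F, InU 3 ((r : F) / rep κ) → angI o (r : F) = c * ang o r) (f : R F → ℂ)
    (h : R F) (u : ℂ) :
    DS (fun j : {x : R F // P1 x ∧ cls (x : F) = κ} => inC κ (tilde j.1) * tau0 (tilde j.1) *
        (angI o ((tilde j.1 : R F) : F) * f (tilde j.1) * chi 1 (tilde j.1) h))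
      (fun j => Nin ((tilde j.1 : R F) : F)) u =
      c * ((nf (rep κ) : ℝ) : ℂ) ^ (-u) * DS (fun p : R F × R F => alph o p.1 * bet o p.2 *
        (clsI κ (p.1 * p.2 ^ 3) * f (tilde (p.1 * p.2 ^ 3)) * chi 1 (p.1 * p.2 ^ 3) h))
        (fun p => N (p.1 * p.2 ^ 3)) u := by
  have key : ∀ e d : R F, P0 e → P1 d → cls ((e * d ^ 3 : R F) : F) = κ →
      inC κ (tilde (e * d ^ 3)) * tau0 (tilde (e * d ^ 3)) *
        (angI o ((tilde (e * d ^ 3) : R F) : F) * f (tilde (e * d ^ 3)) *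
          chi 1 (tilde (e * d ^ 3)) h) =
      c * (alph o e * bet o d *
        (clsI κ (e * d ^ 3) * f (tilde (e * d ^ 3)) * chi 1 (e * d ^ 3) h)) := by
    intro e d he hd hκ
    have h1 := tilde_inU (he.1.mul (hd.pow 3)).ne_zero
    rw [hκ] at h1
    have h2 := v0_tau o isUnit_one he hd
    rw [one_mul, Subring.coe_one, B3_one_left, map_one, one_mul] at h2
    have h3 : chi 1 (tilde (e * d ^ 3)) h = chi 1 (e * d ^ 3) h := by
      rw [tilde, chi_mul_left, chi_omg 1 (tw_omg _), one_mul]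
    rw [inC, if_pos h1, clsI, if_pos hκ, hc _ h1, h3, ← h2]
    ring
  have hp : ∀ p : R F × R F, alph o p.1 * bet o p.2 *
      (clsI κ (p.1 * p.2 ^ 3) * f (tilde (p.1 * p.2 ^ 3)) * chi 1 (p.1 * p.2 ^ 3) h) ≠ 0 →
      P0 p.1 ∧ P1 p.2 ∧ cls ((p.1 * p.2 ^ 3 : R F) : F) = κ := fun p hp =>
    ⟨alph_ne_zero (left_ne_zero_of_mul (left_ne_zero_of_mul hp)),
      bet_ne_zero (right_ne_zero_of_mul (left_ne_zero_of_mul hp)),
      v0_clsI (left_ne_zero_of_mul (left_ne_zero_of_mul (right_ne_zero_of_mul hp)))⟩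
  refine DS_reindex (nf_pos _) hc0 (fun k => ⟨k.1.1 * k.1.2 ^ 3,
    (hp _ k.2).1.1.mul ((hp _ k.2).2.1.pow 3), (hp _ k.2).2.2⟩) (fun k k' hk => ?_)
    (fun j hj => ?_) (fun k => ?_) u
  · obtain ⟨h1, h2⟩ := cube_unique (hp _ k.2).1 (hp _ k'.2).1 (hp _ k.2).2.1 (hp _ k'.2).2.1
      (congrArg Subtype.val hk)
    exact Subtype.ext (Prod.ext h1 h2)
  · obtain ⟨x, h1, h2⟩ := j
    obtain ⟨e, d, he, hd, rfl⟩ := v0_supp isUnit_one h1
      (by rw [one_mul]; exact right_ne_zero_of_mul (left_ne_zero_of_mul hj))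
    exact ⟨⟨(e, d), right_ne_zero_of_mul (key e d he hd h2 ▸ hj)⟩, rfl⟩
  · obtain ⟨h1, h2, h3⟩ := hp _ k.2
    have h4 := (h1.1.mul (h2.pow 3)).ne_zero
    have h5 := v0_Nin isUnit_one h4
    rw [one_mul, Subring.coe_one, one_mul, h3] at h5
    exact ⟨key _ _ h1 h2 h3, N_pos h4, h5⟩

theorem v0_dual (o : Bool) (a : ℕ) {Tf : F → ℂ} (hT : UInv Tf) {c : F → ℂ}
    (hc : ∀ y : F, y ≠ 0 → ∀ r : R F, InU 3 ((r : F) / y) → angI o (r : F) = c y * ang o r)
    (f : R F → ℂ) {h : R F} (hh : h ≠ 0) {z : F} (hz : z ≠ 0) (hhz : cls (h : F) = cls z)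
    {t m : ℂ} (ht : t ≠ 0) (hm : m ≠ 0) {B : ℝ} (hB : 0 < B) {S : Set (R F × Cl F)}
    (hS : ∀ σ, σ ∈ S ↔ σ.1 ∈ SU F 3 ∧ Hi a ((σ.1 : F) * rep σ.2)) (u : ℂ) :
    t * DS (fun j : {p : R F × R F //
          P1 p.1 ∧ p.2 ∈ SU F 3 ∧ Hi a ((p.2 : F) * rep (cls (p.1 : F)))} =>
        Tf ((j.1.2 * tilde j.1.1 : R F) : F) * tau0 (j.1.2 * tilde j.1.1) *
          (angI o ((j.1.2 * tilde j.1.1 : R F) : F) * f (j.1.2 * tilde j.1.1) *
            quad (j.1.2 * tilde j.1.1) h))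
      (fun j => Nin ((j.1.2 * tilde j.1.1 : R F) : F)) u =
      (B : ℂ) ^ (-u) * DS (fun x : (R F × Cl F) × R F × R F =>
        (if x.1 ∈ S then t * Tf ((x.1.1 : F) * rep x.1.2) * c ((x.1.1 : F) * rep x.1.2) *
          B2 (x.1.1 : F) z * m else 0) * alph o x.2.1 * bet o x.2.2 *
          (conj (B3 (x.1.1 : F) x.2.1) * (clsI x.1.2 (x.2.1 * x.2.2 ^ 3) *
            (f (x.1.1 * tilde (x.2.1 * x.2.2 ^ 3)) / m)) * quad (x.2.1 * x.2.2 ^ 3) h))
        (fun x => B⁻¹ * nf ((x.1.1 : F) * rep x.1.2) * N (x.2.1 * x.2.2 ^ 3)) u := by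
  have key : ∀ (s : R F) (κ : Cl F) (e d : R F), (s, κ) ∈ S → P0 e → P1 d →
      cls ((e * d ^ 3 : R F) : F) = κ →
      Tf ((s * tilde (e * d ^ 3) : R F) : F) * tau0 (s * tilde (e * d ^ 3)) *
        (angI o ((s * tilde (e * d ^ 3) : R F) : F) * f (s * tilde (e * d ^ 3)) *
          quad (s * tilde (e * d ^ 3)) h) =
      t⁻¹ * ((if (s, κ) ∈ S then t * Tf ((s : F) * rep κ) * c ((s : F) * rep κ) *
          B2 (s : F) z * m else 0) * alph o e * bet o d *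
          (conj (B3 (s : F) e) * (clsI κ (e * d ^ 3) *
            (f (s * tilde (e * d ^ 3)) / m)) * quad (e * d ^ 3) h)) := by
    intro s κ e d hs he hd hκ
    have hu := SU_unit ((hS _).1 hs).1
    have h1 := v0_inU hu (he.1.mul (hd.pow 3)).ne_zero
    rw [hκ] at h1
    have h0 := h1.right_ne (by norm_num)
    have h2 := v0_tau o hu he hd
    have h3 : quad (s * tilde (e * d ^ 3)) h = B2 (s : F) z * quad (e * d ^ 3) h := by
      rw [tilde, quad_mul_left, quad_mul_left, quad_omg (tw_omg _), one_mul, quad_unit_left hu hh,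
        B2_cls_right _ (nrm_coe_ne hh) hz hhz]
    have h4 := hT ((s : F) * rep κ) _ h1
    rw [div_mul_cancel₀ _ h0] at h4
    rw [if_pos hs, clsI, if_pos hκ, hc _ h0 _ h1, h3, h4]
    field_simp
    linear_combination Tf ((s : F) * rep κ) * c ((s : F) * rep κ) * f (s * tilde (e * d ^ 3)) *
      B2 (s : F) z * quad (e * d ^ 3) h * h2
  have hp : ∀ x : (R F × Cl F) × R F × R F,
      (if x.1 ∈ S then t * Tf ((x.1.1 : F) * rep x.1.2) * c ((x.1.1 : F) * rep x.1.2) *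
          B2 (x.1.1 : F) z * m else 0) * alph o x.2.1 * bet o x.2.2 *
          (conj (B3 (x.1.1 : F) x.2.1) * (clsI x.1.2 (x.2.1 * x.2.2 ^ 3) *
            (f (x.1.1 * tilde (x.2.1 * x.2.2 ^ 3)) / m)) * quad (x.2.1 * x.2.2 ^ 3) h) ≠ 0 →
      x.1 ∈ S ∧ P0 x.2.1 ∧ P1 x.2.2 ∧ cls ((x.2.1 * x.2.2 ^ 3 : R F) : F) = x.1.2 := fun x hx =>
    ⟨by_contra fun h => left_ne_zero_of_mul (left_ne_zero_of_mul (left_ne_zero_of_mul hx))
      (if_neg h),
      alph_ne_zero (right_ne_zero_of_mul (left_ne_zero_of_mul (left_ne_zero_of_mul hx))),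
      bet_ne_zero (right_ne_zero_of_mul (left_ne_zero_of_mul hx)),
      v0_clsI (left_ne_zero_of_mul (right_ne_zero_of_mul (left_ne_zero_of_mul
        (right_ne_zero_of_mul hx))))⟩
  refine (eq_inv_mul_iff_mul_eq₀ ht).1 ((DS_reindex hB (inv_ne_zero ht)
    (fun k => ⟨(k.1.2.1 * k.1.2.2 ^ 3, k.1.1.1),
    (hp _ k.2).2.1.1.mul ((hp _ k.2).2.2.1.pow 3), ((hS _).1 (hp _ k.2).1).1,
    (hp _ k.2).2.2.2.symm ▸ ((hS _).1 (hp _ k.2).1).2⟩) (fun k k' hk => ?_)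
    (fun j hj => ?_) (fun k => ?_) u).trans (mul_assoc _ _ _))
  · obtain ⟨h0, h3⟩ := Prod.mk.inj (congrArg Subtype.val hk)
    obtain ⟨h1, h2⟩ := cube_unique (hp _ k.2).2.1 (hp _ k'.2).2.1 (hp _ k.2).2.2.1
      (hp _ k'.2).2.2.1 h0
    refine Subtype.ext (Prod.ext (Prod.ext h3 ?_) (Prod.ext h1 h2))
    rw [← (hp _ k.2).2.2.2, ← (hp _ k'.2).2.2.2, h1, h2]
  · obtain ⟨⟨x, s⟩, h1, h2, h3⟩ := j
    obtain ⟨e, d, he, hd, rfl⟩ := v0_supp (SU_unit h2) h1
      (right_ne_zero_of_mul (left_ne_zero_of_mul hj))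
    exact ⟨⟨((s, cls ((e * d ^ 3 : R F) : F)), e, d),
      right_ne_zero_of_mul (key s _ e d ((hS _).2 ⟨h2, h3⟩) he hd rfl ▸ hj)⟩, rfl⟩
  · obtain ⟨h0, h1, h2, h3⟩ := hp _ k.2
    have h4 := (h1.1.mul (h2.pow 3)).ne_zero
    have h5 := v0_Nin (SU_unit ((hS _).1 h0).1) h4
    rw [h3] at h5
    refine ⟨key _ _ _ _ h0 h1 h2 h3, mul_pos (mul_pos (inv_pos.2 hB) (nf_pos _)) (N_pos h4),
      h5.trans ?_⟩
    rw [← mul_assoc, ← mul_assoc, mul_inv_cancel₀ hB.ne', one_mul]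

end Vale.Agent.P319B
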