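import Vale.Agent.P319B.Dual
import Vale.Agent.P319B.FEq
import Vale.Agent.P319B.V0FA

/-! The functional equation for the twisted family. -/

namespace Vale.Agent.P319B

open Complex NumberField
open scoped Classical ComplexConjugate
open Vale.Agent.P026 (w kk fk)

variable {F : Type} [Field F] [NumberField F] [Ctx F]

theorem v0_sum {a : ℕ} {S : Set (R F × Cl F)}
    (hS : ∀ σ, σ ∈ S ↔ σ.1 ∈ SU F 3 ∧ Hi a ((σ.1 : F) * rep σ.2)) {D ε : ℝ} (hD : 0 < D)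
    (hε : 0 < ε) : Summable (S.indicator fun σ => (D * nf ((σ.1 : F) * rep σ.2)) ^ (-ε)) := by
  obtain ⟨C, -, hC⟩ := SU_sum (F := F) (e := 3) (by norm_num) a hε
  rw [← (Equiv.prodComm _ _).summable_iff]
  refine (summable_prod_of_nonneg fun p => Set.indicator_nonneg
    (fun σ _ => Real.rpow_nonneg (mul_pos hD (nf_pos _)).le _) _).2 ⟨fun κ => ?_, .of_finite⟩
  refine ((hC _ (rep_ne κ)).1.mul_left (D ^ (-ε))).congr fun s => ?_
  simp only [Equiv.prodComm_apply, Set.indicator, hS, Prod.swap]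
  split_ifs
  · rw [Real.mul_rpow hD.le (nf_pos _).le]
  · rw [mul_zero]

theorem v0_fe (T : Theta F) (o : Bool) (κ l : Cl F) {x0 : R F} (h0 : P1 x0)
    (hκ : cls (x0 : F) = κ) {f g : R F → ℂ} {m : ℝ} (hf : ∀ x, ‖f x‖ ≤ m) (hg : ∀ x, ‖g x‖ ≤ m)
    (fi : EInv f) (gi : EInv g) (h : R F) {q : F} (hq : q ≠ 0) {e : ℂ}
    (hV : VorV (fun r => inC κ r * tau0 r * (angI o (r : F) * f r * chi 1 r h))
      (fun r => T.T κ l r * tau0 r * (angI (!o) (r : F) * g r * quad r h)) q e) :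
    FE (rr F) (fun j : {x : R F // P1 x ∧ cls (x : F) = κ} => inC κ (tilde j.1) * tau0 (tilde j.1) *
        (angI o ((tilde j.1 : R F) : F) * f (tilde j.1) * chi 1 (tilde j.1) h))
      (fun j => Nin ((tilde j.1 : R F) : F))
      (fun j : {p : R F × R F //
          P1 p.1 ∧ p.2 ∈ SU F 3 ∧ Hi T.a ((p.2 : F) * rep (cls (p.1 : F)))} =>
        T.T κ l ((j.1.2 * tilde j.1.1 : R F) : F) * tau0 (j.1.2 * tilde j.1.1) *
          (angI (!o) ((j.1.2 * tilde j.1.1 : R F) : F) * g (j.1.2 * tilde j.1.1) *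
            quad (j.1.2 * tilde j.1.1) h))
      (fun j => Nin ((j.1.2 * tilde j.1.1 : R F) : F)) (Nin q) e := by
  have he : 1 ≤ 3 := by norm_num
  have hb : ∀ {x y z : ℂ}, ‖x‖ ≤ 1 → ‖y‖ ≤ m → ‖z‖ ≤ 1 → ‖x * y * z‖ ≤ m := fun hx hy hz =>
    (norm_mul_le_of_le (norm_mul_le_of_le hx hy) hz).trans (by rw [one_mul, mul_one])
  refine FE_of_VorV ((gr_primal κ).mul fun r => hb (norm_angI_le _ _) (hf r) (norm_chi_le _ _ _))
    ((gr_dual (T.T_supp κ l) (T.T_bd κ l)).mul fun r =>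
      hb (norm_angI_le _ _) (hg r) (norm_quad_le _ _)) (fun u r h1 h2 => ?_) (fun u r h1 h2 => ?_)
    hq hV (isTr_tilde h0 hκ) (isTr_SU_tilde T.a) (fun h => h.2.left_ne he rfl) (fun h => h.1 rfl)
    (fun r hr => ⟨r.2, ?_⟩) (fun r hr => ⟨fun h1 => ?_, r.2,
      T.T_supp κ l _ (left_ne_zero_of_mul (left_ne_zero_of_mul hr))⟩)
  · have h3 := Omg.of_inU h1 h2
    have h4 : InU 3 (((u * r : R F) : F) / rep κ) ↔ InU 3 ((r : F) / rep κ) := by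
      rw [Subring.coe_mul, mul_div_assoc]
      refine ⟨fun h => ?_, h2.mul⟩
      simpa only [inv_mul_cancel_left₀ (h2.ne_zero he)] using (h2.inv he).mul h
    simp only [inC, h4, tau0_omg h3, fi u r h1 h2, chi_mul_left, chi_omg 1 h3, one_mul]
    rw [Subring.coe_mul, angI_mul, angI_of_unit o h1 h2, one_mul]
  · have h3 := Omg.of_inU h1 h2
    simp only [tau0_omg h3, gi u r h1 h2, quad_mul_left, quad_omg h3, one_mul]
    rw [Subring.coe_mul, angI_mul, angI_of_unit _ h1 h2, one_mul, T.T_U κ l _ _ h2]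
  · by_contra h1
    exact left_ne_zero_of_mul (left_ne_zero_of_mul hr) (if_neg h1)
  · obtain rfl : r = 0 := Subtype.ext h1
    exact left_ne_zero_of_mul hr (gr_dual (T.T_supp κ l) (T.T_bd κ l)).1

theorem V0F (T : Theta F) : ∃ (C : ℝ) (S : Set (R F × Cl F)) (n : R F × Cl F → ℝ), 0 < C ∧
    (∀ σ ∈ S, 1 ≤ n σ) ∧ (∀ ε : ℝ, 0 < ε → Summable (S.indicator fun σ => n σ ^ (-ε))) ∧
    ∀ (o : Bool) (q0 : R F) (κ : Cl F) (H : Set (R F)) (G : R F → ℂ), q0 ≠ 0 → Per q0 G → Bd1 G →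
      (∀ h ∈ H, P0 h ∧ IsCoprime h q0) → (∀ h ∈ H, ∀ h' ∈ H, cls (h : F) = cls (h' : F)) →
      (H.Subsingleton ∨ ∀ s : R F, InU 3 (s : F) → IsCoprime s q0 →
        ∃ ξ : ℂ, ‖ξ‖ = 1 ∧ ∀ r, r ≠ 0 → G (r * s) = ξ * G r) →
      ∃ (Fi : R F → R F → ℂ) (β : R F → R F × Cl F → ℂ) (Gd : R F → R F × Cl F → R F → R F → ℂ),
        (∀ x, P1 x → cls (x : F) = κ → G x = ∑ i ∈ dvs q0, Fi i x) ∧
        ∀ i ∈ dvs q0, (∀ x, ‖Fi i x‖ ≤ ab q0) ∧ (∀ σ, β i σ ≠ 0 → σ ∈ S) ∧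
          (∀ σ, ‖β i σ‖ ≤ C * ab q0 * n σ ^ (1 / 6 : ℝ)) ∧
          (∀ σ d, Per q0 (Gd i σ d) ∧ Bd1 (Gd i σ d)) ∧
          ∀ h ∈ H, ∃ (Q : ℝ) (e : ℂ), 0 < Q ∧ Q ≤ C * N h * N q0 ∧ ‖e‖ ≤ 1 ∧
            FE (rr F)
              (fun p : R F × R F => alph o p.1 * bet o p.2 *
                (clsI κ (p.1 * p.2 ^ 3) * Fi i (p.1 * p.2 ^ 3) * chi 1 (p.1 * p.2 ^ 3) h))
              (fun p => N (p.1 * p.2 ^ 3))
              (fun x : (R F × Cl F) × R F × R F => β i x.1 * alph (!o) x.2.1 * bet (!o) x.2.2 *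
                (Gd i x.1 x.2.2 x.2.1 * quad (x.2.1 * x.2.2 ^ 3) h))
              (fun x => n x.1 * N (x.2.1 * x.2.2 ^ 3)) Q e := by
  have hD : (0 : ℝ) < ((Ctx0.M F : ℝ) ^ dg F) ^ T.a := by
    have := Nat.pos_of_ne_zero (Ctx0.M_ne (F := F))
    positivity
  set B := (((Ctx0.M F : ℝ) ^ dg F) ^ T.a)⁻¹ with hBd
  have hB : 0 < B := inv_pos.2 hD
  obtain ⟨C, hC⟩ := Finite.exists_le fun p : Cl F × Cl F =>
    √(nf (rep p.1) / B) * |T.C| * B ^ (1 / 6 : ℝ) + nf (rep p.2) / √(nf (rep p.1) * B)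
  have p1 : ∀ κ : Cl F, 0 ≤ √(nf (rep κ) / B) * |T.C| * B ^ (1 / 6 : ℝ) := fun κ => by positivity
  have p2 : ∀ κ l : Cl F, 0 < nf (rep l) / √(nf (rep κ) * B) := fun κ l =>
    div_pos (nf_pos _) (Real.sqrt_pos.2 (mul_pos (nf_pos _) hB))
  have hC0 : 0 < C := (add_pos_of_nonneg_of_pos (p1 1) (p2 1 1)).trans_le (hC (1, 1))
  choose! c hc1 hc using fun (o : Bool) (y : F) => exists_ang_const o (y := y)
  obtain ⟨S, hS⟩ : ∃ S : Set (R F × Cl F),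
      ∀ σ, σ ∈ S ↔ σ.1 ∈ SU F 3 ∧ Hi T.a ((σ.1 : F) * rep σ.2) := ⟨{σ | _}, fun _ => Iff.rfl⟩
  have hy : ∀ σ ∈ S, (σ.1 : F) * rep σ.2 ≠ 0 := fun σ hσ =>
    mul_ne_zero (nrm_coe_ne (SU_unit ((hS σ).1 hσ).1).ne_zero) (rep_ne _)
  have hn : ∀ σ : R F × Cl F, 0 < B⁻¹ * nf ((σ.1 : F) * rep σ.2) := fun σ =>
    mul_pos (inv_pos.2 hB) (nf_pos _)
  refine ⟨C, S, fun σ => B⁻¹ * nf ((σ.1 : F) * rep σ.2), hC0, fun σ hσ => ?_,
    fun ε hε => v0_sum hS (inv_pos.2 hB) hε, fun o q0 κ H G hq hG hG1 hH hcl hcov => ?_⟩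
  · rw [hBd, inv_inv]
    exact nf_ge_of_Hi (hy σ hσ) ((hS σ).1 hσ).2
  have hm := ab_pos hq
  by_cases hx : ∃ x0 : R F, P1 x0 ∧ cls (x0 : F) = κ
  swap
  · refine ⟨fun _ _ => 0, fun _ _ => 0, fun _ _ _ _ => 0, fun x h1 h2 => (hx ⟨x, h1, h2⟩).elim,
      fun i _ => ⟨fun _ => norm_zero.trans_le hm.le, fun _ h => (h rfl).elim, fun σ => ?_,
        fun _ _ => ⟨Per.const _ _, fun _ => norm_zero.trans_le zero_le_one⟩,
        fun h hh => ⟨_, 0, ?_, le_rfl, norm_zero.trans_le zero_le_one,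
          FE.zero _ _ _ (fun j => by simp) (fun j => by simp) _ _⟩⟩⟩
    · have := hn σ
      rw [norm_zero]
      positivity
    · exact mul_pos (mul_pos hC0 (N_pos (hH h hh).1.ne_zero)) (N_pos hq)
  obtain ⟨x0, h0, hκ⟩ := hx
  obtain ⟨Fp, Fs, l, h1, h2⟩ := dual T o hq κ H hG hG1 hH hcl hcov
  obtain ⟨κH, hκH⟩ : ∃ κH : Cl F, ∀ h ∈ H, cls (h : F) = κH := by
    rcases H.eq_empty_or_nonempty with rfl | ⟨h, hh⟩
    · exact ⟨1, fun _ h => h.elim⟩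
    · exact ⟨_, fun h' hh' => hcl h' hh' h hh⟩
  have ht : 0 < √(nf (rep κ) / B) := Real.sqrt_pos.2 (div_pos (nf_pos _) hB)
  refine ⟨fun i x => Fp i (tilde x), fun i σ => if σ ∈ S then ((√(nf (rep κ) / B) : ℝ) : ℂ) *
      T.T κ (l i) ((σ.1 : F) * rep σ.2) * c (!o) ((σ.1 : F) * rep σ.2) *
      B2 (σ.1 : F) (rep κH) * (ab q0 : ℝ) else 0,
    fun i σ d e => conj (B3 (σ.1 : F) e) * (clsI σ.2 (e * d ^ 3) *
      (Fs i (σ.1 * tilde (e * d ^ 3)) / (ab q0 : ℝ))), fun x hx hκx => ?_, fun i hi => ?_⟩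
  · rw [← h1 _ (hκx ▸ tilde_inU hx.ne_zero), tilde, hG.2 _ _ (tw_omg _)]
  obtain ⟨b1, b2, i1, i2, pe, h3⟩ := h2 i hi
  refine ⟨fun x => b1 _, fun σ h => by_contra fun h' => h (if_neg h'), fun σ => ?_,
    fun σ d => ⟨(per_B3_right _ _).conj.mul ((v0_comp (per_clsI _ _) _).mul
      ((v0_comp (v0_per i2 pe) _).mul (Per.const _ _))), fun e => ?_⟩, fun h hh => ?_⟩
  · have := hn σ
    beta_reduce
    split_ifs with hσ
    · have h4 := (T.T_bd κ (l i) ((σ.1 : F) * rep σ.2)).trans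
        (mul_le_mul_of_nonneg_right (le_abs_self _) (Real.rpow_nonneg (nf_pos _).le _))
      rw [← mul_inv_cancel_left₀ hB.ne' (nf _), Real.mul_rpow hB.le this.le] at h4
      have h5 := (le_add_of_nonneg_right (p2 κ 1).le).trans (hC (κ, 1))
      rw [norm_mul, norm_mul, norm_mul, norm_mul, norm_B2, hc1 _ _ (hy σ hσ), norm_real, norm_real,
        Real.norm_of_nonneg ht.le, Real.norm_of_nonneg hm.le, mul_one, mul_one]
      refine (mul_le_mul_of_nonneg_right (mul_le_mul_of_nonneg_left h4 ht.le) hm.le).trans ?_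
      refine le_of_eq_of_le (by ring) (mul_le_mul_of_nonneg_right
        (mul_le_mul_of_nonneg_right h5 hm.le) (Real.rpow_nonneg this.le _))
    · rw [norm_zero]
      positivity
  · rw [norm_mul, norm_conj, norm_B3, one_mul]
    refine (norm_mul_le_of_le (norm_clsI_le _ _) ?_).trans (one_mul 1).le
    rw [norm_div, norm_real, Real.norm_of_nonneg hm.le]
    exact (div_le_one hm).2 (b2 _)
  · obtain ⟨q, e, q1, q2, q3, hV⟩ := h3 h hh
    have q0' := q1.left_ne (by norm_num)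
    have c0 : c o (rep κ) ≠ 0 := norm_ne_zero_iff.1 ((hc1 o _ (rep_ne κ)).symm ▸ one_ne_zero)
    refine ⟨_, _, div_pos (Nin_pos q0') (Real.sqrt_pos.2 (mul_pos (nf_pos (rep κ)) hB)), ?_, ?_,
      (v0_fe T o κ (l i) h0 hκ b1 b2 i1 i2 h q0' hV).rescale (Nin_pos q0') (nf_pos _) hB c0
        (fun u _ => v0_primal o κ c0 (hc o _ (rep_ne κ)) _ h u)
        (fun u _ => v0_dual (!o) T.a (T.T_U κ (l i)) (hc (!o)) (Fs i) (hH h hh).1.ne_zero
          (rep_ne κH) ((hκH h hh).trans (cls_rep _).symm) (ofReal_ne_zero.2 ht.ne')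
          (ofReal_ne_zero.2 hm.ne') hB hS u)⟩
    · have h5 := (le_add_of_nonneg_left (p1 κ)).trans (hC (κ, l i))
      have h6 := N_pos (hH h hh).1.ne_zero
      rw [Nin_eq_N_mul, q2, nf_eq_of_inU (by norm_num) q1, mul_div_assoc, mul_comm, ← mul_assoc]
      exact mul_le_mul (mul_le_mul_of_nonneg_right h5 h6.le)
        (N_le_of_dvd hq ((mem_dvs hq).1 hi).2) (N_pos ((mem_dvs hq).1 hi).1.ne_zero).le
        (by positivity)
    · rwa [norm_div, hc1 o _ (rep_ne κ), div_one]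

end Vale.Agent.P319B
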