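import Vale.Agent.P319B.VFamA

/-! The Voronoi step for one background. -/

namespace Vale.Agent.P319B

open Complex NumberField
open scoped Classical ComplexConjugate
open Vale.Agent.P026 (w kk fk)

variable {F : Type} [Field F] [NumberField F] [Ctx F]

/-- The Voronoi step for one class of twists. -/
theorem vf_vor (T : Theta F) {e : ℝ} (he : 0 < e) : ∃ (C : ℝ) (A : ℕ), 0 < C ∧
    ∀ (q : R F) (G : R F → ℂ), q ≠ 0 → Per q G → Bd1 G →
      (∀ s : R F, InU 3 (s : F) → IsCoprime s q →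
        ∃ ξ : ℂ, ‖ξ‖ = 1 ∧ ∀ x, x ≠ 0 → G (x * s) = ξ * G x) →
      ∀ Y H K0 R0 t : ℝ, 0 < Y → 1 ≤ H → 0 < K0 → 1 ≤ R0 →
      R0 ^ e * (H ^ 2 * N q ^ 2 / Y) ≤ R0 → ∀ J ⊆ (ball F H).filter P0,
      (∀ h ∈ J, IsCoprime h q) → (∀ h ∈ J, ∀ h' ∈ J, cls (h : F) = cls (h' : F)) →
      ∑ h ∈ J, ‖Tth true (fun c => G c * chi 1 c h) Y t‖ ^ 2 ≤
        C * (1 + |t|) ^ A * Y * N q ^ (1 + e) * H * R0 ^ e * P026.vsBr (N q) H K0 R0 := by
  obtain ⟨Cv, S, n, hCv, h1, hs, hV⟩ := V0F T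
  obtain ⟨C1, A, hC1, ho⟩ := vf_one T S n h1 hs hCv he
  obtain ⟨Cd, hCd, hd⟩ := card_dvs_le (F := F) (half_pos he)
  refine ⟨(Fintype.card (Cl F) : ℝ) ^ 2 * Cd ^ 2 * C1, A, by positivity, ?_⟩
  intro q G hq hP hB cov Y H K0 R0 t hY hH hK hR hRe J hJ hJ1 hJ2
  have hH0 := zero_le_one.trans hH
  have hR0 := zero_le_one.trans hR
  have hN := N_pos hq
  have hb0 := zero_le_one.trans (P026.vsBr_one_le (n := N q) hH0 hK.le hR0)
  have c1 : ((dvs q).card : ℝ) ^ 2 ≤ Cd ^ 2 * N q ^ e := by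
    refine (pow_le_pow_left₀ (Nat.cast_nonneg _) (hd q hq) 2).trans (le_of_eq ?_)
    rw [mul_pow, ← Real.rpow_natCast (N q ^ (e / 2)), ← Real.rpow_mul hN.le]
    norm_num
  refine (vf_cs J Finset.univ
    (f := fun κ h => Tth true (fun c => clsI κ c * G c * chi 1 c h) Y t)
    (X := Cd ^ 2 * N q ^ e * (C1 * (1 + |t|) ^ A * Y * N q * H * R0 ^ e *
      P026.vsBr (N q) H K0 R0)) (fun h _ => ?_) fun κ _ => ?_).trans (le_of_eq ?_)
  · rw [← Tth_sum true _ (B := 1) (fun κ _ c => vf_mul_le (vf_mul_le (norm_clsI_le κ c) (hB c))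
      (norm_chi_le _ _ _)) hY t]
    refine Tth_congr true (fun c _ => ?_) Y t
    rw [← Finset.sum_mul, ← Finset.sum_mul, sum_clsI, one_mul]
  · obtain ⟨Fi, β, Gd, hF, hi⟩ := hV true q κ J G hq hP hB
      (fun h hh => ⟨(Finset.mem_filter.1 (hJ hh)).2, hJ1 h hh⟩) hJ2 (Or.inr cov)
    have hb : ∀ i ∈ dvs q, ∀ c, ‖clsI κ c * Fi i c‖ ≤ ab q := fun i hi' c => by
      rw [mul_comm]
      exact vf_mul_le ((hi i hi').1 c) (norm_clsI_le κ c)
    refine (vf_cs J (dvs q)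
      (f := fun i h => Tth true (fun c => clsI κ c * Fi i c * chi 1 c h) Y t)
      (fun h _ => ?_) fun i hi' => ?_).trans (mul_le_mul_of_nonneg_right c1 (by positivity))
    · rw [← Tth_sum true _ (B := ab q) (fun i hi' c => vf_mul_le (hb i hi' c)
        (norm_chi_le _ _ _)) hY t]
      refine Tth_congr true (fun c hc => ?_) Y t
      rw [← Finset.sum_mul, ← Finset.mul_sum]
      by_cases hκ : cls (c : F) = κ
      · rw [hF c hc hκ]
      · rw [clsI, if_neg hκ, zero_mul, zero_mul, zero_mul, zero_mul]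
    · obtain ⟨-, a2, a3, a4, a5⟩ := hi i hi'
      exact ho q (fun c => clsI κ c * Fi i c) (β i) (Gd i) hq (hb i hi') a2 a3 a4 Y H K0 R0 t hY hH
        hK hR hRe J hJ a5
  · rw [Finset.card_univ, Real.rpow_add hN, Real.rpow_one]
    ring

/-- One fixed background: the family of squarefree twists coprime to the background modulus. -/
theorem vfam (T : Theta F) {e : ℝ} (he : 0 < e) :
    ∃ (C : ℝ) (A : ℕ), 0 < C ∧ ∀ (q : R F) (G : R F → ℂ), q ≠ 0 → Per q G → Bd1 G →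
      (∀ s : R F, InU 3 (s : F) → IsCoprime s q →
        ∃ ξ : ℂ, ‖ξ‖ = 1 ∧ ∀ x, x ≠ 0 → G (x * s) = ξ * G x) →
      ∀ Y H K0 R0 t : ℝ, 0 < Y → 1 ≤ H → 0 < K0 → 1 ≤ R0 →
        R0 ^ e * (H ^ 2 * N q ^ 2 / Y) ≤ R0 →
      ∑ h ∈ (ball F H).filter (fun h => P0 h ∧ IsCoprime h q),
        ‖Tth true (fun c => G c * chi 1 h c) Y t‖ ^ 2 ≤
        C * (1 + |t|) ^ A * Y * N q ^ (1 + e) * H * R0 ^ e *
          (1 + R0 / √(H * max 1 K0) + R0 ^ (3 / 2 : ℝ) / H + R0 ^ 4 / H ^ 3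
            + N q ^ 2 * K0 ^ (3 / 2 : ℝ) * R0 ^ 2 / H ^ (3 / 2 : ℝ)) := by
  obtain ⟨C, A, hC, hv⟩ := vf_vor T he
  refine ⟨Fintype.card (Cl F) * C, A, by positivity, ?_⟩
  intro q G hq hP hB cov Y H K0 R0 t hY hH hK hR hRe
  rw [← Finset.sum_fiberwise (ball F H |>.filter fun h => P0 h ∧ IsCoprime h q)
    (fun h => cls (h : F))]
  refine (Finset.sum_le_card_nsmul _ _ (C * (1 + |t|) ^ A * Y * N q ^ (1 + e) * H * R0 ^ e *
    P026.vsBr (N q) H K0 R0) fun κ _ => ?_).trans (le_of_eq ?_)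
  swap
  · rw [nsmul_eq_mul, Finset.card_univ, P026.vsBr]
    ring
  have k := hv q (fun c => G c * Bc 1 (rep κ) (c : F)) hq (hP.mul (per_Bc_right 1 q _))
    (fun c => vf_mul_le (hB c) (norm_Bc _ _ _).le)
    (fun s h1 h2 => by
      obtain ⟨ξ, h3, h4⟩ := cov s h1 h2
      refine ⟨ξ, h3, fun x hx => ?_⟩
      have h5 : InU 3 (((x * s : R F) : F) / x) := by
        rwa [Subring.coe_mul, mul_div_cancel_left₀ _ (nrm_coe_ne hx)]
      rw [h4 x hx, Bc_cls_right 1 _ (h5.left_ne (by norm_num)) (nrm_coe_ne hx) (cls_of_inU h5),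
        mul_assoc])
    Y H K0 R0 t hY hH hK hR hRe
    (((ball F H).filter fun h => P0 h ∧ IsCoprime h q).filter fun h => cls (h : F) = κ)
    (fun h hh => by
      simp only [Finset.mem_filter] at hh ⊢
      exact ⟨hh.1.1, hh.1.2.1⟩)
    (fun h hh => (Finset.mem_filter.1 (Finset.mem_filter.1 hh).1).2.2)
    (fun h hh h' hh' => (Finset.mem_filter.1 hh).2.trans (Finset.mem_filter.1 hh').2.symm)
  refine le_trans (le_of_eq (Finset.sum_congr rfl fun h hh => ?_)) k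
  obtain ⟨h1, h2⟩ := Finset.mem_filter.1 hh
  have h3 := (Finset.mem_filter.1 h1).2.1.1
  rw [Tth_congr true fun c hc => ?_]
  rw [chi_recip 1 h3.ne_zero hc.ne_zero,
    Bc_cls_left 1 h3.coe_ne (rep_ne κ) (h2.trans (cls_rep κ).symm), mul_assoc]

end Vale.Agent.P319B
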