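import Vale.Agent.P319B.CStep
import Vale.Agent.P026.VStepA

/-! The dual bound and one term of the Voronoi decomposition. -/

namespace Vale.Agent.P319B

open Complex NumberField
open scoped Classical ComplexConjugate
open Vale.Agent.P026 (w kk fk vsBr vsBr_one_le vsBr_mono vs_mink vs_log)

theorem vf_weight {a b R e : ℝ} (ha : 0 < a) (hb : 0 < b) (hR : 0 < R) :
    a * b * (R / (a * b ^ 3)) ^ (1 + e) =
      R ^ (1 + e) * (a ^ (-(e / 2)) * b ^ (-(1 + 3 * e / 2))) ^ 2 := by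
  refine Real.log_injOn_pos (Set.mem_Ioi.2 (by positivity)) (Set.mem_Ioi.2 (by positivity)) ?_
  rw [Real.log_mul (by positivity) (by positivity), Real.log_mul ha.ne' hb.ne',
    Real.log_rpow (by positivity), Real.log_div hR.ne' (by positivity),
    Real.log_mul ha.ne' (by positivity), Real.log_pow,
    Real.log_mul (by positivity) (by positivity), Real.log_rpow hR, Real.log_pow,
    Real.log_mul (by positivity) (by positivity), Real.log_rpow ha, Real.log_rpow hb]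
  push_cast
  ring

theorem vf_tail {R e x c : ℝ} {n : ℕ} (hR : 1 ≤ R) (hn : 2 ≤ n * e) (hx : 0 ≤ x)
    (hc : 0 ≤ c) (h : R ^ e * x ≤ R) : R ^ 3 * (c * x / R) ^ (2 * n) ≤ c ^ (2 * n) := by
  have hR0 : 0 < R := by linarith
  have he : 0 < R ^ e := Real.rpow_pos_of_pos hR0 e
  have h1 : c * x / R ≤ c * (R ^ e)⁻¹ := by
    rw [mul_div_assoc]
    refine mul_le_mul_of_nonneg_left ?_ hc
    rw [div_le_iff₀ hR0, le_inv_mul_iff₀ he]
    exact h
  have h2 : R ^ 3 ≤ (R ^ e) ^ (2 * n) := by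
    rw [← Real.rpow_natCast, ← Real.rpow_natCast, ← Real.rpow_mul hR0.le]
    refine Real.rpow_le_rpow_of_exponent_le hR ?_
    push_cast
    linarith
  calc R ^ 3 * (c * x / R) ^ (2 * n) ≤ (R ^ e) ^ (2 * n) * (c * (R ^ e)⁻¹) ^ (2 * n) := by gcongr
    _ = c ^ (2 * n) := by
      rw [← mul_pow, mul_left_comm, mul_inv_cancel₀ he.ne', mul_one]

theorem vf_cs {ι κ : Type} (J : Finset κ) (s : Finset ι) {S : κ → ℂ} {f : ι → κ → ℂ} {X : ℝ}
    (hS : ∀ h ∈ J, S h = ∑ i ∈ s, f i h) (hX : ∀ i ∈ s, ∑ h ∈ J, ‖f i h‖ ^ 2 ≤ X) :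
    ∑ h ∈ J, ‖S h‖ ^ 2 ≤ (s.card : ℝ) ^ 2 * X := by
  calc _ ≤ ∑ h ∈ J, s.card * ∑ i ∈ s, ‖f i h‖ ^ 2 := by
        refine Finset.sum_le_sum fun h hh => ?_
        rw [hS h hh]
        exact (pow_le_pow_left₀ (norm_nonneg _) (norm_sum_le _ _) 2).trans
          sq_sum_le_card_mul_sum_sq
    _ ≤ s.card * ∑ i ∈ s, X := by
        rw [← Finset.mul_sum, Finset.sum_comm]
        exact mul_le_mul_of_nonneg_left (Finset.sum_le_sum hX) (Nat.cast_nonneg _)
    _ = _ := by rw [Finset.sum_const, nsmul_eq_mul, ← mul_assoc, ← sq]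

variable {F : Type} [Field F] [NumberField F] [Ctx F]

theorem vf_mul_le {a b : ℂ} {x : ℝ} (ha : ‖a‖ ≤ x) (hb : ‖b‖ ≤ 1) : ‖a * b‖ ≤ x := by
  rw [norm_mul]
  exact (mul_le_of_le_one_right (norm_nonneg _) hb).trans ha

theorem vf_Tsq (d h : R F) (G : R F → ℂ) (X τ : ℝ) :
    ‖Tsq false (fun e => G e * quad (e * d ^ 3) h) X τ‖ ≤
      ‖Tsq false (fun e => G e * quad e h) X τ‖ := by
  rw [Tsq_congr false (H := fun e => quad (d ^ 3) h * (G e * quad e h)) fun e _ => by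
    rw [quad_mul_left]; ring, Tsq_const_mul, norm_mul]
  exact mul_le_of_le_one_left (norm_nonneg _) (norm_quad_le _ _)

/-- The bound for the dual sums. -/
theorem vf_dual (T : Theta F) {Sg : Type} (S : Set Sg) (n : Sg → ℝ) (h1 : ∀ σ ∈ S, 1 ≤ n σ)
    (hs : ∀ ε : ℝ, 0 < ε → Summable (S.indicator fun σ => n σ ^ (-ε))) {e : ℝ} (he : 0 < e) :
    ∃ (C : ℝ) (A : ℕ), 0 < C ∧
    ∀ (q : R F) (β : Sg → ℂ) (G : Sg → R F → R F → ℂ) (B0 : ℝ), q ≠ 0 → 0 ≤ B0 →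
      (∀ σ, β σ ≠ 0 → σ ∈ S) → (∀ σ, ‖β σ‖ ≤ B0 * n σ ^ (1 / 6 : ℝ)) →
      (∀ σ d, Per q (G σ d) ∧ Bd1 (G σ d)) → ∀ X H K0 τ : ℝ, 0 < X → 1 ≤ H → 0 < K0 →
      ∑ h ∈ (ball F H).filter P0,
        ‖∑' x : Sg × R F × R F, β x.1 * alph false x.2.1 * bet false x.2.2 *
          (G x.1 x.2.2 x.2.1 * quad (x.2.1 * x.2.2 ^ 3) h) *
            Wt X τ (n x.1 * N (x.2.1 * x.2.2 ^ 3))‖ ^ 2 ≤
        C * (1 + |τ|) ^ A * B0 ^ 2 * H * X ^ (1 + e) * vsBr (N q) H K0 X := by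
  obtain ⟨Cc, A, hCc, hc⟩ := cstep T he
  have s1 := hs _ (half_pos he)
  have s2 := summable_N_rpow (F := F) (s := 1 + 3 * e / 2) (by linarith)
  have n1 : ∀ σ, 0 ≤ S.indicator (fun σ => n σ ^ (-(e / 2))) σ := fun σ =>
    Set.indicator_nonneg (fun σ hσ => Real.rpow_nonneg (zero_le_one.trans (h1 σ hσ)) _) σ
  have n2 : ∀ r : R F, 0 ≤ (if P1 r then N r ^ (-(1 + 3 * e / 2)) else 0) := fun r => by
    split_ifs
    · exact Real.rpow_nonneg (N_nonneg r) _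
    · exact le_rfl
  obtain ⟨U, hU⟩ := s1.mul_of_nonneg s2 n1 n2
  refine ⟨(U ^ 2 + 1) * Cc, A, by positivity, ?_⟩
  intro q β G B0 hq h0 hβ hB hG X H K0 τ hR hH hK
  have hbr := vsBr_one_le (n := N q) (zero_le_one.trans hH) hK.le hR.le
  have hb0 := zero_le_one.trans hbr
  have hH0 := zero_le_one.trans hH
  have key := vs_mink ((ball F H).filter P0) (fun h _ => dual_hasSum S n h1 (hs 1 one_pos) false
    (G := fun σ d e => G σ d e * quad (e * d ^ 3) h) hβ hB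
    (fun σ e d => vf_mul_le ((hG σ d).2 e) (norm_quad_le _ _)) hR τ) hU
    (fun p => mul_nonneg (n1 _) (n2 _))
    (Z := B0 ^ 2 * (Cc * (1 + |τ|) ^ A * H * X ^ (1 + e) * vsBr (N q) H K0 X))
    (by positivity) ?_
  · refine key.trans ?_
    have : 0 ≤ Cc * (1 + |τ|) ^ A * B0 ^ 2 * H * X ^ (1 + e) * vsBr (N q) H K0 X := by positivity
    linarith
  · rintro ⟨s, d⟩
    dsimp only
    by_cases hsS : s ∈ S
    swap
    · have : β s = 0 := by
        by_contra h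
        exact hsS (hβ s h)
      simp only [this, zero_mul, norm_zero]
      rw [zero_pow two_ne_zero, Finset.sum_const_zero]
      positivity
    by_cases hd : P1 d
    swap
    · simp only [bet, hd, if_false, mul_zero, zero_mul, norm_zero]
      rw [zero_pow two_ne_zero, Finset.sum_const_zero]
      positivity
    have hs1 := h1 s hsS
    have hs0 : 0 < n s := by linarith
    have hd0 := N_pos hd.ne_zero
    have hR' : 0 < X / (n s * N d ^ 3) := by positivity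
    have hle : X / (n s * N d ^ 3) ≤ X := div_le_self hR.le
      (one_le_mul_of_one_le_of_one_le hs1 (one_le_pow₀ (one_le_N hd.ne_zero)))
    have h1 := hc q (G s d) hq (hG s d).1 (hG s d).2 _ H K0 τ hR' hH hK
    have h2 := vsBr_mono (n := N q) hH0 hK.le hR'.le hle (N_nonneg q) le_rfl
    have h3 : ∑ h ∈ (ball F H).filter P0,
        ‖Tsq false (fun c => G s d c * quad c h) (X / (n s * N d ^ 3)) τ‖ ^ 2 ≤
        Cc * (1 + |τ|) ^ A * H * (X / (n s * N d ^ 3)) ^ (1 + e) * vsBr (N q) H K0 X :=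
      h1.trans (mul_le_mul_of_nonneg_left h2 (by positivity))
    have h4 : ‖β s‖ ≤ B0 * √(n s) := by
      rw [Real.sqrt_eq_rpow]
      exact (hB s).trans (mul_le_mul_of_nonneg_left
        (Real.rpow_le_rpow_of_exponent_le hs1 (by norm_num)) h0)
    rw [Set.indicator_of_mem hsS, if_pos hd]
    calc _ ≤ ∑ h ∈ (ball F H).filter P0, B0 ^ 2 * (n s * N d) *
          ‖Tsq false (fun c => G s d c * quad c h) (X / (n s * N d ^ 3)) τ‖ ^ 2 := by
          refine Finset.sum_le_sum fun h _ => ?_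
          have h5 := mul_le_mul (mul_le_mul h4 (norm_bet_le false d) (norm_nonneg _)
            (by positivity)) (vf_Tsq d h (G s d) (X / (n s * N d ^ 3)) τ) (norm_nonneg _)
            (mul_nonneg (by positivity) (ab_nonneg d))
          have h6 := pow_le_pow_left₀ (by positivity) h5 2
          rw [mul_pow (B0 * √(n s) * ab d), mul_pow (B0 * √(n s)), mul_pow B0,
            Real.sq_sqrt hs0.le, ab_sq] at h6
          rw [norm_mul, norm_mul, norm_mul, Complex.norm_exp_I_mul_ofReal, mul_one, ← mul_assoc]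
          exact h6
      _ ≤ B0 ^ 2 * (n s * N d) * (Cc * (1 + |τ|) ^ A * H *
          (X / (n s * N d ^ 3)) ^ (1 + e) * vsBr (N q) H K0 X) := by
          rw [← Finset.mul_sum]
          exact mul_le_mul_of_nonneg_left h3 (by positivity)
      _ = _ := by
          have := vf_weight (e := e) hs0 hd0 hR
          linear_combination (B0 ^ 2 * Cc * (1 + |τ|) ^ A * H * vsBr (N q) H K0 X) * this

/-- One term of the Voronoi decomposition. -/
theorem vf_one (T : Theta F) (S : Set (R F × Cl F)) (n : R F × Cl F → ℝ) (h1 : ∀ σ ∈ S, 1 ≤ n σ)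
    (hs : ∀ ε : ℝ, 0 < ε → Summable (S.indicator fun σ => n σ ^ (-ε))) {Cv e : ℝ} (hCv : 0 < Cv)
    (he : 0 < e) : ∃ (C : ℝ) (A : ℕ), 0 < C ∧
    ∀ (q : R F) (Fi : R F → ℂ) (β : R F × Cl F → ℂ) (G : R F × Cl F → R F → R F → ℂ), q ≠ 0 →
      (∀ r, ‖Fi r‖ ≤ ab q) → (∀ σ, β σ ≠ 0 → σ ∈ S) →
      (∀ σ, ‖β σ‖ ≤ Cv * ab q * n σ ^ (1 / 6 : ℝ)) → (∀ σ d, Per q (G σ d) ∧ Bd1 (G σ d)) →
      ∀ Y H K0 R0 t : ℝ, 0 < Y → 1 ≤ H → 0 < K0 → 1 ≤ R0 →
      R0 ^ e * (H ^ 2 * N q ^ 2 / Y) ≤ R0 → ∀ J ⊆ (ball F H).filter P0,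
      (∀ h ∈ J, ∃ (Q : ℝ) (ε : ℂ), 0 < Q ∧ Q ≤ Cv * N h * N q ∧ ‖ε‖ ≤ 1 ∧
        FE (rr F)
          (fun p : R F × R F => alph true p.1 * bet true p.2 *
            (Fi (p.1 * p.2 ^ 3) * chi 1 (p.1 * p.2 ^ 3) h))
          (fun p => N (p.1 * p.2 ^ 3))
          (fun x : (R F × Cl F) × R F × R F => β x.1 * alph false x.2.1 * bet false x.2.2 *
            (G x.1 x.2.2 x.2.1 * quad (x.2.1 * x.2.2 ^ 3) h))
          (fun x => n x.1 * N (x.2.1 * x.2.2 ^ 3)) Q ε) →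
      ∑ h ∈ J, ‖Tth true (fun c => Fi c * chi 1 c h) Y t‖ ^ 2 ≤
        C * (1 + |t|) ^ A * Y * N q * H * R0 ^ e * vsBr (N q) H K0 R0 := by
  obtain ⟨m, hm⟩ := exists_nat_ge (2 / e)
  have hme : 2 ≤ ((m + 2 : ℕ) : ℝ) * e := by
    rw [div_le_iff₀ he] at hm
    push_cast
    linarith
  obtain ⟨Cd, A, hCd, hd⟩ := vf_dual T S n h1 hs (half_pos he)
  obtain ⟨C2, hC2, h2⟩ := V2 (rr F) A (m + 2) (by omega)
  obtain ⟨Cs, hCs, hsz⟩ := sz_dual (F := F) S n h1 (hs 1 one_pos)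
  obtain ⟨Cb, hCb, hb⟩ := card_ball_le (F := F)
  refine ⟨C2 * (Cd * Cv ^ 2 * (1 + 4 / e) ^ 2 +
    Cb * (Cs * Cv) ^ 2 * (1 + (Cv ^ 2) ^ (2 * (m + 2)))), A + 8 * (m + 2) * rr F, by positivity, ?_⟩
  intro q Fi β G hq hFi hβ hB hG Y H K0 R0 t hY hH hK hR hRe J hJ hV
  have hH0 := zero_le_one.trans hH
  have hR0 := zero_le_one.trans hR
  have hbr := vsBr_one_le (n := N q) hH0 hK.le hR0
  have hb0 := zero_le_one.trans hbr
  have ha := ab_pos hq
  have hN := N_pos hq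
  choose! Q ε hε using hV
  have key := h2 J (fun h (p : R F × R F) => alph true p.1 * bet true p.2 *
      (Fi (p.1 * p.2 ^ 3) * chi 1 (p.1 * p.2 ^ 3) h)) (fun p => N (p.1 * p.2 ^ 3))
    (fun h (x : (R F × Cl F) × R F × R F) => β x.1 * alph false x.2.1 * bet false x.2.2 *
      (G x.1 x.2.2 x.2.1 * quad (x.2.1 * x.2.2 ^ 3) h))
    (fun x => n x.1 * N (x.2.1 * x.2.2 ^ 3)) Q ε (Cv * H * N q)
    Y R0 (Cd * Cv ^ 2 * N q * H * R0 ^ (e / 2) * vsBr (N q) H K0 R0) (Cs * (Cv * ab q)) t hY hR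
    (by positivity) (by positivity) ?_ ?_
  · simp only [Tth, W_eq_Wt]
    refine key.trans ?_
    have c1 : (J.card : ℝ) ≤ Cb * H := le_trans (Nat.cast_le.2 (Finset.card_le_card
      (hJ.trans (Finset.filter_subset _ _)))) (hb H hH0)
    have c2 : R0 ^ (e / 2) * (1 + Real.log R0) ^ 2 ≤ (1 + 4 / e) ^ 2 * R0 ^ e := by
      refine (mul_le_mul_of_nonneg_left (vs_log hR he) (by positivity)).trans (le_of_eq ?_)
      rw [mul_left_comm, ← Real.rpow_add (by linarith), add_halves]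
    have c3 : 1 ≤ R0 ^ e * vsBr (N q) H K0 R0 :=
      one_le_mul_of_one_le_of_one_le (Real.one_le_rpow hR he.le) hbr
    have c0 := vf_tail hR hme (by positivity) (sq_nonneg Cv) hRe
    rw [show (Cv * H * N q) ^ 2 / (Y * R0) = Cv ^ 2 * (H ^ 2 * N q ^ 2 / Y) / R0 by field_simp,
      ← mul_assoc Cs, mul_pow (Cs * Cv), ab_sq]
    generalize R0 ^ 3 * (Cv ^ 2 * (H ^ 2 * N q ^ 2 / Y) / R0) ^ (2 * (m + 2)) = X at c0 ⊢
    have hZ : 0 ≤ (Cv ^ 2) ^ (2 * (m + 2)) := by positivity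
    generalize (Cv ^ 2) ^ (2 * (m + 2)) = Z at c0 hZ ⊢
    generalize vsBr (N q) H K0 R0 = b at c3 hb0 ⊢
    have c4 := mul_le_mul_of_nonneg_left c2 (show 0 ≤ Cd * Cv ^ 2 * N q * H * b by positivity)
    have c5 : 1 + X ≤ (1 + Z) * (R0 ^ e * b) :=
      (add_le_add le_rfl c0).trans (le_mul_of_one_le_right (by positivity) c3)
    have c6 : (J.card : ℝ) * ((Cs * Cv) ^ 2 * N q) * (1 + X) ≤
        Cb * H * ((Cs * Cv) ^ 2 * N q) * ((1 + Z) * (R0 ^ e * b)) :=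
      (mul_le_mul_of_nonneg_left c5 (by positivity)).trans (by gcongr)
    have c8 : Cd * Cv ^ 2 * N q * H * R0 ^ (e / 2) * b * (1 + Real.log R0) ^ 2 +
        J.card * ((Cs * Cv) ^ 2 * N q) * (1 + X) ≤
        (Cd * Cv ^ 2 * (1 + 4 / e) ^ 2 + Cb * (Cs * Cv) ^ 2 * (1 + Z)) * N q * H * R0 ^ e * b := by
      linarith
    have c9 := mul_le_mul_of_nonneg_left c8
      (show 0 ≤ C2 * (1 + |t|) ^ (A + 8 * (m + 2) * rr F) * Y by positivity)
    linarith
  · intro h hh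
    have hb := mem_ball.1 (Finset.mem_filter.1 (hJ hh)).1
    obtain ⟨a1, a2, a3, a4⟩ := hε h hh
    refine ⟨sz_primal true (G := fun c => Fi c * chi 1 c h) (B := ab q) fun c =>
        vf_mul_le (hFi c) (norm_chi_le _ _ _),
      hsz false β (fun σ d e => G σ d e * quad (e * d ^ 3) h) _ (by positivity) hβ hB
        fun σ e d => vf_mul_le ((hG σ d).2 e) (norm_quad_le _ _), a1, a2.trans ?_, a3, a4⟩
    have := hb.2
    gcongr
  · intro X τ hR1 hRR
    have hRp : 0 < X := by linarith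
    have k1 := hd q β G (Cv * ab q) hq (by positivity) hβ hB hG X H K0 τ hRp hH hK
    refine ((Finset.sum_le_sum_of_subset_of_nonneg hJ fun _ _ _ => sq_nonneg _).trans k1).trans ?_
    rw [mul_pow, ab_sq, Real.rpow_add hRp, Real.rpow_one]
    have k2 := mul_le_mul (Real.rpow_le_rpow hRp.le hRR (half_pos he).le)
      (vsBr_mono (n := N q) hH0 hK.le hRp.le hRR (N_nonneg _) le_rfl)
      (zero_le_one.trans (vsBr_one_le hH0 hK.le hRp.le)) (by positivity)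
    have k3 := mul_le_mul_of_nonneg_left k2
      (show 0 ≤ Cd * (1 + |τ|) ^ A * Cv ^ 2 * N q * H * X by positivity)
    linarith

end Vale.Agent.P319B
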